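import Vale.Agent.P227.M.ID.Key680

/-! # P227/M/ID: `StmtKey` (helper680), second half: pointwise facts at good points and assembly. -/

open MeasureTheory Filter
open scoped Topology NNReal

namespace Vale.Agent.P227.M.K680

open Vale.Agent.P227.M.Sw

variable {n : ℕ} {ψ V F u : E n → ℝ} {c C M : ℝ} {x : E n}

/-- adjoint divergence of `τ f` -/
lemma ad_tau (h : MM ψ V c C M) (hx : Good ψ x) {f : Fin n → E n → ℝ}
    (hf : ∀ k, DifferentiableAt ℝ (f k) x) :
    ∑ a, ad V a (fun y => ∑ k, tau ψ y a k * f k y) x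
      = (∑ k, x k * f k x) - ∑ a, ∑ k, tau ψ x a k * pd a (f k) x := by
  have h1 : ∀ a, ad V a (fun y => ∑ k, tau ψ y a k * f k y) x
      = ∑ k, (-(pd a (fun y => tau ψ y a k) x - tau ψ x a k * pd a V x) * f k x
          - tau ψ x a k * pd a (f k) x) := by
    intro a
    unfold ad
    rw [rpd_sum (f := fun k y => tau ψ y a k * f k y) fun k _ => (hx.2 a k).mul (hf k), Finset.mul_sum,
      ← Finset.sum_sub_distrib]
    refine Finset.sum_congr rfl fun k _ => ?_
    rw [rpd_mul (hx.2 a k) (hf k)]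
    ring
  simp only [h1, Finset.sum_sub_distrib]
  congr 1
  rw [Finset.sum_comm]
  refine Finset.sum_congr rfl fun k _ => ?_
  rw [← Finset.sum_mul, Finset.sum_neg_distrib, rad_div h hx, neg_neg]

lemma ad_one (h : MM ψ V c C M) (hx : Good ψ x) (e : Fin n) :
    ∑ a, ad V a (fun y => tau ψ y a e) x = x e := by
  have h1 := rad_div h hx e
  have h2 : ∑ a, ad V a (fun y => tau ψ y a e) x
      = -∑ b, (pd b (fun y => tau ψ y b e) x - tau ψ x b e * pd b V x) := by
    rw [← Finset.sum_neg_distrib]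
    refine Finset.sum_congr rfl fun a _ => ?_
    unfold ad
    ring
  rw [h2, h1, neg_neg]

lemma ad_U (h : MM ψ V c C M) (hx : Good ψ x) (hF : Test F) (e : Fin n) :
    ∑ a, ad V a (U ψ F a e) x = -Lop ψ (pd e F) x := by
  have h1 := ad_tau h hx (f := fun k y => hess F y k e) fun k => diff_test (test_hess' hF k e) x
  have h2 : ∑ a, ad V a (U ψ F a e) x
      = ∑ a, ad V a (fun y => ∑ k, tau ψ y a k * hess F y k e) x := rfl
  rw [h2, h1]
  unfold Lop
  rw [neg_sub]
  rfl

lemma ad_fld (h : MM ψ V c C M) (hx : Good ψ x) (hF : Test F) :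
    ∑ a, ad V a (fld ψ F a) x = -Lop ψ F x := by
  have h1 := ad_tau h hx (f := fun k => pd k F) fun k => diff_test (test_pd' hF k) x
  have h2 : ∑ a, ad V a (fld ψ F a) x
      = ∑ a, ad V a (fun y => ∑ k, tau ψ y a k * pd k F y) x := rfl
  rw [h2, h1]
  unfold Lop
  rw [neg_sub]
  rfl

lemma diff_coord (i : Fin n) (x : E n) : DifferentiableAt ℝ (fun y : E n => y i) x :=
  (EuclideanSpace.proj i : E n →L[ℝ] ℝ).differentiableAt

lemma diff_LF (hx : Good ψ x) (hF : Test F) : DifferentiableAt ℝ (fun z => Lop ψ F z + F z) x := by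
  have h1 : DifferentiableAt ℝ (fun z => ∑ i, ∑ j, tau ψ z i j * hess F z i j) x :=
    DifferentiableAt.fun_sum fun i _ => DifferentiableAt.fun_sum fun j _ =>
      (hx.2 i j).mul (diff_test (test_hess' hF i j) x)
  have h2 : DifferentiableAt ℝ (fun z : E n => ∑ i, z i * pd i F z) x :=
    DifferentiableAt.fun_sum fun i _ => (diff_coord i x).mul (diff_test (test_pd' hF i) x)
  exact (h1.sub h2).add (diff_test hF x)

lemma pd_LF (hx : Good ψ x) (hF : Test F) (a : Fin n) :
    pd a (fun z => Lop ψ F z + F z) x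
      = (∑ i, ∑ j, (tau ψ x i j * pd a (fun z => hess F z i j) x
        + pd a (fun z => tau ψ z i j) x * hess F x i j)) - ∑ i, x i * hess F x a i := by
  have d1 : ∀ i j, DifferentiableAt ℝ (fun z => tau ψ z i j * hess F z i j) x := fun i j =>
    (hx.2 i j).mul (diff_test (test_hess' hF i j) x)
  have h1 : DifferentiableAt ℝ (fun z => ∑ i, ∑ j, tau ψ z i j * hess F z i j) x :=
    DifferentiableAt.fun_sum fun i _ => DifferentiableAt.fun_sum fun j _ => d1 i j
  have d2 : ∀ i, DifferentiableAt ℝ (fun z : E n => z i * pd i F z) x := fun i =>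
    (diff_coord i x).mul (diff_test (test_pd' hF i) x)
  have h2 : DifferentiableAt ℝ (fun z : E n => ∑ i, z i * pd i F z) x :=
    DifferentiableAt.fun_sum fun i _ => d2 i
  have e0 : pd a (fun z => Lop ψ F z + F z) x
      = pd a (fun z => (∑ i, ∑ j, tau ψ z i j * hess F z i j) - ∑ i, z i * pd i F z) x + pd a F x :=
    rpd_add (h1.sub h2) (diff_test hF x)
  rw [e0, rpd_sub h1 h2, rpd_sum (f := fun i z => ∑ j, tau ψ z i j * hess F z i j)
    (fun i _ => DifferentiableAt.fun_sum fun j _ => d1 i j),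
    rpd_sum (f := fun i (z : E n) => z i * pd i F z) (fun i _ => d2 i)]
  have e2 : ∀ i, pd a (fun z => ∑ j, tau ψ z i j * hess F z i j) x
      = ∑ j, (tau ψ x i j * pd a (fun z => hess F z i j) x
        + pd a (fun z => tau ψ z i j) x * hess F x i j) := by
    intro i
    rw [rpd_sum (f := fun j z => tau ψ z i j * hess F z i j) fun j _ => d1 i j]
    refine Finset.sum_congr rfl fun j _ => ?_
    rw [rpd_mul (hx.2 i j) (diff_test (test_hess' hF i j) x)]
    ring
  have e3 : ∀ i, pd a (fun z : E n => z i * pd i F z) x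
      = x i * hess F x a i + (if i = a then 1 else 0) * pd i F x := by
    intro i
    rw [rpd_mul (diff_coord i x) (diff_test (test_pd' hF i) x), rpd_coord]
    show _ = x i * pd a (pd i F) x + _
    ring
  simp only [e2, e3, Finset.sum_add_distrib]
  simp
  ring

lemma K_eq (a e : Fin n) :
    K ψ F a e = fun y => ∑ k, tau ψ y a k * (∑ l, hess F y k l * tau ψ y l e) := by
  funext y
  unfold K U
  simp only [Finset.sum_mul, Finset.mul_sum]
  rw [Finset.sum_comm]
  exact Finset.sum_congr rfl fun k _ => Finset.sum_congr rfl fun l _ => by ring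

lemma ad_K (h : MM ψ V c C M) (hx : Good ψ x) (hF : Test F) (e : Fin n) :
    ∑ a, ad V a (K ψ F a e) x = -fld ψ (fun z => Lop ψ F z + F z) e x := by
  have dN : ∀ k l, DifferentiableAt ℝ (fun y => hess F y k l) x := fun k l =>
    diff_test (test_hess' hF k l) x
  have d1 : ∀ k l, DifferentiableAt ℝ (fun y => hess F y k l * tau ψ y l e) x := fun k l =>
    (dN k l).mul (hx.2 l e)
  have h1 := ad_tau h hx (f := fun k y => ∑ l, hess F y k l * tau ψ y l e) fun k =>
    DifferentiableAt.fun_sum fun l _ => d1 k l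
  simp only [K_eq]
  rw [h1]
  have h2 : ∀ a k, pd a (fun y => ∑ l, hess F y k l * tau ψ y l e) x
      = ∑ l, (pd a (fun y => hess F y k l) x * tau ψ x l e + hess F x k l * pd a (fun y => tau ψ y l e) x) := by
    intro a k
    rw [rpd_sum (f := fun l y => hess F y k l * tau ψ y l e) fun l _ => d1 k l]
    exact Finset.sum_congr rfl fun l _ => rpd_mul (dN k l) (hx.2 l e)
  simp only [h2]
  have hNs : ∀ i j, hess F x i j = hess F x j i := fun i j => rad_hess_symm (test_c2 hF) x i j
  have hN3 : ∀ a k l, pd a (fun y => hess F y k l) x = pd l (fun y => hess F y a k) x := by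
    intro a k l
    have e1 : (fun y => hess F y k l) = fun y => hess F y l k :=
      funext fun y => rad_hess_symm (test_c2 hF) y k l
    rw [e1]
    exact rad_third (test_c2 hF) dN a l k
  -- the three terms
  have tA : ∑ k, x k * ∑ l, hess F x k l * tau ψ x l e = ∑ a, tau ψ x e a * ∑ i, x i * hess F x a i := by
    simp only [Finset.mul_sum]
    rw [Finset.sum_comm]
    refine Finset.sum_congr rfl fun a _ => Finset.sum_congr rfl fun i _ => ?_
    rw [hNs a i, rad_tau_symm h x e a]
    ring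
  have tB : ∑ a, ∑ k, ∑ l, tau ψ x a k * (pd a (fun y => hess F y k l) x * tau ψ x l e)
      = ∑ a, ∑ i, ∑ j, tau ψ x e a * (tau ψ x i j * pd a (fun y => hess F y i j) x) := by
    have s1 : ∑ a, ∑ i, ∑ j, tau ψ x e a * (tau ψ x i j * pd a (fun y => hess F y i j) x)
        = ∑ i, ∑ j, ∑ a, tau ψ x e a * (tau ψ x i j * pd a (fun y => hess F y i j) x) := by
      rw [Finset.sum_comm]
      exact Finset.sum_congr rfl fun i _ => Finset.sum_comm
    rw [s1]
    refine Finset.sum_congr rfl fun a _ => Finset.sum_congr rfl fun k _ =>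
      Finset.sum_congr rfl fun l _ => ?_
    rw [hN3 a k l, rad_tau_symm h x e l]
    ring
  have tC : ∑ a, ∑ k, ∑ l, tau ψ x a k * (hess F x k l * pd a (fun y => tau ψ y l e) x)
      = ∑ a, ∑ i, ∑ j, tau ψ x e a * (pd a (fun y => tau ψ y i j) x * hess F x i j) := by
    have s1 : ∑ a, ∑ i, ∑ j, tau ψ x e a * (pd a (fun y => tau ψ y i j) x * hess F x i j)
        = ∑ i, ∑ j, hess F x i j * ∑ a, tau ψ x e a * pd a (fun y => tau ψ y i j) x := by
      rw [Finset.sum_comm]
      refine Finset.sum_congr rfl fun i _ => ?_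
      rw [Finset.sum_comm]
      refine Finset.sum_congr rfl fun j _ => ?_
      rw [Finset.mul_sum]
      exact Finset.sum_congr rfl fun a _ => by ring
    have s2 : ∑ a, ∑ k, ∑ l, tau ψ x a k * (hess F x k l * pd a (fun y => tau ψ y l e) x)
        = ∑ k, ∑ l, hess F x k l * ∑ a, tau ψ x k a * pd a (fun y => tau ψ y l e) x := by
      rw [Finset.sum_comm]
      refine Finset.sum_congr rfl fun k _ => ?_
      rw [Finset.sum_comm]
      refine Finset.sum_congr rfl fun l _ => ?_
      rw [Finset.mul_sum]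
      refine Finset.sum_congr rfl fun a _ => ?_
      rw [rad_tau_symm h x k a]
      ring
    rw [s1, s2]
    refine Finset.sum_congr rfl fun k _ => Finset.sum_congr rfl fun l _ => ?_
    rw [rad_T' h k l e, rad_T h hx k e l]
  have L : fld ψ (fun z => Lop ψ F z + F z) e x
      = ∑ a, ∑ i, ∑ j, tau ψ x e a * (tau ψ x i j * pd a (fun y => hess F y i j) x)
        + ∑ a, ∑ i, ∑ j, tau ψ x e a * (pd a (fun y => tau ψ y i j) x * hess F x i j)
        - ∑ a, tau ψ x e a * ∑ i, x i * hess F x a i := by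
    unfold fld
    simp only [pd_LF hx hF, mul_sub, Finset.sum_sub_distrib, Finset.mul_sum, mul_add,
      Finset.sum_add_distrib]
  rw [L, tA, ← tB, ← tC]
  simp only [Finset.mul_sum, mul_add, Finset.sum_add_distrib]
  ring

lemma fld_split (hx : Good ψ x) (hF : Test F) (hu : Test u) (b : Fin n) :
    fld ψ (fun z => Lop ψ F z + F z + u z) b x
      = fld ψ (fun z => Lop ψ F z + F z) b x + fld ψ u b x := by
  unfold fld
  rw [← Finset.sum_add_distrib]
  refine Finset.sum_congr rfl fun a _ => ?_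
  rw [rpd_add (diff_LF hx hF) (diff_test hu x), mul_add]

lemma pd_fld (hx : Good ψ x) (hu : Test u) (i j : Fin n) :
    pd i (fld ψ u j) x = ∑ k, (pd i (fun y => tau ψ y j k) x * pd k u x
      + tau ψ x j k * pd i (pd k u) x) := by
  show pd i (fun y => ∑ k, tau ψ y j k * pd k u y) x = _
  rw [rpd_sum (f := fun k y => tau ψ y j k * pd k u y)
    fun k _ => (hx.2 j k).mul (diff_test (test_pd' hu k) x)]
  exact Finset.sum_congr rfl fun k _ => rpd_mul (hx.2 j k) (diff_test (test_pd' hu k) x)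

/-- the square `tr ((Ds - U)²) ≥ 0` -/
lemma sq_pt (h : MM ψ V c C M) (hx : Good ψ x) (hF : Test F) (hu : Test u) :
    0 ≤ (∑ a, ∑ b, pd b (fld ψ u a) x * pd a (fld ψ u b) x)
      - 2 * (∑ e, ∑ a, U ψ F a e x * pd a (fld ψ u e) x) + ∑ e, W ψ F e e x := by
  obtain ⟨b, hb⟩ := exists_gram h x
  have hNs : ∀ i j, hess F x i j = hess F x j i := fun i j => rad_hess_symm (test_c2 hF) x i j
  have hus : ∀ i j, hess u x i j = hess u x j i := fun i j => rad_hess_symm (test_c2 hu) x i j
  have key := QAlg.tr_sq_nonneg (tau ψ x) (hess ψ x) b (rad_tau_mul h x) hb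
    (fun i j => pd i (fld ψ u j) x - U ψ F j i x) (by
      ext i j
      have g : ∀ i j, ∑ l, tau ψ x i l * (pd l (fld ψ u j) x - U ψ F j l x)
          = (∑ k, (∑ l, tau ψ x i l * pd l (fun y => tau ψ y j k) x) * pd k u x)
            + (∑ l, ∑ k, tau ψ x i l * tau ψ x j k * hess u x l k)
            - ∑ l, ∑ k, tau ψ x i l * tau ψ x j k * hess F x k l := by
        intro i j
        simp only [pd_fld hx hu, U, mul_sub, Finset.mul_sum, mul_add, Finset.sum_add_distrib,
          Finset.sum_sub_distrib, Finset.sum_mul]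
        congr 1
        · congr 1
          · rw [Finset.sum_comm]
            exact Finset.sum_congr rfl fun k _ => Finset.sum_congr rfl fun l _ => by ring
          · refine Finset.sum_congr rfl fun l _ => Finset.sum_congr rfl fun k _ => ?_
            show tau ψ x i l * (tau ψ x j k * hess u x l k) = _
            ring
        · exact Finset.sum_congr rfl fun l _ => Finset.sum_congr rfl fun k _ => by ring
      have g2 : ∑ l, tau ψ x j l * (pd l (fld ψ u i) x - U ψ F i l x)
          = ∑ l, tau ψ x i l * (pd l (fld ψ u j) x - U ψ F j l x) := by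
        rw [g i j, g j i]
        congr 1
        · congr 1
          · refine Finset.sum_congr rfl fun k _ => ?_
            rw [rad_T h hx j i k]
          · rw [Finset.sum_comm]
            refine Finset.sum_congr rfl fun l _ => Finset.sum_congr rfl fun k _ => ?_
            rw [hus k l]
            ring
        · rw [Finset.sum_comm]
          refine Finset.sum_congr rfl fun l _ => Finset.sum_congr rfl fun k _ => ?_
          rw [hNs l k]
          ring
      exact g2)
  have e : (∑ i, ∑ j, (pd i (fld ψ u j) x - U ψ F j i x) * (pd j (fld ψ u i) x - U ψ F i j x))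
      = (∑ a, ∑ b, pd b (fld ψ u a) x * pd a (fld ψ u b) x)
      - 2 * (∑ e, ∑ a, U ψ F a e x * pd a (fld ψ u e) x) + ∑ e, W ψ F e e x := by
    have e1 : ∑ i, ∑ j, (pd i (fld ψ u j) x * U ψ F i j x) = ∑ e, ∑ a, U ψ F a e x * pd a (fld ψ u e) x := by
      rw [Finset.sum_comm]
      exact Finset.sum_congr rfl fun k _ => Finset.sum_congr rfl fun l _ => by ring
    have e2 : ∑ i, ∑ j, (U ψ F j i x * pd j (fld ψ u i) x) = ∑ e, ∑ a, U ψ F a e x * pd a (fld ψ u e) x := rfl
    have e3 : ∑ i, ∑ j, (U ψ F j i x * U ψ F i j x) = ∑ e, W ψ F e e x := by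
      unfold W
      exact Finset.sum_congr rfl fun k _ => Finset.sum_congr rfl fun l _ => by ring
    have e4 : ∑ i, ∑ j, (pd i (fld ψ u j) x * pd j (fld ψ u i) x)
        = ∑ a, ∑ b, pd b (fld ψ u a) x * pd a (fld ψ u b) x :=
      Finset.sum_congr rfl fun k _ => Finset.sum_congr rfl fun l _ => by ring
    rw [← e4, ← e3]
    have e5 : ∀ i j, (pd i (fld ψ u j) x - U ψ F j i x) * (pd j (fld ψ u i) x - U ψ F i j x)
        = pd i (fld ψ u j) x * pd j (fld ψ u i) x - pd i (fld ψ u j) x * U ψ F i j x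
          - U ψ F j i x * pd j (fld ψ u i) x + U ψ F j i x * U ψ F i j x := fun i j => by ring
    simp only [e5, Finset.sum_add_distrib, Finset.sum_sub_distrib]
    rw [e1, e2]
    ring
  rw [← e]
  exact key

lemma K_mat (x : E n) : (fun i j => K ψ F i j x : Matrix (Fin n) (Fin n) ℝ)
    = tau ψ x * hess F x * tau ψ x := by
  ext i j
  rw [Matrix.mul_apply]
  unfold K U
  exact Finset.sum_congr rfl fun k _ => by rw [Matrix.mul_apply]

lemma U_mat (x : E n) : (fun i j => U ψ F i j x : Matrix (Fin n) (Fin n) ℝ) = tau ψ x * hess F x := by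
  ext i j
  rw [Matrix.mul_apply]
  rfl

lemma W_mat (x : E n) : (fun i j => W ψ F i j x : Matrix (Fin n) (Fin n) ℝ)
    = tau ψ x * hess F x * (tau ψ x * hess F x) := by
  rw [← U_mat]
  ext i j
  rfl

lemma trace3 (H P Q : Matrix (Fin n) (Fin n) ℝ) :
    ∑ e, ∑ a, ∑ c, H c a * P a e * Q c e = (H * P * Q.transpose).trace := by
  simp only [Matrix.trace, Matrix.diag_apply, Matrix.mul_apply, Matrix.transpose_apply, Finset.sum_mul]
  have s1 : ∑ e, ∑ a, ∑ c, H c a * P a e * Q c e = ∑ e, ∑ c, ∑ a, H c a * P a e * Q c e :=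
    Finset.sum_congr rfl fun e _ => Finset.sum_comm
  rw [s1, Finset.sum_comm]

lemma trace_KU (h : MM ψ V c C M) (hF : Test F) (x : E n) :
    ∑ e, ∑ a, ∑ c, hess V x c a * K ψ F a e x * U ψ F c e x
      = (hess V x * tau ψ x * hess F x * tau ψ x * hess F x * tau ψ x).trace := by
  have h1 := trace3 (hess V x) (fun i j => K ψ F i j x) (fun i j => U ψ F i j x)
  have ht : (tau ψ x).transpose = tau ψ x := by ext i j; exact rad_tau_symm h x j i
  have hN : (hess F x).transpose = hess F x := by ext i j; exact rad_hess_symm (test_c2 hF) x j i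
  rw [K_mat, U_mat, Matrix.transpose_mul, ht, hN] at h1
  refine h1.trans ?_
  simp only [Matrix.mul_assoc]

lemma trace_TW (h : MM ψ V c C M) (hF : Test F) (x : E n) :
    ∑ e, ∑ a, ∑ c, hess V x c a * tau ψ x a e * W ψ F c e x
      = (hess V x * tau ψ x * hess F x * tau ψ x * hess F x * tau ψ x).trace := by
  have h1 := trace3 (hess V x) (tau ψ x) (fun i j => W ψ F i j x)
  have ht : (tau ψ x).transpose = tau ψ x := by ext i j; exact rad_tau_symm h x j i
  have hN : (hess F x).transpose = hess F x := by ext i j; exact rad_hess_symm (test_c2 hF) x j i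
  rw [W_mat, Matrix.transpose_mul, Matrix.transpose_mul, ht, hN] at h1
  refine h1.trans ?_
  simp only [Matrix.mul_assoc]

/-! ### assembly -/

theorem key_I (hV : Nice V c C) (h : MM ψ V c C M) (hF : Test F) (hu : Test u) :
    I V (fun x => (hess V x * tau ψ x * hess F x * tau ψ x * hess F x * tau ψ x).trace)
      + I V (fun x => ∑ a, ∑ b, hess V x a b * fld ψ u a x * fld ψ u b x)
      ≤ I V (fun x => (Lop ψ u x) ^ 2)
        + 2 * I V (fun x => ∑ b, fld ψ (fun z => Lop ψ F z + F z + u z) b x * Lop ψ (pd b F) x) := by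
  have hV2 : ContDiff ℝ 2 V := by exact_mod_cast contDiff_infty.1 hV.smooth 2
  have hg := rad_good h
  -- (1)
  have i1 := I_swap_sum hV2 (ι := Fin n) (P := K ψ F) (Q := U ψ F) (fun a e => ll_K h hF a e)
    (fun a e => ll_U h hF a e) (fun a e => bs_U hF a e)
  have i1' : I V (fun x => ∑ e, (∑ a, ad V a (K ψ F a e) x) * ∑ c, ad V c (U ψ F c e) x)
      = I V (fun x => ∑ e, fld ψ (fun z => Lop ψ F z + F z) e x * Lop ψ (pd e F) x) := by
    refine I_congr ?_
    filter_upwards [hg] with x hx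
    refine Finset.sum_congr rfl fun e _ => ?_
    rw [ad_K h hx hF e, ad_U h hx hF e, neg_mul_neg]
  have i1'' : I V (fun x => ∑ e, ∑ a, ∑ c, hess V x c a * K ψ F a e x * U ψ F c e x)
      = I V (fun x => (hess V x * tau ψ x * hess F x * tau ψ x * hess F x * tau ψ x).trace) :=
    I_congr (Eventually.of_forall fun x => trace_KU h hF x)
  -- (2)
  have i2 := I_swap_sum hV2 (ι := Fin n) (P := fun a e x => tau ψ x a e) (Q := W ψ F)
    (fun a e => ll_tau h a e) (fun a e => ll_W h hF a e) (fun a e => bs_W hF a e)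
  have i2'' : I V (fun x => ∑ e, ∑ a, ∑ c, hess V x c a * tau ψ x a e * W ψ F c e x)
      = I V (fun x => (hess V x * tau ψ x * hess F x * tau ψ x * hess F x * tau ψ x).trace) :=
    I_congr (Eventually.of_forall fun x => trace_TW h hF x)
  have i2' : I V (fun x => ∑ e, (∑ a, ad V a (fun y => tau ψ y a e) x) * ∑ c, ad V c (W ψ F c e) x)
      = I V (fun x => ∑ e, (∑ a, ad V a (W ψ F a e) x) * x e) := by
    refine I_congr ?_
    filter_upwards [hg] with x hx
    refine Finset.sum_congr rfl fun e _ => ?_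
    rw [ad_one h hx e, mul_comm]
  have i3 := I_ibp_sum hV2 (P := W ψ F) (Q := fun e x => x e) (fun a e => ll_W h hF a e)
    (fun a e => bs_W hF a e)
    (fun e => LL.of_c1 (EuclideanSpace.proj e : E n →L[ℝ] ℝ).contDiff)
  have i3' : I V (fun x => ∑ e, ∑ a, W ψ F a e x * pd a (fun y : E n => y e) x)
      = I V (fun x => ∑ e, W ψ F e e x) := by
    refine I_congr (Eventually.of_forall fun x => ?_)
    refine Finset.sum_congr rfl fun e _ => ?_
    simp [rpd_coord]
  -- (3)
  have i4 := I_swap_sum hV2 (ι := Unit) (P := fun a _ => fld ψ u a) (Q := fun a _ => fld ψ u a)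
    (fun a _ => ll_fld h hu a) (fun a _ => ll_fld h hu a) (fun a _ => bs_fld hu a)
  have i4' : I V (fun x => ∑ _e : Unit, (∑ a, ad V a (fld ψ u a) x) * ∑ c, ad V c (fld ψ u c) x)
      = I V (fun x => (Lop ψ u x) ^ 2) := by
    refine I_congr ?_
    filter_upwards [hg] with x hx
    rw [ad_fld h hx hu]
    simp [sq]
  have i4'' : I V (fun x => ∑ _e : Unit, ∑ a, ∑ c, hess V x c a * fld ψ u a x * fld ψ u c x)
      = I V (fun x => ∑ a, ∑ b, hess V x a b * fld ψ u a x * fld ψ u b x) := by
    refine I_congr (Eventually.of_forall fun x => ?_)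
    simp only [Finset.univ_unique, Finset.sum_singleton]
    exact Finset.sum_congr rfl fun a _ => Finset.sum_congr rfl fun b _ => by
      rw [rad_hess_symm hV2 x b a]
  have i4''' : I V (fun x => ∑ _e : Unit, ∑ a, ∑ c, pd c (fld ψ u a) x * pd a (fld ψ u c) x)
      = I V (fun x => ∑ a, ∑ c, pd c (fld ψ u a) x * pd a (fld ψ u c) x) := by
    refine I_congr (Eventually.of_forall fun x => ?_)
    simp only [Finset.univ_unique, Finset.sum_singleton]
  -- (4)
  have i5 := I_ibp_sum hV2 (P := U ψ F) (Q := fun e => fld ψ u e) (fun a e => ll_U h hF a e)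
    (fun a e => bs_U hF a e) (fun e => ll_fld h hu e)
  have i5' : I V (fun x => ∑ e, (∑ a, ad V a (U ψ F a e) x) * fld ψ u e x)
      = -I V (fun x => ∑ e, fld ψ u e x * Lop ψ (pd e F) x) := by
    have e0 : -I V (fun x => ∑ e, fld ψ u e x * Lop ψ (pd e F) x)
        = I V (fun x => (-1) * ∑ e, fld ψ u e x * Lop ψ (pd e F) x) := by
      rw [I_mul]; ring
    rw [e0]
    refine I_congr ?_
    filter_upwards [hg] with x hx
    rw [Finset.mul_sum]
    refine Finset.sum_congr rfl fun e _ => ?_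
    rw [ad_U h hx hF e]
    ring
  -- splitting of the last term
  have kL : ∀ e, Ok (Lop ψ (pd e F)) := fun e => Ok.of (ll_LF h (test_pd' hF e)) (bs_LF (test_pd' hF e))
  have hLF : LL (fun z => Lop ψ F z + F z) := (ll_LF h hF).add (ll_test hF)
  have kf : ∀ e, LB (fld ψ (fun z => Lop ψ F z + F z) e) := fun e => by
    have h1 : Ok (fun x => ∑ k, tau ψ x e k * pd k (fun z => Lop ψ F z + F z) x) :=
      Ok.sum _ fun k _ => Ok.mul_left (ll_tau h e k).lb
        (Ok.pd hLF ((bs_LF hF).add (bs_test hF)) k)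
    exact h1.1
  have i6 : I V (fun x => ∑ b, fld ψ (fun z => Lop ψ F z + F z + u z) b x * Lop ψ (pd b F) x)
      = I V (fun x => ∑ e, fld ψ (fun z => Lop ψ F z + F z) e x * Lop ψ (pd e F) x)
        + I V (fun x => ∑ e, fld ψ u e x * Lop ψ (pd e F) x) := by
    rw [← I_add hV2 (Ok.sum _ fun e _ => Ok.mul_left (kf e) (kL e))
      (Ok.sum _ fun e _ => Ok.mul_left (ll_fld h hu e).lb (kL e))]
    refine I_congr ?_
    filter_upwards [hg] with x hx
    rw [← Finset.sum_add_distrib]
    refine Finset.sum_congr rfl fun e _ => ?_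
    rw [fld_split hx hF hu e, add_mul]
  -- (6)
  have kβ : Ok (fun x => ∑ e, ∑ a, ∑ c, pd c (K ψ F a e) x * pd a (U ψ F c e) x) :=
    Ok.sum _ fun e _ => Ok.sum _ fun a _ => Ok.sum _ fun c _ =>
      Ok.mul_left ((ll_K h hF a e).pd_lb c) (Ok.pd (ll_U h hF c e) (bs_U hF c e) a)
  have kγ : Ok (fun x => ∑ e, ∑ a, ∑ c, pd c (fun y => tau ψ y a e) x * pd a (W ψ F c e) x) :=
    Ok.sum _ fun e _ => Ok.sum _ fun a _ => Ok.sum _ fun c _ =>
      Ok.mul_left ((ll_tau h a e).pd_lb c) (Ok.pd (ll_W h hF c e) (bs_W hF c e) a)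
  have j6 : 0 ≤ 2 * I V (fun x => ∑ e, ∑ a, ∑ c, pd c (K ψ F a e) x * pd a (U ψ F c e) x)
      - I V (fun x => ∑ e, ∑ a, ∑ c, pd c (fun y => tau ψ y a e) x * pd a (W ψ F c e) x) := by
    rw [← I_mul, ← I_sub hV2 (Ok.mul_left (LL.const 2).lb kβ) kγ]
    refine I_nonneg ?_
    filter_upwards [hg] with x hx
    exact key_pt h hx hF
  -- (7)
  have kJJ : Ok (fun x => ∑ a, ∑ b, pd b (fld ψ u a) x * pd a (fld ψ u b) x) :=
    Ok.sum _ fun a _ => Ok.sum _ fun b _ =>
      Ok.mul_left ((ll_fld h hu a).pd_lb b) (Ok.pd (ll_fld h hu b) (bs_fld hu b) a)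
  have kJU : Ok (fun x => ∑ e, ∑ a, U ψ F a e x * pd a (fld ψ u e) x) :=
    Ok.sum _ fun e _ => Ok.sum _ fun a _ =>
      Ok.mul_left (ll_U h hF a e).lb (Ok.pd (ll_fld h hu e) (bs_fld hu e) a)
  have kUU : Ok (fun x => ∑ e, W ψ F e e x) := Ok.sum _ fun e _ => Ok.of (ll_W h hF e e) (bs_W hF e e)
  have j7 : 0 ≤ I V (fun x => ∑ a, ∑ b, pd b (fld ψ u a) x * pd a (fld ψ u b) x)
      - 2 * I V (fun x => ∑ e, ∑ a, U ψ F a e x * pd a (fld ψ u e) x) + I V (fun x => ∑ e, W ψ F e e x) := by
    rw [← I_mul, ← I_sub hV2 kJJ (Ok.mul_left (LL.const 2).lb kJU),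
      ← I_add hV2 (kJJ.sub (Ok.mul_left (LL.const 2).lb kJU)) kUU]
    refine I_nonneg ?_
    filter_upwards [hg] with x hx
    exact sq_pt h hx hF hu
  rw [i1', i1''] at i1
  rw [i2', i2'', i3, i3'] at i2
  rw [i4', i4'', i4'''] at i4
  rw [i5'] at i5
  rw [i6]
  linarith

/-- **block ID**: the key inequality -/
theorem stmtKey : StmtKey := by
  intro n ψ V c C M hV h F u hF hu
  have key := key_I hV h hF hu
  have hZ : 0 ≤ (∫ x, Real.exp (-V x))⁻¹ := inv_nonneg.2 (integral_nonneg fun x => (Real.exp_pos _).le)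
  have e : ∀ f : E n → ℝ, Ex V f = I V f * (∫ x, Real.exp (-V x))⁻¹ := fun f => div_eq_mul_inv _ _
  simp only [e]
  have := mul_le_mul_of_nonneg_right key hZ
  linarith

end Vale.Agent.P227.M.K680
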