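import Vale.Agent.P227.M.ID.Sym294

/-! # P227/M/ID: `StmtDiv` (helper294) -/

open MeasureTheory
open scoped Topology NNReal

namespace Vale.Agent.P227.M.B294

variable {n : ℕ} {ψ V : E n → ℝ} {c C M : ℝ}

/-- Lipschitz with compact support -/
def LC (f : E n → ℝ) : Prop := (∃ K : ℝ≥0, LipschitzWith K f) ∧ HasCompactSupport f

lemma LC.gr {f : E n → ℝ} (hf : LC f) : Gr f := Gr.of_test hf.1.choose_spec.continuous hf.2

lemma LC.ae_diff {f : E n → ℝ} (hf : LC f) : ∀ᵐ x, DifferentiableAt ℝ f x :=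
  hf.1.choose_spec.ae_differentiableAt

lemma LC.zero : LC (fun _ : E n => (0 : ℝ)) :=
  ⟨⟨0, LipschitzWith.const 0⟩, HasCompactSupport.zero⟩

lemma LC.add {f g : E n → ℝ} (hf : LC f) (hg : LC g) : LC (fun x => f x + g x) := by
  obtain ⟨⟨K, hK⟩, hs⟩ := hf
  obtain ⟨⟨L, hL⟩, ht⟩ := hg
  exact ⟨⟨K + L, hK.add hL⟩, hs.add ht⟩

lemma LC.sum {ι : Type*} (s : Finset ι) {f : ι → E n → ℝ} (hf : ∀ i ∈ s, LC (f i)) :
    LC (fun x => ∑ i ∈ s, f i x) := by
  classical
  induction s using Finset.induction_on with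
  | empty => simpa using LC.zero (n := n)
  | insert a s ha ih =>
    have h := (hf a (Finset.mem_insert_self a s)).add
      (ih fun i hi => hf i (Finset.mem_insert_of_mem hi))
    simpa [Finset.sum_insert ha] using h

lemma LC.of_test {f : E n → ℝ} (hf : Test f) : LC f :=
  ⟨(hf.1.lipschitzWith_of_hasCompactSupport hf.2 (by simp)), hf.2⟩

/-- product of a test function and a bounded Lipschitz function -/
lemma LC.mul {f g : E n → ℝ} (hf : LC f) {K : ℝ≥0} (hg : LipschitzWith K g) {B : ℝ}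
    (hB : ∀ x, |g x| ≤ B) : LC (fun x => f x * g x) := by
  obtain ⟨⟨L, hL⟩, hs⟩ := hf
  refine ⟨?_, hs.mul_right⟩
  obtain ⟨A, hA⟩ := hL.continuous.bounded_above_of_compact_support hs
  have hA0 : 0 ≤ A := (norm_nonneg _).trans (hA 0)
  have hB0 : 0 ≤ B := (abs_nonneg _).trans (hB 0)
  refine ⟨_, lipW_of (K := A * K + B * L) fun x y => ?_⟩
  have e : f x * g x - f y * g y = f x * (g x - g y) + g y * (f x - f y) := by ring
  rw [e]
  have h1 : |g x - g y| ≤ K * ‖x - y‖ := by
    have := hg.dist_le_mul x y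
    rwa [Real.dist_eq, dist_eq_norm] at this
  have h2 : |f x - f y| ≤ L * ‖x - y‖ := by
    have := hL.dist_le_mul x y
    rwa [Real.dist_eq, dist_eq_norm] at this
  calc |f x * (g x - g y) + g y * (f x - f y)|
      ≤ |f x| * |g x - g y| + |g y| * |f x - f y| := by
        refine (abs_add_le _ _).trans ?_
        rw [abs_mul, abs_mul]
    _ ≤ A * (K * ‖x - y‖) + B * (L * ‖x - y‖) := by
        refine add_le_add (mul_le_mul (hA x) h1 (abs_nonneg _) hA0)
          (mul_le_mul (hB y) h2 (abs_nonneg _) hB0)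
    _ = _ := by ring

lemma LC.core (h : MM ψ V c C M) {G : E n → ℝ} (hG : LC G) (a : Fin n) :
    ∫ x, (∑ b, tau ψ x a b * pd b G x) * Real.exp (-(V x))
      = ∫ x, (x a * G x) * Real.exp (-(V x)) :=
  core_lip h a G hG.1.choose_spec hG.2

lemma abs_pd_lip {f : E n → ℝ} {K : ℝ≥0} (hf : LipschitzWith K f) (x : E n) (i : Fin n) :
    |pd i f x| ≤ K := by
  have h1 := (fderiv ℝ f x).le_opNorm (ei i)
  rw [norm_ei, mul_one, Real.norm_eq_abs] at h1
  exact h1.trans (norm_fderiv_le_of_lipschitz ℝ hf)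

lemma integrable_lip (hV : Nice V c C) {f : E n → ℝ} (hf : Gr f) {G : E n → ℝ} {K : ℝ≥0}
    (hG : LipschitzWith K G) (a : Fin n) :
    Integrable (fun x => (f x * pd a G x) * Real.exp (-(V x))) := by
  have h1 := hV.toReg.integrable_gr (hf.abs.const_mul (K : ℝ))
  refine h1.mono' ?_ (Filter.Eventually.of_forall fun x => ?_)
  · refine ((hf.cont.measurable.mul (measurable_fderiv_apply_const ℝ G (ei a))).mul
      (Real.continuous_exp.comp hV.smooth.continuous.neg).measurable).aestronglyMeasurable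
  · rw [norm_mul, Real.norm_eq_abs, Real.norm_eq_abs, Real.abs_exp, abs_mul]
    refine mul_le_mul_of_nonneg_right ?_ (Real.exp_pos _).le
    rw [mul_comm]
    exact mul_le_mul_of_nonneg_right (abs_pd_lip hG x a) (abs_nonneg _)

lemma LC.integrable (hV : Nice V c C) {f G : E n → ℝ} (hf : Gr f) (hG : LC G) (a : Fin n) :
    Integrable (fun x => (f x * pd a G x) * Real.exp (-(V x))) :=
  integrable_lip hV hf hG.1.choose_spec a

lemma LC.integrable_core (hV : Nice V c C) (h : MM ψ V c C M) {G : E n → ℝ} (hG : LC G)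
    (a : Fin n) :
    Integrable (fun x => (∑ b, tau ψ x a b * pd b G x) * Real.exp (-(V x))) := by
  simp only [Finset.sum_mul]
  exact integrable_finsetSum _ fun b _ => hG.integrable hV (gr_tau h a b) b

lemma s3 (f : Fin n → Fin n → Fin n → ℝ) :
    ∑ a, ∑ b, ∑ k, f a b k = ∑ b, ∑ k, ∑ a, f a b k := by
  rw [Finset.sum_comm]
  exact Finset.sum_congr rfl fun b _ => Finset.sum_comm

lemma s4 (f : Fin n → Fin n → Fin n → Fin n → ℝ) :
    ∑ d, ∑ a, ∑ b, ∑ k, f d a b k = ∑ b, ∑ k, ∑ a, ∑ d, f d a b k := by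
  have h1 : ∑ d, ∑ a, ∑ b, ∑ k, f d a b k = ∑ d, ∑ b, ∑ k, ∑ a, f d a b k :=
    Finset.sum_congr rfl fun d _ => s3 _
  rw [h1, s3]
  exact Finset.sum_congr rfl fun b _ => Finset.sum_congr rfl fun k _ => Finset.sum_comm

/-- the auxiliary fields `G_d = ∑ W_b τ_bk F_kd` -/
noncomputable def Gd (ψ W F : E n → ℝ) (d : Fin n) (x : E n) : ℝ :=
  ∑ b, ∑ k, (pd b W x * hess F x k d) * tau ψ x b k

lemma test_hess {F : E n → ℝ} (hF : Test F) (i j : Fin n) : Test (fun x => hess F x i j) :=
  test_pd (test_pd hF j) i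

lemma test_mulW {F W : E n → ℝ} (hF : Test F) (hW : ContDiff ℝ (⊤ : ℕ∞) W) (b k d : Fin n) :
    Test (fun x => pd b W x * hess F x k d) :=
  ⟨(contDiff_pd_top hW b).mul (test_hess hF k d).1, (test_hess hF k d).2.mul_left⟩

lemma LC_Gd (h : MM ψ V c C M) {F W : E n → ℝ} (hF : Test F) (hW : ContDiff ℝ (⊤ : ℕ∞) W)
    (d : Fin n) : LC (Gd ψ W F d) :=
  LC.sum _ fun b _ => LC.sum _ fun k _ =>
    (LC.of_test (test_mulW hF hW b k d)).mul (tau_lipW h b k) (fun x => abs_tau_le h x b k)

lemma third_test {F : E n → ℝ} (hF : Test F) (x : E n) (a k d : Fin n) :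
    pd a (fun z => hess F z k d) x = pd k (fun z => hess F z a d) x :=
  hess_symm (f := pd d F) ((test_pd hF d).1.of_le (by norm_cast)) x a k

lemma third_test' {F : E n → ℝ} (hF : Test F) (x : E n) (a k d : Fin n) :
    pd a (fun z => hess F z k d) x = pd a (fun z => hess F z d k) x := by
  have e : (fun z => hess F z k d) = fun z => hess F z d k :=
    funext fun z => hess_symm (hF.1.of_le (by norm_cast)) z k d
  rw [e]

lemma pd_Gd {x : E n} (hx : Good ψ x) {F W : E n → ℝ} (hF : Test F)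
    (hW : ContDiff ℝ (⊤ : ℕ∞) W) (a d : Fin n) :
    pd a (Gd ψ W F d) x = ∑ b, ∑ k, (hess W x a b * hess F x k d * tau ψ x b k
      + pd b W x * pd a (fun z => hess F z k d) x * tau ψ x b k
      + pd b W x * hess F x k d * pd a (fun z => tau ψ z b k) x) := by
  have hWd : ∀ b, Differentiable ℝ (pd b W) := fun b =>
    (contDiff_pd_top hW b).differentiable (by norm_num)
  have hFd : ∀ k, Differentiable ℝ (fun z => hess F z k d) := fun k => tDiff (test_hess hF k d)
  have hWF : ∀ b k, DifferentiableAt ℝ (fun z => pd b W z * hess F z k d) x := fun b k =>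
    (hWd b x).mul (hFd k x)
  have hall : ∀ b k, DifferentiableAt ℝ (fun z => (pd b W z * hess F z k d) * tau ψ z b k) x :=
    fun b k => (hWF b k).mul (hx.1 b k)
  unfold Gd
  rw [pd_sum (f := fun b z => ∑ k, (pd b W z * hess F z k d) * tau ψ z b k) a
    fun b _ => DifferentiableAt.fun_sum fun k _ => hall b k]
  refine Finset.sum_congr rfl fun b _ => ?_
  rw [pd_sum (f := fun k z => (pd b W z * hess F z k d) * tau ψ z b k) a fun k _ => hall b k]
  refine Finset.sum_congr rfl fun k _ => ?_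
  rw [B294.pd_mul a (hWF b k) (hx.1 b k), B294.pd_mul a (hWd b x) (hFd k x)]
  have e : pd a (pd b W) x = hess W x a b := rfl
  rw [e]
  ring

/-- `L F` is Lipschitz with compact support -/
lemma LC_Lop (h : MM ψ V c C M) {F : E n → ℝ} (hF : Test F) : LC (Lop ψ F) := by
  have h1 : LC (fun x => ∑ i, ∑ j, hess F x i j * tau ψ x i j) :=
    LC.sum _ fun i _ => LC.sum _ fun j _ =>
      (LC.of_test (test_hess hF i j)).mul (tau_lipW h i j) (fun x => abs_tau_le h x i j)
  have h2 : LC (fun x => ∑ i, -(x i * pd i F x)) := by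
    refine LC.sum _ fun i _ => LC.of_test ⟨?_, ?_⟩
    · exact (((EuclideanSpace.proj i : E n →L[ℝ] ℝ).contDiff).mul (test_pd hF i).1).neg
    · have : HasCompactSupport ((fun x : E n => x i) * pd i F) := (test_pd hF i).2.mul_left
      exact this.neg
  have h3 := h1.add h2
  have e : Lop ψ F = fun x => (∑ i, ∑ j, hess F x i j * tau ψ x i j) + ∑ i, -(x i * pd i F x) := by
    funext x
    unfold Lop
    rw [Finset.sum_neg_distrib, ← sub_eq_add_neg]
    congr 1
    exact Finset.sum_congr rfl fun i _ => Finset.sum_congr rfl fun j _ => mul_comm _ _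
  rw [e]
  exact h3

lemma pd_LF {x : E n} (hx : Good ψ x) {F : E n → ℝ} (hF : Test F) (a : Fin n) :
    pd a (fun z => Lop ψ F z + F z) x
      = (∑ i, ∑ j, (tau ψ x i j * pd a (fun z => hess F z i j) x
        + pd a (fun z => tau ψ z i j) x * hess F x i j)) - ∑ i, x i * hess F x a i := by
  have hFd : ∀ i j, Differentiable ℝ (fun z => hess F z i j) := fun i j => tDiff (test_hess hF i j)
  have hF1 : ∀ i, Differentiable ℝ (pd i F) := fun i => tDiff (test_pd hF i)
  have hc : ∀ i, Differentiable ℝ (fun z : E n => z i) := fun i =>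
    (EuclideanSpace.proj i : E n →L[ℝ] ℝ).differentiable
  have hd1 : ∀ i j, DifferentiableAt ℝ (fun z => tau ψ z i j * hess F z i j) x := fun i j =>
    (hx.1 i j).mul (hFd i j x)
  have hd1s : DifferentiableAt ℝ (fun z => ∑ i, ∑ j, tau ψ z i j * hess F z i j) x :=
    DifferentiableAt.fun_sum fun i _ => DifferentiableAt.fun_sum fun j _ => hd1 i j
  have hd2 : ∀ i, DifferentiableAt ℝ (fun z : E n => z i * pd i F z) x := fun i =>
    (hc i x).mul (hF1 i x)
  have hd2s : DifferentiableAt ℝ (fun z : E n => ∑ i, z i * pd i F z) x :=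
    DifferentiableAt.fun_sum fun i _ => hd2 i
  have e1 : pd a (fun z => Lop ψ F z + F z) x
      = pd a (fun z => ∑ i, ∑ j, tau ψ z i j * hess F z i j) x
        - pd a (fun z : E n => ∑ i, z i * pd i F z) x + pd a F x := by
    have hder := (hd1s.hasFDerivAt.sub hd2s.hasFDerivAt).add (tDiff hF x).hasFDerivAt
    have h2 : fderiv ℝ (fun z => Lop ψ F z + F z) x = _ := hder.fderiv
    have h3 : pd a (fun z => Lop ψ F z + F z) x = fderiv ℝ (fun z => Lop ψ F z + F z) x (ei a) := rfl
    rw [h3, h2]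
    rfl
  rw [e1]
  rw [pd_sum (f := fun i z => ∑ j, tau ψ z i j * hess F z i j) a
    fun i _ => DifferentiableAt.fun_sum fun j _ => hd1 i j]
  rw [pd_sum (f := fun i (z : E n) => z i * pd i F z) a fun i _ => hd2 i]
  have e2 : ∀ i, pd a (fun z => ∑ j, tau ψ z i j * hess F z i j) x
      = ∑ j, (tau ψ x i j * pd a (fun z => hess F z i j) x
        + pd a (fun z => tau ψ z i j) x * hess F x i j) := by
    intro i
    rw [pd_sum (f := fun j z => tau ψ z i j * hess F z i j) a fun j _ => hd1 i j]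
    exact Finset.sum_congr rfl fun j _ => B294.pd_mul a (hx.1 i j) (hFd i j x)
  have e3 : ∀ i, pd a (fun z : E n => z i * pd i F z) x
      = x i * hess F x a i + (if i = a then 1 else 0) * pd i F x := by
    intro i
    rw [B294.pd_mul a (hc i x) (hF1 i x), pd_coord]
    rfl
  simp only [e2, e3, Finset.sum_add_distrib]
  simp
  ring

/-- the pointwise identity at good points -/
lemma key_div (h : MM ψ V c C M) {x : E n} (hx : Good ψ x) {F W : E n → ℝ} (hF : Test F)
    (hW : ContDiff ℝ (⊤ : ℕ∞) W) :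
    ∑ b, pd b W x * fld ψ (fun z => Lop ψ F z + F z) b x
      = (∑ d, ∑ a, tau ψ x d a * pd a (Gd ψ W F d) x)
        - (hess W x * tau ψ x * hess F x * tau ψ x).trace - ∑ d, x d * Gd ψ W F d x := by
  have hFs : ∀ i j, hess F x i j = hess F x j i := fun i j =>
    hess_symm (hF.1.of_le (by norm_cast)) x i j
  -- first term
  have T1 : ∑ d, ∑ a, ∑ b, ∑ k, tau ψ x d a * (hess W x a b * hess F x k d * tau ψ x b k)
      = (hess W x * tau ψ x * hess F x * tau ψ x).trace := by
    rw [Matrix.trace]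
    simp only [Matrix.diag_apply, Matrix.mul_apply, Finset.sum_mul]
    rw [Finset.sum_comm]
    refine Finset.sum_congr rfl fun a _ => Finset.sum_congr rfl fun d _ => ?_
    rw [Finset.sum_comm]
    refine Finset.sum_congr rfl fun k _ => Finset.sum_congr rfl fun b _ => ?_
    ring
  have T2 : ∑ d, ∑ a, ∑ b, ∑ k, tau ψ x d a * (pd b W x * pd a (fun z => hess F z k d) x
        * tau ψ x b k)
      = ∑ b, ∑ k, ∑ a, ∑ d, pd b W x * (tau ψ x b k * (tau ψ x a d
        * pd k (fun z => hess F z a d) x)) := by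
    rw [s4]
    refine Finset.sum_congr rfl fun b _ => Finset.sum_congr rfl fun k _ =>
      Finset.sum_congr rfl fun a _ => Finset.sum_congr rfl fun d _ => ?_
    rw [third_test hF x a k d, tau_symm h x d a]
    ring
  have T3 : ∑ d, ∑ a, ∑ b, ∑ k, tau ψ x d a * (pd b W x * hess F x k d
        * pd a (fun z => tau ψ z b k) x)
      = ∑ b, ∑ k, ∑ i, ∑ j, pd b W x * (tau ψ x b k * (pd k (fun z => tau ψ z i j) x
        * hess F x i j)) := by
    have l1 : ∑ d, ∑ a, ∑ b, ∑ k, tau ψ x d a * (pd b W x * hess F x k d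
        * pd a (fun z => tau ψ z b k) x) = ∑ d, ∑ b, ∑ k, pd b W x * hess F x k d * Sd ψ x d b k := by
      refine Finset.sum_congr rfl fun d _ => ?_
      rw [s3]
      refine Finset.sum_congr rfl fun b _ => Finset.sum_congr rfl fun k _ => ?_
      unfold Sd
      rw [Finset.mul_sum]
      exact Finset.sum_congr rfl fun a _ => by ring
    have l2 : ∑ b, ∑ k, ∑ i, ∑ j, pd b W x * (tau ψ x b k * (pd k (fun z => tau ψ z i j) x
        * hess F x i j)) = ∑ b, ∑ i, ∑ j, pd b W x * hess F x i j * Sd ψ x b i j := by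
      refine Finset.sum_congr rfl fun b _ => ?_
      rw [s3]
      refine Finset.sum_congr rfl fun i _ => Finset.sum_congr rfl fun j _ => ?_
      unfold Sd
      rw [Finset.mul_sum]
      exact Finset.sum_congr rfl fun a _ => by ring
    rw [l1, l2, Finset.sum_comm]
    refine Finset.sum_congr rfl fun b _ => Finset.sum_congr rfl fun d _ =>
      Finset.sum_congr rfl fun k _ => ?_
    rw [Sd_symm12 h hx d b k, hFs k d]
  have T4 : ∑ d, x d * Gd ψ W F d x
      = ∑ b, ∑ k, ∑ d, pd b W x * (tau ψ x b k * (x d * hess F x k d)) := by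
    unfold Gd
    simp only [Finset.mul_sum]
    rw [s3]
    refine Finset.sum_congr rfl fun b _ => Finset.sum_congr rfl fun k _ =>
      Finset.sum_congr rfl fun d _ => ?_
    ring
  have R : ∑ d, ∑ a, tau ψ x d a * pd a (Gd ψ W F d) x
      = (hess W x * tau ψ x * hess F x * tau ψ x).trace
        + ∑ b, ∑ k, ∑ a, ∑ d, pd b W x * (tau ψ x b k * (tau ψ x a d
        * pd k (fun z => hess F z a d) x))
        + ∑ b, ∑ k, ∑ i, ∑ j, pd b W x * (tau ψ x b k * (pd k (fun z => tau ψ z i j) x
        * hess F x i j)) := by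
    rw [← T1, ← T2, ← T3]
    simp only [pd_Gd hx hF hW, Finset.mul_sum, mul_add, Finset.sum_add_distrib]
  have L : ∑ b, pd b W x * fld ψ (fun z => Lop ψ F z + F z) b x
      = ∑ b, ∑ k, ∑ a, ∑ d, pd b W x * (tau ψ x b k * (tau ψ x a d
        * pd k (fun z => hess F z a d) x))
        + ∑ b, ∑ k, ∑ i, ∑ j, pd b W x * (tau ψ x b k * (pd k (fun z => tau ψ z i j) x
        * hess F x i j))
        - ∑ b, ∑ k, ∑ d, pd b W x * (tau ψ x b k * (x d * hess F x k d)) := by
    unfold fld
    simp only [pd_LF hx hF, Finset.mul_sum, mul_add, mul_sub, Finset.sum_add_distrib,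
      Finset.sum_sub_distrib]
  rw [L, R, T4]
  ring

theorem stmtDiv : StmtDiv := by
  intro n ψ V c C M hV h F W hF hW
  unfold Ex
  rw [← neg_div]
  congr 1
  have hG : ∀ d, LC (Gd ψ W F d) := fun d => LC_Gd h hF hW d
  have i1 : ∀ d, Integrable (fun x => (∑ a, tau ψ x d a * pd a (Gd ψ W F d) x)
      * Real.exp (-(V x))) := fun d => (hG d).integrable_core hV h d
  have i2 : ∀ d, Integrable (fun x => (x d * Gd ψ W F d x) * Real.exp (-(V x))) := fun d =>
    hV.toReg.integrable_gr ((Gr.coord d).mul (hG d).gr)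
  have i3 : Integrable (fun x => (hess W x * tau ψ x * hess F x * tau ψ x).trace
      * Real.exp (-(V x))) := by
    refine hV.toReg.integrable_gr ?_
    have e : (fun x => (hess W x * tau ψ x * hess F x * tau ψ x).trace)
        = fun x => ∑ a, ∑ d, ∑ k, ∑ b, (hess W x a b * hess F x k d) * (tau ψ x b k * tau ψ x d a) := by
      funext x
      rw [Matrix.trace]
      simp only [Matrix.diag_apply, Matrix.mul_apply, Finset.sum_mul]
      refine Finset.sum_congr rfl fun a _ => Finset.sum_congr rfl fun d _ =>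
        Finset.sum_congr rfl fun k _ => Finset.sum_congr rfl fun b _ => ?_
      ring
    rw [e]
    refine Gr.sum _ fun a _ => Gr.sum _ fun d _ => Gr.sum _ fun k _ => Gr.sum _ fun b _ => ?_
    have ht : Test (fun x => hess W x a b * hess F x k d) :=
      ⟨(contDiff_hess_top hW a b).mul (test_hess hF k d).1, (test_hess hF k d).2.mul_left⟩
    exact (tGr ht).mul ((gr_tau h b k).mul (gr_tau h d a))
  have key : ∀ᵐ x, (∑ b, pd b W x * fld ψ (fun z => Lop ψ F z + F z) b x) * Real.exp (-(V x))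
      = ((∑ d, (∑ a, tau ψ x d a * pd a (Gd ψ W F d) x) * Real.exp (-(V x)))
        - ∑ d, (x d * Gd ψ W F d x) * Real.exp (-(V x)))
        - (hess W x * tau ψ x * hess F x * tau ψ x).trace * Real.exp (-(V x)) := by
    filter_upwards [ae_good h] with x hx
    rw [key_div h hx hF hW, ← Finset.sum_mul, ← Finset.sum_mul]
    ring
  rw [integral_congr_ae key]
  have hs1 : Integrable (fun x => ∑ d, (∑ a, tau ψ x d a * pd a (Gd ψ W F d) x)
      * Real.exp (-(V x))) := integrable_finsetSum _ fun d _ => i1 d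
  have hs2 : Integrable (fun x => ∑ d, (x d * Gd ψ W F d x) * Real.exp (-(V x))) :=
    integrable_finsetSum _ fun d _ => i2 d
  have hs3 : Integrable (fun x => (∑ d, (∑ a, tau ψ x d a * pd a (Gd ψ W F d) x)
      * Real.exp (-(V x))) - ∑ d, (x d * Gd ψ W F d x) * Real.exp (-(V x))) := hs1.sub hs2
  rw [integral_sub hs3 i3, integral_sub hs1 hs2, integral_finsetSum _ fun d _ => i1 d,
    integral_finsetSum _ fun d _ => i2 d, Finset.sum_congr rfl fun d _ => (hG d).core h d]
  ring

end Vale.Agent.P227.M.B294
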