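import Mathlib

/-! Pointwise algebra for the key inequality of P227 (for helper590). Mathlib only. -/

open Matrix Finset
open scoped MatrixOrder

namespace P227M.XAlg

variable {n : ℕ}

lemma sum_rev3 (f : Fin n → Fin n → Fin n → ℝ) :
    ∑ a, ∑ b, ∑ c, f a b c = ∑ c, ∑ b, ∑ a, f a b c := by
  calc ∑ a, ∑ b, ∑ c, f a b c = ∑ b, ∑ a, ∑ c, f a b c := Finset.sum_comm
    _ = ∑ b, ∑ c, ∑ a, f a b c := Finset.sum_congr rfl fun b _ => Finset.sum_comm
    _ = ∑ c, ∑ b, ∑ a, f a b c := Finset.sum_comm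

lemma sum_rev4 (f : Fin n → Fin n → Fin n → Fin n → ℝ) :
    ∑ a, ∑ b, ∑ c, ∑ d, f a b c d = ∑ d, ∑ c, ∑ b, ∑ a, f a b c d := by
  calc ∑ a, ∑ b, ∑ c, ∑ d, f a b c d = ∑ a, ∑ d, ∑ c, ∑ b, f a b c d :=
        Finset.sum_congr rfl fun a _ => sum_rev3 _
    _ = ∑ d, ∑ a, ∑ c, ∑ b, f a b c d := Finset.sum_comm
    _ = ∑ d, ∑ c, ∑ a, ∑ b, f a b c d := Finset.sum_congr rfl fun d _ => Finset.sum_comm
    _ = ∑ d, ∑ c, ∑ b, ∑ a, f a b c d :=
        Finset.sum_congr rfl fun d _ => Finset.sum_congr rfl fun c _ => Finset.sum_comm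

lemma trace_self_transpose_add (K : Matrix (Fin n) (Fin n) ℝ) :
    0 ≤ (K * Kᵀ).trace + (K * K).trace := by
  have h1 : (K * Kᵀ).trace = ∑ i, ∑ j, K i j * K i j := by
    simp [Matrix.trace, Matrix.mul_apply]
  have h2 : (K * K).trace = ∑ i, ∑ j, K i j * K j i := by
    simp [Matrix.trace, Matrix.mul_apply]
  have h3 : ∑ i, ∑ j, K i j * K i j = ∑ i, ∑ j, K j i * K j i := Finset.sum_comm
  have h4 : (K * Kᵀ).trace + (K * K).trace = (1 / 2) * ∑ i, ∑ j, (K i j + K j i) ^ 2 := by
    have : ∑ i, ∑ j, (K i j + K j i) ^ 2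
        = ∑ i, ∑ j, K i j * K i j + ∑ i, ∑ j, K j i * K j i + 2 * ∑ i, ∑ j, K i j * K j i := by
      rw [Finset.mul_sum, ← Finset.sum_add_distrib, ← Finset.sum_add_distrib]
      refine Finset.sum_congr rfl fun i _ => ?_
      rw [Finset.mul_sum, ← Finset.sum_add_distrib, ← Finset.sum_add_distrib]
      refine Finset.sum_congr rfl fun j _ => ?_
      ring
    rw [h1, h2, this, ← h3]
    ring
  rw [h4]
  positivity

lemma exists_factor (t : Matrix (Fin n) (Fin n) ℝ) (ht : t.PosDef) :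
    ∃ S R : Matrix (Fin n) (Fin n) ℝ, t = S * Sᵀ ∧ S * R = 1 ∧ R * S = 1 := by
  obtain ⟨B, hB⟩ := CStarAlgebra.nonneg_iff_eq_star_mul_self.mp ht.posSemidef.nonneg
  have hB' : t = Bᵀ * B := by
    rw [hB, Matrix.star_eq_conjTranspose, Matrix.conjTranspose_eq_transpose_of_trivial]
  have hdet : t.det ≠ 0 := ht.det_pos.ne'
  have hdB : B.det ≠ 0 := by
    intro h
    apply hdet
    rw [hB', Matrix.det_mul, h, mul_zero]
  have hu : IsUnit (Bᵀ).det := by
    rw [Matrix.det_transpose]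
    exact hdB.isUnit
  refine ⟨Bᵀ, (Bᵀ)⁻¹, ?_, Matrix.mul_nonsing_inv _ hu, Matrix.nonsing_inv_mul _ hu⟩
  rw [Matrix.transpose_transpose]
  exact hB'

lemma quad_nonneg (S R X : Matrix (Fin n) (Fin n) ℝ) (hSR : S * R = 1) :
    0 ≤ (Rᵀ * R * X * (S * Sᵀ) * Xᵀ).trace + (X * X).trace := by
  have h := trace_self_transpose_add (R * X * S)
  have e1 : ((R * X * S) * (R * X * S)ᵀ).trace = (Rᵀ * R * X * (S * Sᵀ) * Xᵀ).trace := by
    have : (R * X * S) * (R * X * S)ᵀ = (R * X * (S * Sᵀ) * Xᵀ) * Rᵀ := by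
      rw [Matrix.transpose_mul, Matrix.transpose_mul]
      simp only [Matrix.mul_assoc]
    rw [this, Matrix.trace_mul_comm]
    simp only [Matrix.mul_assoc]
  have e2 : ((R * X * S) * (R * X * S)).trace = (X * X).trace := by
    have : (R * X * S) * (R * X * S) = R * (X * X * S) := by
      calc (R * X * S) * (R * X * S) = R * X * (S * R) * X * S := by
            simp only [Matrix.mul_assoc]
        _ = R * (X * X * S) := by
            rw [hSR]; simp only [Matrix.mul_one, Matrix.mul_assoc]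
    rw [this, Matrix.trace_mul_comm, Matrix.mul_assoc, hSR, Matrix.mul_one]
  rw [e1, e2] at h
  exact h

/-- `tr (B^2) ≥ 0` when `t B` is symmetric, `t` positive definite. -/
theorem tr_sq_nonneg (t B : Matrix (Fin n) (Fin n) ℝ) (ht : t.PosDef)
    (hB : (t * B).IsSymm) : 0 ≤ (B * B).trace := by
  obtain ⟨S, R, hS, hSR, hRS⟩ := exists_factor t ht
  have hRS' : Sᵀ * Rᵀ = 1 := by rw [← Matrix.transpose_mul, hRS, Matrix.transpose_one]
  have hSR' : Rᵀ * Sᵀ = 1 := by rw [← Matrix.transpose_mul, hSR, Matrix.transpose_one]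
  set K := Sᵀ * B * Rᵀ with hK
  have hK1 : K = R * (t * B) * Rᵀ := by
    rw [hK, hS]
    calc Sᵀ * B * Rᵀ = (R * S) * Sᵀ * B * Rᵀ := by rw [hRS, Matrix.one_mul]
      _ = R * (S * Sᵀ * B) * Rᵀ := by simp only [Matrix.mul_assoc]
  have hKs : Kᵀ = K := by
    rw [hK1, Matrix.transpose_mul, Matrix.transpose_mul, hB.eq, Matrix.transpose_transpose]
    simp only [Matrix.mul_assoc]
  have e : (K * K).trace = (B * B).trace := by
    have : K * K = Sᵀ * (B * B * Rᵀ) := by
      calc K * K = Sᵀ * B * (Rᵀ * Sᵀ) * B * Rᵀ := by rw [hK]; simp only [Matrix.mul_assoc]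
        _ = Sᵀ * (B * B * Rᵀ) := by rw [hSR']; simp only [Matrix.mul_one, Matrix.mul_assoc]
    rw [this, Matrix.trace_mul_comm, Matrix.mul_assoc, hSR', Matrix.mul_one]
  have h := trace_self_transpose_add K
  rw [hKs, e] at h
  linarith

/-- quadratic form of a PSD matrix with values in a nonnegative form -/
lemma sum_form_nonneg (S R : Matrix (Fin n) (Fin n) ℝ) (hSR : S * R = 1)
    (G : Fin n → Matrix (Fin n) (Fin n) ℝ) :
    0 ≤ ∑ k, ∑ f, (S * Sᵀ) k f *
      ((Rᵀ * R * G k * (S * Sᵀ) * (G f)ᵀ).trace + (G k * G f).trace) := by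
  set H : Fin n → Matrix (Fin n) (Fin n) ℝ := fun i => ∑ k, S k i • G k with hH
  have e : ∑ k, ∑ f, (S * Sᵀ) k f *
      ((Rᵀ * R * G k * (S * Sᵀ) * (G f)ᵀ).trace + (G k * G f).trace)
      = ∑ i, ((Rᵀ * R * H i * (S * Sᵀ) * (H i)ᵀ).trace + (H i * H i).trace) := by
    have e1 : ∀ i, (Rᵀ * R * H i * (S * Sᵀ) * (H i)ᵀ).trace + (H i * H i).trace
        = ∑ k, ∑ f, S k i * S f i *
          ((Rᵀ * R * G k * (S * Sᵀ) * (G f)ᵀ).trace + (G k * G f).trace) := by
      intro i
      have a1 : (Rᵀ * R * H i * (S * Sᵀ) * (H i)ᵀ).trace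
          = ∑ k, ∑ f, S k i * S f i * (Rᵀ * R * G k * (S * Sᵀ) * (G f)ᵀ).trace := by
        simp only [hH, Matrix.transpose_sum, Matrix.transpose_smul, Matrix.mul_sum,
          Matrix.sum_mul, Matrix.mul_smul, Matrix.smul_mul, Matrix.trace_sum, Matrix.trace_smul,
          smul_eq_mul]
        rw [Finset.sum_comm]
        refine Finset.sum_congr rfl fun k _ => ?_
        rw [Finset.mul_sum]
        refine Finset.sum_congr rfl fun f _ => ?_
        ring
      have a2 : (H i * H i).trace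
          = ∑ k, ∑ f, S k i * S f i * (G k * G f).trace := by
        simp only [hH, Matrix.mul_sum,
          Matrix.sum_mul, Matrix.mul_smul, Matrix.smul_mul, Matrix.trace_sum, Matrix.trace_smul,
          smul_eq_mul]
        rw [Finset.sum_comm]
        refine Finset.sum_congr rfl fun k _ => ?_
        rw [Finset.mul_sum]
        refine Finset.sum_congr rfl fun f _ => ?_
        ring
      rw [a1, a2, ← Finset.sum_add_distrib]
      refine Finset.sum_congr rfl fun k _ => ?_
      rw [← Finset.sum_add_distrib]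
      refine Finset.sum_congr rfl fun f _ => ?_
      ring
    simp_rw [e1]
    symm
    rw [Finset.sum_comm]
    refine Finset.sum_congr rfl fun k _ => ?_
    rw [Finset.sum_comm]
    refine Finset.sum_congr rfl fun f _ => ?_
    rw [← Finset.sum_mul]
    congr 1
  rw [e]
  exact Finset.sum_nonneg fun i _ => quad_nonneg S R (H i) hSR

/-- The pointwise inequality (flexible form: `U`, `DU` given with defining equations). -/
theorem key_alg' (t : Matrix (Fin n) (Fin n) ℝ) (ht : t.PosDef)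
    (N : Matrix (Fin n) (Fin n) ℝ) (hN : ∀ i j, N i j = N j i)
    (F3 p : Fin n → Fin n → Fin n → ℝ)
    (hF1 : ∀ a b c, F3 a b c = F3 b a c) (hF2 : ∀ a b c, F3 a b c = F3 a c b)
    (hp : ∀ a b c, p a b c = p a c b)
    (hSY : ∀ a b c, ∑ e, t a e * p e b c = ∑ e, t b e * p e a c)
    (U : Fin n → Fin n → ℝ) (hU : ∀ b d, U b d = ∑ e, t b e * N e d)
    (DU : Fin n → Fin n → Fin n → ℝ)
    (hDU : ∀ a b d, DU a b d = (∑ e, p a b e * N e d) + ∑ e, t b e * F3 a e d) :
    0 ≤ (∑ a, ∑ b, ∑ d, (∑ f, t d f * DU f a b) * DU a b d)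
      + (∑ a, ∑ b, ∑ d, ∑ e, p a d e * DU e a b * U b d)
      + (∑ a, ∑ b, ∑ d, (∑ f, t a f * DU f b d) * (∑ f, t d f * F3 f a b)) := by
  obtain ⟨S, R, hS, hSR, hRS⟩ := exists_factor t ht
  have hts : ∀ i j, t i j = t j i := by
    intro i j
    have := ht.isHermitian.apply i j
    simpa using this.symm
  have htT : tᵀ = t := by
    ext i j
    rw [Matrix.transpose_apply, hts]
  set s : Matrix (Fin n) (Fin n) ℝ := Rᵀ * R with hs
  have hst : s * t = 1 := by
    rw [hs, hS]
    calc Rᵀ * R * (S * Sᵀ) = Rᵀ * (R * S) * Sᵀ := by simp only [Matrix.mul_assoc]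
      _ = Rᵀ * Sᵀ := by rw [hRS, Matrix.mul_one]
      _ = 1 := by rw [← Matrix.transpose_mul, hSR, Matrix.transpose_one]
  have hts1 : t * s = 1 := by
    rw [hs, hS]
    calc (S * Sᵀ) * (Rᵀ * R) = S * (Sᵀ * Rᵀ) * R := by simp only [Matrix.mul_assoc]
      _ = S * R := by rw [← Matrix.transpose_mul, hRS, Matrix.transpose_one, Matrix.mul_one]
      _ = 1 := hSR
  -- matrices
  set P : Fin n → Matrix (Fin n) (Fin n) ℝ := fun a => Matrix.of (p a) with hP
  set F : Fin n → Matrix (Fin n) (Fin n) ℝ := fun a => Matrix.of (F3 a) with hF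
  set G : Fin n → Matrix (Fin n) (Fin n) ℝ := fun a => P a * N + t * F a with hG
  set Q : Fin n → Matrix (Fin n) (Fin n) ℝ := fun k => ∑ f, t k f • P f with hQ
  set Φ : Fin n → Matrix (Fin n) (Fin n) ℝ := fun k => ∑ f, t k f • F f with hΦ
  have hGa : ∀ a b d, DU a b d = G a b d := by
    intro a b d
    rw [hDU]
    simp only [hG, hP, hF, Matrix.add_apply, Matrix.mul_apply, Matrix.of_apply]
  have hQa : ∀ k b c, Q k b c = ∑ f, t k f * p f b c := by
    intro k b c
    simp only [hQ, hP, Matrix.sum_apply, Matrix.smul_apply, Matrix.of_apply, smul_eq_mul]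
  have hΦa : ∀ k b c, Φ k b c = ∑ f, t k f * F3 f b c := by
    intro k b c
    simp only [hΦ, hF, Matrix.sum_apply, Matrix.smul_apply, Matrix.of_apply, smul_eq_mul]
  have hQ1 : ∀ a b c, Q a b c = Q a c b := by
    intro a b c
    rw [hQa, hQa]
    exact Finset.sum_congr rfl fun f _ => by rw [hp]
  have hQ2 : ∀ a b c, Q a b c = Q b a c := by
    intro a b c
    rw [hQa, hQa]
    exact hSY a b c
  have hQT : ∀ k, (Q k)ᵀ = Q k := by
    intro k
    ext b c
    rw [Matrix.transpose_apply, hQ1]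
  have hΦT : ∀ k, (Φ k)ᵀ = Φ k := by
    intro k
    ext b c
    rw [Matrix.transpose_apply, hΦa, hΦa]
    exact Finset.sum_congr rfl fun f _ => by rw [hF2]
  have hNT : Nᵀ = N := by
    ext b c
    rw [Matrix.transpose_apply, hN]
  set M : Fin n → Matrix (Fin n) (Fin n) ℝ := fun k => ∑ f, t k f • G f with hM
  have hMa : ∀ k b c, M k b c = ∑ f, t k f * DU f b c := by
    intro k b c
    simp only [hM, Matrix.sum_apply, Matrix.smul_apply, smul_eq_mul, hGa]
  have hMQ : ∀ k, M k = Q k * N + t * Φ k := by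
    intro k
    simp only [hM, hG, hQ, hΦ, smul_add, Finset.sum_add_distrib, Matrix.sum_mul, Matrix.mul_sum,
      Matrix.smul_mul, Matrix.mul_smul]
  have hMs : ∀ k b c, M k b c = M b k c := by
    intro k b c
    rw [hMQ, hMQ, Matrix.add_apply, Matrix.add_apply, Matrix.mul_apply, Matrix.mul_apply,
      Matrix.mul_apply, Matrix.mul_apply]
    congr 1
    · exact Finset.sum_congr rfl fun e _ => by rw [hQ2]
    · simp only [hΦa, Finset.mul_sum]
      rw [Finset.sum_comm]
      refine Finset.sum_congr rfl fun f _ => Finset.sum_congr rfl fun e _ => ?_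
      rw [hF1 e f c]
      ring
  -- first term
  have T1 : (∑ a, ∑ b, ∑ d, (∑ f, t d f * DU f a b) * DU a b d)
      = ∑ k, ∑ f, t k f * (G k * G f).trace := by
    have e1 : (∑ a, ∑ b, ∑ d, (∑ f, t d f * DU f a b) * DU a b d)
        = ∑ a, (G a * M a).trace := by
      refine Finset.sum_congr rfl fun a _ => ?_
      simp only [Matrix.trace, Matrix.diag_apply, Matrix.mul_apply]
      refine Finset.sum_congr rfl fun b _ => Finset.sum_congr rfl fun d _ => ?_
      rw [← hMa, hMs d a b, hGa]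
      ring
    rw [e1]
    refine Finset.sum_congr rfl fun k _ => ?_
    simp only [hM, Matrix.mul_sum, Matrix.mul_smul, Matrix.trace_sum, Matrix.trace_smul,
      smul_eq_mul]
  -- second term
  have hPs : ∀ a, ∀ d e, p a d e = ∑ c, s a c * Q c d e := by
    intro a d e
    simp only [hQa, Finset.mul_sum]
    rw [Finset.sum_comm]
    have : ∀ f, ∑ c, s a c * (t c f * p f d e) = (s * t) a f * p f d e := by
      intro f
      rw [Matrix.mul_apply, Finset.sum_mul]
      exact Finset.sum_congr rfl fun c _ => by ring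
    simp_rw [this, hst, Matrix.one_apply]
    simp
  have hsT : ∀ i j, s i j = s j i := by
    intro i j
    simp only [hs, Matrix.mul_apply, Matrix.transpose_apply]
    exact Finset.sum_congr rfl fun c _ => by ring
  have T2 : (∑ a, ∑ b, ∑ d, ∑ e, p a d e * DU e a b * U b d)
      = ∑ e, (s * G e * (t * N) * Q e).trace := by
    have e0 : (∑ a, ∑ b, ∑ d, ∑ e, p a d e * DU e a b * U b d)
        = ∑ e, ∑ a, ∑ b, ∑ d, p a d e * DU e a b * U b d := by
      calc (∑ a, ∑ b, ∑ d, ∑ e, p a d e * DU e a b * U b d)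
          = ∑ a, ∑ b, ∑ e, ∑ d, p a d e * DU e a b * U b d :=
            Finset.sum_congr rfl fun a _ => Finset.sum_congr rfl fun b _ => Finset.sum_comm
        _ = ∑ a, ∑ e, ∑ b, ∑ d, p a d e * DU e a b * U b d :=
            Finset.sum_congr rfl fun a _ => Finset.sum_comm
        _ = _ := Finset.sum_comm
    rw [e0]
    refine Finset.sum_congr rfl fun e _ => ?_
    have e1 : (∑ a, ∑ b, ∑ d, p a d e * DU e a b * U b d)
        = ∑ a, ∑ b, ∑ d, ∑ c, s a c * Q c d e * (DU e a b * U b d) := by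
      refine Finset.sum_congr rfl fun a _ => Finset.sum_congr rfl fun b _ =>
        Finset.sum_congr rfl fun d _ => ?_
      rw [← Finset.sum_mul, ← hPs]
      ring
    have e2 : (s * G e * (t * N) * Q e).trace
        = ∑ c, ∑ d, ∑ b, ∑ a, s a c * Q c d e * (DU e a b * U b d) := by
      simp only [Matrix.trace, Matrix.diag_apply]
      refine Finset.sum_congr rfl fun c _ => ?_
      rw [Matrix.mul_apply]
      refine Finset.sum_congr rfl fun d _ => ?_
      rw [Matrix.mul_apply, Finset.sum_mul]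
      refine Finset.sum_congr rfl fun b _ => ?_
      rw [Matrix.mul_apply, Finset.sum_mul, Finset.sum_mul]
      refine Finset.sum_congr rfl fun a _ => ?_
      have q : Q e d c = Q c d e := by rw [hQ1 e d c, hQ2 e c d, hQ1 c e d]
      have u : (t * N) b d = U b d := by rw [hU, Matrix.mul_apply]
      rw [q, u, hsT c a, ← hGa]
      ring
    rw [e1, e2]
    exact sum_rev4 _
  have hsw : ∀ d f b, ∑ a, t f a * Φ d a b = ∑ g, t d g * Φ f g b := by
    intro d f b
    simp only [hΦa, Finset.mul_sum]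
    rw [Finset.sum_comm]
    refine Finset.sum_congr rfl fun g _ => Finset.sum_congr rfl fun a _ => ?_
    rw [hF1 g a b]
    ring
  have T3 : (∑ a, ∑ b, ∑ d, (∑ f, t a f * DU f b d) * (∑ f, t d f * F3 f a b))
      = ∑ k, (G k * t * Φ k).trace := by
    have e1 : (∑ a, ∑ b, ∑ d, (∑ f, t a f * DU f b d) * (∑ f, t d f * F3 f a b))
        = ∑ a, ∑ b, ∑ d, ∑ f, t f a * Φ d a b * DU f b d := by
      refine Finset.sum_congr rfl fun a _ => Finset.sum_congr rfl fun b _ =>
        Finset.sum_congr rfl fun d _ => ?_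
      rw [← hΦa, Finset.sum_mul]
      refine Finset.sum_congr rfl fun f _ => ?_
      rw [hts a f]
      ring
    have e2 : ∑ k, (G k * t * Φ k).trace
        = ∑ f, ∑ d, ∑ b, ∑ a, t f a * Φ d a b * DU f b d := by
      refine Finset.sum_congr rfl fun f _ => ?_
      have : ∑ d, ∑ b, ∑ a, t f a * Φ d a b * DU f b d
          = ∑ d, ∑ b, DU f b d * ∑ g, t d g * Φ f g b := by
        refine Finset.sum_congr rfl fun d _ => Finset.sum_congr rfl fun b _ => ?_
        rw [← hsw, Finset.mul_sum]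
        exact Finset.sum_congr rfl fun a _ => by ring
      rw [this, Finset.sum_comm]
      simp only [Matrix.trace, Matrix.diag_apply]
      refine Finset.sum_congr rfl fun b _ => ?_
      rw [Matrix.mul_assoc, Matrix.mul_apply]
      refine Finset.sum_congr rfl fun d _ => ?_
      rw [Matrix.mul_apply, ← hGa]
    rw [e1, e2]
    exact sum_rev4 _
  have T23 : ∑ e, (s * G e * (t * N) * Q e).trace + ∑ k, (G k * t * Φ k).trace
      = ∑ k, ∑ f, t k f * (s * G k * t * (G f)ᵀ).trace := by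
    rw [← Finset.sum_add_distrib]
    refine Finset.sum_congr rfl fun k _ => ?_
    have e1 : ∑ f, t k f * (s * G k * t * (G f)ᵀ).trace = (s * G k * t * (M k)ᵀ).trace := by
      simp only [hM, Matrix.transpose_sum, Matrix.transpose_smul, Matrix.mul_sum,
        Matrix.mul_smul, Matrix.trace_sum, Matrix.trace_smul, smul_eq_mul]
    rw [e1, hMQ, Matrix.transpose_add, Matrix.transpose_mul, Matrix.transpose_mul, hNT, hQT, htT,
      hΦT]
    generalize G k = X
    rw [Matrix.mul_add, Matrix.trace_add]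
    congr 1
    · simp only [Matrix.mul_assoc]
    · have : s * X * t * (Φ k * t) = s * (X * t * Φ k * t) := by
        simp only [Matrix.mul_assoc]
      rw [this, Matrix.trace_mul_comm s, Matrix.mul_assoc (X * t * Φ k) t s, hts1,
        Matrix.mul_one]
  rw [T1, T2, T3, add_assoc, T23, ← Finset.sum_add_distrib]
  have := sum_form_nonneg S R hSR G
  rw [← hS, ← hs] at this
  refine this.trans (le_of_eq ?_)
  refine Finset.sum_congr rfl fun k _ => ?_
  rw [← Finset.sum_add_distrib]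
  refine Finset.sum_congr rfl fun f _ => ?_
  ring

/-- The pointwise inequality, explicit form. -/
theorem key_alg (t : Matrix (Fin n) (Fin n) ℝ) (ht : t.PosDef)
    (N : Matrix (Fin n) (Fin n) ℝ) (hN : ∀ i j, N i j = N j i)
    (F3 p : Fin n → Fin n → Fin n → ℝ)
    (hF1 : ∀ a b c, F3 a b c = F3 b a c) (hF2 : ∀ a b c, F3 a b c = F3 a c b)
    (hp : ∀ a b c, p a b c = p a c b)
    (hSY : ∀ a b c, ∑ e, t a e * p e b c = ∑ e, t b e * p e a c) :
    0 ≤ (∑ a, ∑ b, ∑ d, (∑ f, t d f * ((∑ e, p f a e * N e b) + ∑ e, t a e * F3 f e b))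
          * ((∑ e, p a b e * N e d) + ∑ e, t b e * F3 a e d))
      + (∑ a, ∑ b, ∑ d, ∑ e, p a d e * ((∑ c, p e a c * N c b) + ∑ c, t a c * F3 e c b)
          * (∑ c, t b c * N c d))
      + (∑ a, ∑ b, ∑ d, (∑ f, t a f * ((∑ e, p f b e * N e d) + ∑ e, t b e * F3 f e d))
          * (∑ f, t d f * F3 f a b)) :=
  key_alg' t ht N hN F3 p hF1 hF2 hp hSY (fun b d => ∑ e, t b e * N e d) (fun _ _ => rfl)
    (fun a b d => (∑ e, p a b e * N e d) + ∑ e, t b e * F3 a e d) (fun _ _ _ => rfl)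

end P227M.XAlg
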