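import Vale.Agent.P227.M.ID.XOps

/-! P227/M, block ID (helper590): identities (A), (X), (B), (X3) for Lipschitz `τ`. -/

open MeasureTheory Set Metric Filter
open scoped Topology NNReal

namespace Vale.Agent.P227.M.X

variable {n : ℕ}

theorem smooth_pd {f : E n → ℝ} (hf : ContDiff ℝ (⊤ : ℕ∞) f) (a : Fin n) : ContDiff ℝ (⊤ : ℕ∞) (pd a f) :=
  (hf.fderiv_right (m := (⊤ : ℕ∞)) (by exact_mod_cast le_top)).clm_apply contDiff_const

theorem smooth_ll {f : E n → ℝ} (hf : ContDiff ℝ (⊤ : ℕ∞) f) : LL f :=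
  LL.of_contDiff (hf.of_le (by exact_mod_cast le_top))

theorem smooth_diff {f : E n → ℝ} (hf : ContDiff ℝ (⊤ : ℕ∞) f) (x : E n) : DifferentiableAt ℝ f x :=
  (hf.differentiable (by simp)) x

theorem pd_pd_comm {p : E n → ℝ} (hp : ContDiff ℝ (⊤ : ℕ∞) p) (x : E n) (e f : Fin n) :
    pd e (pd f p) x = pd f (pd e p) x := by
  have h2 : ContDiff ℝ 2 p := by exact_mod_cast (contDiff_infty.1 hp 2)
  have hsym := (h2.contDiffAt (x := x)).isSymmSndFDerivAt (by simp)
  have hdf : Differentiable ℝ (fderiv ℝ p) :=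
    (hp.fderiv_right (m := (⊤ : ℕ∞)) (by exact_mod_cast le_top)).differentiable (by simp)
  have e1 : ∀ u v : E n, fderiv ℝ (fun y => fderiv ℝ p y u) x v = fderiv ℝ (fderiv ℝ p) x v u := by
    intro u v
    rw [fderiv_clm_apply (hdf x) (differentiableAt_const _)]
    simp
  unfold M.pd
  rw [e1, e1]
  exact hsym.eq _ _

section
variable {t : Fin n → Fin n → E n → ℝ} {V : E n → ℝ} (h : TD t V)
include h

/-- `-L g = ∑ D*_a ∂_a g` -/
noncomputable def nL (t : Fin n → Fin n → E n → ℝ) (g : E n → ℝ) (x : E n) : ℝ := ∑ a, Ds t a (pd a g) x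

theorem ll_Ds {f : E n → ℝ} (hf : LL f) (hf' : ∀ e, LL (pd e f)) (a : Fin n) : LL (Ds t a f) :=
  ((coord_ll a).mul hf).sub (ll_D h hf' a)

theorem ll_nL {g : E n → ℝ} (hg : ContDiff ℝ (⊤ : ℕ∞) g) : LL (nL t g) :=
  LL.sum fun a _ => ll_Ds h (smooth_ll (smooth_pd hg a)) (fun e => smooth_ll (smooth_pd (smooth_pd hg a) e)) a

omit h in
theorem cs_nL {g : E n → ℝ} (hg : CS g) : CS (nL t g) := CS.sum fun a _ => cs_Ds (hg.pd a) a

/-- (LD) -/
theorem D_nL {g : E n → ℝ} (hg : ContDiff ℝ (⊤ : ℕ∞) g) :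
    ∀ᵐ x, ∀ d, D t d (nL t g) x = D t d g x + ∑ a, Ds t a (D t d (pd a g)) x := by
  have h1 : ∀ᵐ x, ∀ a, ∀ c d, D t c (D t d (pd a g)) x = D t d (D t c (pd a g)) x := by
    rw [ae_all_iff]; intro a
    exact comm h (smooth_pd hg a)
  have h2 : ∀ᵐ x, ∀ a, DifferentiableAt ℝ (D t a (pd a g)) x := by
    rw [ae_all_iff]; intro a
    exact (ll_D h (fun e => smooth_ll (smooth_pd (smooth_pd hg a) e)) a).ae_diff
  filter_upwards [h1, h2] with x h1x h2x
  intro d
  have e0 : nL t g = fun z => ∑ a, (z a * pd a g z - D t a (pd a g) z) := rfl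
  rw [e0, D_sum Finset.univ d (F := fun a z => z a * pd a g z - D t a (pd a g) z)
    (fun a _ => ((coord_diff a x).mul (smooth_diff (smooth_pd hg a) x)).sub (h2x a))]
  have e1 : ∀ a, D t d (fun z : E n => z a * pd a g z - D t a (pd a g) z) x =
      t d a x * pd a g x + Ds t a (D t d (pd a g)) x := by
    intro a
    rw [D_sub (f := fun z : E n => z a * pd a g z) d
      ((coord_diff a x).mul (smooth_diff (smooth_pd hg a) x)) (h2x a),
      D_mul d (coord_diff a x) (smooth_diff (smooth_pd hg a) x), D_coord]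
    unfold Ds
    rw [h1x a a d]; ring
  rw [Finset.sum_congr rfl fun a _ => e1 a, Finset.sum_add_distrib]
  rfl

/-- (L2) : `-L g = ∑ (V_a D_a g - ∂_a (D_a g))` -/
theorem nL_div {g : E n → ℝ} (hg : ContDiff ℝ (⊤ : ℕ∞) g) :
    ∀ᵐ x, nL t g x = ∑ a, (pd a V x * D t a g x - pd a (D t a g) x) := by
  filter_upwards [ae_t h, h.ST] with x htx hST
  have e1 : ∀ a, pd a (D t a g) x = ∑ e, (pd a (t a e) x * pd e g x + t a e x * pd a (pd e g) x) := by
    intro a
    unfold D
    rw [pd_sum Finset.univ a (F := fun e z => t a e z * pd e g z)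
      (fun e _ => (htx a e).mul (smooth_diff (smooth_pd hg e) x))]
    exact Finset.sum_congr rfl fun e _ => pd_mul a (htx a e) (smooth_diff (smooth_pd hg e) x)
  have e2 : ∑ a, (pd a V x * D t a g x - pd a (D t a g) x) =
      ∑ e, (∑ a, (pd a V x * t e a x - pd a (t e a) x)) * pd e g x - ∑ a, ∑ e, t a e x * pd a (pd e g) x := by
    simp only [e1, D, Finset.mul_sum, Finset.sum_mul, Finset.sum_add_distrib, Finset.sum_sub_distrib, sub_mul]
    rw [Finset.sum_comm (f := fun e a => pd a V x * t e a x * pd e g x),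
      Finset.sum_comm (f := fun e a => pd a (t e a) x * pd e g x)]
    have e3 : ∑ a, ∑ e, pd a V x * (t a e x * pd e g x) = ∑ a, ∑ e, pd a V x * t e a x * pd e g x :=
      Finset.sum_congr rfl fun a _ => Finset.sum_congr rfl fun e _ => by rw [h.symm a e]; ring
    have e4 : ∑ a, ∑ e, pd a (t a e) x * pd e g x = ∑ a, ∑ e, pd a (t e a) x * pd e g x :=
      Finset.sum_congr rfl fun a _ => Finset.sum_congr rfl fun e _ => by rw [h.symm a e]
    rw [e3, e4]; ring
  rw [e2, Finset.sum_congr rfl fun e _ => by rw [hST e]]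
  unfold nL Ds D
  rw [Finset.sum_sub_distrib]
  congr 1
  exact Finset.sum_congr rfl fun a _ => Finset.sum_congr rfl fun e _ => by rw [pd_pd_comm hg x e a]

/-- (A) for one pair `b, d` : `U = D_b ∂_d F`, `ℓ = -L ∂_b F` -/
theorem idA {F : E n → ℝ} (hF : ContDiff ℝ (⊤ : ℕ∞) F) (hc : CS F) (b d : Fin n) :
    I V (fun x => Ds t d (D t b (pd d F)) x * nL t (pd b F) x) =
      I V (fun x => D t b (pd d F) x * D t d (pd b F) x) +
        ∑ a, I V (fun x => D t a (D t b (pd d F)) x * D t d (pd a (pd b F)) x) := by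
  have hV := h.V_smooth
  have hb := smooth_pd hF b
  have hd := smooth_pd hF d
  have hU : LL (D t b (pd d F)) := ll_D h (fun e => smooth_ll (smooth_pd hd e)) b
  have hUc : CS (D t b (pd d F)) := cs_D (hc.pd d) b
  have hG : ∀ a, LL (D t d (pd a (pd b F))) := fun a =>
    ll_D h (fun e => smooth_ll (smooth_pd (smooth_pd hb a) e)) d
  have hGc : ∀ a, CS (D t d (pd a (pd b F))) := fun a => cs_D ((hc.pd b).pd a) d
  rw [← ibpD h hU (ll_nL h hb) (Or.inl hUc) d]
  have e1 : I V (fun x => D t b (pd d F) x * D t d (nL t (pd b F)) x) =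
      I V (fun x => D t b (pd d F) x * D t d (pd b F) x +
        ∑ a, D t b (pd d F) x * Ds t a (D t d (pd a (pd b F))) x) := by
    refine I_congr ?_
    filter_upwards [D_nL h hb] with x hx
    rw [hx d, mul_add, Finset.mul_sum]
  have hbc1 : BC (fun x => D t b (pd d F) x * D t d (pd b F) x) :=
    BC.mul ⟨hU.lb, hUc⟩ (bc_D h (smooth_ll hb) (hc.pd b) d)
  have hbc2 : ∀ a ∈ (Finset.univ : Finset (Fin n)),
      BC (fun x => D t b (pd d F) x * Ds t a (D t d (pd a (pd b F))) x) := fun a _ =>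
    BC.mul ⟨hU.lb, hUc⟩ (bc_Ds h (hG a) (hGc a) a)
  rw [e1, I_add hV hbc1 (BC.sum hbc2), I_sum hV hbc2]
  congr 1
  refine Finset.sum_congr rfl fun a _ => ?_
  have e2 := ibpD h (hG a) hU (Or.inl (hGc a)) a
  rw [I_congr' (g := fun x => Ds t a (D t d (pd a (pd b F))) x * D t b (pd d F) x) (fun x => mul_comm _ _), ← e2]
  exact I_congr' fun x => mul_comm _ _

/-- (X) -/
theorem idX {W Z : E n → ℝ} (hW : LL W) (hWc : CS W) (hZ : LL Z) (hZc : CS Z) (a d : Fin n) :
    I V (fun x => pd a W x * Ds t d Z x) =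
      I V (fun x => pd a V x * D t d W x * Z x) - I V (fun x => D t d W x * pd a Z x)
        - I V (fun x => ∑ e, pd a (t d e) x * pd e W x * Z x) := by
  have hV := h.V_smooth
  have htZ : ∀ e, LL (fun x => t d e x * Z x) := fun e => (h.ll d e).mul hZ
  have htZc : ∀ e, CS (fun x => t d e x * Z x) := fun e => hZc.mul_left _
  have e1 : I V (fun x => pd a W x * Ds t d Z x) =
      I V (fun x => ∑ e, pd a W x * (pd e V x * (t d e x * Z x) - pd e (fun x => t d e x * Z x) x)) := by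
    refine I_congr ?_
    filter_upwards [hZ.ae_diff, ae_t h, h.ST] with x hZx htx hST
    rw [← Finset.mul_sum]
    congr 1
    have e2 : ∀ e, pd e V x * (t d e x * Z x) - pd e (fun x => t d e x * Z x) x =
        (pd e V x * t d e x - pd e (t d e) x) * Z x - t d e x * pd e Z x := by
      intro e
      rw [pd_mul e (htx d e) hZx]; ring
    rw [Finset.sum_congr rfl fun e _ => e2 e, Finset.sum_sub_distrib, ← Finset.sum_mul, hST d]
    rfl
  have hbc : ∀ (i j : Fin n) (e : Fin n),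
      BC (fun x => pd i W x * (pd j V x * (t d e x * Z x) - pd j (fun x => t d e x * Z x) x)) := by
    intro i j e
    refine BC.mul ⟨LB.pd hW i, hWc.pd i⟩ (BC.sub ?_ ⟨LB.pd (htZ e) j, (htZc e).pd j⟩)
    exact BC.mul_left ⟨(htZ e).lb, htZc e⟩ (ll_pdV hV j).lb
  rw [e1, I_sum hV fun e _ => hbc a e e]
  have e3 : ∀ e, I V (fun x => pd a W x * (pd e V x * (t d e x * Z x) - pd e (fun x => t d e x * Z x) x)) =
      I V (fun x => pd e W x * (pd a V x * (t d e x * Z x) - pd a (fun x => t d e x * Z x) x)) :=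
    fun e => xxw (V_one hV) hW hWc (htZ e) (htZc e) a e
  rw [Finset.sum_congr rfl fun e _ => e3 e, ← I_sum hV fun e _ => hbc e a e]
  have hb1 : BC (fun x => pd a V x * D t d W x * Z x) :=
    BC.mul_left ⟨hZ.lb, hZc⟩ ((ll_pdV hV a).lb.mul (lb_D h hW d))
  have hb2 : BC (fun x => D t d W x * pd a Z x) := BC.mul_left ⟨LB.pd hZ a, hZc.pd a⟩ (lb_D h hW d)
  have hb3 : BC (fun x => ∑ e, pd a (t d e) x * pd e W x * Z x) :=
    BC.sum fun e _ => BC.mul_left ⟨hZ.lb, hZc⟩ ((LB.pd (h.ll d e) a).mul (LB.pd hW e))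
  rw [← I_sub hV hb1 hb2, ← I_sub hV (hb1.sub hb2) hb3]
  refine I_congr ?_
  filter_upwards [hZ.ae_diff, ae_t h] with x hZx htx
  unfold D
  rw [Finset.mul_sum, Finset.sum_mul, Finset.sum_mul, ← Finset.sum_sub_distrib, ← Finset.sum_sub_distrib]
  refine Finset.sum_congr rfl fun e _ => ?_
  rw [pd_mul a (htx d e) hZx]; ring

/-- (B) for one pair `b, d` -/
theorem idB {F : E n → ℝ} (hF : ContDiff ℝ (⊤ : ℕ∞) F) (hc : CS F) (b d : Fin n) :
    ∑ a, I V (fun x => D t d (pd a V) x * (D t a (pd b F) x * D t b (pd d F) x)) =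
      I V (fun x => Ds t d (D t b (pd d F)) x * nL t (pd b F) x)
        - ∑ a, I V (fun x => D t d (D t a (pd b F)) x * pd a (D t b (pd d F)) x)
        - ∑ a, I V (fun x => ∑ e, pd a (t d e) x * pd e (D t a (pd b F)) x * D t b (pd d F) x) := by
  have hV := h.V_smooth
  have hb := smooth_pd hF b
  have hd := smooth_pd hF d
  have hU : LL (D t b (pd d F)) := ll_D h (fun e => smooth_ll (smooth_pd hd e)) b
  have hUc : CS (D t b (pd d F)) := cs_D (hc.pd d) b
  have hW : ∀ a, LL (D t a (pd b F)) := fun a => ll_D h (fun e => smooth_ll (smooth_pd hb e)) a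
  have hWc : ∀ a, CS (D t a (pd b F)) := fun a => cs_D (hc.pd b) a
  have hVa : ∀ a, LL (pd a V) := fun a => ll_pdV hV a
  have hbc1 : ∀ a, BC (fun x => pd a V x * D t a (pd b F) x * Ds t d (D t b (pd d F)) x) := fun a =>
    BC.mul_left (bc_Ds h hU hUc d) ((hVa a).lb.mul (hW a).lb)
  have hbc2 : ∀ a, BC (fun x => pd a V x * D t d (D t a (pd b F)) x * D t b (pd d F) x) := fun a =>
    BC.mul_left ⟨hU.lb, hUc⟩ ((hVa a).lb.mul (lb_D h (hW a) d))
  have hbc3 : ∀ a, BC (fun x => pd a (D t a (pd b F)) x * Ds t d (D t b (pd d F)) x) := fun a =>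
    BC.mul ⟨LB.pd (hW a) a, (hWc a).pd a⟩ (bc_Ds h hU hUc d)
  have e1 : ∀ a, I V (fun x => D t d (pd a V) x * (D t a (pd b F) x * D t b (pd d F) x)) =
      I V (fun x => pd a V x * D t a (pd b F) x * Ds t d (D t b (pd d F)) x) -
        I V (fun x => pd a V x * D t d (D t a (pd b F)) x * D t b (pd d F) x) := by
    intro a
    have hWU : LL (fun x => D t a (pd b F) x * D t b (pd d F) x) := (hW a).mul hU
    have e2 := ibpD h hWU (hVa a) (Or.inl (hUc.mul_left _)) d
    rw [I_congr' (g := fun x => D t a (pd b F) x * D t b (pd d F) x * D t d (pd a V) x) (fun x => mul_comm _ _),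
      e2, ← I_sub hV (hbc1 a) (hbc2 a)]
    refine I_congr ?_
    filter_upwards [(hW a).ae_diff, hU.ae_diff] with x h1 h2
    unfold Ds
    rw [D_mul d h1 h2]; ring
  have e3 : ∀ a, I V (fun x => pd a V x * D t d (D t a (pd b F)) x * D t b (pd d F) x) =
      I V (fun x => pd a (D t a (pd b F)) x * Ds t d (D t b (pd d F)) x) +
        I V (fun x => D t d (D t a (pd b F)) x * pd a (D t b (pd d F)) x) +
        I V (fun x => ∑ e, pd a (t d e) x * pd e (D t a (pd b F)) x * D t b (pd d F) x) := by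
    intro a
    have := idX h (hW a) (hWc a) hU hUc a d
    linarith
  have e4 : ∑ a, (I V (fun x => pd a V x * D t a (pd b F) x * Ds t d (D t b (pd d F)) x) -
      I V (fun x => pd a (D t a (pd b F)) x * Ds t d (D t b (pd d F)) x)) =
      I V (fun x => Ds t d (D t b (pd d F)) x * nL t (pd b F) x) := by
    rw [Finset.sum_congr rfl fun a _ => (I_sub hV (hbc1 a) (hbc3 a)).symm,
      ← I_sum hV fun a _ => (hbc1 a).sub (hbc3 a)]
    refine I_congr ?_
    filter_upwards [nL_div h hb] with x hx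
    rw [hx, Finset.mul_sum]
    exact Finset.sum_congr rfl fun a _ => by ring
  rw [← e4, Finset.sum_congr rfl fun a _ => e1 a]
  simp only [e3, Finset.sum_sub_distrib, Finset.sum_add_distrib]
  ring

/-- (X3), flat Bochner for a locally Lipschitz field with compact support -/
theorem idX3 {s : Fin n → E n → ℝ} (hs : ∀ a, LL (s a)) (hc : ∀ a, CS (s a)) (a b : Fin n) :
    I V (fun x => (pd a V x * s a x - pd a (s a) x) * (pd b V x * s b x - pd b (s b) x)) =
      I V (fun x => pd b (pd a V) x * s a x * s b x + pd b (s a) x * pd a (s b) x) := by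
  have hV := h.V_smooth
  have hVa : ∀ a, LL (pd a V) := fun a => ll_pdV hV a
  have hb0 : ∀ i j, BC (fun x => pd i V x * s j x - pd i (s j) x) := fun i j =>
    (BC.mul_left ⟨(hs j).lb, hc j⟩ (hVa i).lb).sub ⟨LB.pd (hs j) i, (hc j).pd i⟩
  have hb1 : BC (fun x => pd a V x * s a x * (pd b V x * s b x - pd b (s b) x)) :=
    BC.mul_left (hb0 b b) ((hVa a).lb.mul (hs a).lb)
  have hb2 : BC (fun x => pd a (s a) x * (pd b V x * s b x - pd b (s b) x)) :=
    BC.mul_left (hb0 b b) (LB.pd (hs a) a)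
  have hb3 : BC (fun x => pd b (s a) x * (pd a V x * s b x - pd a (s b) x)) :=
    BC.mul_left (hb0 a b) (LB.pd (hs a) b)
  have hb4 : BC (fun x => pd b (fun x => pd a V x * s a x) x * s b x) :=
    BC.mul_left ⟨(hs b).lb, hc b⟩ (LB.pd ((hVa a).mul (hs a)) b)
  have e1 : I V (fun x => (pd a V x * s a x - pd a (s a) x) * (pd b V x * s b x - pd b (s b) x)) =
      I V (fun x => pd a V x * s a x * (pd b V x * s b x - pd b (s b) x)) -
        I V (fun x => pd a (s a) x * (pd b V x * s b x - pd b (s b) x)) := by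
    rw [← I_sub hV hb1 hb2]
    exact I_congr' fun x => by ring
  have e2 : I V (fun x => pd a V x * s a x * (pd b V x * s b x - pd b (s b) x)) =
      I V (fun x => pd b (fun x => pd a V x * s a x) x * s b x) :=
    (ibpw (V_one hV) ((hVa a).mul (hs a)) (hs b) (Or.inr (hc b)) b).symm
  have e3 : I V (fun x => pd a (s a) x * (pd b V x * s b x - pd b (s b) x)) =
      I V (fun x => pd b (s a) x * (pd a V x * s b x - pd a (s b) x)) :=
    xxw (V_one hV) (hs a) (hc a) (hs b) (hc b) a b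
  rw [e1, e2, e3, ← I_sub hV hb4 hb3]
  refine I_congr ?_
  filter_upwards [(hs a).ae_diff] with x hx
  rw [pd_mul b (smooth_diff (smooth_pd hV a) x) hx]; ring

end

end Vale.Agent.P227.M.X
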