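import Vale.Agent.P227.M.ID.Reg169

/-! # P227/M/ID: `XStruct` (for helper590): the facts on `τ` used by the direct a.e. calculus.
Everything is from helper169's `Reg169`; only the exact form asked for. -/

open MeasureTheory

namespace Vale.Agent.P227.M.XS

variable {n : ℕ} {ψ V : E n → ℝ} {c C M : ℝ}

/-- (1a) `τ` Lipschitz -/
theorem tau_lip (h : MM ψ V c C M) :
    ∃ K, 0 ≤ K ∧ ∀ i j x y, |tau ψ x i j - tau ψ y i j| ≤ K * ‖x - y‖ :=
  ⟨n * n * (c⁻¹ * |M| * c⁻¹), by have := h.c_pos; positivity, fun i j x y =>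
    (ID169.abs_tau_sub_le h x y i j).trans (by
      have hc := h.c_pos
      have : c⁻¹ * M * c⁻¹ ≤ c⁻¹ * |M| * c⁻¹ := by
        have := le_abs_self M
        gcongr
      gcongr)⟩

/-- (1b) `τ` bounded -/
theorem tau_bdd (h : MM ψ V c C M) : ∀ x i j, |tau ψ x i j| ≤ c⁻¹ := fun x i j =>
  ID169.abs_tau_le h x i j

/-- (1c) `τ` symmetric -/
theorem tau_symm (h : MM ψ V c C M) : ∀ x i j, tau ψ x i j = tau ψ x j i := fun x i j =>
  ID169.tau_symm h x i j

/-- (1d) `τ` positive -/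
theorem tau_pos (h : MM ψ V c C M) : ∀ x v, C⁻¹ * ‖v‖ ^ 2 ≤ qf (tau ψ x) v := by
  intro x v
  have h1 := ID169.qf_tau_lower h x v
  have h0 := ID169.qf_tau_nonneg h x v
  rcases lt_trichotomy C 0 with hC | hC | hC
  · have : C⁻¹ < 0 := inv_neg''.2 hC
    nlinarith [sq_nonneg ‖v‖]
  · subst hC
    simpa using h0
  · rw [inv_mul_le_iff₀ hC]
    exact h1

/-- (1e) upper bound -/
theorem tau_upper (h : MM ψ V c C M) : ∀ x v, qf (tau ψ x) v ≤ c⁻¹ * ‖v‖ ^ 2 := fun x v =>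
  ID169.qf_tau_upper h x v

/-- a.e. differentiability of `τ` and `D²ψ` -/
theorem ae_good (h : MM ψ V c C M) : ∀ᵐ x : E n,
    (∀ i j, DifferentiableAt ℝ (fun y => hess ψ y i j) x) ∧
      ∀ i j, DifferentiableAt ℝ (fun y => tau ψ y i j) x := by
  filter_upwards [ID169.ae_good h] with x hx
  exact ⟨hx.hess, hx.tau⟩

/-- (2) SY -/
theorem SY (h : MM ψ V c C M) : ∀ᵐ x : E n, ∀ a b k : Fin n,
    ∑ e, tau ψ x a e * pd e (fun z => tau ψ z b k) x =
      ∑ e, tau ψ x b e * pd e (fun z => tau ψ z a k) x := by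
  filter_upwards [ID169.ae_good h] with x hx a b k
  exact ID169.symm_pointwise h hx a b k

/-- (3) ST -/
theorem ST (hV : ContDiff ℝ (⊤ : ℕ∞) V) (h : MM ψ V c C M) : ∀ᵐ x : E n, ∀ a : Fin n,
    (∑ b, pd b V x * tau ψ x a b) - (∑ b, pd b (fun z => tau ψ z a b) x) = x a := by
  filter_upwards [ID169.ae_good h] with x hx a
  rw [← Finset.sum_sub_distrib]
  exact ID169.stein_pointwise h hV hx a

/-- (3) ST for `Reg V` / `Nice V` -/
theorem ST' {c' C' : ℝ} (hV : Reg V c' C') (h : MM ψ V c C M) : ∀ᵐ x : E n, ∀ a : Fin n,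
    (∑ b, pd b V x * tau ψ x a b) - (∑ b, pd b (fun z => tau ψ z a b) x) = x a :=
  ST hV.smooth h

end Vale.Agent.P227.M.XS
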