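import Vale.Agent.P227.M.Stmts
import Vale.Agent.P227.M.ID.XId
import Vale.Agent.P227.M.ID.XAlg
import Vale.Agent.P227.M.ID.XStruct

/-! P227/M, block ID (helper590): `StmtKey` directly for `ψ ∈ C^{2,1}`. -/

open MeasureTheory Set Metric Filter
open scoped Topology NNReal

namespace Vale.Agent.P227.M.X

variable {n : ℕ}

theorem sum3 (X : Fin n → Fin n → Fin n → ℝ) :
    ∑ b, ∑ d, ∑ a, X a b d = ∑ a, ∑ b, ∑ d, X a b d := by
  have h1 : ∀ b, ∑ d, ∑ a, X a b d = ∑ a, ∑ d, X a b d := fun b => Finset.sum_comm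
  rw [Finset.sum_congr rfl fun b _ => h1 b, Finset.sum_comm]

section
variable {t : Fin n → Fin n → E n → ℝ} {V : E n → ℝ} (h : TD t V)
include h

theorem rest_nonneg (hpd : ∀ x, (Matrix.of fun a b => t a b x).PosDef) {F : E n → ℝ}
    (hF : ContDiff ℝ (⊤ : ℕ∞) F) :
    ∀ᵐ x, 0 ≤ ∑ b, ∑ d, ∑ a, (D t a (D t b (pd d F)) x * D t d (pd a (pd b F)) x
      + D t d (D t a (pd b F)) x * pd a (D t b (pd d F)) x
      + ∑ e, pd a (t d e) x * pd e (D t a (pd b F)) x * D t b (pd d F) x) := by
  filter_upwards [ae_t h, h.SY] with x htx hSY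
  have hDU : ∀ a b d, pd a (D t b (pd d F)) x =
      (∑ e, pd a (t b e) x * pd e (pd d F) x) + ∑ e, t b e x * pd a (pd e (pd d F)) x := by
    intro a b d
    unfold D
    rw [pd_sum Finset.univ a (F := fun e z => t b e z * pd e (pd d F) z)
      (fun e _ => (htx b e).mul (smooth_diff (smooth_pd (smooth_pd hF d) e) x)), ← Finset.sum_add_distrib]
    exact Finset.sum_congr rfl fun e _ => pd_mul a (htx b e) (smooth_diff (smooth_pd (smooth_pd hF d) e) x)
  have key := P227M.XAlg.key_alg' (Matrix.of fun a b => t a b x) (hpd x) (fun e d => pd e (pd d F) x)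
    (fun e d => pd_pd_comm hF x e d) (fun a b c => pd a (pd b (pd c F)) x) (fun a b c => pd a (t b c) x)
    (fun a b c => pd_pd_comm (smooth_pd hF c) x a b)
    (fun a b c => by
      have : pd b (pd c F) = pd c (pd b F) := funext fun z => pd_pd_comm hF z b c
      rw [this])
    (fun a b c => by rw [h.symm b c])
    (fun a b c => hSY a b c)
    (fun b d => D t b (pd d F) x) (fun b d => rfl)
    (fun a b d => pd a (D t b (pd d F)) x) hDU
  rw [sum3]
  have e1 : ∑ a, ∑ b, ∑ d, (D t a (D t b (pd d F)) x * D t d (pd a (pd b F)) x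
      + D t d (D t a (pd b F)) x * pd a (D t b (pd d F)) x
      + ∑ e, pd a (t d e) x * pd e (D t a (pd b F)) x * D t b (pd d F) x) =
      (∑ a, ∑ b, ∑ d, (∑ f, t d f x * pd f (D t a (pd b F)) x) * pd a (D t b (pd d F)) x)
      + (∑ a, ∑ b, ∑ d, ∑ e, pd a (t d e) x * pd e (D t a (pd b F)) x * D t b (pd d F) x)
      + (∑ a, ∑ b, ∑ d, (∑ f, t a f x * pd f (D t b (pd d F)) x) * (∑ f, t d f x * pd f (pd a (pd b F)) x)) := by
    simp only [← Finset.sum_add_distrib]
    refine Finset.sum_congr rfl fun a _ => Finset.sum_congr rfl fun b _ => Finset.sum_congr rfl fun d _ => ?_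
    simp only [D]
    ring
  rw [e1]
  exact key

theorem trace_le (hpd : ∀ x, (Matrix.of fun a b => t a b x).PosDef) {F u : E n → ℝ}
    (hF : ContDiff ℝ (⊤ : ℕ∞) F) (hu : ContDiff ℝ (⊤ : ℕ∞) u) :
    ∀ᵐ x, 2 * (∑ b, ∑ a, pd a (D t b u) x * D t a (pd b F) x) - ∑ b, ∑ d, D t b (pd d F) x * D t d (pd b F) x
      ≤ ∑ a, ∑ b, pd b (D t a u) x * pd a (D t b u) x := by
  filter_upwards [comm h hu] with x hcomm
  set B : Matrix (Fin n) (Fin n) ℝ := fun a b => pd a (D t b u) x - D t b (pd a F) x with hB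
  have hsym : ((Matrix.of fun a b => t a b x) * B).IsSymm := by
    have e1 : ∀ a b, ((Matrix.of fun a b => t a b x) * B) a b =
        D t a (D t b u) x - ∑ c, ∑ e, t a c x * t b e x * pd e (pd c F) x := by
      intro a b
      rw [Matrix.mul_apply]
      simp only [hB, Matrix.of_apply, mul_sub, Finset.sum_sub_distrib]
      congr 1
      refine Finset.sum_congr rfl fun c _ => ?_
      simp only [D, Finset.mul_sum]
      exact Finset.sum_congr rfl fun e _ => by ring
    refine Matrix.IsSymm.ext fun a b => ?_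
    rw [e1, e1, hcomm b a]
    congr 1
    rw [Finset.sum_comm]
    exact Finset.sum_congr rfl fun c _ => Finset.sum_congr rfl fun e _ => by
      rw [pd_pd_comm hF x e c]; ring
  have h1 := P227M.XAlg.tr_sq_nonneg _ B (hpd x) hsym
  have e2 : (B * B).trace = (∑ a, ∑ b, pd b (D t a u) x * pd a (D t b u) x)
      - 2 * (∑ b, ∑ a, pd a (D t b u) x * D t a (pd b F) x) + ∑ b, ∑ d, D t b (pd d F) x * D t d (pd b F) x := by
    have e3 : (B * B).trace = ∑ a, ∑ b, (pd b (D t a u) x * pd a (D t b u) x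
        - pd a (D t b u) x * D t a (pd b F) x - pd b (D t a u) x * D t b (pd a F) x
        + D t b (pd a F) x * D t a (pd b F) x) := by
      simp only [Matrix.trace, Matrix.diag_apply]
      refine Finset.sum_congr rfl fun a _ => ?_
      rw [Matrix.mul_apply]
      refine Finset.sum_congr rfl fun b _ => ?_
      simp only [hB]; ring
    rw [e3]
    simp only [Finset.sum_add_distrib, Finset.sum_sub_distrib]
    have e4 : ∑ a, ∑ b, pd a (D t b u) x * D t a (pd b F) x = ∑ b, ∑ a, pd a (D t b u) x * D t a (pd b F) x :=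
      Finset.sum_comm
    have e5 : ∑ a, ∑ b, pd b (D t a u) x * D t b (pd a F) x = ∑ b, ∑ a, pd a (D t b u) x * D t a (pd b F) x := rfl
    have e6 : ∑ a, ∑ b, D t b (pd a F) x * D t a (pd b F) x = ∑ b, ∑ d, D t b (pd d F) x * D t d (pd b F) x := by
      exact Finset.sum_congr rfl fun a _ => Finset.sum_congr rfl fun b _ => mul_comm _ _
    rw [e4, e5, e6]; ring
  rw [e2] at h1
  linarith

/-- the key inequality, abstract form -/
theorem key_abs (hpd : ∀ x, (Matrix.of fun a b => t a b x).PosDef) {F u : E n → ℝ}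
    (hF : ContDiff ℝ (⊤ : ℕ∞) F) (hFc : CS F) (hu : ContDiff ℝ (⊤ : ℕ∞) u) (huc : CS u) :
    I V (fun x => ∑ b, ∑ d, ∑ a, D t d (pd a V) x * (D t a (pd b F) x * D t b (pd d F) x))
      + I V (fun x => ∑ a, ∑ b, pd b (pd a V) x * D t a u x * D t b u x)
    ≤ I V (fun x => (nL t u x) ^ 2)
      + 2 * I V (fun x => ∑ b, D t b (fun z => - nL t F z + F z + u z) x * (- nL t (pd b F) x)) := by
  have hV := h.V_smooth
  have hVa : ∀ a, LL (pd a V) := fun a => ll_pdV hV a
  have hp := fun b => smooth_pd hF b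
  -- U
  have hU : ∀ b d, LL (D t b (pd d F)) := fun b d => ll_D h (fun e => smooth_ll (smooth_pd (hp d) e)) b
  have hUc : ∀ b d, CS (D t b (pd d F)) := fun b d => cs_D (hFc.pd d) b
  have hUbc : ∀ b d, BC (D t b (pd d F)) := fun b d => ⟨(hU b d).lb, hUc b d⟩
  have hs : ∀ b, LL (D t b u) := fun b => ll_D h (fun e => smooth_ll (smooth_pd hu e)) b
  have hsc : ∀ b, CS (D t b u) := fun b => cs_D huc b
  have hsbc : ∀ b, BC (D t b u) := fun b => ⟨(hs b).lb, hsc b⟩
  have hpsbc : ∀ a b, BC (pd a (D t b u)) := fun a b => ⟨LB.pd (hs b) a, (hsc b).pd a⟩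
  have hnb : ∀ b, BC (nL t (pd b F)) := fun b => ⟨(ll_nL h (hp b)).lb, cs_nL (hFc.pd b)⟩
  have hDsbc : ∀ b d, BC (Ds t d (D t b (pd d F))) := fun b d => bc_Ds h (hU b d) (hUc b d) d
  -- sums
  have bS : ∀ b d, BC (fun x => Ds t d (D t b (pd d F)) x * nL t (pd b F) x) := fun b d => (hDsbc b d).mul (hnb b)
  have bC : ∀ b d a, BC (fun x => D t d (pd a V) x * (D t a (pd b F) x * D t b (pd d F) x)) := fun b d a =>
    BC.mul_left ((hUbc a b).mul (hUbc b d)) (lb_D h (hVa a) d)
  have bT : ∀ b d, BC (fun x => D t b (pd d F) x * D t d (pd b F) x) := fun b d => (hUbc b d).mul (hUbc d b)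
  have bR3 : ∀ b d a, BC (fun x => D t a (D t b (pd d F)) x * D t d (pd a (pd b F)) x) := fun b d a =>
    BC.mul_left (bc_D h (smooth_ll (smooth_pd (hp b) a)) ((hFc.pd b).pd a) d) (lb_D h (hU b d) a)
  have bR1 : ∀ b d a, BC (fun x => D t d (D t a (pd b F)) x * pd a (D t b (pd d F)) x) := fun b d a =>
    BC.mul_left ⟨LB.pd (hU b d) a, (hUc b d).pd a⟩ (lb_D h (hU a b) d)
  have bR2 : ∀ b d a, BC (fun x => ∑ e, pd a (t d e) x * pd e (D t a (pd b F)) x * D t b (pd d F) x) := fun b d a =>
    BC.sum fun e _ => BC.mul_left (hUbc b d) ((LB.pd (h.ll d e) a).mul (LB.pd (hU a b) e))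
  -- values
  set S := ∑ b, ∑ d, I V (fun x => Ds t d (D t b (pd d F)) x * nL t (pd b F) x) with hS
  set TU := ∑ b, ∑ d, I V (fun x => D t b (pd d F) x * D t d (pd b F) x) with hTU
  set R3 := ∑ b, ∑ d, ∑ a, I V (fun x => D t a (D t b (pd d F)) x * D t d (pd a (pd b F)) x) with hR3
  set R1 := ∑ b, ∑ d, ∑ a, I V (fun x => D t d (D t a (pd b F)) x * pd a (D t b (pd d F)) x) with hR1
  set R2 := ∑ b, ∑ d, ∑ a, I V (fun x => ∑ e, pd a (t d e) x * pd e (D t a (pd b F)) x * D t b (pd d F) x) with hR2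
  have eA : S = TU + R3 := by
    rw [hS, hTU, hR3, ← Finset.sum_add_distrib]
    refine Finset.sum_congr rfl fun b _ => ?_
    rw [← Finset.sum_add_distrib]
    exact Finset.sum_congr rfl fun d _ => idA h hF hFc b d
  have eC : I V (fun x => ∑ b, ∑ d, ∑ a, D t d (pd a V) x * (D t a (pd b F) x * D t b (pd d F) x)) = S - R1 - R2 := by
    rw [I_sum hV fun b _ => BC.sum fun d _ => BC.sum fun a _ => bC b d a, hS, hR1, hR2,
      ← Finset.sum_sub_distrib, ← Finset.sum_sub_distrib]
    refine Finset.sum_congr rfl fun b _ => ?_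
    rw [I_sum hV fun d _ => BC.sum fun a _ => bC b d a, ← Finset.sum_sub_distrib, ← Finset.sum_sub_distrib]
    refine Finset.sum_congr rfl fun d _ => ?_
    rw [I_sum hV fun a _ => bC b d a]
    exact idB h hF hFc b d
  have eR : 0 ≤ R3 + R1 + R2 := by
    have e1 : R3 + R1 + R2 = I V (fun x => ∑ b, ∑ d, ∑ a, (D t a (D t b (pd d F)) x * D t d (pd a (pd b F)) x
      + D t d (D t a (pd b F)) x * pd a (D t b (pd d F)) x
      + ∑ e, pd a (t d e) x * pd e (D t a (pd b F)) x * D t b (pd d F) x)) := by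
      have b3 : ∀ b d a, BC (fun x => D t a (D t b (pd d F)) x * D t d (pd a (pd b F)) x
        + D t d (D t a (pd b F)) x * pd a (D t b (pd d F)) x
        + ∑ e, pd a (t d e) x * pd e (D t a (pd b F)) x * D t b (pd d F) x) := fun b d a =>
        ((bR3 b d a).add (bR1 b d a)).add (bR2 b d a)
      rw [I_sum hV fun b _ => BC.sum fun d _ => BC.sum fun a _ => b3 b d a, hR3, hR1, hR2,
        ← Finset.sum_add_distrib, ← Finset.sum_add_distrib]
      refine Finset.sum_congr rfl fun b _ => ?_
      rw [I_sum hV fun d _ => BC.sum fun a _ => b3 b d a, ← Finset.sum_add_distrib, ← Finset.sum_add_distrib]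
      refine Finset.sum_congr rfl fun d _ => ?_
      rw [I_sum hV fun a _ => b3 b d a, ← Finset.sum_add_distrib, ← Finset.sum_add_distrib]
      refine Finset.sum_congr rfl fun a _ => ?_
      rw [I_add hV ((bR3 b d a).add (bR1 b d a)) (bR2 b d a), I_add hV (bR3 b d a) (bR1 b d a)]
    rw [e1]
    unfold I
    refine integral_nonneg_of_ae ?_
    filter_upwards [rest_nonneg h hpd hF] with x hx
    exact mul_nonneg hx (Real.exp_pos _).le
  -- S through u and h
  set hh : E n → ℝ := fun z => - nL t F z + F z + u z with hhh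
  have hhll : LL hh := ((ll_nL h hF).neg.add (smooth_ll hF)).add (smooth_ll hu)
  have hhcs : CS hh := ((cs_nL hFc).neg.add hFc).add huc
  have bH : ∀ b, BC (fun x => D t b hh x * (- nL t (pd b F) x)) := fun b =>
    (bc_D h hhll hhcs b).mul (hnb b).neg
  have bJ0 : ∀ b, BC (fun x => D t b u x * nL t (pd b F) x) := fun b => (hsbc b).mul (hnb b)
  have eDh : ∀ᵐ x, ∀ b, D t b hh x = D t b u x - ∑ d, Ds t d (D t b (pd d F)) x := by
    filter_upwards [D_nL h hF, (ll_nL h hF).ae_diff] with x hx hdx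
    intro b
    have e1 : D t b hh x = D t b (fun z => - nL t F z + F z) x + D t b u x := by
      rw [hhh]
      exact D_add (f := fun z => - nL t F z + F z) b (hdx.neg.add (smooth_diff hF x)) (smooth_diff hu x)
    have e2 : D t b (fun z => - nL t F z + F z) x = D t b (fun z => - nL t F z) x + D t b F x :=
      D_add (f := fun z => - nL t F z) b hdx.neg (smooth_diff hF x)
    have e3 : D t b (fun z => - nL t F z) x = - D t b (nL t F) x := by
      unfold D
      rw [← Finset.sum_neg_distrib]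
      exact Finset.sum_congr rfl fun e _ => by rw [pd_neg]; ring
    rw [e1, e2, e3, hx b]; ring
  have eS : S = (∑ b, I V (fun x => D t b u x * nL t (pd b F) x))
      + I V (fun x => ∑ b, D t b hh x * (- nL t (pd b F) x)) := by
    rw [I_sum hV fun b _ => bH b, hS, ← Finset.sum_add_distrib]
    refine Finset.sum_congr rfl fun b _ => ?_
    rw [← I_sum hV fun d _ => bS b d, ← I_add hV (bJ0 b) (bH b)]
    refine I_congr ?_
    filter_upwards [eDh] with x hx
    rw [hx b, ← Finset.sum_mul]; ring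
  -- J
  have bJ : ∀ b a, BC (fun x => pd a (D t b u) x * D t a (pd b F) x) := fun b a => (hpsbc a b).mul (hUbc a b)
  have bJ' : ∀ b a, BC (fun x => D t b u x * (pd a V x * D t a (pd b F) x - pd a (D t a (pd b F)) x)) := fun b a =>
    (hsbc b).mul ((BC.mul_left (hUbc a b) (hVa a).lb).sub ⟨LB.pd (hU a b) a, (hUc a b).pd a⟩)
  have eJ : ∑ b, I V (fun x => D t b u x * nL t (pd b F) x) =
      ∑ b, ∑ a, I V (fun x => pd a (D t b u) x * D t a (pd b F) x) := by
    refine Finset.sum_congr rfl fun b _ => ?_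
    have e1 : I V (fun x => D t b u x * nL t (pd b F) x) =
        I V (fun x => ∑ a, D t b u x * (pd a V x * D t a (pd b F) x - pd a (D t a (pd b F)) x)) := by
      refine I_congr ?_
      filter_upwards [nL_div h (hp b)] with x hx
      rw [hx, Finset.mul_sum]
    rw [e1, I_sum hV fun a _ => bJ' b a]
    exact Finset.sum_congr rfl fun a _ => (ibpw (V_one hV) (hs b) (hU a b) (Or.inl (hsc b)) a).symm
  -- X3
  have bV : ∀ a b, BC (fun x => pd b (pd a V) x * D t a u x * D t b u x) := fun a b =>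
    BC.mul_left (hsbc b) ((smooth_ll (smooth_pd (smooth_pd hV a) b)).lb.mul (hs a).lb)
  have bP : ∀ a b, BC (fun x => pd b (D t a u) x * pd a (D t b u) x) := fun a b => (hpsbc b a).mul (hpsbc a b)
  have eX : I V (fun x => (nL t u x) ^ 2) =
      I V (fun x => ∑ a, ∑ b, pd b (pd a V) x * D t a u x * D t b u x)
        + ∑ a, ∑ b, I V (fun x => pd b (D t a u) x * pd a (D t b u) x) := by
    have b0 : ∀ a, BC (fun x => pd a V x * D t a u x - pd a (D t a u) x) := fun a =>
      (BC.mul_left (hsbc a) (hVa a).lb).sub (hpsbc a a)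
    have e1 : I V (fun x => (nL t u x) ^ 2) = I V (fun x => ∑ a, ∑ b,
        (pd a V x * D t a u x - pd a (D t a u) x) * (pd b V x * D t b u x - pd b (D t b u) x)) := by
      refine I_congr ?_
      filter_upwards [nL_div h hu] with x hx
      rw [hx, sq, Finset.sum_mul_sum]
    rw [e1, I_sum hV fun a _ => BC.sum fun b _ => (b0 a).mul (b0 b), I_sum hV fun a _ => BC.sum fun b _ => bV a b,
      ← Finset.sum_add_distrib]
    refine Finset.sum_congr rfl fun a _ => ?_
    rw [I_sum hV fun b _ => (b0 a).mul (b0 b), I_sum hV fun b _ => bV a b, ← Finset.sum_add_distrib]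
    refine Finset.sum_congr rfl fun b _ => ?_
    rw [idX3 h hs hsc a b, I_add hV (bV a b) (bP a b)]
  -- trace inequality
  have eT : 2 * (∑ b, ∑ a, I V (fun x => pd a (D t b u) x * D t a (pd b F) x)) - TU ≤
      ∑ a, ∑ b, I V (fun x => pd b (D t a u) x * pd a (D t b u) x) := by
    have e1 : 2 * (∑ b, ∑ a, I V (fun x => pd a (D t b u) x * D t a (pd b F) x)) - TU =
        I V (fun x => 2 * (∑ b, ∑ a, pd a (D t b u) x * D t a (pd b F) x)
          - ∑ b, ∑ d, D t b (pd d F) x * D t d (pd b F) x) := by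
      have b1 : BC (fun x => ∑ b, ∑ a, pd a (D t b u) x * D t a (pd b F) x) :=
        BC.sum fun b _ => BC.sum fun a _ => bJ b a
      have b2 : BC (fun x => ∑ b, ∑ d, D t b (pd d F) x * D t d (pd b F) x) :=
        BC.sum fun b _ => BC.sum fun d _ => bT b d
      have e3 : I V (fun x => 2 * (∑ b, ∑ a, pd a (D t b u) x * D t a (pd b F) x)) =
          2 * I V (fun x => ∑ b, ∑ a, pd a (D t b u) x * D t a (pd b F) x) := by
        unfold I
        rw [← integral_const_mul]
        exact integral_congr_ae (Eventually.of_forall fun x => by simp only; ring)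
      rw [I_sub hV (b1.mul_left (LB.const 2)) b2, e3, I_sum hV fun b _ => BC.sum fun a _ => bJ b a,
        I_sum hV fun b _ => BC.sum fun d _ => bT b d, hTU]
      congr 1
      · congr 1
        exact Finset.sum_congr rfl fun b _ => (I_sum hV fun a _ => bJ b a).symm
      · exact Finset.sum_congr rfl fun b _ => (I_sum hV fun d _ => bT b d).symm
    have e2 : ∑ a, ∑ b, I V (fun x => pd b (D t a u) x * pd a (D t b u) x) =
        I V (fun x => ∑ a, ∑ b, pd b (D t a u) x * pd a (D t b u) x) := by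
      rw [I_sum hV fun a _ => BC.sum fun b _ => bP a b]
      exact Finset.sum_congr rfl fun a _ => (I_sum hV fun b _ => bP a b).symm
    rw [e1, e2]
    refine I_mono hV ?_ (BC.sum fun a _ => BC.sum fun b _ => bP a b) (trace_le h hpd hF hu)
    exact (BC.mul_left (BC.sum fun b _ => BC.sum fun a _ => bJ b a) (LB.const 2)).sub
      (BC.sum fun b _ => BC.sum fun d _ => bT b d)
  rw [eC, eX]
  rw [eJ] at eS
  linarith

end

/-! ### `StmtKey` -/

section final
variable {ψ V : E n → ℝ} {c C M : ℝ}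

theorem td_of_MM (hV : ContDiff ℝ (⊤ : ℕ∞) V) (h : MM ψ V c C M) : TD (fun a b x => tau ψ x a b) V where
  V_smooth := hV
  ll := fun a b => by
    obtain ⟨K, _, hK⟩ := XS.tau_lip h
    exact LL.of_lip (hK a b)
  symm := fun a b => funext fun x => XS.tau_symm h x a b
  SY := XS.SY h
  ST := by
    filter_upwards [XS.ST hV h] with x hx a
    rw [Finset.sum_sub_distrib]
    exact hx a

theorem qf_toLp (A : Matrix (Fin n) (Fin n) ℝ) (x : Fin n → ℝ) :
    qf A (WithLp.toLp 2 x) = dotProduct (star x) (A.mulVec x) := by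
  simp only [qf, dotProduct, Matrix.mulVec, Finset.mul_sum, star_trivial]
  exact Finset.sum_congr rfl fun i _ => Finset.sum_congr rfl fun j _ => by ring

theorem tau_pd (h : MM ψ V c C M) (x : E n) : (tau ψ x).PosDef := by
  have h1 : (hess ψ x).PosDef := by
    refine Matrix.PosDef.of_dotProduct_mulVec_pos ?_ ?_
    · ext i j
      have h2 : hess ψ x j i = hess ψ x i j := by
        have hsym := (h.C2.contDiffAt (x := x)).isSymmSndFDerivAt (by simp)
        have hdf : Differentiable ℝ (fderiv ℝ ψ) :=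
          (h.C2.fderiv_right (m := 1) (by norm_num)).differentiable (by simp)
        have e1 : ∀ u v : E n, fderiv ℝ (fun y => fderiv ℝ ψ y u) x v = fderiv ℝ (fderiv ℝ ψ) x v u := by
          intro u v
          rw [fderiv_clm_apply (hdf x) (differentiableAt_const _)]
          simp
        unfold hess Vale.Agent.P227.M.pd
        rw [e1, e1]
        exact hsym.eq _ _
      simp [h2]
    · intro y hy
      have h3 := h.lower x (WithLp.toLp 2 y)
      have h2 : (WithLp.toLp 2 y : E n) ≠ 0 := by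
        intro h0
        exact hy (by simpa using congrArg WithLp.ofLp h0)
      have h4 : 0 < c * ‖(WithLp.toLp 2 y : E n)‖ ^ 2 := by have := h.c_pos; positivity
      rw [← qf_toLp]
      exact h4.trans_le h3
  exact h1.inv

theorem nL_eq {g : E n → ℝ} (hg : ContDiff ℝ (⊤ : ℕ∞) g) (x : E n) :
    nL (fun a b x => tau ψ x a b) g x = - Lop ψ g x := by
  unfold nL Ds D Lop
  rw [Finset.sum_sub_distrib]
  have : ∑ a, ∑ e, tau ψ x a e * pd e (pd a g) x = ∑ i, ∑ j, tau ψ x i j * hess g x i j :=
    Finset.sum_congr rfl fun a _ => Finset.sum_congr rfl fun e _ => by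
      rw [pd_pd_comm hg x e a]; rfl
  rw [this]; ring

theorem trace_eq (x : E n) (F : E n → ℝ) (V : E n → ℝ) :
    (hess V x * tau ψ x * hess F x * tau ψ x * hess F x * tau ψ x).trace =
      ∑ b, ∑ d, ∑ a, D (fun a b x => tau ψ x a b) d (pd a V) x *
        (D (fun a b x => tau ψ x a b) a (pd b F) x * D (fun a b x => tau ψ x a b) b (pd d F) x) := by
  rw [Matrix.trace_mul_comm]
  have e1 : tau ψ x * (hess V x * tau ψ x * hess F x * tau ψ x * hess F x) =
      (tau ψ x * hess V x) * (tau ψ x * hess F x) * (tau ψ x * hess F x) := by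
    simp only [Matrix.mul_assoc]
  have e2 : ∀ (G : E n → ℝ) (a b : Fin n), (tau ψ x * hess G x) a b = D (fun a b x => tau ψ x a b) a (pd b G) x :=
    fun G a b => rfl
  rw [e1]
  simp only [Matrix.trace, Matrix.diag_apply]
  have e3 : ∀ d, ((tau ψ x * hess V x) * (tau ψ x * hess F x) * (tau ψ x * hess F x)) d d =
      ∑ b, ∑ a, D (fun a b x => tau ψ x a b) d (pd a V) x *
        (D (fun a b x => tau ψ x a b) a (pd b F) x * D (fun a b x => tau ψ x a b) b (pd d F) x) := by
    intro d
    rw [Matrix.mul_apply]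
    refine Finset.sum_congr rfl fun b _ => ?_
    rw [Matrix.mul_apply, Finset.sum_mul]
    refine Finset.sum_congr rfl fun a _ => ?_
    rw [e2, e2, e2]; ring
  rw [Finset.sum_congr rfl fun d _ => e3 d, Finset.sum_comm]

end final

/-- **block ID: the key inequality** -/
theorem stmtKey : StmtKey := by
  intro n ψ V c C M hN h F u hF hu
  have hV := hN.smooth
  have td := td_of_MM hV h
  have key := key_abs td (fun x => tau_pd h x) hF.1 (CS.of_hasCompactSupport hF.2) hu.1
    (CS.of_hasCompactSupport hu.2)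
  have e1 : I V (fun x => ∑ b, ∑ d, ∑ a, D (fun a b x => tau ψ x a b) d (pd a V) x *
        (D (fun a b x => tau ψ x a b) a (pd b F) x * D (fun a b x => tau ψ x a b) b (pd d F) x)) =
      ∫ x, (hess V x * tau ψ x * hess F x * tau ψ x * hess F x * tau ψ x).trace * Real.exp (-V x) :=
    I_congr' fun x => (trace_eq x F V).symm
  have e2 : I V (fun x => ∑ a, ∑ b, pd b (pd a V) x * D (fun a b x => tau ψ x a b) a u x *
        D (fun a b x => tau ψ x a b) b u x) =
      ∫ x, (∑ a, ∑ b, hess V x a b * fld ψ u a x * fld ψ u b x) * Real.exp (-V x) := by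
    refine I_congr' fun x => ?_
    exact Finset.sum_congr rfl fun a _ => Finset.sum_congr rfl fun b _ => by
      rw [pd_pd_comm hV x b a]; rfl
  have e3 : I V (fun x => (nL (fun a b x => tau ψ x a b) u x) ^ 2) =
      ∫ x, (Lop ψ u x) ^ 2 * Real.exp (-V x) := by
    refine I_congr' fun x => ?_
    rw [nL_eq hu.1]; ring
  have e4 : I V (fun x => ∑ b, D (fun a b x => tau ψ x a b) b
        (fun z => - nL (fun a b x => tau ψ x a b) F z + F z + u z) x *
          (- nL (fun a b x => tau ψ x a b) (pd b F) x)) =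
      ∫ x, (∑ b, fld ψ (fun z => Lop ψ F z + F z + u z) b x * Lop ψ (pd b F) x) * Real.exp (-V x) := by
    refine I_congr' fun x => ?_
    have e5 : (fun z => - nL (fun a b x => tau ψ x a b) F z + F z + u z) = fun z => Lop ψ F z + F z + u z :=
      funext fun z => by rw [nL_eq hF.1]; ring
    rw [e5]
    exact Finset.sum_congr rfl fun b _ => by rw [nL_eq (smooth_pd hF.1 b), neg_neg]; rfl
  rw [e1, e2, e3, e4] at key
  have hZ : 0 ≤ ∫ x, Real.exp (-V x) := integral_nonneg fun x => (Real.exp_pos _).le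
  have := div_le_div_of_nonneg_right key hZ
  unfold Ex
  rw [add_div, add_div, mul_div_assoc] at this
  exact this

end Vale.Agent.P227.M.X
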