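import Vale.Agent.P227.M.ID.Ibp0

/-! # P227/M/ID: `StmtDiv` (helper497) -/

set_option linter.all false

open MeasureTheory
open scoped Topology

namespace Vale.Agent.P227.M

variable {n : ℕ} {ψ V : E n → ℝ} {c C M : ℝ}

theorem rad_alg (τ N : Fin n → Fin n → ℝ) (P Q : Fin n → Fin n → Fin n → ℝ) (v xx : Fin n → ℝ)
    (hτ : ∀ i j, τ i j = τ j i) (hN : ∀ i j, N i j = N j i) (hP : ∀ k i j, P k i j = P k j i)
    (hQ : ∀ k i j, Q k i j = Q i k j) (hQ' : ∀ k i j, Q k i j = Q k j i)
    (hD : ∀ k, ∑ a, (P a a k - τ a k * v a) = - xx k)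
    (hT : ∀ a b d, ∑ e, τ a e * P e b d = ∑ e, τ b e * P e a d) (b : Fin n) :
    ∑ a, ((∑ c, ∑ d, (P a a c * (N c d * τ d b) + τ a c * (Q a c d * τ d b + N c d * P a d b)))
        - (∑ c, ∑ d, τ a c * (N c d * τ d b)) * v a)
      = ∑ e, τ b e * ((∑ i, ∑ j, (P e i j * N i j + τ i j * Q e i j)) - ∑ i, xx i * N e i) := by
  have h1 : ∑ a, ((∑ c, ∑ d, (P a a c * (N c d * τ d b) + τ a c * (Q a c d * τ d b + N c d * P a d b)))
        - (∑ c, ∑ d, τ a c * (N c d * τ d b)) * v a)
      = (∑ a, ∑ c, ∑ d, (P a a c - τ a c * v a) * (N c d * τ d b))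
        + (∑ a, ∑ c, ∑ d, τ a c * (Q a c d * τ d b)) + ∑ a, ∑ c, ∑ d, τ a c * (N c d * P a d b) := by
    simp only [← Finset.sum_add_distrib, Finset.sum_mul, ← Finset.sum_sub_distrib]
    refine Finset.sum_congr rfl fun a _ => Finset.sum_congr rfl fun c _ => Finset.sum_congr rfl fun d _ => ?_
    ring
  have h2 : ∑ a, ∑ c, ∑ d, (P a a c - τ a c * v a) * (N c d * τ d b) = - ∑ e, τ b e * ∑ i, xx i * N e i := by
    rw [Finset.sum_comm]
    have : ∀ c, ∑ a, ∑ d, (P a a c - τ a c * v a) * (N c d * τ d b) = ∑ d, (- xx c) * (N c d * τ d b) := by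
      intro c
      rw [Finset.sum_comm]
      refine Finset.sum_congr rfl fun d _ => ?_
      rw [← Finset.sum_mul, hD]
    rw [Finset.sum_congr rfl fun c _ => this c, Finset.sum_comm, ← Finset.sum_neg_distrib]
    refine Finset.sum_congr rfl fun d _ => ?_
    rw [Finset.mul_sum, ← Finset.sum_neg_distrib]
    refine Finset.sum_congr rfl fun i _ => ?_
    rw [hN i d, hτ d b]
    ring
  have h3 : ∑ a, ∑ c, ∑ d, τ a c * (Q a c d * τ d b) = ∑ e, τ b e * ∑ i, ∑ j, τ i j * Q e i j := by
    have e1 : ∀ a, ∑ c, ∑ d, τ a c * (Q a c d * τ d b) = ∑ d, ∑ c, τ a c * (Q a c d * τ d b) :=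
      fun a => Finset.sum_comm
    rw [Finset.sum_congr rfl fun a _ => e1 a, Finset.sum_comm]
    refine Finset.sum_congr rfl fun d _ => ?_
    rw [Finset.mul_sum]
    refine Finset.sum_congr rfl fun a _ => ?_
    rw [Finset.mul_sum]
    refine Finset.sum_congr rfl fun c _ => ?_
    rw [hQ' a c d, hQ a d c, hτ d b]
    ring
  have h4 : ∑ a, ∑ c, ∑ d, τ a c * (N c d * P a d b) = ∑ e, τ b e * ∑ i, ∑ j, P e i j * N i j := by
    have e1 : ∑ a, ∑ c, ∑ d, τ a c * (N c d * P a d b) = ∑ c, ∑ d, N c d * ∑ a, τ c a * P a b d := by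
      rw [Finset.sum_comm]
      refine Finset.sum_congr rfl fun c _ => ?_
      rw [Finset.sum_comm]
      refine Finset.sum_congr rfl fun d _ => ?_
      rw [Finset.mul_sum]
      refine Finset.sum_congr rfl fun a _ => ?_
      rw [hτ a c, hP a d b]
      ring
    rw [e1]
    have e2 : ∀ c d, N c d * ∑ a, τ c a * P a b d = ∑ a, τ b a * (P a c d * N c d) := by
      intro c d
      rw [hT, Finset.mul_sum]
      refine Finset.sum_congr rfl fun a _ => ?_
      ring
    rw [Finset.sum_congr rfl fun c _ => Finset.sum_congr rfl fun d _ => e2 c d]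
    rw [Finset.sum_congr rfl fun c _ => Finset.sum_comm, Finset.sum_comm]
    refine Finset.sum_congr rfl fun a _ => ?_
    rw [Finset.mul_sum]
    refine Finset.sum_congr rfl fun c _ => ?_
    rw [Finset.mul_sum]
  rw [h1, h2, h3, h4]
  have h5 : ∑ e, τ b e * ((∑ i, ∑ j, (P e i j * N i j + τ i j * Q e i j)) - ∑ i, xx i * N e i)
      = (∑ e, τ b e * ∑ i, ∑ j, P e i j * N i j) + (∑ e, τ b e * ∑ i, ∑ j, τ i j * Q e i j)
        - ∑ e, τ b e * ∑ i, xx i * N e i := by
    simp only [Finset.sum_add_distrib, mul_sub, mul_add, Finset.sum_sub_distrib]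
  rw [h5]
  ring

/-- `K = τ D²F τ` -/
noncomputable def rKK (ψ F : E n → ℝ) (y : E n) (a b : Fin n) : ℝ :=
  ∑ c, ∑ d, tau ψ y a c * (hess F y c d * tau ψ y d b)

theorem rad_smooth_pd {F : E n → ℝ} (hF : ContDiff ℝ (⊤ : ℕ∞) F) (i : Fin n) : ContDiff ℝ (⊤ : ℕ∞) (pd i F) := by
  have h1 : ContDiff ℝ (⊤ : ℕ∞) (fderiv ℝ F) := hF.fderiv_right (m := (⊤ : ℕ∞)) (by norm_cast)
  exact h1.clm_apply contDiff_const

theorem rad_smooth_hess {F : E n → ℝ} (hF : ContDiff ℝ (⊤ : ℕ∞) F) (i j : Fin n) :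
    ContDiff ℝ (⊤ : ℕ∞) (fun x => hess F x i j) := rad_smooth_pd (rad_smooth_pd hF j) i

theorem rad_smooth_diff {F : E n → ℝ} (hF : ContDiff ℝ (⊤ : ℕ∞) F) (x : E n) : DifferentiableAt ℝ F x :=
  hF.differentiable (by simp) x

theorem rad_smooth_C2 {F : E n → ℝ} (hF : ContDiff ℝ (⊤ : ℕ∞) F) : ContDiff ℝ 2 F := hF.of_le (by norm_cast)

theorem rad_smooth_C1 {F : E n → ℝ} (hF : ContDiff ℝ (⊤ : ℕ∞) F) : ContDiff ℝ 1 F := hF.of_le (by norm_cast)

theorem rKK_diff (h : MM ψ V c C M) {F : E n → ℝ} (hF : ContDiff ℝ (⊤ : ℕ∞) F) {x : E n} (hx : Good ψ x) (a b : Fin n) :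
    DifferentiableAt ℝ (fun y => rKK ψ F y a b) x := by
  unfold rKK
  refine DifferentiableAt.fun_sum fun k _ => DifferentiableAt.fun_sum fun d _ => ?_
  exact (hx.2 a k).mul ((rad_smooth_diff (rad_smooth_hess hF k d) x).mul (hx.2 d b))

theorem rKK_pd (h : MM ψ V c C M) {F : E n → ℝ} (hF : ContDiff ℝ (⊤ : ℕ∞) F) {x : E n} (hx : Good ψ x) (e a b : Fin n) :
    pd e (fun y => rKK ψ F y a b) x = ∑ k, ∑ d, (pd e (fun y => tau ψ y a k) x * (hess F x k d * tau ψ x d b)
      + tau ψ x a k * (pd e (fun y => hess F y k d) x * tau ψ x d b + hess F x k d * pd e (fun y => tau ψ y d b) x)) := by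
  have hd : ∀ k d : Fin n, DifferentiableAt ℝ (fun y => hess F y k d * tau ψ y d b) x := fun k d =>
    (rad_smooth_diff (rad_smooth_hess hF k d) x).fun_mul (hx.2 d b)
  have hd2 : ∀ k d : Fin n, DifferentiableAt ℝ (fun y => tau ψ y a k * (hess F y k d * tau ψ y d b)) x := fun k d =>
    (hx.2 a k).fun_mul (hd k d)
  refine (rpd_sum (f := fun k y => ∑ d, tau ψ y a k * (hess F y k d * tau ψ y d b))
    fun k _ => DifferentiableAt.fun_sum fun d _ => hd2 k d).trans ?_
  refine Finset.sum_congr rfl fun k _ => ?_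
  refine (rpd_sum (f := fun d y => tau ψ y a k * (hess F y k d * tau ψ y d b)) fun d _ => hd2 k d).trans ?_
  refine Finset.sum_congr rfl fun d _ => ?_
  rw [rpd_mul (hx.2 a k) (hd k d), rpd_mul (rad_smooth_diff (rad_smooth_hess hF k d) x) (hx.2 d b)]

theorem rLop_pd (h : MM ψ V c C M) {F : E n → ℝ} (hF : ContDiff ℝ (⊤ : ℕ∞) F) {x : E n} (hx : Good ψ x) (e : Fin n) :
    pd e (fun z => Lop ψ F z + F z) x = (∑ i, ∑ j, (pd e (fun y => tau ψ y i j) x * hess F x i j
      + tau ψ x i j * pd e (fun y => hess F y i j) x)) - ∑ i, x i * hess F x e i := by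
  have hh : ∀ i j, DifferentiableAt ℝ (fun y => hess F y i j) x := fun i j => rad_smooth_diff (rad_smooth_hess hF i j) x
  have hp : ∀ i, DifferentiableAt ℝ (pd i F) x := fun i => rad_smooth_diff (rad_smooth_pd hF i) x
  have hm : ∀ i j, DifferentiableAt ℝ (fun y => tau ψ y i j * hess F y i j) x := fun i j => (hx.2 i j).fun_mul (hh i j)
  have hq : ∀ i, DifferentiableAt ℝ (fun y : E n => y i * pd i F y) x := fun i => (rad_diff_coord i x).fun_mul (hp i)
  have d1 : DifferentiableAt ℝ (fun y => ∑ i, ∑ j, tau ψ y i j * hess F y i j) x :=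
    DifferentiableAt.fun_sum fun i _ => DifferentiableAt.fun_sum fun j _ => hm i j
  have d2 : DifferentiableAt ℝ (fun y : E n => ∑ i, y i * pd i F y) x :=
    DifferentiableAt.fun_sum fun i _ => hq i
  have e1 : ∀ i, pd e (fun y => ∑ j, tau ψ y i j * hess F y i j) x = ∑ j, (pd e (fun y => tau ψ y i j) x * hess F x i j
      + tau ψ x i j * pd e (fun y => hess F y i j) x) := by
    intro i
    refine (rpd_sum (f := fun j y => tau ψ y i j * hess F y i j) fun j _ => hm i j).trans ?_
    exact Finset.sum_congr rfl fun j _ => rpd_mul (hx.2 i j) (hh i j)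
  have e2 : ∀ i, pd e (fun y : E n => y i * pd i F y) x = (if i = e then 1 else 0) * pd i F x + x i * hess F x e i := by
    intro i
    rw [rpd_mul (rad_diff_coord i x) (hp i), rpd_coord]
    rfl
  have e3 : pd e (fun y => ∑ i, ∑ j, tau ψ y i j * hess F y i j) x = ∑ i, ∑ j, (pd e (fun y => tau ψ y i j) x * hess F x i j
      + tau ψ x i j * pd e (fun y => hess F y i j) x) :=
    (rpd_sum (f := fun i y => ∑ j, tau ψ y i j * hess F y i j) fun i _ => DifferentiableAt.fun_sum fun j _ => hm i j).trans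
      (Finset.sum_congr rfl fun i _ => e1 i)
  have e4 : pd e (fun y : E n => ∑ i, y i * pd i F y) x = ∑ i, ((if i = e then 1 else 0) * pd i F x + x i * hess F x e i) :=
    (rpd_sum (f := fun i (y : E n) => y i * pd i F y) fun i _ => hq i).trans (Finset.sum_congr rfl fun i _ => e2 i)
  have e5 : pd e (fun z => Lop ψ F z + F z) x = (pd e (fun y => ∑ i, ∑ j, tau ψ y i j * hess F y i j) x
      - pd e (fun y : E n => ∑ i, y i * pd i F y) x) + pd e F x :=
    (rpd_add (f := fun y : E n => (∑ i, ∑ j, tau ψ y i j * hess F y i j) - ∑ i, y i * pd i F y) (d1.fun_sub d2)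
      (rad_smooth_diff hF x)).trans (congrArg (fun r => r + pd e F x) (rpd_sub d1 d2))
  rw [e5, e3, e4, Finset.sum_add_distrib]
  simp only [ite_mul, one_mul, zero_mul, Finset.sum_ite_eq', Finset.mem_univ, if_true]
  ring

theorem rad_divK (h : MM ψ V c C M) {F : E n → ℝ} (hF : ContDiff ℝ (⊤ : ℕ∞) F) {x : E n} (hx : Good ψ x) (b : Fin n) :
    ∑ a, (pd a (fun y => rKK ψ F y a b) x - rKK ψ F x a b * pd a V x) = fld ψ (fun z => Lop ψ F z + F z) b x := by
  have hgF : ∀ i j, DifferentiableAt ℝ (fun y => hess F y i j) x := fun i j => rad_smooth_diff (rad_smooth_hess hF i j) x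
  have key := rad_alg (fun i j => tau ψ x i j) (fun i j => hess F x i j) (fun k i j => pd k (fun y => tau ψ y i j) x)
    (fun k i j => pd k (fun y => hess F y i j) x) (fun a => pd a V x) (fun i => x i)
    (fun i j => rad_tau_symm h x i j) (fun i j => rad_hess_symm (rad_smooth_C2 hF) x i j)
    (fun k i j => by
      show pd k (fun y => tau ψ y i j) x = pd k (fun y => tau ψ y j i) x
      congr 1
      funext y
      exact rad_tau_symm h y i j)
    (fun k i j => rad_third (rad_smooth_C2 hF) hgF k i j)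
    (fun k i j => by
      show pd k (fun y => hess F y i j) x = pd k (fun y => hess F y j i) x
      congr 1
      funext y
      exact rad_hess_symm (rad_smooth_C2 hF) y i j)
    (fun k => rad_div h hx k) (fun a b d => rad_T h hx a b d) b
  unfold fld
  rw [Finset.sum_congr rfl fun e _ => congrArg (fun r => tau ψ x b e * r) (rLop_pd h hF hx e)]
  rw [← key]
  refine Finset.sum_congr rfl fun a _ => ?_
  rw [rKK_pd h hF hx]
  rfl

theorem rKK_apply (ψ F : E n → ℝ) (y : E n) (a b : Fin n) :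
    (tau ψ y * (hess F y * tau ψ y)) a b = rKK ψ F y a b := by
  rw [Matrix.mul_apply]
  unfold rKK
  refine Finset.sum_congr rfl fun c _ => ?_
  rw [Matrix.mul_apply, Finset.mul_sum]

theorem rKK_trace (ψ F W : E n → ℝ) (hW : ContDiff ℝ 2 W) (x : E n) :
    (hess W x * tau ψ x * hess F x * tau ψ x).trace = ∑ a, ∑ b, rKK ψ F x a b * hess W x a b := by
  have h1 : hess W x * tau ψ x * hess F x * tau ψ x = hess W x * (tau ψ x * (hess F x * tau ψ x)) := by
    simp only [Matrix.mul_assoc]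
  rw [h1, Finset.sum_comm]
  unfold Matrix.trace
  refine Finset.sum_congr rfl fun b _ => ?_
  rw [Matrix.diag_apply, Matrix.mul_apply]
  refine Finset.sum_congr rfl fun a _ => ?_
  rw [rKK_apply, rad_hess_symm hW x b a]
  ring

theorem rKK_zero (ψ F : E n → ℝ) {x : E n} (hx : x ∉ tsupport F) (a b : Fin n) : rKK ψ F x a b = 0 := by
  have h1 : ∀ i j, hess F x i j = 0 := by
    intro i j
    have h2 : pd j F =ᶠ[𝓝 x] fun _ => 0 := by
      have h3 : F =ᶠ[𝓝 x] fun _ => 0 := notMem_tsupport_iff_eventuallyEq.1 hx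
      filter_upwards [h3.fderiv (𝕜 := ℝ)] with y hy
      show fderiv ℝ F y (ei j) = 0
      rw [hy]
      simp
    show fderiv ℝ (pd j F) x (ei i) = 0
    rw [h2.fderiv_eq]
    simp
  unfold rKK
  refine Finset.sum_eq_zero fun k _ => Finset.sum_eq_zero fun d _ => ?_
  rw [h1, zero_mul, mul_zero]

theorem rKK_BL (h : MM ψ V c C M) {F : E n → ℝ} (hF : ContDiff ℝ (⊤ : ℕ∞) F) (hs : HasCompactSupport F)
    {Φ : E n → ℝ} (hΦ : ContDiff ℝ 1 Φ) (a b : Fin n) : BL (fun x => rKK ψ F x a b * Φ x) := by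
  have e : (fun x => rKK ψ F x a b * Φ x) = fun x => ∑ k, ∑ d, tau ψ x a k * ((hess F x k d * Φ x) * tau ψ x d b) := by
    funext x
    unfold rKK
    rw [Finset.sum_mul]
    refine Finset.sum_congr rfl fun k _ => ?_
    rw [Finset.sum_mul]
    refine Finset.sum_congr rfl fun d _ => ?_
    ring
  rw [e]
  refine BL.sum _ fun k _ => BL.sum _ fun d _ => (BL.tau h a k).mul (BL.mul ?_ (BL.tau h d b))
  refine BL.of_smooth ((rad_smooth_C1 (rad_smooth_hess hF k d)).mul hΦ) ?_
  have h1 : HasCompactSupport (fun x => hess F x k d) := (hs.fderiv_apply ℝ (ei d)).fderiv_apply ℝ (ei k)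
  exact h1.mul_right

theorem rKK_supp {F : E n → ℝ} (hs : HasCompactSupport F) (Φ : E n → ℝ) (ψ : E n → ℝ) (a b : Fin n) :
    HasCompactSupport (fun x => rKK ψ F x a b * Φ x) :=
  HasCompactSupport.intro hs (fun x hx => by rw [rKK_zero ψ F hx, zero_mul])

/-- `StmtDiv` needs only `MM` and `V` smooth -/
theorem rad_stmtDiv (h : MM ψ V c C M) (hV : ContDiff ℝ (⊤ : ℕ∞) V) {F W : E n → ℝ} (hF : Test F)
    (hW : ContDiff ℝ (⊤ : ℕ∞) W) :
    Ex V (fun x => ∑ b, pd b W x * fld ψ (fun z => Lop ψ F z + F z) b x) =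
      - Ex V (fun x => (hess W x * tau ψ x * hess F x * tau ψ x).trace) := by
  obtain ⟨hFs, hFc⟩ := hF
  have hΦ : ∀ b : Fin n, ContDiff ℝ (⊤ : ℕ∞) (fun x => pd b W x * Real.exp (-V x)) := fun b =>
    (rad_smooth_pd hW b).mul (Real.contDiff_exp.comp hV.neg)
  -- the vector field
  have hG1 : ∀ a b : Fin n, BL (fun x => rKK ψ F x a b * (pd b W x * Real.exp (-V x))) := fun a b =>
    rKK_BL h hFs hFc (rad_smooth_C1 (hΦ b)) a b
  have hG2 : ∀ a b : Fin n, HasCompactSupport (fun x => rKK ψ F x a b * (pd b W x * Real.exp (-V x))) := fun a b =>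
    rKK_supp hFc _ ψ a b
  have hint : ∀ a b : Fin n, Integrable (pd a (fun x => rKK ψ F x a b * (pd b W x * Real.exp (-V x)))) := fun a b =>
    rad_pd_int (hG1 a b) (hG2 a b) a
  have h0 : ∫ x, ∑ a, ∑ b, pd a (fun x => rKK ψ F x a b * (pd b W x * Real.exp (-V x))) x = 0 := by
    rw [integral_finsetSum _ fun a _ => integrable_finsetSum _ fun b _ => hint a b]
    refine Finset.sum_eq_zero fun a _ => ?_
    rw [integral_finsetSum _ fun b _ => hint a b]
    exact Finset.sum_eq_zero fun b _ => rad_ibp0 (hG1 a b) (hG2 a b) a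
  have hDint : Integrable (fun x => ∑ a, ∑ b, pd a (fun x => rKK ψ F x a b * (pd b W x * Real.exp (-V x))) x) :=
    integrable_finsetSum _ fun a _ => integrable_finsetSum _ fun b _ => hint a b
  -- the second term
  have hB1 : Continuous (fun x => (hess W x * tau ψ x * hess F x * tau ψ x).trace * Real.exp (-V x)) := by
    have e : (fun x => (hess W x * tau ψ x * hess F x * tau ψ x).trace * Real.exp (-V x)) =
        fun x => (∑ a, ∑ b, rKK ψ F x a b * hess W x a b) * Real.exp (-V x) := by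
      funext x
      rw [rKK_trace ψ F W (rad_smooth_C2 hW)]
    rw [e]
    have ht : ∀ i j, Continuous (fun x => tau ψ x i j) := fun i j => by
      obtain ⟨K, hK⟩ := (BL.tau h i j).lip
      exact hK.continuous
    refine Continuous.mul ?_ (Real.continuous_exp.comp hV.continuous.neg)
    refine continuous_finset_sum _ fun a _ => continuous_finset_sum _ fun b _ => ?_
    refine Continuous.mul ?_ (rad_hess_cont (rad_smooth_C2 hW) a b)
    unfold rKK
    refine continuous_finset_sum _ fun k _ => continuous_finset_sum _ fun d _ => ?_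
    exact (ht a k).mul ((rad_hess_cont (rad_smooth_C2 hFs) k d).mul (ht d b))
  have hB2 : HasCompactSupport (fun x => (hess W x * tau ψ x * hess F x * tau ψ x).trace * Real.exp (-V x)) := by
    refine HasCompactSupport.intro hFc fun x hx => ?_
    rw [rKK_trace ψ F W (rad_smooth_C2 hW)]
    simp only [rKK_zero ψ F hx, zero_mul, Finset.sum_const_zero]
  have hBint : Integrable (fun x => (hess W x * tau ψ x * hess F x * tau ψ x).trace * Real.exp (-V x)) :=
    hB1.integrable_of_hasCompactSupport hB2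
  have hae : ∀ᵐ x : E n, ∑ a, ∑ b, pd a (fun x => rKK ψ F x a b * (pd b W x * Real.exp (-V x))) x =
      (∑ b, pd b W x * fld ψ (fun z => Lop ψ F z + F z) b x) * Real.exp (-V x)
        + (hess W x * tau ψ x * hess F x * tau ψ x).trace * Real.exp (-V x) := by
    filter_upwards [rad_good h] with x hx
    have e1 : ∀ a b : Fin n, pd a (fun x => rKK ψ F x a b * (pd b W x * Real.exp (-V x))) x =
        (pd b W x * Real.exp (-V x)) * (pd a (fun y => rKK ψ F y a b) x - rKK ψ F x a b * pd a V x)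
        + rKK ψ F x a b * hess W x a b * Real.exp (-V x) := by
      intro a b
      have hexp : DifferentiableAt ℝ (fun y : E n => Real.exp (-V y)) x := ((rad_smooth_diff hV x).fun_neg).exp
      have hpe : pd a (fun y : E n => Real.exp (-V y)) x = - (pd a V x) * Real.exp (-V x) := by
        show fderiv ℝ (fun y : E n => Real.exp (-V y)) x (ei a) = _
        rw [fderiv_exp (rad_smooth_diff hV x).fun_neg, fderiv_fun_neg]
        simp only [ContinuousLinearMap.smul_apply, ContinuousLinearMap.neg_apply, smul_eq_mul]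
        show Real.exp (-V x) * -(pd a V x) = _
        ring
      rw [rpd_mul (rKK_diff h hFs hx a b) ((rad_smooth_diff (rad_smooth_pd hW b) x).fun_mul hexp),
        rpd_mul (rad_smooth_diff (rad_smooth_pd hW b) x) hexp, hpe]
      show _ = _ + rKK ψ F x a b * pd a (pd b W) x * Real.exp (-V x)
      ring
    rw [Finset.sum_congr rfl fun a _ => Finset.sum_congr rfl fun b _ => e1 a b]
    simp only [Finset.sum_add_distrib]
    rw [rKK_trace ψ F W (rad_smooth_C2 hW), Finset.sum_mul, Finset.sum_mul]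
    congr 1
    · rw [Finset.sum_comm]
      refine Finset.sum_congr rfl fun b _ => ?_
      rw [← Finset.mul_sum, rad_divK h hFs hx b]
      ring
    · refine Finset.sum_congr rfl fun a _ => ?_
      rw [Finset.sum_mul]
  have hA : ∫ x, (∑ b, pd b W x * fld ψ (fun z => Lop ψ F z + F z) b x) * Real.exp (-V x) =
      - ∫ x, (hess W x * tau ψ x * hess F x * tau ψ x).trace * Real.exp (-V x) := by
    have e2 : ∫ x, (∑ b, pd b W x * fld ψ (fun z => Lop ψ F z + F z) b x) * Real.exp (-V x) =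
        ∫ x, ((∑ a, ∑ b, pd a (fun x => rKK ψ F x a b * (pd b W x * Real.exp (-V x))) x)
          - (hess W x * tau ψ x * hess F x * tau ψ x).trace * Real.exp (-V x)) := by
      refine integral_congr_ae ?_
      filter_upwards [hae] with x hx
      rw [hx]
      ring
    rw [e2, integral_sub hDint hBint, h0, zero_sub]
  unfold Ex
  rw [hA, neg_div]

theorem stmtDiv : StmtDiv := fun _ _ _ _ _ _ hN h _ _ hF hW => rad_stmtDiv h hN.smooth hF hW

end Vale.Agent.P227.M
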