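import Vale.Agent.P227.M.Defs

/-! P227/M, block ID (helper590): first order calculus for locally Lipschitz functions on `E n`:
a.e. product rules, integration by parts (also weighted by `e^{-V}`), and the weak symmetry of second
derivatives `∫ (∂ᵢW)(∂ⱼY) = ∫ (∂ⱼW)(∂ᵢY)`. -/

open MeasureTheory Set Metric Filter
open scoped Topology NNReal

namespace Vale.Agent.P227.M.X

variable {n : ℕ}

/-- Lipschitz on every ball -/
def LL (f : E n → ℝ) : Prop :=
  ∀ R : ℝ, ∃ C : ℝ, ∀ x y, ‖x‖ ≤ R → ‖y‖ ≤ R → |f x - f y| ≤ C * ‖x - y‖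

/-- vanishes outside a ball -/
def CS (f : E n → ℝ) : Prop := ∃ R : ℝ, ∀ x, R < ‖x‖ → f x = 0

/-- measurable and bounded on balls -/
def LB (f : E n → ℝ) : Prop := Measurable f ∧ ∀ R : ℝ, ∃ B : ℝ, ∀ x, ‖x‖ ≤ R → |f x| ≤ B

/-! ### locally Lipschitz functions -/

theorem LL.lipOn {f : E n → ℝ} (h : LL f) (R : ℝ) :
    ∃ K : ℝ≥0, LipschitzOnWith K f (closedBall (0 : E n) R) := by
  obtain ⟨C, hC⟩ := h R
  refine ⟨C.toNNReal, LipschitzOnWith.of_dist_le_mul fun x hx y hy => ?_⟩
  rw [mem_closedBall_zero_iff] at hx hy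
  rw [Real.dist_eq, dist_eq_norm]
  exact (hC x y hx hy).trans (mul_le_mul_of_nonneg_right (Real.le_coe_toNNReal C) (norm_nonneg _))

theorem ball_nhds (x : E n) {R : ℝ} (h : ‖x‖ < R) : closedBall (0 : E n) R ∈ 𝓝 x :=
  mem_of_superset (isOpen_ball.mem_nhds (by simpa using h)) ball_subset_closedBall

theorem LL.continuous {f : E n → ℝ} (h : LL f) : Continuous f := by
  rw [continuous_iff_continuousAt]
  intro x
  obtain ⟨K, hK⟩ := h.lipOn (‖x‖ + 1)
  exact (hK.continuousOn).continuousAt (ball_nhds x (by linarith))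

theorem LL.bdd {f : E n → ℝ} (h : LL f) (R : ℝ) : ∃ B : ℝ, 0 ≤ B ∧ ∀ x, ‖x‖ ≤ R → |f x| ≤ B := by
  obtain ⟨B, hB⟩ := (isCompact_closedBall (0 : E n) R).exists_bound_of_continuousOn h.continuous.continuousOn
  refine ⟨max B 0, le_max_right _ _, fun x hx => ?_⟩
  exact (hB x (by simpa using hx)).trans (le_max_left _ _)

theorem LL.const (c : ℝ) : LL (fun _ : E n => c) := by
  intro R
  exact ⟨0, fun x y _ _ => by simp⟩

theorem LL.add {f g : E n → ℝ} (hf : LL f) (hg : LL g) : LL (fun x => f x + g x) := by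
  intro R
  obtain ⟨A, hA⟩ := hf R
  obtain ⟨B, hB⟩ := hg R
  refine ⟨A + B, fun x y hx hy => ?_⟩
  have e : f x + g x - (f y + g y) = (f x - f y) + (g x - g y) := by ring
  rw [e, add_mul]
  exact (abs_add_le _ _).trans (add_le_add (hA x y hx hy) (hB x y hx hy))

theorem LL.neg {f : E n → ℝ} (hf : LL f) : LL (fun x => -f x) := by
  intro R
  obtain ⟨A, hA⟩ := hf R
  refine ⟨A, fun x y hx hy => ?_⟩
  have e : -f x - -f y = -(f x - f y) := by ring
  rw [e, abs_neg]
  exact hA x y hx hy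

theorem LL.sub {f g : E n → ℝ} (hf : LL f) (hg : LL g) : LL (fun x => f x - g x) := by
  simpa [sub_eq_add_neg] using hf.add hg.neg

theorem LL.mul {f g : E n → ℝ} (hf : LL f) (hg : LL g) : LL (fun x => f x * g x) := by
  intro R
  obtain ⟨A, hA⟩ := hf R
  obtain ⟨B, hB⟩ := hg R
  obtain ⟨P, hP0, hP⟩ := hf.bdd R
  obtain ⟨Q, hQ0, hQ⟩ := hg.bdd R
  refine ⟨P * B + A * Q, fun x y hx hy => ?_⟩
  have e : f x * g x - f y * g y = f x * (g x - g y) + (f x - f y) * g y := by ring
  rw [e, add_mul]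
  refine (abs_add_le _ _).trans (add_le_add ?_ ?_)
  · rw [abs_mul, mul_assoc]
    exact mul_le_mul (hP x hx) (hB x y hx hy) (abs_nonneg _) hP0
  · rw [abs_mul]
    calc |f x - f y| * |g y| ≤ (A * ‖x - y‖) * Q :=
          mul_le_mul (hA x y hx hy) (hQ y hy) (abs_nonneg _) ((abs_nonneg _).trans (hA x y hx hy))
      _ = A * Q * ‖x - y‖ := by ring

theorem LL.sum {ι : Type*} {s : Finset ι} {f : ι → E n → ℝ} (hf : ∀ i ∈ s, LL (f i)) :
    LL (fun x => ∑ i ∈ s, f i x) := by
  classical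
  induction s using Finset.induction_on with
  | empty => simpa using LL.const (n := n) 0
  | insert a s ha ih =>
    have h1 := (hf a (Finset.mem_insert_self a s)).add
      (ih fun i hi => hf i (Finset.mem_insert_of_mem hi))
    simpa [Finset.sum_insert ha] using h1

theorem LL.of_lip {f : E n → ℝ} {C : ℝ} (h : ∀ x y, |f x - f y| ≤ C * ‖x - y‖) : LL f :=
  fun _ => ⟨C, fun x y _ _ => h x y⟩

theorem LL.of_contDiff {f : E n → ℝ} (h : ContDiff ℝ 1 f) : LL f := by
  intro R
  have hc : Continuous (fderiv ℝ f) := h.continuous_fderiv one_ne_zero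
  obtain ⟨B, hB⟩ := (isCompact_closedBall (0 : E n) R).exists_bound_of_continuousOn hc.continuousOn
  refine ⟨B, fun x y hx hy => ?_⟩
  have := (convex_closedBall (0 : E n) R).norm_image_sub_le_of_norm_fderiv_le (𝕜 := ℝ) (f := f) (C := B)
    (fun z _ => (h.differentiable one_ne_zero) z) (fun z hz => hB z hz)
    (show y ∈ closedBall (0 : E n) R by simpa using hy) (show x ∈ closedBall (0 : E n) R by simpa using hx)
  simpa [Real.norm_eq_abs] using this

/-- local extension to a Lipschitz function -/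
theorem LL.ext {f : E n → ℝ} (h : LL f) (R : ℝ) :
    ∃ g : E n → ℝ, ∃ K : ℝ≥0, LipschitzWith K g ∧ ∀ x, ‖x‖ ≤ R → f x = g x := by
  obtain ⟨K, hK⟩ := h.lipOn R
  obtain ⟨g, hg, hfg⟩ := hK.extend_real
  exact ⟨g, K, hg, fun x hx => hfg (by simpa using hx)⟩

theorem eventually_eq_of_ball {f g : E n → ℝ} {R : ℝ} (h : ∀ x, ‖x‖ ≤ R → f x = g x) {x : E n} (hx : ‖x‖ < R) :
    f =ᶠ[𝓝 x] g := by
  filter_upwards [ball_nhds x hx] with y hy
  exact h y (by simpa using hy)

theorem LL.ae_diff {f : E n → ℝ} (h : LL f) : ∀ᵐ x, DifferentiableAt ℝ f x := by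
  have h1 : ∀ k : ℕ, ∀ᵐ x : E n, ‖x‖ < k → DifferentiableAt ℝ f x := by
    intro k
    obtain ⟨g, K, hg, hfg⟩ := h.ext k
    filter_upwards [hg.ae_differentiableAt] with x hx hxk
    exact hx.congr_of_eventuallyEq (eventually_eq_of_ball hfg hxk)
  filter_upwards [ae_all_iff.2 h1] with x hx
  obtain ⟨k, hk⟩ := exists_nat_gt ‖x‖
  exact hx k hk

/-! ### locally bounded functions -/

theorem LL.lb {f : E n → ℝ} (h : LL f) : LB f :=
  ⟨h.continuous.measurable, fun R => by obtain ⟨B, _, hB⟩ := h.bdd R; exact ⟨B, hB⟩⟩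

theorem LB.of_continuous {f : E n → ℝ} (h : Continuous f) : LB f := by
  refine ⟨h.measurable, fun R => ?_⟩
  obtain ⟨B, hB⟩ := (isCompact_closedBall (0 : E n) R).exists_bound_of_continuousOn h.continuousOn
  exact ⟨B, fun x hx => hB x (by simpa using hx)⟩

theorem LB.pd {f : E n → ℝ} (h : LL f) (i : Fin n) : LB (pd i f) := by
  refine ⟨measurable_fderiv_apply_const ℝ f _, fun R => ?_⟩
  obtain ⟨K, hK⟩ := h.lipOn (R + 1)
  refine ⟨K, fun x hx => ?_⟩
  have h1 := norm_fderiv_le_of_lipschitzOn ℝ (ball_nhds x (by linarith : ‖x‖ < R + 1)) hK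
  have h2 : ‖fderiv ℝ f x (ei i)‖ ≤ ‖fderiv ℝ f x‖ * ‖(ei i : E n)‖ := ContinuousLinearMap.le_opNorm _ _
  have h3 : ‖(ei i : E n)‖ = 1 := by simp [ei]
  rw [h3, mul_one] at h2
  exact h2.trans h1

theorem LB.add {f g : E n → ℝ} (hf : LB f) (hg : LB g) : LB (fun x => f x + g x) := by
  refine ⟨hf.1.add hg.1, fun R => ?_⟩
  obtain ⟨A, hA⟩ := hf.2 R
  obtain ⟨B, hB⟩ := hg.2 R
  exact ⟨A + B, fun x hx => (abs_add_le _ _).trans (add_le_add (hA x hx) (hB x hx))⟩

theorem LB.neg {f : E n → ℝ} (hf : LB f) : LB (fun x => -f x) := by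
  refine ⟨hf.1.neg, fun R => ?_⟩
  obtain ⟨A, hA⟩ := hf.2 R
  exact ⟨A, fun x hx => by rw [abs_neg]; exact hA x hx⟩

theorem LB.sub {f g : E n → ℝ} (hf : LB f) (hg : LB g) : LB (fun x => f x - g x) := by
  simpa [sub_eq_add_neg] using hf.add hg.neg

theorem LB.mul {f g : E n → ℝ} (hf : LB f) (hg : LB g) : LB (fun x => f x * g x) := by
  refine ⟨hf.1.mul hg.1, fun R => ?_⟩
  obtain ⟨A, hA⟩ := hf.2 R
  obtain ⟨B, hB⟩ := hg.2 R
  refine ⟨max A 0 * max B 0, fun x hx => ?_⟩
  rw [abs_mul]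
  exact mul_le_mul ((hA x hx).trans (le_max_left _ _)) ((hB x hx).trans (le_max_left _ _)) (abs_nonneg _)
    (le_max_right _ _)

theorem LB.const (c : ℝ) : LB (fun _ : E n => c) := (LL.const c).lb

theorem LB.sum {ι : Type*} {s : Finset ι} {f : ι → E n → ℝ} (hf : ∀ i ∈ s, LB (f i)) :
    LB (fun x => ∑ i ∈ s, f i x) := by
  classical
  induction s using Finset.induction_on with
  | empty => simpa using LB.const (n := n) 0
  | insert a s ha ih =>
    have h1 := (hf a (Finset.mem_insert_self a s)).add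
      (ih fun i hi => hf i (Finset.mem_insert_of_mem hi))
    simpa [Finset.sum_insert ha] using h1

/-! ### compact supports -/

theorem CS.mul_left {f : E n → ℝ} (hf : CS f) (g : E n → ℝ) : CS (fun x => g x * f x) := by
  obtain ⟨R, hR⟩ := hf
  exact ⟨R, fun x hx => by simp only [hR x hx, mul_zero]⟩

theorem CS.mul_right {f : E n → ℝ} (hf : CS f) (g : E n → ℝ) : CS (fun x => f x * g x) := by
  obtain ⟨R, hR⟩ := hf
  exact ⟨R, fun x hx => by simp only [hR x hx, zero_mul]⟩

theorem CS.add {f g : E n → ℝ} (hf : CS f) (hg : CS g) : CS (fun x => f x + g x) := by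
  obtain ⟨R, hR⟩ := hf
  obtain ⟨S, hS⟩ := hg
  refine ⟨max R S, fun x hx => ?_⟩
  simp only [hR x ((le_max_left _ _).trans_lt hx), hS x ((le_max_right _ _).trans_lt hx), add_zero]

theorem CS.neg {f : E n → ℝ} (hf : CS f) : CS (fun x => -f x) := by
  obtain ⟨R, hR⟩ := hf
  exact ⟨R, fun x hx => by simp only [hR x hx, neg_zero]⟩

theorem CS.sub {f g : E n → ℝ} (hf : CS f) (hg : CS g) : CS (fun x => f x - g x) := by
  simpa [sub_eq_add_neg] using hf.add hg.neg

theorem CS.sum {ι : Type*} {s : Finset ι} {f : ι → E n → ℝ} (hf : ∀ i ∈ s, CS (f i)) :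
    CS (fun x => ∑ i ∈ s, f i x) := by
  classical
  induction s using Finset.induction_on with
  | empty => exact ⟨0, fun x _ => by simp⟩
  | insert a s ha ih =>
    have h1 := (hf a (Finset.mem_insert_self a s)).add
      (ih fun i hi => hf i (Finset.mem_insert_of_mem hi))
    simpa [Finset.sum_insert ha] using h1

theorem CS.pd {f : E n → ℝ} (hf : CS f) (i : Fin n) : CS (pd i f) := by
  obtain ⟨R, hR⟩ := hf
  refine ⟨R, fun x hx => ?_⟩
  have h1 : f =ᶠ[𝓝 x] fun _ => (0 : ℝ) := by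
    have : {y : E n | R < ‖y‖} ∈ 𝓝 x := (isOpen_lt continuous_const continuous_norm).mem_nhds hx
    filter_upwards [this] with y hy
    exact hR y hy
  unfold M.pd
  rw [h1.fderiv_eq]
  simp

theorem CS.of_hasCompactSupport {f : E n → ℝ} (h : HasCompactSupport f) : CS f := by
  obtain ⟨R, hR⟩ := h.isCompact.isBounded.subset_closedBall (0 : E n)
  refine ⟨R, fun x hx => ?_⟩
  by_contra h0
  have := hR (subset_tsupport f h0)
  rw [mem_closedBall_zero_iff] at this
  linarith

theorem CS.hasCompactSupport {f : E n → ℝ} (h : CS f) : HasCompactSupport f := by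
  obtain ⟨R, hR⟩ := h
  refine HasCompactSupport.intro (isCompact_closedBall (0 : E n) R) fun x hx => hR x ?_
  rw [mem_closedBall_zero_iff, not_le] at hx
  exact hx

theorem LB.integrable {f : E n → ℝ} (h : LB f) (hc : CS f) : Integrable f := by
  obtain ⟨R, hR⟩ := hc
  obtain ⟨B, hB⟩ := h.2 R
  have h1 : IntegrableOn f (closedBall (0 : E n) R) := by
    refine Measure.integrableOn_of_bounded (M := B) (measure_closedBall_lt_top).ne
      h.1.aestronglyMeasurable ?_
    exact (ae_restrict_iff' measurableSet_closedBall).2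
      (Eventually.of_forall fun x hx => hB x (by simpa using hx))
  refine (integrableOn_iff_integrable_of_support_subset ?_).1 h1
  intro x hx
  by_contra h0
  rw [mem_closedBall_zero_iff, not_le] at h0
  exact hx (hR x h0)

/-! ### pointwise rules -/

section rules
variable {f g : E n → ℝ} {x : E n}

theorem pd_add (i : Fin n) (hf : DifferentiableAt ℝ f x) (hg : DifferentiableAt ℝ g x) :
    pd i (fun z => f z + g z) x = pd i f x + pd i g x := by
  unfold M.pd
  rw [fderiv_fun_add hf hg]; rfl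

theorem pd_sub (i : Fin n) (hf : DifferentiableAt ℝ f x) (hg : DifferentiableAt ℝ g x) :
    pd i (fun z => f z - g z) x = pd i f x - pd i g x := by
  unfold M.pd
  rw [fderiv_fun_sub hf hg]; rfl

theorem pd_neg (i : Fin n) : pd i (fun z => - f z) x = - pd i f x := by
  unfold M.pd
  rw [fderiv_fun_neg]; rfl

theorem pd_mul (i : Fin n) (hf : DifferentiableAt ℝ f x) (hg : DifferentiableAt ℝ g x) :
    pd i (fun z => f z * g z) x = pd i f x * g x + f x * pd i g x := by
  unfold M.pd
  rw [fderiv_fun_mul hf hg]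
  simp [mul_comm]
  ring

theorem pd_sum {ι : Type*} (s : Finset ι) {F : ι → E n → ℝ} (i : Fin n)
    (hF : ∀ j ∈ s, DifferentiableAt ℝ (F j) x) :
    pd i (fun z => ∑ j ∈ s, F j z) x = ∑ j ∈ s, pd i (F j) x := by
  unfold M.pd
  rw [fderiv_fun_sum hF]
  simp

theorem pd_exp_neg (i : Fin n) {V : E n → ℝ} (hV : DifferentiableAt ℝ V x) :
    pd i (fun z => Real.exp (- V z)) x = - pd i V x * Real.exp (-V x) := by
  unfold M.pd
  rw [fderiv_exp hV.fun_neg, fderiv_fun_neg]
  simp [mul_comm]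

end rules

/-! ### integration by parts -/

theorem LL.lipschitz {g : E n → ℝ} (h : LL g) (hc : CS g) : ∃ K : ℝ≥0, LipschitzWith K g := by
  obtain ⟨R0, hR0⟩ := hc
  set R := max R0 0 with hRdef
  have hR : ∀ x, R < ‖x‖ → g x = 0 := fun x hx => hR0 x ((le_max_left _ _).trans_lt hx)
  obtain ⟨C, hC⟩ := h (R + 1)
  have key : ∀ x y : E n, ‖x‖ ≤ R + 1 → R + 1 < ‖y‖ → |g x - g y| ≤ max C 0 * ‖x - y‖ := by
    intro x y hx hy
    rw [hR y (by linarith), sub_zero]
    have hcont : ContinuousOn (fun t : ℝ => ‖x + t • (y - x)‖) (Icc 0 1) := by fun_prop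
    have hmem : R + 1 ∈ Icc (‖x + (0 : ℝ) • (y - x)‖) (‖x + (1 : ℝ) • (y - x)‖) := by
      simp only [zero_smul, add_zero, one_smul, add_sub_cancel]
      exact ⟨hx, hy.le⟩
    obtain ⟨t, ht, hz⟩ := intermediate_value_Icc (zero_le_one' ℝ) hcont hmem
    set z := x + t • (y - x) with hzdef
    have hz' : ‖z‖ = R + 1 := hz
    have hgz : g z = 0 := hR z (by rw [hz']; linarith)
    have h1 := hC x z hx hz'.le
    rw [hgz, sub_zero] at h1
    have h2 : ‖x - z‖ ≤ ‖x - y‖ := by
      have : x - z = t • (x - y) := by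
        rw [hzdef]; simp only [smul_sub]; abel
      rw [this, norm_smul, Real.norm_eq_abs, abs_of_nonneg ht.1]
      exact mul_le_of_le_one_left (norm_nonneg _) ht.2
    calc |g x| ≤ C * ‖x - z‖ := h1
      _ ≤ max C 0 * ‖x - z‖ := mul_le_mul_of_nonneg_right (le_max_left _ _) (norm_nonneg _)
      _ ≤ max C 0 * ‖x - y‖ := mul_le_mul_of_nonneg_left h2 (le_max_right _ _)
  refine ⟨(max C 0).toNNReal, LipschitzWith.of_dist_le_mul fun x y => ?_⟩
  rw [Real.dist_eq, dist_eq_norm, Real.coe_toNNReal _ (le_max_right _ _)]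
  by_cases hx : ‖x‖ ≤ R + 1
  · by_cases hy : ‖y‖ ≤ R + 1
    · exact (hC x y hx hy).trans (mul_le_mul_of_nonneg_right (le_max_left _ _) (norm_nonneg _))
    · exact key x y hx (not_le.1 hy)
  · by_cases hy : ‖y‖ ≤ R + 1
    · rw [abs_sub_comm, norm_sub_rev]
      exact key y x hy (not_le.1 hx)
    · rw [hR x (by linarith [not_le.1 hx]), hR y (by linarith [not_le.1 hy]), sub_zero, abs_zero]
      exact mul_nonneg (le_max_right _ _) (norm_nonneg _)

theorem ibp {f g : E n → ℝ} (hf : LL f) (hg : LL g) (hc : CS g) (i : Fin n) :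
    ∫ x, pd i f x * g x = - ∫ x, f x * pd i g x := by
  obtain ⟨Kg, hKg⟩ := hg.lipschitz hc
  obtain ⟨R, hR⟩ := hc
  obtain ⟨f', Kf, hf', hff'⟩ := hf.ext (R + 1)
  have hcs : HasCompactSupport g := CS.hasCompactSupport ⟨R, hR⟩
  have h1 := hf'.integral_lineDeriv_mul_eq (μ := volume) hKg hcs (ei i)
  have hgR : ∀ x, R < ‖x‖ → pd i g x = 0 := by
    intro x hx
    have h1 : g =ᶠ[𝓝 x] fun _ => (0 : ℝ) := by
      have : {y : E n | R < ‖y‖} ∈ 𝓝 x := (isOpen_lt continuous_const continuous_norm).mem_nhds hx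
      filter_upwards [this] with y hy
      exact hR y hy
    unfold M.pd
    rw [h1.fderiv_eq]
    simp
  have e1 : ∫ x, pd i f x * g x = ∫ x, lineDeriv ℝ f' x (ei i) * g x := by
    refine integral_congr_ae ?_
    filter_upwards [hf.ae_diff, hf'.ae_differentiableAt] with x hx hx'
    by_cases hxR : R < ‖x‖
    · simp only [hR x hxR, mul_zero]
    · have h3 : f =ᶠ[𝓝 x] f' := eventually_eq_of_ball hff' (by linarith [not_lt.1 hxR])
      rw [hx'.lineDeriv_eq_fderiv, ← h3.fderiv_eq]
      rfl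
  have e2 : ∫ x, f x * pd i g x = - ∫ x, lineDeriv ℝ g x (-ei i) * f' x := by
    rw [← integral_neg]
    refine integral_congr_ae ?_
    filter_upwards [hKg.ae_differentiableAt] with x hx
    rw [hx.lineDeriv_eq_fderiv, map_neg]
    by_cases hxR : R < ‖x‖
    · have h4 := hgR x hxR
      unfold M.pd at h4 ⊢
      simp only [h4]
      ring
    · rw [← hff' x (by linarith [not_lt.1 hxR])]
      unfold M.pd
      ring
  rw [e1, h1, e2, neg_neg]

theorem ibp' {f g : E n → ℝ} (hf : LL f) (hg : LL g) (hc : CS f) (i : Fin n) :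
    ∫ x, pd i f x * g x = - ∫ x, f x * pd i g x := by
  have h := ibp hg hf hc i
  have e1 : ∫ x, pd i f x * g x = ∫ x, g x * pd i f x := by
    refine integral_congr_ae (Eventually.of_forall fun x => ?_); exact mul_comm _ _
  have e2 : ∫ x, f x * pd i g x = ∫ x, pd i g x * f x := by
    refine integral_congr_ae (Eventually.of_forall fun x => ?_); exact mul_comm _ _
  rw [e1, e2, h, neg_neg]

/-- weak symmetry of second derivatives -/
theorem xx {W Y : E n → ℝ} (hW : LL W) (hWc : CS W) (hY : LL Y) (hYc : CS Y) (i j : Fin n) :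
    ∫ x, pd i W x * pd j Y x = ∫ x, pd j W x * pd i Y x := by
  obtain ⟨KW, hKW⟩ := hW.lipschitz hWc
  obtain ⟨KY, hKY⟩ := hY.lipschitz hYc
  have hiY : Integrable (pd j Y) := (LB.pd hY j).integrable (hYc.pd j)
  have hiW : Integrable (pd j W) := (LB.pd hW j).integrable (hWc.pd j)
  have A1 := hKW.integral_inv_smul_sub_mul_tendsto_integral_lineDeriv_mul hiY (ei i)
  have A2 := hKY.integral_inv_smul_sub_mul_tendsto_integral_lineDeriv_mul hiW (-ei i)
  have hshift : ∀ (F : E n → ℝ) (hF : LL F) (v : E n), LL (fun x => F (x + v)) := by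
    intro F hF v R
    obtain ⟨C, hC⟩ := hF (R + ‖v‖)
    refine ⟨C, fun x y hx hy => ?_⟩
    have := hC (x + v) (y + v) ((norm_add_le _ _).trans (by linarith)) ((norm_add_le _ _).trans (by linarith))
    simpa using this
  have hkey : ∀ t : ℝ, 0 < t → ∫ x, (t⁻¹ • (W (x + t • ei i) - W x)) * pd j Y x =
      - ∫ x, (t⁻¹ • (Y (x + t • -ei i) - Y x)) * pd j W x := by
    intro t ht
    have hLt : LL (fun x => t⁻¹ * (W (x + t • ei i) - W x)) :=
      (LL.const t⁻¹).mul ((hshift W hW (t • ei i)).sub hW)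
    have h1 := ibp hLt hY hYc j
    have hd : ∀ᵐ x, pd j (fun x => t⁻¹ * (W (x + t • ei i) - W x)) x =
        t⁻¹ * (pd j W (x + t • ei i) - pd j W x) := by
      have hm : ∀ᵐ x : E n, DifferentiableAt ℝ W (x + t • ei i) :=
        (measurePreserving_add_right volume (t • ei i : E n)).quasiMeasurePreserving.ae hW.ae_diff
      filter_upwards [hW.ae_diff, hm] with x h1 h2
      have h3 : HasFDerivAt (fun x => W (x + t • ei i)) (fderiv ℝ W (x + t • ei i)) x :=
        h2.hasFDerivAt.comp x ((hasFDerivAt_id x).add_const (t • ei i))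
      have h4 : HasFDerivAt (fun x => t⁻¹ * (W (x + t • ei i) - W x))
          (t⁻¹ • (fderiv ℝ W (x + t • ei i) - fderiv ℝ W x)) x :=
        (h3.sub h1.hasFDerivAt).const_mul t⁻¹
      unfold M.pd
      rw [h4.fderiv]
      simp
    have h2 : ∫ x, pd j (fun x => t⁻¹ * (W (x + t • ei i) - W x)) x * Y x =
        ∫ x, t⁻¹ * (pd j W (x + t • ei i) - pd j W x) * Y x :=
      integral_congr_ae (by filter_upwards [hd] with x hx; rw [hx])
    rw [h2] at h1
    have h3 : ∫ x, t⁻¹ * (pd j W (x + t • ei i) - pd j W x) * Y x =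
        ∫ x, (t⁻¹ • (Y (x + t • -ei i) - Y x)) * pd j W x := by
      have hbW := LB.pd hW j
      have hYb := hY.lb
      have i1 : Integrable fun x => pd j W x * Y x :=
        (hbW.mul hYb).integrable (hYc.mul_left _)
      have i2 : Integrable fun x => pd j W x * Y (x + t • -ei i) :=
        (hbW.mul (hshift Y hY _).lb).integrable ((hWc.pd j).mul_right _)
      have i3 : Integrable fun x => pd j W (x + t • ei i) * Y x := by
        have := i2.comp_add_right (t • ei i : E n)
        refine this.congr (Eventually.of_forall fun x => ?_)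
        simp [add_assoc]
      have e1 : ∫ x, pd j W (x + t • ei i) * Y x = ∫ x, pd j W x * Y (x + t • -ei i) := by
        rw [← integral_add_right_eq_self (fun x => pd j W x * Y (x + t • -ei i)) (t • ei i : E n)]
        refine integral_congr_ae (Eventually.of_forall fun x => ?_)
        simp [add_assoc]
      calc ∫ x, t⁻¹ * (pd j W (x + t • ei i) - pd j W x) * Y x
          = ∫ x, t⁻¹ * (pd j W (x + t • ei i) * Y x - pd j W x * Y x) := by
            refine integral_congr_ae (Eventually.of_forall fun x => ?_)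
            simp only; ring
        _ = t⁻¹ * ((∫ x, pd j W (x + t • ei i) * Y x) - ∫ x, pd j W x * Y x) := by
            rw [integral_const_mul, integral_sub i3 i1]
        _ = t⁻¹ * ((∫ x, pd j W x * Y (x + t • -ei i)) - ∫ x, pd j W x * Y x) := by rw [e1]
        _ = ∫ x, t⁻¹ * (pd j W x * Y (x + t • -ei i) - pd j W x * Y x) := by
            rw [integral_const_mul, integral_sub i2 i1]
        _ = ∫ x, (t⁻¹ • (Y (x + t • -ei i) - Y x)) * pd j W x := by
            refine integral_congr_ae (Eventually.of_forall fun x => ?_)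
            simp only [smul_eq_mul]; ring
    rw [h3] at h1
    simp only [smul_eq_mul] at h1 ⊢
    linarith
  have A3 : Tendsto (fun t : ℝ => ∫ x, (t⁻¹ • (W (x + t • ei i) - W x)) * pd j Y x) (𝓝[>] 0)
      (𝓝 (- ∫ x, lineDeriv ℝ Y x (-ei i) * pd j W x)) := by
    refine A2.neg.congr' ?_
    filter_upwards [self_mem_nhdsWithin] with t ht
    exact (hkey t ht).symm
  have h5 := tendsto_nhds_unique A1 A3
  have e1 : ∫ x, lineDeriv ℝ W x (ei i) * pd j Y x = ∫ x, pd i W x * pd j Y x := by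
    refine integral_congr_ae ?_
    filter_upwards [hW.ae_diff] with x hx
    rw [hx.lineDeriv_eq_fderiv]; rfl
  have e2 : - ∫ x, lineDeriv ℝ Y x (-ei i) * pd j W x = ∫ x, pd j W x * pd i Y x := by
    rw [← integral_neg]
    refine integral_congr_ae ?_
    filter_upwards [hY.ae_diff] with x hx
    rw [hx.lineDeriv_eq_fderiv, map_neg]
    unfold M.pd
    ring
  rw [← e1, ← e2, h5]

/-! ### weighted versions -/

theorem LL.exp_neg {V : E n → ℝ} (hV : ContDiff ℝ 1 V) : LL (fun x => Real.exp (-V x)) :=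
  LL.of_contDiff (hV.neg.exp)

theorem ibpw {V : E n → ℝ} (hV : ContDiff ℝ 1 V) {f g : E n → ℝ} (hf : LL f) (hg : LL g)
    (hc : CS f ∨ CS g) (i : Fin n) :
    ∫ x, pd i f x * g x * Real.exp (-V x) =
      ∫ x, f x * (pd i V x * g x - pd i g x) * Real.exp (-V x) := by
  have hρ := LL.exp_neg hV
  have hgρ : LL (fun x => g x * Real.exp (-V x)) := hg.mul hρ
  have h1 : ∫ x, pd i f x * (g x * Real.exp (-V x)) = - ∫ x, f x * pd i (fun x => g x * Real.exp (-V x)) x := by
    rcases hc with hc | hc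
    · exact ibp' hf hgρ hc i
    · exact ibp hf hgρ (hc.mul_right _) i
  calc ∫ x, pd i f x * g x * Real.exp (-V x) = ∫ x, pd i f x * (g x * Real.exp (-V x)) := by
        refine integral_congr_ae (Eventually.of_forall fun x => ?_); simp only; ring
    _ = - ∫ x, f x * pd i (fun x => g x * Real.exp (-V x)) x := h1
    _ = ∫ x, f x * (pd i V x * g x - pd i g x) * Real.exp (-V x) := by
        rw [← integral_neg]
        refine integral_congr_ae ?_
        filter_upwards [hg.ae_diff] with x hx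
        have hVd : DifferentiableAt ℝ V x := (hV.differentiable one_ne_zero) x
        rw [pd_mul i hx (by fun_prop), pd_exp_neg i hVd]
        ring

theorem xxw {V : E n → ℝ} (hV : ContDiff ℝ 1 V) {W Z : E n → ℝ} (hW : LL W) (hWc : CS W)
    (hZ : LL Z) (hZc : CS Z) (i j : Fin n) :
    ∫ x, pd i W x * (pd j V x * Z x - pd j Z x) * Real.exp (-V x) =
      ∫ x, pd j W x * (pd i V x * Z x - pd i Z x) * Real.exp (-V x) := by
  have hρ := LL.exp_neg hV
  have hY : LL (fun x => Z x * Real.exp (-V x)) := hZ.mul hρ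
  have h := xx hW hWc hY (hZc.mul_right _) i j
  have e : ∀ a b : Fin n, ∫ x, pd a W x * (pd b V x * Z x - pd b Z x) * Real.exp (-V x) =
      - ∫ x, pd a W x * pd b (fun x => Z x * Real.exp (-V x)) x := by
    intro a b
    rw [← integral_neg]
    refine integral_congr_ae ?_
    filter_upwards [hZ.ae_diff] with x hx
    have hVd : DifferentiableAt ℝ V x := (hV.differentiable one_ne_zero) x
    rw [pd_mul b hx (by fun_prop), pd_exp_neg b hVd]
    ring
  rw [e i j, e j i, h]

end Vale.Agent.P227.M.X
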