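import Vale.Agent.P227.M.Defs

/-! # Integration by parts for locally Lipschitz functions and the commutator identity. -/

open MeasureTheory Set Filter Topology Metric
open scoped NNReal

namespace Vale.Agent.P227.M.Sw

variable {n : ℕ}

/-- Lipschitz on every ball -/
def LL (f : E n → ℝ) : Prop := ∀ R : ℝ, ∃ K : ℝ≥0, LipschitzOnWith K f (closedBall 0 R)

/-- measurable, bounded on every ball -/
def LB (f : E n → ℝ) : Prop := Measurable f ∧ ∀ R : ℝ, ∃ C : ℝ, ∀ x ∈ closedBall (0 : E n) R, |f x| ≤ C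

/-- supported in a ball -/
def BS (f : E n → ℝ) : Prop := ∃ R : ℝ, ∀ x, R < ‖x‖ → f x = 0

lemma LL.cont {f : E n → ℝ} (hf : LL f) : Continuous f := by
  rw [continuous_iff_continuousAt]
  intro x
  obtain ⟨K, hK⟩ := hf (‖x‖ + 1)
  apply hK.continuousOn.continuousAt
  apply closedBall_mem_nhds_of_mem
  rw [mem_ball_zero_iff]
  linarith

lemma LB.of_cont {f : E n → ℝ} (hf : Continuous f) : LB f := by
  refine ⟨hf.measurable, fun R => ?_⟩
  obtain ⟨C, hC⟩ := (isCompact_closedBall (0 : E n) R).exists_bound_of_continuousOn hf.continuousOn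
  exact ⟨C, fun x hx => hC x hx⟩

lemma LL.lb {f : E n → ℝ} (hf : LL f) : LB f := LB.of_cont hf.cont

lemma LL.of_lip {f : E n → ℝ} {K : ℝ≥0} (hf : LipschitzWith K f) : LL f :=
  fun _ => ⟨K, hf.lipschitzOnWith⟩

lemma LL.of_c1 {f : E n → ℝ} (hf : ContDiff ℝ 1 f) : LL f := by
  intro R
  exact LocallyLipschitzOn.exists_lipschitzOnWith_of_compact (isCompact_closedBall 0 R)
    hf.locallyLipschitz.locallyLipschitzOn

lemma LL.mk' {f : E n → ℝ} (h : ∀ R : ℝ, ∃ K : ℝ, ∀ x ∈ closedBall (0 : E n) R,
    ∀ y ∈ closedBall (0 : E n) R, |f x - f y| ≤ K * ‖x - y‖) : LL f := by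
  intro R
  obtain ⟨K, hK⟩ := h R
  refine ⟨Real.toNNReal K, LipschitzOnWith.of_dist_le_mul fun x hx y hy => ?_⟩
  rw [Real.dist_eq, dist_eq_norm]
  apply (hK x hx y hy).trans
  exact mul_le_mul_of_nonneg_right (Real.le_coe_toNNReal K) (norm_nonneg _)

lemma LL.bd {f : E n → ℝ} (hf : LL f) (R : ℝ) : ∃ K : ℝ, 0 ≤ K ∧ ∀ x ∈ closedBall (0 : E n) R,
    ∀ y ∈ closedBall (0 : E n) R, |f x - f y| ≤ K * ‖x - y‖ := by
  obtain ⟨K, hK⟩ := hf R
  refine ⟨K, K.2, fun x hx y hy => ?_⟩
  have := hK.dist_le_mul x hx y hy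
  rwa [Real.dist_eq, dist_eq_norm] at this

lemma LL.mul {f g : E n → ℝ} (hf : LL f) (hg : LL g) : LL (fun x => f x * g x) := by
  apply LL.mk'
  intro R
  obtain ⟨K, hK0, hK⟩ := hf.bd R
  obtain ⟨K', hK0', hK'⟩ := hg.bd R
  obtain ⟨C, hC⟩ := hf.lb.2 R
  obtain ⟨C', hC'⟩ := hg.lb.2 R
  refine ⟨C * K' + C' * K, fun x hx y hy => ?_⟩
  have e : f x * g x - f y * g y = f x * (g x - g y) + g y * (f x - f y) := by ring
  rw [e, add_mul]
  apply (abs_add_le _ _).trans
  apply add_le_add
  · rw [abs_mul, mul_assoc]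
    exact mul_le_mul (hC x hx) (hK' x hx y hy) (abs_nonneg _) ((abs_nonneg _).trans (hC x hx))
  · rw [abs_mul, mul_assoc]
    exact mul_le_mul (hC' y hy) (hK x hx y hy) (abs_nonneg _) ((abs_nonneg _).trans (hC' y hy))

lemma LL.add {f g : E n → ℝ} (hf : LL f) (hg : LL g) : LL (fun x => f x + g x) := by
  apply LL.mk'
  intro R
  obtain ⟨K, hK0, hK⟩ := hf.bd R
  obtain ⟨K', hK0', hK'⟩ := hg.bd R
  refine ⟨K + K', fun x hx y hy => ?_⟩
  have e : f x + g x - (f y + g y) = (f x - f y) + (g x - g y) := by ring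
  rw [e, add_mul]
  exact (abs_add_le _ _).trans (add_le_add (hK x hx y hy) (hK' x hx y hy))

lemma LL.const (c : ℝ) : LL (fun _ : E n => c) := LL.of_lip (LipschitzWith.const c)

lemma LL.neg {f : E n → ℝ} (hf : LL f) : LL (fun x => -f x) := by
  have := (LL.const (n := n) (-1)).mul hf
  simpa using this

lemma LL.sub {f g : E n → ℝ} (hf : LL f) (hg : LL g) : LL (fun x => f x - g x) := by
  have := hf.add hg.neg
  simpa [sub_eq_add_neg] using this

lemma LB.mul {f g : E n → ℝ} (hf : LB f) (hg : LB g) : LB (fun x => f x * g x) := by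
  refine ⟨hf.1.mul hg.1, fun R => ?_⟩
  obtain ⟨C, hC⟩ := hf.2 R
  obtain ⟨C', hC'⟩ := hg.2 R
  refine ⟨C * C', fun x hx => ?_⟩
  rw [abs_mul]
  exact mul_le_mul (hC x hx) (hC' x hx) (abs_nonneg _) ((abs_nonneg _).trans (hC x hx))

lemma LB.add {f g : E n → ℝ} (hf : LB f) (hg : LB g) : LB (fun x => f x + g x) := by
  refine ⟨hf.1.add hg.1, fun R => ?_⟩
  obtain ⟨C, hC⟩ := hf.2 R
  obtain ⟨C', hC'⟩ := hg.2 R
  exact ⟨C + C', fun x hx => (abs_add_le _ _).trans (add_le_add (hC x hx) (hC' x hx))⟩

lemma LB.neg {f : E n → ℝ} (hf : LB f) : LB (fun x => -f x) := by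
  refine ⟨hf.1.neg, fun R => ?_⟩
  obtain ⟨C, hC⟩ := hf.2 R
  exact ⟨C, fun x hx => by rw [abs_neg]; exact hC x hx⟩

lemma LB.sub {f g : E n → ℝ} (hf : LB f) (hg : LB g) : LB (fun x => f x - g x) := by
  have := hf.add hg.neg
  simpa [sub_eq_add_neg] using this

lemma BS.mul_left {f g : E n → ℝ} (hf : BS f) : BS (fun x => g x * f x) := by
  obtain ⟨R, hR⟩ := hf
  exact ⟨R, fun x hx => by show g x * f x = 0; rw [hR x hx, mul_zero]⟩

lemma BS.mul_right {f g : E n → ℝ} (hf : BS f) : BS (fun x => f x * g x) := by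
  obtain ⟨R, hR⟩ := hf
  exact ⟨R, fun x hx => by show f x * g x = 0; rw [hR x hx, zero_mul]⟩

lemma BS.add {f g : E n → ℝ} (hf : BS f) (hg : BS g) : BS (fun x => f x + g x) := by
  obtain ⟨R, hR⟩ := hf
  obtain ⟨R', hR'⟩ := hg
  exact ⟨max R R', fun x hx => by
    show f x + g x = 0
    rw [hR x (lt_of_le_of_lt (le_max_left _ _) hx), hR' x (lt_of_le_of_lt (le_max_right _ _) hx),
      add_zero]⟩

lemma BS.of_hcs {f : E n → ℝ} (hf : HasCompactSupport f) : BS f := by
  obtain ⟨R, hR⟩ := hf.isBounded.subset_closedBall (0 : E n)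
  refine ⟨R, fun x hx => ?_⟩
  by_contra hne
  have := hR (subset_tsupport _ hne)
  rw [mem_closedBall_zero_iff] at this
  linarith

lemma BS.hcs {f : E n → ℝ} (hf : BS f) : HasCompactSupport f := by
  obtain ⟨R, hR⟩ := hf
  apply HasCompactSupport.intro (isCompact_closedBall (0 : E n) R)
  intro x hx
  rw [mem_closedBall_zero_iff, not_le] at hx
  exact hR x hx

lemma BS.pd {f : E n → ℝ} (hf : BS f) (a : Fin n) : BS (pd a f) := by
  obtain ⟨R, hR⟩ := hf
  refine ⟨R, fun x hx => ?_⟩
  have : f =ᶠ[𝓝 x] fun _ => (0 : ℝ) := by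
    have hopen : IsOpen {y : E n | R < ‖y‖} := isOpen_lt continuous_const continuous_norm
    filter_upwards [hopen.mem_nhds hx] with y hy
    exact hR y hy
  unfold M.pd
  rw [this.fderiv_eq]
  simp

lemma LB.integrable {f : E n → ℝ} (hf : LB f) (hs : BS f) : Integrable f volume := by
  obtain ⟨R, hR⟩ := hs
  obtain ⟨C, hC⟩ := hf.2 R
  have h1 : IntegrableOn f (closedBall (0 : E n) R) volume :=
    Measure.integrableOn_of_bounded (M := C) (measure_closedBall_lt_top).ne
      hf.1.aestronglyMeasurable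
      ((ae_restrict_iff' measurableSet_closedBall).2 (Eventually.of_forall fun x hx => hC x hx))
  have h2 : f = (closedBall (0 : E n) R).indicator f := by
    funext x
    by_cases hx : x ∈ closedBall (0 : E n) R
    · rw [indicator_of_mem hx]
    · rw [indicator_of_notMem hx]
      rw [mem_closedBall_zero_iff, not_le] at hx
      exact hR x hx
  rw [h2]
  exact h1.integrable_indicator measurableSet_closedBall

lemma LL.lip {f : E n → ℝ} (hf : LL f) (hs : BS f) : ∃ K, LipschitzWith K f := by
  obtain ⟨R, hR⟩ := hs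
  obtain ⟨K, hK0, hK⟩ := hf.bd (R + 1)
  obtain ⟨C, hC⟩ := hf.lb.2 (R + 1)
  refine ⟨Real.toNNReal (max K C), LipschitzWith.of_dist_le_mul fun x y => ?_⟩
  rw [Real.dist_eq, dist_eq_norm]
  have key : |f x - f y| ≤ max K C * ‖x - y‖ := by
    wlog hxy : ‖x‖ ≤ ‖y‖ generalizing x y
    · rw [abs_sub_comm, norm_sub_rev]
      exact this y x (not_le.1 hxy).le
    by_cases hy : ‖y‖ ≤ R + 1
    · apply (hK x (by rw [mem_closedBall_zero_iff]; linarith) y
        (by rw [mem_closedBall_zero_iff]; exact hy)).trans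
      exact mul_le_mul_of_nonneg_right (le_max_left _ _) (norm_nonneg _)
    · push Not at hy
      rw [hR y (by linarith), sub_zero]
      by_cases hx : ‖x‖ ≤ R
      · have h1 : 1 ≤ ‖x - y‖ := by
          have := norm_sub_norm_le y x
          rw [norm_sub_rev] at this
          linarith
        have h2 := hC x (by rw [mem_closedBall_zero_iff]; linarith)
        have h3 : 0 ≤ max K C := hK0.trans (le_max_left _ _)
        calc |f x| ≤ C := h2
          _ ≤ max K C := le_max_right _ _
          _ ≤ max K C * ‖x - y‖ := le_mul_of_one_le_right h3 h1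
      · push Not at hx
        rw [hR x hx, abs_zero]
        exact mul_nonneg (hK0.trans (le_max_left _ _)) (norm_nonneg _)
  apply key.trans
  exact mul_le_mul_of_nonneg_right (Real.le_coe_toNNReal _) (norm_nonneg _)

lemma LL.ae_diff {f : E n → ℝ} (hf : LL f) : ∀ᵐ x, DifferentiableAt ℝ f x := by
  have h1 : ∀ m : ℕ, ∀ᵐ x, x ∈ closedBall (0 : E n) m → DifferentiableWithinAt ℝ f (closedBall 0 m) x := by
    intro m
    obtain ⟨K, hK⟩ := hf m
    exact hK.ae_differentiableWithinAt_of_mem
  rw [← ae_all_iff] at h1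
  filter_upwards [h1] with x hx
  obtain ⟨m, hm⟩ := exists_nat_gt ‖x‖
  have h2 : closedBall (0 : E n) m ∈ 𝓝 x := by
    apply closedBall_mem_nhds_of_mem
    rwa [mem_ball_zero_iff]
  exact (hx m (by rw [mem_closedBall_zero_iff]; exact hm.le)).differentiableAt h2

lemma LL.pd_lb {f : E n → ℝ} (hf : LL f) (a : Fin n) : LB (pd a f) := by
  refine ⟨measurable_fderiv_apply_const ℝ f (ei a), fun R => ?_⟩
  obtain ⟨K, hK⟩ := hf (R + 1)
  refine ⟨K, fun x hx => ?_⟩
  have h2 : closedBall (0 : E n) (R + 1) ∈ 𝓝 x := by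
    apply closedBall_mem_nhds_of_mem
    rw [mem_closedBall_zero_iff] at hx
    rw [mem_ball_zero_iff]
    linarith
  have h3 := norm_fderiv_le_of_lipschitzOn ℝ h2 hK
  have h4 : ‖(ei a : E n)‖ = 1 := by
    simp [ei]
  unfold M.pd
  rw [← Real.norm_eq_abs]
  calc ‖fderiv ℝ f x (ei a)‖ ≤ ‖fderiv ℝ f x‖ * ‖(ei a : E n)‖ := ContinuousLinearMap.le_opNorm _ _
    _ ≤ K * 1 := by rw [h4]; exact mul_le_mul_of_nonneg_right h3 zero_le_one
    _ = K := mul_one _

lemma BS.sub {f g : E n → ℝ} (hf : BS f) (hg : BS g) : BS (fun x => f x - g x) := by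
  obtain ⟨R, hR⟩ := hf
  obtain ⟨R', hR'⟩ := hg
  exact ⟨max R R', fun x hx => by
    show f x - g x = 0
    rw [hR x (lt_of_le_of_lt (le_max_left _ _) hx), hR' x (lt_of_le_of_lt (le_max_right _ _) hx),
      sub_zero]⟩

/-- cutoff -/
lemma exists_cut (R : ℝ) : ∃ χ : E n → ℝ, LL χ ∧ BS χ ∧ ∀ x, ‖x‖ < R + 1 → χ x = 1 := by
  by_cases hR : 0 ≤ R
  · let φ : ContDiffBump (0 : E n) := ⟨R + 1, R + 2, by linarith, by linarith⟩
    refine ⟨φ, LL.of_c1 φ.contDiff, BS.of_hcs φ.hasCompactSupport, fun x hx => ?_⟩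
    apply φ.one_of_mem_closedBall
    rw [mem_closedBall_zero_iff]
    exact hx.le
  · push Not at hR
    let φ : ContDiffBump (0 : E n) := ⟨1, 2, by norm_num, by norm_num⟩
    refine ⟨φ, LL.of_c1 φ.contDiff, BS.of_hcs φ.hasCompactSupport, fun x hx => ?_⟩
    apply φ.one_of_mem_closedBall
    rw [mem_closedBall_zero_iff]
    linarith

/-- `f` may be replaced by a compactly supported function near a ball -/
lemma LL.cut {f : E n → ℝ} (hf : LL f) (R : ℝ) : ∃ f' : E n → ℝ, LL f' ∧ BS f' ∧
    ∀ x, ‖x‖ < R + 1 → f' x = f x ∧ ∀ a, pd a f' x = pd a f x := by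
  obtain ⟨χ, h1, h2, h3⟩ := exists_cut (n := n) R
  refine ⟨fun x => f x * χ x, hf.mul h1, h2.mul_left, fun x hx => ⟨?_, fun a => ?_⟩⟩
  · show f x * χ x = f x
    rw [h3 x hx, mul_one]
  · have hopen : IsOpen {y : E n | ‖y‖ < R + 1} := isOpen_lt continuous_norm continuous_const
    have : (fun y => f y * χ y) =ᶠ[𝓝 x] f := by
      filter_upwards [hopen.mem_nhds hx] with y hy
      rw [h3 y hy, mul_one]
    unfold M.pd
    rw [this.fderiv_eq]

lemma ae_pd_line {f : E n → ℝ} (hf : LL f) (a : Fin n) :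
    ∀ᵐ x, lineDeriv ℝ f x (ei a) = pd a f x := by
  filter_upwards [hf.ae_diff] with x hx
  exact hx.lineDeriv_eq_fderiv

lemma ae_pd_line' {f : E n → ℝ} (hf : LL f) (a : Fin n) :
    ∀ᵐ x, lineDeriv ℝ f x (-ei a) = -pd a f x := by
  filter_upwards [hf.ae_diff] with x hx
  rw [hx.lineDeriv_eq_fderiv]
  unfold M.pd
  simp

/-- integration by parts, `g` compactly supported -/
theorem ibp {f g : E n → ℝ} (hf : LL f) (hg : LL g) (hgs : BS g) (a : Fin n) :
    ∫ x, pd a f x * g x = - ∫ x, f x * pd a g x := by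
  obtain ⟨R, hR⟩ := hgs
  obtain ⟨f', h1, h2, h3⟩ := hf.cut R
  have e1 : ∫ x, pd a f x * g x = ∫ x, pd a f' x * g x := by
    congr 1
    funext x
    by_cases hx : ‖x‖ < R + 1
    · rw [(h3 x hx).2]
    · push Not at hx
      rw [hR x (by linarith), mul_zero, mul_zero]
  have e2 : ∫ x, f x * pd a g x = ∫ x, f' x * pd a g x := by
    congr 1
    funext x
    by_cases hx : ‖x‖ < R + 1
    · rw [(h3 x hx).1]
    · push Not at hx
      have hx' : R < ‖x‖ := by linarith
      have hopen : IsOpen {y : E n | R < ‖y‖} := isOpen_lt continuous_const continuous_norm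
      have : g =ᶠ[𝓝 x] fun _ => (0 : ℝ) := by
        filter_upwards [hopen.mem_nhds hx'] with y hy
        exact hR y hy
      unfold M.pd
      rw [this.fderiv_eq]
      simp
  obtain ⟨K, hK⟩ := h1.lip h2
  obtain ⟨K', hK'⟩ := hg.lip ⟨R, hR⟩
  have h := LipschitzWith.integral_lineDeriv_mul_eq (μ := volume) hK hK'
    (BS.hcs ⟨R, hR⟩) (ei a)
  rw [e1, e2, ← integral_neg]
  calc ∫ x, pd a f' x * g x = ∫ x, lineDeriv ℝ f' x (ei a) * g x := by
        apply integral_congr_ae
        filter_upwards [ae_pd_line h1 a] with x hx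
        rw [hx]
    _ = ∫ x, lineDeriv ℝ g x (-ei a) * f' x := h
    _ = ∫ x, -(f' x * pd a g x) := by
        apply integral_congr_ae
        filter_upwards [ae_pd_line' hg a] with x hx
        rw [hx]
        ring

/-- the curl identity for compactly supported functions -/
theorem curl0 {f g : E n → ℝ} (hf : LL f) (hfs : BS f) (hg : LL g) (hgs : BS g) (a c : Fin n) :
    ∫ x, pd a f x * pd c g x = ∫ x, pd c f x * pd a g x := by
  obtain ⟨K, hK⟩ := hf.lip hfs
  obtain ⟨K', hK'⟩ := hg.lip hgs
  have ifa : Integrable (pd a f) volume := (hf.pd_lb a).integrable (hfs.pd a)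
  have iga : Integrable (pd a g) volume := (hg.pd_lb a).integrable (hgs.pd a)
  -- the two limits
  have A := hK'.integral_inv_smul_sub_mul_tendsto_integral_lineDeriv_mul (μ := volume) ifa (ei c)
  have B := hK.integral_inv_smul_sub_mul_tendsto_integral_lineDeriv_mul (μ := volume)
    iga.neg (-ei c)
  have hAB : ∀ t : ℝ, ∫ x, (t⁻¹ • (g (x + t • ei c) - g x)) * pd a f x =
      ∫ x, (t⁻¹ • (f (x + t • (-ei c)) - f x)) * (-(pd a g x)) := by
    intro t
    have s1 : LL (fun x => g (x + t • ei c)) :=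
      LL.of_lip (hK'.comp ((LipschitzWith.id).add (LipschitzWith.const (t • (ei c : E n)))))
    have s2 : BS (fun x => g (x + t • ei c)) := by
      obtain ⟨R, hR⟩ := hgs
      refine ⟨R + ‖t • (ei c : E n)‖, fun x hx => ?_⟩
      apply hR
      have := norm_sub_le (x + t • (ei c : E n)) (t • (ei c : E n))
      rw [add_sub_cancel_right] at this
      linarith
    have e1 : ∫ x, pd a f x * g (x + t • ei c) = - ∫ x, f x * pd a g (x + t • ei c) := by
      rw [ibp hf s1 s2 a]
      congr 2
      funext x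
      congr 1
      unfold M.pd
      rw [fderiv_comp_add_right]
    have e2 : ∫ x, pd a f x * g x = - ∫ x, f x * pd a g x := ibp hf hg hgs a
    have e3 : ∫ x, f x * pd a g (x + t • ei c) = ∫ x, f (x + t • (-ei c)) * pd a g x := by
      rw [← integral_add_right_eq_self _ (t • (-ei c : E n))]
      simp
    have i1 : Integrable (fun x => pd a f x * g (x + t • ei c)) volume :=
      ((hf.pd_lb a).mul s1.lb).integrable s2.mul_left
    have i2 : Integrable (fun x => pd a f x * g x) volume :=
      ((hf.pd_lb a).mul hg.lb).integrable hgs.mul_left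
    have s3 : LL (fun x => f (x + t • (-ei c))) :=
      LL.of_lip (hK.comp ((LipschitzWith.id).add (LipschitzWith.const (t • (-ei c : E n)))))
    have i3 : Integrable (fun x => f (x + t • (-ei c)) * pd a g x) volume :=
      (s3.lb.mul (hg.pd_lb a)).integrable (hgs.pd a).mul_left
    have i4 : Integrable (fun x => f x * pd a g x) volume :=
      (hf.lb.mul (hg.pd_lb a)).integrable (hgs.pd a).mul_left
    have l1 : ∀ x, (t⁻¹ • (g (x + t • ei c) - g x)) * pd a f x =
        t⁻¹ * (pd a f x * g (x + t • ei c) - pd a f x * g x) := by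
      intro x
      rw [smul_eq_mul]
      ring
    have l2 : ∀ x, (t⁻¹ • (f (x + t • (-ei c)) - f x)) * (-(pd a g x)) =
        t⁻¹ * (f x * pd a g x - f (x + t • (-ei c)) * pd a g x) := by
      intro x
      rw [smul_eq_mul]
      ring
    simp only [l1, l2]
    rw [integral_const_mul, integral_const_mul, integral_sub i1 i2, integral_sub i4 i3, e1, e2, e3]
    ring
  simp only [Pi.neg_apply] at B
  simp only [hAB] at A
  have h := tendsto_nhds_unique A B
  calc ∫ x, pd a f x * pd c g x = ∫ x, lineDeriv ℝ g x (ei c) * pd a f x := by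
        apply integral_congr_ae
        filter_upwards [ae_pd_line hg c] with x hx
        rw [hx]
        ring
    _ = ∫ x, lineDeriv ℝ f x (-ei c) * -(pd a g x) := h
    _ = ∫ x, pd c f x * pd a g x := by
        apply integral_congr_ae
        filter_upwards [ae_pd_line' hf c] with x hx
        rw [hx]
        ring

/-- the curl identity -/
theorem curl {f g : E n → ℝ} (hf : LL f) (hg : LL g) (hgs : BS g) (a c : Fin n) :
    ∫ x, pd a f x * pd c g x = ∫ x, pd c f x * pd a g x := by
  obtain ⟨R, hR⟩ := hgs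
  obtain ⟨f', h1, h2, h3⟩ := hf.cut R
  have h0 : ∀ (b d : Fin n), ∫ x, pd b f x * pd d g x = ∫ x, pd b f' x * pd d g x := by
    intro b d
    congr 1
    funext x
    by_cases hx : ‖x‖ < R + 1
    · rw [(h3 x hx).2]
    · push Not at hx
      have hx' : R < ‖x‖ := by linarith
      have hopen : IsOpen {y : E n | R < ‖y‖} := isOpen_lt continuous_const continuous_norm
      have : g =ᶠ[𝓝 x] fun _ => (0 : ℝ) := by
        filter_upwards [hopen.mem_nhds hx'] with y hy
        exact hR y hy
      have : pd d g x = 0 := by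
        unfold M.pd
        rw [this.fderiv_eq]
        simp
      rw [this, mul_zero, mul_zero]
  rw [h0, h0]
  exact curl0 h1 h2 hg ⟨R, hR⟩ a c

lemma pd_mul_at {f g : E n → ℝ} {x : E n} (hf : DifferentiableAt ℝ f x)
    (hg : DifferentiableAt ℝ g x) (a : Fin n) :
    pd a (fun y => f y * g y) x = pd a f x * g x + f x * pd a g x := by
  unfold M.pd
  rw [fderiv_fun_mul hf hg]
  simp
  ring

lemma pd_exp {V : E n → ℝ} {x : E n} (hV : DifferentiableAt ℝ V x) (a : Fin n) :
    pd a (fun y => Real.exp (-V y)) x = -pd a V x * Real.exp (-V x) := by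
  unfold M.pd
  have h1 : HasFDerivAt (fun y => Real.exp (-V y)) (Real.exp (-V x) • (-fderiv ℝ V x)) x :=
    (hV.hasFDerivAt.neg).exp
  rw [h1.fderiv]
  simp
  ring

lemma LL.exp_neg {V : E n → ℝ} (hV : ContDiff ℝ 2 V) : LL (fun x => Real.exp (-V x)) :=
  LL.of_c1 ((Real.contDiff_exp.comp hV.neg).of_le (by norm_num))

lemma pd_c1 {V : E n → ℝ} (hV : ContDiff ℝ 2 V) (a : Fin n) : ContDiff ℝ 1 (pd a V) := by
  have h1 : ContDiff ℝ 1 (fderiv ℝ V) := hV.fderiv_right (by norm_num)
  exact h1.clm_apply contDiff_const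

/-- weighted integration by parts -/
theorem ibpV {V P Q : E n → ℝ} (hV : ContDiff ℝ 2 V) (hP : LL P) (hQ : LL Q)
    (hs : BS P ∨ BS Q) (a : Fin n) :
    ∫ x, (pd a V x * P x - pd a P x) * Q x * Real.exp (-V x) =
      ∫ x, P x * pd a Q x * Real.exp (-V x) := by
  have hw := LL.exp_neg hV
  have hVd : ∀ x, DifferentiableAt ℝ V x := fun x => (hV.differentiable (by norm_num)) x
  have hwd : ∀ x, DifferentiableAt ℝ (fun y => Real.exp (-V y)) x := fun x =>
    (hVd x).neg.exp
  have hQw : LL (fun x => Q x * Real.exp (-V x)) := hQ.mul hw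
  have hae : ∀ᵐ x, pd a (fun x => Q x * Real.exp (-V x)) x =
      (pd a Q x - pd a V x * Q x) * Real.exp (-V x) := by
    filter_upwards [hQ.ae_diff] with x hx
    rw [pd_mul_at hx (hwd x), pd_exp (hVd x)]
    ring
  have h0 : ∫ x, pd a P x * (Q x * Real.exp (-V x)) =
      - ∫ x, P x * pd a (fun x => Q x * Real.exp (-V x)) x := by
    rcases hs with h | h
    · have := ibp hQw hP h a
      rw [eq_neg_iff_add_eq_zero, add_comm, ← eq_neg_iff_add_eq_zero]
      calc ∫ x, P x * pd a (fun x => Q x * Real.exp (-V x)) x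
          = ∫ x, pd a (fun x => Q x * Real.exp (-V x)) x * P x := by
            congr 1
            funext x
            ring
        _ = - ∫ x, (Q x * Real.exp (-V x)) * pd a P x := this
        _ = _ := by
            congr 2
            funext x
            ring
    · exact ibp hP hQw h.mul_right a
  have hVa : LB (pd a V) := LB.of_cont (pd_c1 hV a).continuous
  have i1 : Integrable (fun x => pd a V x * P x * Q x * Real.exp (-V x)) volume := by
    apply LB.integrable (((hVa.mul hP.lb).mul hQ.lb).mul hw.lb)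
    rcases hs with h | h
    · exact (h.mul_left.mul_right).mul_right
    · exact (h.mul_left).mul_right
  have i2 : Integrable (fun x => pd a P x * (Q x * Real.exp (-V x))) volume := by
    apply LB.integrable ((hP.pd_lb a).mul hQw.lb)
    rcases hs with h | h
    · exact (h.pd a).mul_right
    · exact h.mul_right.mul_left
  have i3 : Integrable (fun x => P x * pd a Q x * Real.exp (-V x)) volume := by
    apply LB.integrable ((hP.lb.mul (hQ.pd_lb a)).mul hw.lb)
    rcases hs with h | h
    · exact (h.mul_right).mul_right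
    · exact (h.pd a).mul_left.mul_right
  have e1 : ∫ x, P x * pd a (fun x => Q x * Real.exp (-V x)) x =
      ∫ x, (P x * pd a Q x * Real.exp (-V x) - pd a V x * P x * Q x * Real.exp (-V x)) := by
    apply integral_congr_ae
    filter_upwards [hae] with x hx
    rw [hx]
    ring
  rw [e1, integral_sub i3 i1] at h0
  have e2 : ∫ x, (pd a V x * P x - pd a P x) * Q x * Real.exp (-V x) =
      ∫ x, (pd a V x * P x * Q x * Real.exp (-V x) - pd a P x * (Q x * Real.exp (-V x))) := by
    congr 1
    funext x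
    ring
  rw [e2, integral_sub i1 i2]
  linarith

/-- **commutator identity** for locally Lipschitz functions -/
theorem swap {V P Q : E n → ℝ} (hV : ContDiff ℝ 2 V) (hP : LL P) (hQ : LL Q)
    (hs : BS P ∨ BS Q) (a c : Fin n) :
    ∫ x, (pd a V x * P x - pd a P x) * (pd c V x * Q x - pd c Q x) * Real.exp (-V x) =
      ∫ x, (pd c P x * pd a Q x + hess V x c a * P x * Q x) * Real.exp (-V x) := by
  have hw := LL.exp_neg hV
  have hVd : ∀ x, DifferentiableAt ℝ V x := fun x => (hV.differentiable (by norm_num)) x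
  have hwd : ∀ x, DifferentiableAt ℝ (fun y => Real.exp (-V y)) x := fun x =>
    (hVd x).neg.exp
  have hQw : LL (fun x => Q x * Real.exp (-V x)) := hQ.mul hw
  have hVa := pd_c1 hV a
  have hVad : ∀ x, DifferentiableAt ℝ (pd a V) x := fun x => (hVa.differentiable (by norm_num)) x
  have hVaL : LL (pd a V) := LL.of_c1 hVa
  have hVw : LL (fun x => pd a V x * Real.exp (-V x)) := hVaL.mul hw
  have hPQ : LL (fun x => P x * Q x) := hP.mul hQ
  have hPQs : BS (fun x => P x * Q x) := by
    rcases hs with h | h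
    · exact h.mul_right
    · exact h.mul_left
  -- two null integrals
  have n1 : ∫ x, (pd a P x * pd c (fun x => Q x * Real.exp (-V x)) x -
      pd c P x * pd a (fun x => Q x * Real.exp (-V x)) x) = 0 := by
    rw [integral_sub, sub_eq_zero]
    · rcases hs with h | h
      · have := curl hQw hP h a c
        calc ∫ x, pd a P x * pd c (fun x => Q x * Real.exp (-V x)) x
            = ∫ x, pd c (fun x => Q x * Real.exp (-V x)) x * pd a P x := by
              congr 1
              funext x
              ring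
          _ = ∫ x, pd a (fun x => Q x * Real.exp (-V x)) x * pd c P x := this.symm
          _ = _ := by
              congr 1
              funext x
              ring
      · exact curl hP hQw h.mul_right a c
    · apply LB.integrable ((hP.pd_lb a).mul (hQw.pd_lb c))
      rcases hs with h | h
      · exact (h.pd a).mul_right
      · exact (h.mul_right.pd c).mul_left
    · apply LB.integrable ((hP.pd_lb c).mul (hQw.pd_lb a))
      rcases hs with h | h
      · exact (h.pd c).mul_right
      · exact (h.mul_right.pd a).mul_left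
  have n2 : ∫ x, (P x * Q x * pd c (fun x => pd a V x * Real.exp (-V x)) x +
      pd c (fun x => P x * Q x) x * (pd a V x * Real.exp (-V x))) = 0 := by
    have j1 : Integrable (fun x => P x * Q x * pd c (fun x => pd a V x * Real.exp (-V x)) x)
        volume := LB.integrable (hPQ.lb.mul (hVw.pd_lb c)) hPQs.mul_right
    have j2 : Integrable (fun x => pd c (fun x => P x * Q x) x *
        (pd a V x * Real.exp (-V x))) volume :=
      LB.integrable ((hPQ.pd_lb c).mul hVw.lb) (hPQs.pd c).mul_right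
    rw [integral_add j1 j2]
    have := ibp hVw hPQ hPQs c
    have e1 : ∫ x, P x * Q x * pd c (fun x => pd a V x * Real.exp (-V x)) x =
        ∫ x, pd c (fun x => pd a V x * Real.exp (-V x)) x * (P x * Q x) := by
      congr 1
      funext x
      ring
    have e2 : ∫ x, pd c (fun x => P x * Q x) x * (pd a V x * Real.exp (-V x)) =
        ∫ x, (pd a V x * Real.exp (-V x)) * pd c (fun x => P x * Q x) x := by
      congr 1
      funext x
      ring
    rw [e1, e2, this]
    ring
  have k1 : Integrable (fun x => pd a P x * pd c (fun x => Q x * Real.exp (-V x)) x -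
      pd c P x * pd a (fun x => Q x * Real.exp (-V x)) x) volume := by
    apply LB.integrable (((hP.pd_lb a).mul (hQw.pd_lb c)).sub ((hP.pd_lb c).mul (hQw.pd_lb a)))
    rcases hs with h | h
    · exact (h.pd a).mul_right.sub (h.pd c).mul_right
    · exact (h.mul_right.pd c).mul_left.sub (h.mul_right.pd a).mul_left
  have k2 : Integrable (fun x => P x * Q x * pd c (fun x => pd a V x * Real.exp (-V x)) x +
      pd c (fun x => P x * Q x) x * (pd a V x * Real.exp (-V x))) volume :=
    LB.integrable ((hPQ.lb.mul (hVw.pd_lb c)).add ((hPQ.pd_lb c).mul hVw.lb))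
      (hPQs.mul_right.add (hPQs.pd c).mul_right)
  have hVc : LL (pd c V) := LL.of_c1 (pd_c1 hV c)
  have hH : Continuous (fun x => hess V x c a) := by
    show Continuous (fun x => pd c (pd a V) x)
    unfold M.pd
    exact ((hVa.continuous_fderiv (by norm_num)).clm_apply continuous_const)
  have k3 : Integrable (fun x => (pd a V x * P x - pd a P x) * (pd c V x * Q x - pd c Q x) *
      Real.exp (-V x)) volume := by
    apply LB.integrable ((((hVaL.mul hP).lb.sub (hP.pd_lb a)).mul
      ((hVc.mul hQ).lb.sub (hQ.pd_lb c))).mul hw.lb)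
    rcases hs with h | h
    · exact (h.mul_left.sub (h.pd a)).mul_right.mul_right
    · exact (h.mul_left.sub (h.pd c)).mul_left.mul_right
  have k4 : Integrable (fun x => (pd c P x * pd a Q x + hess V x c a * P x * Q x) *
      Real.exp (-V x)) volume := by
    apply LB.integrable ((((hP.pd_lb c).mul (hQ.pd_lb a)).add
      (((LB.of_cont hH).mul hP.lb).mul hQ.lb)).mul hw.lb)
    rcases hs with h | h
    · exact ((h.pd c).mul_right.add h.mul_left.mul_right).mul_right
    · exact ((h.pd a).mul_left.add h.mul_left).mul_right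
  rw [← sub_eq_zero, ← integral_sub k3 k4]
  have hfin : ∫ x, ((pd a V x * P x - pd a P x) * (pd c V x * Q x - pd c Q x) * Real.exp (-V x) -
      (pd c P x * pd a Q x + hess V x c a * P x * Q x) * Real.exp (-V x)) =
      ∫ x, ((pd a P x * pd c (fun x => Q x * Real.exp (-V x)) x -
      pd c P x * pd a (fun x => Q x * Real.exp (-V x)) x) -
      (P x * Q x * pd c (fun x => pd a V x * Real.exp (-V x)) x +
      pd c (fun x => P x * Q x) x * (pd a V x * Real.exp (-V x)))) := by
    apply integral_congr_ae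
    filter_upwards [hP.ae_diff, hQ.ae_diff] with x hx hy
    rw [pd_mul_at hy (hwd x), pd_mul_at hy (hwd x), pd_mul_at (hVad x) (hwd x), pd_mul_at hx hy,
      pd_exp (hVd x), pd_exp (hVd x)]
    show _ = pd a P x * _ - _ - (P x * Q x * (hess V x c a * _ + _) + _)
    ring
  rw [hfin, integral_sub k1 k2, n1, n2, sub_zero]

end Vale.Agent.P227.M.Sw
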