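import Vale.Agent.P227.M.ID.Inst2
import Vale.Agent.P227.M.ID.Abs

/-!
# P227, block ID: Gaussian tails, integration by parts, and the system `Sys n (TA n)`
-/

namespace Vale.Agent.P227.M.IDI

open MeasureTheory Function

open scoped ContDiff Nat

noncomputable section

variable {n : ℕ}

/-- Gaussian times polynomial is integrable. -/
theorem integrable_poly_gauss (c : ℝ) (hc : 0 < c) (k : ℕ) :
    Integrable (fun x : EuclideanSpace ℝ (Fin n) => (1 + ‖x‖) ^ k * Real.exp (-(c * ‖x‖ ^ 2))) := by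
  set m : ℕ := k + (n + 1) with hm
  have hb : ∃ K : ℝ, ∀ r : ℝ, 0 ≤ r → (1 + r) ^ m * Real.exp (-(c * r ^ 2)) ≤ K := by
    refine ⟨2 ^ m * (1 + (m ! : ℝ) / c ^ m), fun r hr => ?_⟩
    have h1 : (1 + r) ^ m ≤ 2 ^ m * (1 + (r ^ 2) ^ m) := by
      rcases le_total r 1 with h | h
      · have h2 : (1 + r) ^ m ≤ 2 ^ m := by
          apply pow_le_pow_left₀ (by linarith)
          linarith
        have h3 : (0 : ℝ) ≤ 2 ^ m * (r ^ 2) ^ m := by positivity
        linarith
      · have h2 : (1 + r) ^ m ≤ (2 * r ^ 2) ^ m := by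
          apply pow_le_pow_left₀ (by linarith)
          nlinarith
        rw [mul_pow] at h2
        have h3 : (0 : ℝ) ≤ 2 ^ m := by positivity
        linarith
    have hE : 0 < Real.exp (-(c * r ^ 2)) := Real.exp_pos _
    have h4 : Real.exp (-(c * r ^ 2)) ≤ 1 := by
      rw [Real.exp_le_one_iff]
      have : 0 ≤ c * r ^ 2 := by positivity
      linarith
    have h5 : (r ^ 2) ^ m * Real.exp (-(c * r ^ 2)) ≤ (m ! : ℝ) / c ^ m := by
      have h6 := Real.pow_div_factorial_le_exp (c * r ^ 2) (by positivity) m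
      have h7 : (c * r ^ 2) ^ m ≤ (m ! : ℝ) * Real.exp (c * r ^ 2) := by
        have hf : (0 : ℝ) < (m ! : ℝ) := by positivity
        rw [div_le_iff₀ hf] at h6
        linarith
      rw [le_div_iff₀ (by positivity)]
      calc (r ^ 2) ^ m * Real.exp (-(c * r ^ 2)) * c ^ m
          = (c * r ^ 2) ^ m * Real.exp (-(c * r ^ 2)) := by rw [mul_pow]; ring
        _ ≤ (m ! : ℝ) * Real.exp (c * r ^ 2) * Real.exp (-(c * r ^ 2)) := by gcongr
        _ = (m ! : ℝ) := by rw [mul_assoc, ← Real.exp_add]; simp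
    calc (1 + r) ^ m * Real.exp (-(c * r ^ 2))
        ≤ 2 ^ m * (1 + (r ^ 2) ^ m) * Real.exp (-(c * r ^ 2)) := by gcongr
      _ = 2 ^ m * (Real.exp (-(c * r ^ 2)) + (r ^ 2) ^ m * Real.exp (-(c * r ^ 2))) := by ring
      _ ≤ 2 ^ m * (1 + (m ! : ℝ) / c ^ m) := by gcongr
  obtain ⟨K, hK⟩ := hb
  have hint : Integrable (fun x : EuclideanSpace ℝ (Fin n) =>
      K * (1 + ‖x‖) ^ (-((n + 1 : ℕ) : ℝ))) := by
    apply Integrable.const_mul
    apply integrable_one_add_norm
    simp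
  refine hint.mono' (by fun_prop) (Filter.Eventually.of_forall fun x => ?_)
  have hx : 0 ≤ ‖x‖ := norm_nonneg x
  have hp : (0 : ℝ) < 1 + ‖x‖ := by linarith
  rw [Real.norm_of_nonneg (by positivity)]
  rw [Real.rpow_neg hp.le, Real.rpow_natCast]
  rw [← div_eq_mul_inv, le_div_iff₀ (by positivity)]
  calc (1 + ‖x‖) ^ k * Real.exp (-(c * ‖x‖ ^ 2)) * (1 + ‖x‖) ^ (n + 1)
      = (1 + ‖x‖) ^ m * Real.exp (-(c * ‖x‖ ^ 2)) := by rw [hm, pow_add]; ring
    _ ≤ K := hK _ hx

namespace Dat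

variable (P : Dat n)

theorem sum_sq_eq (x : EuclideanSpace ℝ (Fin n)) : ∑ i, x i ^ 2 = ‖x‖ ^ 2 := by
  rw [EuclideanSpace.norm_sq_eq]
  simp

/-- Derivative of a temperate function in a direction, through the partial derivatives. -/
theorem fderiv_eq_sum (f : TA n) (x v : EuclideanSpace ℝ (Fin n)) :
    fderiv ℝ f.1 x v = ∑ b, v b * (pd b f).1 x := by
  have hv : v = ∑ b, v b • eb b := by
    ext i
    simp [Pi.single_apply]
  conv_lhs => rw [hv]
  rw [map_sum]
  refine Finset.sum_congr rfl fun b _ => ?_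
  rw [map_smul, smul_eq_mul, pd_apply]

/-- `phi(x) >= c/2 |x|^2 - psi(0)`. -/
theorem phi_lower (x : EuclideanSpace ℝ (Fin n)) :
    P.c / 2 * ‖x‖ ^ 2 - P.ψ.1 0 ≤ P.phi.1 x := by
  set k : ℝ → ℝ := fun t => P.phi.1 (t • x) - P.c / 2 * t ^ 2 * ‖x‖ ^ 2 with hk
  have hd : ∀ t : ℝ, HasDerivAt k
      (fderiv ℝ P.phi.1 (t • x) x - P.c / 2 * (2 * t) * ‖x‖ ^ 2) t := by
    intro t
    have h1 : HasDerivAt (fun t : ℝ => t • x) x t := by
      simpa using (hasDerivAt_id t).smul_const x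
    have h2 := ((ta_diff P.phi (t • x)).hasFDerivAt).comp_hasDerivAt t h1
    have h3 : HasDerivAt (fun t : ℝ => P.c / 2 * t ^ 2 * ‖x‖ ^ 2)
        (P.c / 2 * (2 * t) * ‖x‖ ^ 2) t := by
      have := ((hasDerivAt_pow 2 t).const_mul (P.c / 2)).mul_const (‖x‖ ^ 2)
      simpa using this
    exact h2.sub h3
  have hnn : ∀ t : ℝ, 0 ≤ t → 0 ≤ fderiv ℝ P.phi.1 (t • x) x - P.c / 2 * (2 * t) * ‖x‖ ^ 2 := by
    intro t ht
    have h1 : fderiv ℝ P.phi.1 (t • x) x
        = t * ∑ i, ∑ j, x i * (hess P.ψ i j).1 (t • x) * x j := by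
      rw [fderiv_eq_sum, Finset.mul_sum]
      refine Finset.sum_congr rfl fun b _ => ?_
      rw [P.pd_phi]
      have h2 : (∑ a, X a * hess P.ψ b a : TA n).1 (t • x)
          = ∑ a, (t • x) a * (hess P.ψ b a).1 (t • x) := by
        have := map_sum (ev (t • x)) (fun a => X a * hess P.ψ b a) Finset.univ
        exact this
      rw [h2, Finset.mul_sum, Finset.mul_sum]
      refine Finset.sum_congr rfl fun a _ => ?_
      simp only [PiLp.smul_apply, smul_eq_mul]
      ring
    rw [h1]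
    have h3 := P.lo (t • x) (fun i => x i)
    rw [sum_sq_eq] at h3
    nlinarith
  have hmono : MonotoneOn k (Set.Icc 0 1) := by
    apply monotoneOn_of_deriv_nonneg (convex_Icc 0 1)
    · exact fun t _ => (hd t).continuousAt.continuousWithinAt
    · exact fun t _ => (hd t).differentiableAt.differentiableWithinAt
    · intro t ht
      rw [interior_Icc] at ht
      rw [(hd t).deriv]
      exact hnn t ht.1.le
  have h01 := hmono (Set.left_mem_Icc.mpr zero_le_one) (Set.right_mem_Icc.mpr zero_le_one)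
    zero_le_one
  have hk0 : k 0 = -P.ψ.1 0 := by
    simp only [hk, zero_smul]
    have : P.phi.1 0 = ∑ a, (0 : EuclideanSpace ℝ (Fin n)) a * (pd a P.ψ).1 0 - P.ψ.1 0 := by
      have := map_sum (ev (0 : EuclideanSpace ℝ (Fin n))) (fun a => X a * pd a P.ψ) Finset.univ
      rw [phi]
      show (∑ a, X a * pd a P.ψ : TA n).1 0 - P.ψ.1 0 = _
      congr 1
    rw [this]
    simp
  have hk1 : k 1 = P.phi.1 x - P.c / 2 * ‖x‖ ^ 2 := by
    simp only [hk, one_smul]
    ring
  rw [hk0, hk1] at h01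
  linarith

theorem C_nonneg_of (hn : 0 < n) : 0 < P.C := by
  have hlo := P.lo 0 (fun _ => 1)
  have hhi := P.hi 0 (fun _ => 1)
  have h : (∑ _i : Fin n, (1 : ℝ) ^ 2) = n := by simp
  rw [h] at hlo hhi
  have hn' : (0 : ℝ) < n := by exact_mod_cast hn
  have h3 : P.c * n ≤ P.C * n := hlo.trans hhi
  have h4 : P.c ≤ P.C := le_of_mul_le_mul_right h3 hn'
  linarith [P.hc]

theorem V_lower : ∃ K : ℝ, ∀ x, P.c / 2 * ‖x‖ ^ 2 - K ≤ P.V.1 x := by
  refine ⟨P.ψ.1 0 + Real.log (P.C ^ n), fun x => ?_⟩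
  have h1 := P.phi_lower x
  have h2 : P.ldt.1 x ≤ Real.log (P.C ^ n) := Real.log_le_log (P.dt_pos x) (P.dt_hi x)
  have h3 : P.V.1 x = P.phi.1 x - P.ldt.1 x := rfl
  rw [h3]
  linarith

/-- Integrability of temperate functions. -/
theorem integrable_mul (f : TA n) : Integrable (fun x => f.1 x * Real.exp (-P.V.1 x)) := by
  obtain ⟨K, hK⟩ := P.V_lower
  obtain ⟨k, C, hC⟩ := f.2.2 0
  have hcont : Continuous fun x => f.1 x * Real.exp (-P.V.1 x) :=
    (ta_diff f).continuous.mul (Real.continuous_exp.comp (ta_diff P.V).continuous.neg)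
  have hint := (integrable_poly_gauss (n := n) (P.c / 2) (by have := P.hc; positivity) k).const_mul
    (|C| * Real.exp K)
  refine hint.mono' hcont.aestronglyMeasurable (Filter.Eventually.of_forall fun x => ?_)
  have h1 : |f.1 x| ≤ |C| * (1 + ‖x‖) ^ k := by
    have := hC x
    rw [norm_iteratedFDeriv_zero, Real.norm_eq_abs] at this
    refine this.trans ?_
    gcongr
    exact le_abs_self C
  have h2 : Real.exp (-P.V.1 x) ≤ Real.exp K * Real.exp (-(P.c / 2 * ‖x‖ ^ 2)) := by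
    rw [← Real.exp_add]
    apply Real.exp_le_exp.mpr
    have := hK x
    linarith
  rw [norm_mul, Real.norm_eq_abs, Real.norm_of_nonneg (Real.exp_pos _).le]
  calc |f.1 x| * Real.exp (-P.V.1 x)
      ≤ (|C| * (1 + ‖x‖) ^ k) * (Real.exp K * Real.exp (-(P.c / 2 * ‖x‖ ^ 2))) := by gcongr
    _ = _ := by ring

/-- The (unnormalised) expectation. -/
def Ev : TA n →ₗ[ℝ] ℝ where
  toFun f := ∫ x, f.1 x * Real.exp (-P.V.1 x)
  map_add' f g := by
    rw [← integral_add (P.integrable_mul f) (P.integrable_mul g)]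
    congr 1
    funext x
    show (f.1 x + g.1 x) * _ = _
    ring
  map_smul' r f := by
    rw [RingHom.id_apply, smul_eq_mul, ← integral_const_mul]
    congr 1
    funext x
    show (r * f.1 x) * _ = _
    ring

theorem Ev_apply (f : TA n) : P.Ev f = ∫ x, f.1 x * Real.exp (-P.V.1 x) := rfl

theorem Ev_nonneg (f : TA n) (h : ∀ x, 0 ≤ f.1 x) : 0 ≤ P.Ev f :=
  integral_nonneg fun x => mul_nonneg (h x) (Real.exp_pos _).le

/-- Flat integration by parts. -/
theorem Ev_pd (b : Fin n) (f : TA n) : P.Ev (pd b f) = P.Ev (pd b P.V * f) := by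
  have hexp : ∀ x, HasFDerivAt (fun y => Real.exp (-P.V.1 y))
      (Real.exp (-P.V.1 x) • -(fderiv ℝ P.V.1 x)) x := fun x =>
    ((ta_diff P.V x).hasFDerivAt.neg).exp
  have hfd : ∀ x, fderiv ℝ (fun y => Real.exp (-P.V.1 y)) x (eb b)
      = -((pd b P.V).1 x * Real.exp (-P.V.1 x)) := by
    intro x
    rw [(hexp x).fderiv, pd_apply]
    simp
    ring
  have hibp := integral_mul_fderiv_eq_neg_fderiv_mul_of_integrable (μ := volume)
    (f := f.1) (g := fun y => Real.exp (-P.V.1 y)) (v := eb b) ?_ ?_ ?_ (fun x _ => ta_diff f x)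
    (fun x _ => (hexp x).differentiableAt)
  · rw [P.Ev_apply, P.Ev_apply]
    have h2 : (∫ x, f.1 x * fderiv ℝ (fun y => Real.exp (-P.V.1 y)) x (eb b))
        = -∫ x, (pd b P.V * f).1 x * Real.exp (-P.V.1 x) := by
      rw [← integral_neg]
      congr 1
      funext x
      rw [hfd x]
      show _ = -(((pd b P.V).1 x * f.1 x) * _)
      ring
    rw [h2] at hibp
    have h3 : (∫ x, fderiv ℝ f.1 x (eb b) * Real.exp (-P.V.1 x))
        = ∫ x, (pd b f).1 x * Real.exp (-P.V.1 x) := rfl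
    rw [h3] at hibp
    linarith
  · exact P.integrable_mul (pd b f)
  · have := (P.integrable_mul (pd b P.V * f)).neg
    refine this.congr (Filter.Eventually.of_forall fun x => ?_)
    show -(((pd b P.V).1 x * f.1 x) * _)
      = f.1 x * fderiv ℝ (fun y => Real.exp (-P.V.1 y)) x (eb b)
    rw [hfd x]
    ring
  · exact P.integrable_mul f

/-- `sum_b (tau_ab d_b V - d_b tau_ab) = x_a`. -/
theorem div_tau (a : Fin n) : ∑ b, (P.tau a b * pd b P.V - pd b (P.tau a b)) = X a := by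
  have h1 : ∀ b, P.tau a b * pd b P.V - pd b (P.tau a b)
      = P.tau a b * pd b P.phi
        - (P.tau a b * ∑ i, ∑ k, P.tau i k * pd b (hess P.ψ k i))
        + ∑ f, ∑ e, P.tau a e * pd b (hess P.ψ e f) * P.tau f b := by
    intro b
    rw [V, map_sub, P.der_ldt b, P.der_tau (pd b) a b]
    ring
  rw [Finset.sum_congr rfl fun b _ => h1 b, Finset.sum_add_distrib, Finset.sum_sub_distrib]
  have h2 : ∑ b, P.tau a b * pd b P.phi = X a := by
    rw [← P.D_apply, P.D_phi]
  rw [h2]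
  have h3 : ∑ b, P.tau a b * ∑ i, ∑ k, P.tau i k * pd b (hess P.ψ k i)
      = ∑ b, ∑ f, ∑ e, P.tau a e * pd b (hess P.ψ e f) * P.tau f b := by
    -- rename: LHS sum over b,i,k tau_ab tau_ik psi_{bki}; RHS sum over b,f,e tau_ae tau_fb psi_{bef}
    have hL : ∑ b, P.tau a b * ∑ i, ∑ k, P.tau i k * pd b (hess P.ψ k i)
        = ∑ b, ∑ i, ∑ k, P.tau a b * P.tau i k * pd b (hess P.ψ k i) := by
      refine Finset.sum_congr rfl fun b _ => ?_
      rw [Finset.mul_sum]
      refine Finset.sum_congr rfl fun i _ => ?_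
      rw [Finset.mul_sum]
      exact Finset.sum_congr rfl fun k _ => by ring
    rw [hL]
    -- RHS: move e outside
    have hR : ∑ b, ∑ f, ∑ e, P.tau a e * pd b (hess P.ψ e f) * P.tau f b
        = ∑ e, ∑ f, ∑ b, P.tau a e * pd b (hess P.ψ e f) * P.tau f b := by
      rw [Finset.sum_comm]
      rw [Finset.sum_congr rfl fun f _ => Finset.sum_comm]
      rw [Finset.sum_comm]
    rw [hR]
    refine Finset.sum_congr rfl fun e _ => Finset.sum_congr rfl fun f _ =>
      Finset.sum_congr rfl fun b _ => ?_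
    rw [pd_hess P.ψ e b f]
    ring
  rw [h3]
  ring

/-- Integration by parts for `D_a`. -/
theorem Ev_D (a : Fin n) (f : TA n) : P.Ev (P.D a f) = P.Ev (X a * f) := by
  rw [D_apply, map_sum, ← P.div_tau a, Finset.sum_mul, map_sum]
  refine Finset.sum_congr rfl fun b _ => ?_
  have h1 : P.tau a b * pd b f = pd b (P.tau a b * f) - pd b (P.tau a b) * f := by
    rw [(pd b).leibniz, smul_eq_mul, smul_eq_mul]
    ring
  rw [h1, map_sub, P.Ev_pd, ← map_sub]
  congr 1
  ring

/-- The system of helper969 realised on temperate functions. -/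
def sys : ID.Sys n (TA n) where
  D := P.D
  comm := P.D_comm
  phi := P.phi
  sg := hess P.ψ
  sg_symm := hess_symm P.ψ
  inv := by
    intro a c
    have h1 : ∀ b, P.D b (P.D c P.phi) = P.tau b c := fun b => P.D_D_phi b c
    simp only [h1]
    have := congrFun (congrFun P.mul_tau a) c
    rw [Matrix.mul_apply, Matrix.one_apply] at this
    exact this
  E := P.Ev
  ibp := by
    intro a g
    rw [P.D_phi]
    exact P.Ev_D a g

end Dat

end

end Vale.Agent.P227.M.IDI
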