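import Vale.Agent.P227.M.Stmts

/-! # P227/M/ID: the key inequality for smooth `ψ` (target of the algebraic line, input of `KeyLim.lean`)

`Vpsi ψ = ⟨x, ∇ψ⟩ - ψ - log det D²ψ`. All integrands below are smooth with compact support. -/

open MeasureTheory
open scoped Topology

namespace Vale.Agent.P227.M

/-- `V_ψ = ⟨x, ∇ψ⟩ - ψ - log det D²ψ` -/
noncomputable def Vpsi {n : ℕ} (ψ : E n → ℝ) (x : E n) : ℝ :=
  (∑ i, x i * pd i ψ x) - ψ x - Real.log (hess ψ x).det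

/-- the key inequality for smooth `ψ`, unnormalised integrals -/
def KeySm : Prop := ∀ (n : ℕ) (ψ : E n → ℝ) (c C : ℝ), 0 < c → ContDiff ℝ (⊤ : ℕ∞) ψ →
  (∀ x v, c * ‖v‖ ^ 2 ≤ qf (hess ψ x) v) → (∀ x v, qf (hess ψ x) v ≤ C * ‖v‖ ^ 2) →
  ∀ F u : E n → ℝ, Test F → Test u →
    (∫ x, (hess (Vpsi ψ) x * tau ψ x * hess F x * tau ψ x * hess F x * tau ψ x).trace
        * Real.exp (-Vpsi ψ x))
      + (∫ x, (∑ a, ∑ b, hess (Vpsi ψ) x a b * fld ψ u a x * fld ψ u b x) * Real.exp (-Vpsi ψ x))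
      ≤ (∫ x, (Lop ψ u x) ^ 2 * Real.exp (-Vpsi ψ x))
        + 2 * (∫ x, (∑ b, fld ψ (fun z => Lop ψ F z + F z + u z) b x * Lop ψ (pd b F) x)
            * Real.exp (-Vpsi ψ x))

end Vale.Agent.P227.M
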