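import Mathlib.RingTheory.Derivation.Basic
import Mathlib.RingTheory.Ideal.Basic
import Mathlib.Algebra.BigOperators.Fin
import Mathlib.Algebra.BigOperators.GroupWithZero.Finset
import Mathlib.Data.Real.Basic
import Mathlib.Tactic.Ring
import Mathlib.Tactic.Linarith
import Mathlib.Tactic.Abel
import Mathlib.Tactic.LinearCombination

/-!
# P227, block ID: the Bochner type identity of the moment map, abstract algebraic form.

`A` is a commutative real algebra with commuting derivations `D a`, an element `phi`,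
`t a b = D a (D b phi)` with inverse matrix `sg`, an ideal `I` stable under the `D a`, and a
linear functional `E` with `E (D a g) = E (D a phi * g)` for all `g` in `I`.
(`A` = all smooth functions, `I` = the compactly supported ones.)
-/

namespace Vale.Agent.P227.M.ID

open Finset

/-- The algebraic data. -/
structure SysI (n : ℕ) (A : Type*) [CommRing A] [Algebra ℝ A] where
  D : Fin n → Derivation ℝ A A
  comm : ∀ a b f, D a (D b f) = D b (D a f)
  phi : A
  sg : Fin n → Fin n → A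
  sg_symm : ∀ a b, sg a b = sg b a
  inv : ∀ a c, ∑ b, sg a b * D b (D c phi) = if a = c then 1 else 0
  E : A →ₗ[ℝ] ℝ
  I : Ideal A
  I_D : ∀ a g, g ∈ I → D a g ∈ I
  ibp : ∀ a g, g ∈ I → E (D a g) = E (D a phi * g)

namespace SysI

variable {n : ℕ} {A : Type*} [CommRing A] [Algebra ℝ A] (S : SysI n A)

/-- `x_a = D_a phi`. -/
def x (a : Fin n) : A := S.D a S.phi

/-- `tau_ab = D_a D_b phi`. -/
def t (a b : Fin n) : A := S.D a (S.D b S.phi)

/-- raise an index. -/
def up (X : Fin n → A) (a : Fin n) : A := ∑ b, S.sg a b * X b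

/-- lower an index. -/
def lo (X : Fin n → A) (a : Fin n) : A := ∑ b, S.t a b * X b

/-- `d_a = sum_b sg_ab D_b`. -/
def dd (a : Fin n) : Derivation ℝ A A := ∑ b, S.sg a b • S.D b

/-- adjoint of `D_a`. -/
def Ds (a : Fin n) (g : A) : A := S.x a * g - S.D a g

/-- `V_a`. -/
def V (a : Fin n) : A := ∑ b, (S.x b * S.sg a b - S.D b (S.sg a b))

/-- adjoint of `d_a`. -/
def ds (a : Fin n) (g : A) : A := S.V a * g - S.dd a g

/-- Hessian of the potential. -/
def H (a b : Fin n) : A := S.dd a (S.V b)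

lemma t_symm (a b : Fin n) : S.t a b = S.t b a := S.comm a b S.phi

lemma dd_apply (a : Fin n) (f : A) : S.dd a f = ∑ b, S.sg a b * S.D b f := by
  exact (congrFun (map_sum (Derivation.coeFnAddMonoidHom (R := ℝ) (A := A) (M := A))
    (fun b => S.sg a b • S.D b) Finset.univ) f).trans (Finset.sum_apply _ _ _)

lemma dd_eq_up (a : Fin n) (f : A) : S.dd a f = S.up (fun b => S.D b f) a :=
  S.dd_apply a f

lemma sg_t (a c : Fin n) : ∑ b, S.sg a b * S.t b c = if a = c then 1 else 0 := S.inv a c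

lemma up_lo (X : Fin n → A) (a : Fin n) : S.up (S.lo X) a = X a := by
  unfold up lo
  calc ∑ b, S.sg a b * ∑ c, S.t b c * X c
      = ∑ c, (∑ b, S.sg a b * S.t b c) * X c := by
        simp_rw [mul_sum, sum_mul]
        rw [sum_comm]
        simp_rw [mul_assoc]
    _ = X a := by
        simp_rw [S.sg_t]
        simp

lemma t_sg (a c : Fin n) : ∑ b, S.t a b * S.sg b c = if a = c then 1 else 0 := by
  calc ∑ b, S.t a b * S.sg b c = ∑ b, S.sg c b * S.t b a := by
        refine sum_congr rfl fun b _ => ?_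
        rw [S.t_symm a b, S.sg_symm b c]; ring
    _ = _ := by
        rw [S.sg_t]
        by_cases h : a = c
        · simp [h]
        · simp [h, Ne.symm h]

lemma lo_up (X : Fin n → A) (a : Fin n) : S.lo (S.up X) a = X a := by
  unfold up lo
  calc ∑ b, S.t a b * ∑ c, S.sg b c * X c
      = ∑ c, (∑ b, S.t a b * S.sg b c) * X c := by
        simp_rw [mul_sum, sum_mul]
        rw [sum_comm]
        simp_rw [mul_assoc]
    _ = X a := by
        simp_rw [S.t_sg]
        simp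

lemma up_pair (X Y : Fin n → A) : ∑ a, S.up X a * Y a = ∑ a, X a * S.up Y a := by
  unfold up
  simp_rw [mul_sum, sum_mul]
  rw [sum_comm]
  refine sum_congr rfl fun a _ => sum_congr rfl fun b _ => ?_
  rw [S.sg_symm b a]; ring

lemma lo_pair (X Y : Fin n → A) : ∑ a, S.lo X a * Y a = ∑ a, X a * S.lo Y a := by
  unfold lo
  simp_rw [mul_sum, sum_mul]
  rw [sum_comm]
  refine sum_congr rfl fun a _ => sum_congr rfl fun b _ => ?_
  rw [S.t_symm b a]; ring

lemma D_eq_lo (a : Fin n) (f : A) : S.D a f = S.lo (fun b => S.dd b f) a := by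
  have : (fun b => S.dd b f) = S.up (fun b => S.D b f) := by
    funext b; exact S.dd_eq_up b f
  rw [this, S.lo_up]

lemma D_x (a b : Fin n) : S.D a (S.x b) = S.t a b := rfl

lemma dd_x (a c : Fin n) : S.dd a (S.x c) = if a = c then 1 else 0 := by
  rw [S.dd_apply]; exact S.sg_t a c

/-- key: `d_a sg_bp = d_b sg_ap`. -/
lemma dd_sg (a b p : Fin n) : S.dd a (S.sg b p) = S.dd b (S.sg a p) := by
  have key : ∀ c, ∑ q, (S.dd a (S.sg b q) - S.dd b (S.sg a q)) * S.t q c = 0 := by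
    intro c
    have e : ∀ a b : Fin n, S.dd a (S.dd b (S.x c)) =
        ∑ q, S.dd a (S.sg b q) * S.t q c + ∑ q, ∑ r, S.sg b q * (S.sg a r * S.D r (S.D q (S.x c))) := by
      intro a b
      rw [S.dd_apply b, map_sum, ← sum_add_distrib]
      refine sum_congr rfl fun q _ => ?_
      rw [Derivation.leibniz, S.dd_apply a (S.D q (S.x c)), S.D_x]
      simp only [smul_eq_mul, mul_sum]
      ring_nf
    have h0 : ∀ a b : Fin n, S.dd a (S.dd b (S.x c)) = 0 := by
      intro a b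
      rw [S.dd_x]
      by_cases h : b = c <;> simp [h]
    have e1 := e a b
    have e2 := e b a
    rw [h0] at e1 e2
    have e3 : ∑ q, ∑ r, S.sg b q * (S.sg a r * S.D r (S.D q (S.x c)))
        = ∑ q, ∑ r, S.sg a q * (S.sg b r * S.D r (S.D q (S.x c))) := by
      rw [sum_comm]
      refine sum_congr rfl fun q _ => sum_congr rfl fun r _ => ?_
      rw [S.comm q r]; ring
    simp_rw [sub_mul]
    rw [sum_sub_distrib]
    rw [e3] at e1
    linear_combination e2 - e1
  have h2 : ∑ c, (∑ q, (S.dd a (S.sg b q) - S.dd b (S.sg a q)) * S.t q c) * S.sg c p = 0 := by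
    simp [key]
  have h3 : ∑ c, (∑ q, (S.dd a (S.sg b q) - S.dd b (S.sg a q)) * S.t q c) * S.sg c p
      = S.dd a (S.sg b p) - S.dd b (S.sg a p) := by
    simp_rw [sum_mul]
    rw [sum_comm]
    simp_rw [mul_assoc, ← mul_sum, S.t_sg]
    simp
  rw [h3] at h2
  exact sub_eq_zero.mp h2

lemma dd_comm (a b : Fin n) (f : A) : S.dd a (S.dd b f) = S.dd b (S.dd a f) := by
  have e : ∀ a b : Fin n, S.dd a (S.dd b f) =
      ∑ q, S.dd a (S.sg b q) * S.D q f + ∑ q, ∑ r, S.sg b q * (S.sg a r * S.D r (S.D q f)) := by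
    intro a b
    rw [S.dd_apply b, map_sum, ← sum_add_distrib]
    refine sum_congr rfl fun q _ => ?_
    rw [Derivation.leibniz, S.dd_apply a (S.D q f)]
    simp only [smul_eq_mul, mul_sum]
    ring_nf
  rw [e a b, e b a]
  congr 1
  · refine sum_congr rfl fun q _ => ?_
    rw [S.dd_sg a b q]
  · rw [sum_comm]
    refine sum_congr rfl fun q _ => sum_congr rfl fun r _ => ?_
    rw [S.comm q r]; ring

/-! ### adjoints -/

lemma E_Ds (a : Fin n) (f g : A) (hfg : f * g ∈ S.I) :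
    S.E (S.D a f * g) = S.E (f * S.Ds a g) := by
  have h := S.ibp a (f * g) hfg
  rw [Derivation.leibniz] at h
  simp only [smul_eq_mul, map_add] at h
  have h2 : S.E (f * S.Ds a g) = S.E (S.D a S.phi * (f * g)) - S.E (f * S.D a g) := by
    rw [← map_sub]
    congr 1
    unfold Ds x
    ring
  rw [h2, ← h, mul_comm g (S.D a f)]
  ring

lemma Ds_sum {ι : Type*} (s : Finset ι) (a : Fin n) (g : ι → A) :
    S.Ds a (∑ i ∈ s, g i) = ∑ i ∈ s, S.Ds a (g i) := by
  unfold Ds
  rw [map_sum, mul_sum, sum_sub_distrib]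

lemma Ds_mul (a : Fin n) (f g : A) : S.Ds a (f * g) = f * S.Ds a g - S.D a f * g := by
  unfold Ds
  rw [Derivation.leibniz]
  simp only [smul_eq_mul]
  ring

lemma Ds_comm (a b : Fin n) (g : A) : S.Ds a (S.Ds b g) = S.Ds b (S.Ds a g) := by
  unfold Ds
  simp only [map_sub, Derivation.leibniz, smul_eq_mul, S.D_x, S.comm a b g, S.t_symm a b]
  ring

/-- `D_a D_b^* g = D_b^* D_a g + t_ab g`. -/
lemma D_Ds (a b : Fin n) (g : A) : S.D a (S.Ds b g) = S.Ds b (S.D a g) + S.t a b * g := by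
  unfold Ds
  simp only [map_sub, Derivation.leibniz, smul_eq_mul, S.D_x, S.comm a b g]
  ring

/-- `d_a^* g = sum_b D_b^* (sg_ab g)`. -/
lemma ds_eq (a : Fin n) (g : A) : S.ds a g = ∑ b, S.Ds b (S.sg a b * g) := by
  unfold ds V Ds
  rw [S.dd_apply, sum_mul, ← sum_sub_distrib]
  refine sum_congr rfl fun b _ => ?_
  rw [Derivation.leibniz]
  simp only [smul_eq_mul]
  ring

lemma ds_sum {ι : Type*} (s : Finset ι) (a : Fin n) (g : ι → A) :
    S.ds a (∑ i ∈ s, g i) = ∑ i ∈ s, S.ds a (g i) := by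
  unfold ds
  rw [map_sum, mul_sum, sum_sub_distrib]

lemma E_ds (a : Fin n) (f g : A) (hfg : f * g ∈ S.I) :
    S.E (S.dd a f * g) = S.E (f * S.ds a g) := by
  rw [S.dd_apply, S.ds_eq, sum_mul, mul_sum, map_sum, map_sum]
  refine sum_congr rfl fun b _ => ?_
  rw [← S.E_Ds _ _ _ (by
    have : f * (S.sg a b * g) = S.sg a b * (f * g) := by ring
    rw [this]
    exact S.I.mul_mem_left _ hfg)]
  congr 1
  ring

lemma I_dd (a : Fin n) {f : A} (hf : f ∈ S.I) : S.dd a f ∈ S.I := by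
  rw [S.dd_apply]
  exact S.I.sum_mem fun b _ => S.I.mul_mem_left _ (S.I_D b f hf)

lemma I_Ds (a : Fin n) {f : A} (hf : f ∈ S.I) : S.Ds a f ∈ S.I :=
  S.I.sub_mem (S.I.mul_mem_left _ hf) (S.I_D a f hf)

lemma I_ds (a : Fin n) {f : A} (hf : f ∈ S.I) : S.ds a f ∈ S.I :=
  S.I.sub_mem (S.I.mul_mem_left _ hf) (S.I_dd a hf)

lemma ds_ds (a b : Fin n) (g : A) : S.ds a (S.ds b g) =
    ∑ p, ∑ q, S.Ds p (S.Ds q (S.sg a p * (S.sg b q * g))) + ∑ p, S.Ds p (S.dd b (S.sg a p) * g) := by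
  rw [S.ds_eq a, ← sum_add_distrib]
  refine sum_congr rfl fun p _ => ?_
  rw [S.ds_eq b, mul_sum, S.Ds_sum]
  have e : ∀ q, S.sg a p * S.Ds q (S.sg b q * g) = S.Ds q (S.sg a p * (S.sg b q * g))
      + S.D q (S.sg a p) * (S.sg b q * g) := by
    intro q
    rw [S.Ds_mul q (S.sg a p) (S.sg b q * g)]; ring
  have e2 : ∀ q, S.Ds p (S.sg a p * S.Ds q (S.sg b q * g)) =
      S.Ds p (S.Ds q (S.sg a p * (S.sg b q * g))) + S.Ds p (S.D q (S.sg a p) * (S.sg b q * g)) := by
    intro q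
    rw [e q]
    unfold Ds
    simp only [map_sub, map_add]
    ring
  simp_rw [e2]
  rw [sum_add_distrib]
  congr 1
  rw [← S.Ds_sum]
  congr 1
  rw [S.dd_apply, sum_mul]
  refine sum_congr rfl fun q _ => ?_
  ring

lemma ds_comm (a b : Fin n) (g : A) : S.ds a (S.ds b g) = S.ds b (S.ds a g) := by
  rw [S.ds_ds a b, S.ds_ds b a]
  congr 1
  · rw [sum_comm]
    refine sum_congr rfl fun q _ => sum_congr rfl fun p _ => ?_
    rw [S.Ds_comm q p]
    congr 2
    ring
  · refine sum_congr rfl fun p _ => ?_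
    rw [S.dd_sg b a p]

lemma ds_one (a : Fin n) : S.ds a 1 = S.V a := by
  unfold ds
  simp

lemma H_symm (a b : Fin n) : S.H a b = S.H b a := by
  have h := S.ds_comm a b 1
  rw [S.ds_one, S.ds_one] at h
  unfold ds at h
  unfold H
  linear_combination -h

/-- `d_a d_b^* g = d_b^* d_a g + H_ab g`. -/
lemma dd_ds (a b : Fin n) (g : A) : S.dd a (S.ds b g) = S.ds b (S.dd a g) + S.H a b * g := by
  unfold ds H
  simp only [map_sub, Derivation.leibniz, smul_eq_mul, S.dd_comm a b g]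
  ring

/-- polarised Bochner formula. -/
lemma boch (a b : Fin n) (f g : A) (hf : f ∈ S.I) :
    S.E (S.ds a f * S.ds b g) = S.E (S.dd b f * S.dd a g) + S.E (S.H a b * f * g) := by
  calc S.E (S.ds a f * S.ds b g) = S.E (S.dd a (S.ds b g) * f) := by
        rw [S.E_ds _ _ _ (S.I.mul_mem_left _ hf), mul_comm]
    _ = S.E (S.ds b (S.dd a g) * f) + S.E (S.H a b * f * g) := by
        rw [S.dd_ds, ← map_add]
        congr 1
        ring
    _ = _ := by
        congr 1
        rw [mul_comm, ← S.E_ds _ _ _ (S.I.mul_mem_right _ hf)]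

/-! ### the test functions -/

variable (v : A)

/-- `G_a = d_a v`. -/
def G (a : Fin n) : A := S.dd a v

/-- `N_ab = d_a d_b v`. -/
def N (a b : Fin n) : A := S.dd a (S.dd b v)

/-- `J_ab = D_a d_b v`. -/
def J (a b : Fin n) : A := S.D a (S.dd b v)

/-- `K_ab = (tau N tau)_ab`. -/
def K (a b : Fin n) : A := ∑ c, S.J v a c * S.t c b

/-- `u = -(L+1) v`. -/
def u : A := ∑ a, S.Ds a (S.dd a v) - v

/-- `s = grad_y u`. -/
def s (b : Fin n) : A := S.D b (S.u v)

/-- `w = -L u = L(L+1) v`. -/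
def w : A := ∑ b, S.ds b (S.s v b)

/-- `W_abc = D_a D_b d_c v`. -/
def W (a b c : Fin n) : A := S.D a (S.D b (S.dd c v))

lemma N_symm (a b : Fin n) : S.N v a b = S.N v b a := S.dd_comm a b v

lemma N_eq (a b : Fin n) : S.N v a b = S.up (fun c => S.J v c b) a := S.dd_eq_up a _

lemma J_eq (a b : Fin n) : S.J v a b = S.lo (fun c => S.N v c b) a := by
  unfold J N
  rw [S.D_eq_lo]

lemma K_eq_lo (a b : Fin n) : S.K v a b = S.lo (fun c => S.J v a c) b := by
  unfold K lo
  refine sum_congr rfl fun c _ => ?_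
  rw [S.t_symm c b]; ring

lemma K_eq (a b : Fin n) : S.K v a b = S.lo (fun c => S.lo (fun e => S.N v c e) a) b := by
  rw [S.K_eq_lo]
  congr 1
  funext c
  rw [S.J_eq]
  unfold lo
  refine sum_congr rfl fun e _ => ?_
  show S.t a e * S.N v e c = S.t a e * S.N v c e
  rw [S.N_symm v e c]

lemma K_symm (a b : Fin n) : S.K v a b = S.K v b a := by
  rw [S.K_eq, S.K_eq]
  unfold lo
  simp_rw [mul_sum]
  rw [sum_comm]
  refine sum_congr rfl fun c _ => sum_congr rfl fun e _ => ?_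
  rw [S.N_symm v e c]; ring

lemma J_up_K (a b : Fin n) : S.up (fun c => S.K v a c) b = S.J v a b := by
  have : (fun c => S.K v a c) = S.lo (fun c => S.J v a c) := by
    funext c; exact S.K_eq_lo v a c
  rw [this, S.up_lo]

lemma W_symm (a b c : Fin n) : S.W v a b c = S.W v b a c := S.comm a b _

/-- `s_b = sum_a D_a^* J_ba`. -/
lemma s_eq (b : Fin n) : S.s v b = ∑ a, S.Ds a (S.J v b a) := by
  unfold s u
  rw [map_sub, map_sum]
  simp_rw [S.D_Ds]
  rw [sum_add_distrib]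
  have : ∑ a, S.t b a * S.dd a v = S.D b v := (S.D_eq_lo b v).symm
  rw [this]
  unfold J
  ring

lemma sum_ds_J (c : Fin n) : ∑ a, S.ds a (S.J v a c) = ∑ a, S.Ds a (S.N v a c) := by
  simp_rw [S.ds_eq]
  rw [sum_comm]
  refine sum_congr rfl fun a _ => ?_
  rw [← S.Ds_sum, S.N_eq]
  congr 1
  unfold up
  refine sum_congr rfl fun b _ => ?_
  rw [S.sg_symm b a]

lemma sum_ds_K (c : Fin n) : ∑ b, S.ds b (S.K v c b) = S.s v c := by
  simp_rw [S.ds_eq]
  rw [sum_comm, S.s_eq]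
  refine sum_congr rfl fun a _ => ?_
  rw [← S.Ds_sum]
  congr 1
  rw [← S.J_up_K]
  unfold up
  refine sum_congr rfl fun b _ => ?_
  rw [S.sg_symm b a]

/-! ### the three integral identities -/

variable {v}

lemma I_J (hv : v ∈ S.I) (a b : Fin n) : S.J v a b ∈ S.I := S.I_D a _ (S.I_dd b hv)

lemma I_K (hv : v ∈ S.I) (a b : Fin n) : S.K v a b ∈ S.I :=
  S.I.sum_mem fun e _ => S.I.mul_mem_right _ (S.I_J hv a e)

lemma I_N (hv : v ∈ S.I) (a b : Fin n) : S.N v a b ∈ S.I := S.I_dd a (S.I_dd b hv)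

lemma I_u (hv : v ∈ S.I) : S.u v ∈ S.I :=
  S.I.sub_mem (S.I.sum_mem fun a _ => S.I_Ds a (S.I_dd a hv)) hv

lemma I_s (hv : v ∈ S.I) (b : Fin n) : S.s v b ∈ S.I := S.I_D b _ (S.I_u hv)

variable (v)

/-- `T1` Bochner: `E w^2 = sum E (d_b s_a) (d_a s_b) + sum E H_ab s_a s_b`. -/
lemma E_w_sq (hv : v ∈ S.I) : S.E (S.w v * S.w v) =
    ∑ a, ∑ b, S.E (S.dd b (S.s v a) * S.dd a (S.s v b))
      + ∑ a, ∑ b, S.E (S.H a b * S.s v a * S.s v b) := by
  unfold w
  rw [sum_mul_sum, map_sum, ← sum_add_distrib]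
  refine sum_congr rfl fun a _ => ?_
  rw [map_sum, ← sum_add_distrib]
  refine sum_congr rfl fun b _ => ?_
  exact S.boch a b _ _ (S.I_s hv a)

/-- `X = sum E N_ac D_a s_c`. -/
def X : ℝ := ∑ a, ∑ c, S.E (S.D a (S.s v c) * S.N v a c)

/-- `T2` formula. -/
lemma T2_eq (hv : v ∈ S.I) : ∑ a, ∑ b, ∑ c, S.E (S.H a b * S.J v a c * S.K v c b) =
    S.X v - ∑ a, ∑ b, ∑ c, S.E (S.dd b (S.J v a c) * S.dd a (S.K v c b)) := by
  have h : ∑ a, ∑ b, ∑ c, S.E (S.H a b * S.J v a c * S.K v c b) +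
      ∑ a, ∑ b, ∑ c, S.E (S.dd b (S.J v a c) * S.dd a (S.K v c b)) = S.X v := by
    rw [← sum_add_distrib]
    simp_rw [← sum_add_distrib]
    have e : ∀ a b c, S.E (S.H a b * S.J v a c * S.K v c b) +
        S.E (S.dd b (S.J v a c) * S.dd a (S.K v c b)) =
        S.E (S.ds a (S.J v a c) * S.ds b (S.K v c b)) := by
      intro a b c
      rw [S.boch a b _ _ (S.I_J hv a c), add_comm]
    simp_rw [e]
    have e2 : ∑ a, ∑ b, ∑ c, S.E (S.ds a (S.J v a c) * S.ds b (S.K v c b)) =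
        ∑ c, S.E ((∑ a, S.ds a (S.J v a c)) * (∑ b, S.ds b (S.K v c b))) := by
      simp_rw [sum_mul_sum, map_sum]
      calc ∑ a, ∑ b, ∑ c, S.E (S.ds a (S.J v a c) * S.ds b (S.K v c b))
          = ∑ a, ∑ c, ∑ b, S.E (S.ds a (S.J v a c) * S.ds b (S.K v c b)) :=
            sum_congr rfl fun a _ => sum_comm
        _ = _ := sum_comm
    rw [e2]
    unfold X
    rw [sum_comm]
    refine sum_congr rfl fun c _ => ?_
    rw [S.sum_ds_J, S.sum_ds_K, sum_mul, map_sum]
    refine sum_congr rfl fun a _ => ?_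
    rw [mul_comm, ← S.E_Ds _ _ _ (S.I.mul_mem_left _ (S.I_N hv a c))]
  linarith

lemma X_eq (hv : v ∈ S.I) : S.X v = ∑ a, ∑ b, ∑ c, S.E (S.D a (S.J v b c) * S.D c (S.N v a b))
    + ∑ b, ∑ c, S.E (S.J v b c * S.J v c b) := by
  unfold X
  have e : ∀ a b, S.E (S.D a (S.s v b) * S.N v a b) =
      ∑ c, (S.E (S.D a (S.J v b c) * S.D c (S.N v a b)) + S.E (S.t a c * S.J v b c * S.N v a b)) := by
    intro a b
    rw [S.s_eq, map_sum, sum_mul, map_sum]
    refine sum_congr rfl fun c _ => ?_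
    rw [S.D_Ds, add_mul, map_add]
    congr 1
    rw [mul_comm, ← S.E_Ds _ _ _ (S.I.mul_mem_right _ (S.I_N hv a b)), mul_comm]
  simp_rw [e, sum_add_distrib]
  congr 1
  rw [sum_comm]
  refine sum_congr rfl fun b _ => ?_
  rw [sum_comm]
  refine sum_congr rfl fun c _ => ?_
  rw [← map_sum]
  congr 1
  have : S.J v c b = ∑ a, S.t c a * S.N v a b := S.J_eq v c b
  rw [this, mul_sum]
  refine sum_congr rfl fun a _ => ?_
  rw [S.t_symm c a]; ring

/-! ### the pointwise identity -/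

/-- `<W, W'>`. -/
def Q2 : A := ∑ a, ∑ b, ∑ c, S.W v b a c * S.up (fun f => S.W v f c b) a

/-- `W` with all indices moved. -/
def SW (b a c : Fin n) : A :=
  S.up (fun b' => S.up (fun a' => S.lo (fun c' => S.W v b' a' c') c) a) b

/-- `|W|^2`. -/
def Q1 : A := ∑ a, ∑ b, ∑ c, S.W v b a c * S.SW v b a c

lemma D_t_symm (a b c : Fin n) : S.D a (S.t b c) = S.D b (S.t a c) := S.comm a b _

lemma dd_t_symm (a b c : Fin n) : S.dd a (S.t b c) = S.dd a (S.t c b) := by
  rw [S.t_symm]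

/-- `d_a K_cb = lo_b (d_a J_cb) + sum_g J_cg d_a t_gb`. -/
lemma dd_K (a b c : Fin n) : S.dd a (S.K v c b) =
    S.lo (fun g => S.dd a (S.J v c g)) b + ∑ g, S.J v c g * S.dd a (S.t g b) := by
  unfold K lo
  rw [map_sum, ← sum_add_distrib]
  refine sum_congr rfl fun g _ => ?_
  rw [Derivation.leibniz]
  simp only [smul_eq_mul]
  rw [S.t_symm b g]
  ring

lemma dd_J (a b c : Fin n) : S.dd a (S.J v b c) = S.up (fun e => S.W v e b c) a :=
  S.dd_eq_up a _

/-- the term `P`. -/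
def PP (a b c : Fin n) : A := S.up (fun b' => ∑ g, S.J v c g * S.dd a (S.t g b')) b

lemma up_add (X Y : Fin n → A) (a : Fin n) :
    S.up (fun b => X b + Y b) a = S.up X a + S.up Y a := by
  unfold up
  rw [← sum_add_distrib]
  refine sum_congr rfl fun b _ => ?_
  ring

lemma lhs1 : ∑ a, ∑ b, ∑ c, S.dd b (S.J v a c) * S.dd a (S.K v c b) =
    S.Q2 v + ∑ a, ∑ b, ∑ c, S.W v b a c * S.PP v a b c := by
  have e : ∀ a c, ∑ b, S.dd b (S.J v a c) * S.dd a (S.K v c b) =
      ∑ b, (S.W v b a c * S.up (fun f => S.W v f c b) a + S.W v b a c * S.PP v a b c) := by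
    intro a c
    have e1 : ∑ b, S.dd b (S.J v a c) * S.dd a (S.K v c b) =
        ∑ b, S.W v b a c * S.up (fun b' => S.dd a (S.K v c b')) b := by
      rw [← S.up_pair]
      refine sum_congr rfl fun b _ => ?_
      rw [S.dd_J]
    rw [e1]
    refine sum_congr rfl fun b _ => ?_
    rw [← mul_add]
    congr 1
    simp_rw [S.dd_K]
    rw [S.up_add]
    unfold PP
    congr 1
    rw [S.up_lo, S.dd_J]
  unfold Q2
  rw [← sum_add_distrib]
  refine sum_congr rfl fun a _ => ?_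
  rw [← sum_add_distrib]
  rw [sum_comm]
  calc ∑ c, ∑ b, S.dd b (S.J v a c) * S.dd a (S.K v c b)
      = ∑ c, ∑ b, (S.W v b a c * S.up (fun f => S.W v f c b) a + S.W v b a c * S.PP v a b c) :=
        sum_congr rfl fun c _ => e a c
    _ = ∑ b, ∑ c, (S.W v b a c * S.up (fun f => S.W v f c b) a + S.W v b a c * S.PP v a b c) :=
        sum_comm
    _ = _ := by
        refine sum_congr rfl fun b _ => ?_
        rw [sum_add_distrib]

/-- total symmetry of `d_c N_ab`. -/
lemma dd_N_symm (a b c : Fin n) : S.dd c (S.N v a b) = S.dd a (S.N v c b) := S.dd_comm c a _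

lemma up_lo2 (Y : Fin n → Fin n → A) (a b : Fin n) :
    S.up (fun c => S.lo (fun e => Y e c) a) b = S.lo (fun e => S.up (fun c => Y e c) b) a := by
  unfold up lo
  simp_rw [mul_sum]
  rw [sum_comm]
  refine sum_congr rfl fun c _ => sum_congr rfl fun e _ => ?_
  ring

/-- pointwise: `P + D_c N = SW`. -/
lemma SW_eq (a b c : Fin n) : S.SW v b a c = S.PP v a b c + S.D c (S.N v b a) := by
  have hW : ∀ a' b' c', S.W v b' a' c' =
      (∑ r, S.D b' (S.t a' r) * S.N v r c') + S.lo (fun r => S.D b' (S.N v r c')) a' := by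
    intro a' b' c'
    have h : S.J v a' c' = ∑ r, S.t a' r * S.N v r c' := S.J_eq v a' c'
    show S.D b' (S.J v a' c') = _
    rw [h, map_sum]
    unfold lo
    rw [← sum_add_distrib]
    refine sum_congr rfl fun r _ => ?_
    rw [Derivation.leibniz]
    simp only [smul_eq_mul]
    ring
  unfold SW
  have e1 : ∀ b', S.up (fun a' => S.lo (fun c' => S.W v b' a' c') c) a =
      (∑ r, S.J v c r * S.dd a (S.t r b')) + S.lo (fun c' => S.D b' (S.N v a c')) c := by
    intro b'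
    have e2 : ∀ a', S.lo (fun c' => S.W v b' a' c') c =
        (∑ r, S.J v c r * S.D a' (S.t r b')) +
          S.lo (fun c' => S.lo (fun r => S.D b' (S.N v r c')) a') c := by
      intro a'
      simp_rw [hW]
      unfold lo
      simp_rw [mul_add]
      rw [sum_add_distrib]
      congr 1
      simp_rw [mul_sum]
      rw [sum_comm]
      refine sum_congr rfl fun r _ => ?_
      have h : S.J v c r = ∑ c', S.t c c' * S.N v c' r := S.J_eq v c r
      rw [h, sum_mul]
      refine sum_congr rfl fun c' _ => ?_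
      rw [S.D_t_symm b' a' r, S.t_symm b' r, S.N_symm v r c']
      ring
    simp_rw [e2]
    rw [S.up_add]
    congr 1
    · unfold up
      simp_rw [mul_sum]
      rw [sum_comm]
      refine sum_congr rfl fun r _ => ?_
      rw [S.dd_apply, mul_sum]
      refine sum_congr rfl fun a' _ => ?_
      ring
    · have e3 : ∀ a', S.lo (fun c' => S.lo (fun r => S.D b' (S.N v r c')) a') c =
          S.lo (fun r => S.lo (fun c' => S.D b' (S.N v r c')) c) a' := by
        intro a'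
        unfold lo
        simp_rw [mul_sum]
        rw [sum_comm]
        refine sum_congr rfl fun r _ => sum_congr rfl fun c' _ => ?_
        ring
      simp_rw [e3]
      exact S.up_lo (fun r => S.lo (fun c' => S.D b' (S.N v r c')) c) a
  simp_rw [e1]
  rw [S.up_add]
  congr 1
  have e4 : S.up (fun b' => S.lo (fun c' => S.D b' (S.N v a c')) c) b =
      S.lo (fun c' => S.up (fun b' => S.D b' (S.N v a c')) b) c := by
    unfold up lo
    simp_rw [mul_sum]
    rw [sum_comm]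
    refine sum_congr rfl fun r _ => sum_congr rfl fun c' _ => ?_
    ring
  rw [e4, S.D_eq_lo c]
  congr 1
  funext c'
  rw [← S.dd_eq_up, S.dd_N_symm v b a c', S.N_symm v c' a]

/-- the pointwise identity `sum d_b J_ac d_a K_cb + D_a J_bc D_c N_ab = Q2 + Q1`. -/
lemma pw : (∑ a, ∑ b, ∑ c, S.dd b (S.J v a c) * S.dd a (S.K v c b)) +
    (∑ a, ∑ b, ∑ c, S.D a (S.J v b c) * S.D c (S.N v a b)) = S.Q2 v + S.Q1 v := by
  rw [S.lhs1]
  unfold Q1
  rw [add_assoc]
  congr 1
  have e : ∑ a, ∑ b, ∑ c, S.D a (S.J v b c) * S.D c (S.N v a b) =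
      ∑ a, ∑ b, ∑ c, S.W v b a c * S.D c (S.N v b a) := by
    rw [sum_comm]
    rfl
  rw [e, ← sum_add_distrib]
  refine sum_congr rfl fun a _ => ?_
  rw [← sum_add_distrib]
  refine sum_congr rfl fun b _ => ?_
  rw [← sum_add_distrib]
  refine sum_congr rfl fun c _ => ?_
  rw [S.SW_eq]; ring

/-- `tr (sg (Du - K) sg (Du - K))`, `Du_ab = D_a s_b`. -/
def Q3 : A := ∑ a, ∑ c, S.up (fun b => S.D b (S.s v c) - S.K v b c) a *
  S.up (fun d => S.D d (S.s v a) - S.K v d a) c

lemma s_symm (a b : Fin n) : S.D a (S.s v b) = S.D b (S.s v a) := S.comm a b _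

/-- expansion of `Q3`. -/
lemma Q3_eq : S.Q3 v = (∑ a, ∑ b, S.dd b (S.s v a) * S.dd a (S.s v b))
    - 2 * (∑ a, ∑ c, S.D a (S.s v c) * S.N v a c) + ∑ b, ∑ c, S.J v b c * S.J v c b := by
  have eK : ∀ a c, S.up (fun b => S.K v b c) a = S.J v c a := by
    intro a c
    have : (fun b => S.K v b c) = fun b => S.K v c b := by funext b; exact S.K_symm v b c
    rw [this, S.J_up_K]
  have e : ∀ a c, S.up (fun b => S.D b (S.s v c) - S.K v b c) a = S.dd a (S.s v c) - S.J v c a := by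
    intro a c
    rw [← eK a c, S.dd_eq_up]
    unfold up
    rw [← sum_sub_distrib]
    refine sum_congr rfl fun b _ => ?_
    ring
  unfold Q3
  simp_rw [e]
  have cross : ∑ a, ∑ c, S.dd a (S.s v c) * S.J v a c = ∑ a, ∑ c, S.D a (S.s v c) * S.N v a c := by
    rw [sum_comm]
    conv_rhs => rw [sum_comm]
    refine sum_congr rfl fun c _ => ?_
    have h1 : ∑ a, S.dd a (S.s v c) * S.J v a c =
        ∑ a, S.up (fun b => S.D b (S.s v c)) a * S.J v a c :=
      sum_congr rfl fun a _ => by rw [S.dd_eq_up]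
    rw [h1, S.up_pair]
    refine sum_congr rfl fun a _ => ?_
    rw [S.N_eq]
  have cross2 : ∑ a, ∑ c, S.J v c a * S.dd c (S.s v a) = ∑ a, ∑ c, S.D a (S.s v c) * S.N v a c := by
    rw [← cross, sum_comm]
    refine sum_congr rfl fun a _ => sum_congr rfl fun c _ => ?_
    ring
  have e5 : ∑ a, ∑ c, (S.dd a (S.s v c) - S.J v c a) * (S.dd c (S.s v a) - S.J v a c) =
      (∑ a, ∑ c, S.dd c (S.s v a) * S.dd a (S.s v c)) - (∑ a, ∑ c, S.dd a (S.s v c) * S.J v a c)
        - (∑ a, ∑ c, S.J v c a * S.dd c (S.s v a)) + ∑ a, ∑ c, S.J v a c * S.J v c a := by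
    rw [← sum_sub_distrib, ← sum_sub_distrib, ← sum_add_distrib]
    refine sum_congr rfl fun a _ => ?_
    rw [← sum_sub_distrib, ← sum_sub_distrib, ← sum_add_distrib]
    refine sum_congr rfl fun c _ => ?_
    ring
  rw [e5, cross, cross2]
  ring

/-- the first Bochner term and the second one. -/
def T1 : ℝ := ∑ a, ∑ b, S.E (S.H a b * S.s v a * S.s v b)

def T2 : ℝ := ∑ a, ∑ b, ∑ c, S.E (S.H a b * S.J v a c * S.K v c b)

/-- MAIN IDENTITY. -/
theorem main (hv : v ∈ S.I) : S.E (S.w v * S.w v) = S.T1 v + S.T2 v + S.E (S.Q3 v) + S.E (S.Q2 v + S.Q1 v) := by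
  have h1 := S.E_w_sq v hv
  have h2 := S.T2_eq v hv
  have h3 := S.X_eq v hv
  have h4 := congrArg S.E (S.pw v)
  have h5 := congrArg S.E (S.Q3_eq v)
  have hX : S.X v = S.E (∑ a, ∑ c, S.D a (S.s v c) * S.N v a c) := by
    unfold X
    simp only [map_sum]
  rw [map_add] at h4
  rw [map_add, map_sub] at h5
  have h6 : S.E (2 * ∑ a, ∑ c, S.D a (S.s v c) * S.N v a c) = 2 * S.X v := by
    rw [hX, two_mul, map_add, two_mul]
  rw [h6] at h5
  have h7 : S.E (∑ a, ∑ b, ∑ c, S.dd b (S.J v a c) * S.dd a (S.K v c b)) =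
      ∑ a, ∑ b, ∑ c, S.E (S.dd b (S.J v a c) * S.dd a (S.K v c b)) := by simp only [map_sum]
  have h8 : S.E (∑ a, ∑ b, ∑ c, S.D a (S.J v b c) * S.D c (S.N v a b)) =
      ∑ a, ∑ b, ∑ c, S.E (S.D a (S.J v b c) * S.D c (S.N v a b)) := by simp only [map_sum]
  have h9 : S.E (∑ b, ∑ c, S.J v b c * S.J v c b) = ∑ b, ∑ c, S.E (S.J v b c * S.J v c b) := by
    simp only [map_sum]
  have h10 : S.E (∑ a, ∑ b, S.dd b (S.s v a) * S.dd a (S.s v b)) =
      ∑ a, ∑ b, S.E (S.dd b (S.s v a) * S.dd a (S.s v b)) := by simp only [map_sum]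
  rw [h7, h8] at h4
  rw [h9, h10] at h5
  unfold T1 T2
  linarith

/-! ### pairings -/

/-- `E (r w) = sum E (s_b d_b r)`. -/
lemma E_r_w (hv : v ∈ S.I) (r : A) : S.E (r * S.w v) = ∑ b, S.E (S.dd b r * S.s v b) := by
  unfold w
  rw [mul_sum, map_sum]
  refine sum_congr rfl fun b _ => ?_
  rw [← S.E_ds _ _ _ (S.I.mul_mem_left _ (S.I_s hv b))]

/-- `E (R s_b) = sum_c E (d_c R K_bc)`. -/
lemma E_R_s (hv : v ∈ S.I) (R : A) (b : Fin n) : S.E (R * S.s v b) = ∑ c, S.E (S.dd c R * S.K v b c) := by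
  rw [← S.sum_ds_K, mul_sum, map_sum]
  refine sum_congr rfl fun c _ => ?_
  rw [← S.E_ds _ _ _ (S.I.mul_mem_left _ (S.I_K hv b c))]

/-- Stein: `E (R x_b) = sum_c E (d_c R t_bc)`. -/
lemma E_R_x (R : A) (hR : R ∈ S.I) (b : Fin n) : S.E (R * S.x b) = ∑ c, S.E (S.dd c R * S.t b c) := by
  have h : S.E (R * S.x b) = S.E (S.D b R) := by
    rw [S.ibp _ _ hR, mul_comm]; rfl
  rw [h, S.D_eq_lo, ← map_sum]
  congr 1
  unfold lo
  refine sum_congr rfl fun c _ => ?_
  ring

/-- the radial derivative `<grad r, x>`. -/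
def rad (r : A) : A := ∑ c, S.x c * S.dd c r

/-- `E (rad r) = sum E (r_bc t_bc)`. -/
lemma E_rad (r : A) (hr : r ∈ S.I) : S.E (S.rad r) = ∑ b, ∑ c, S.E (S.dd c (S.dd b r) * S.t b c) := by
  unfold rad
  rw [map_sum]
  refine sum_congr rfl fun b _ => ?_
  rw [mul_comm, S.E_R_x _ (S.I_dd b hr)]

lemma dd_rad (b : Fin n) (r : A) : S.dd b (S.rad r) =
    S.dd b r + ∑ c, S.x c * S.dd b (S.dd c r) := by
  unfold rad
  rw [map_sum]
  have : ∀ c, S.dd b (S.x c * S.dd c r) = (if b = c then S.dd c r else 0) + S.x c * S.dd b (S.dd c r) := by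
    intro c
    rw [Derivation.leibniz, S.dd_x]
    simp only [smul_eq_mul]
    by_cases h : b = c <;> simp [h, add_comm]
  simp_rw [this]
  rw [sum_add_distrib]
  simp

/-- `E ((rad r) w) = sum E (r_bc K_bc) + sum E (r_bc x_c s_b)`. -/
lemma E_rad_w (hv : v ∈ S.I) (r : A) : S.E (S.rad r * S.w v) =
    (∑ b, ∑ c, S.E (S.dd c (S.dd b r) * S.K v b c)) +
      ∑ b, ∑ c, S.E (S.dd b (S.dd c r) * S.x c * S.s v b) := by
  rw [S.E_r_w v hv, ← sum_add_distrib]
  refine sum_congr rfl fun b _ => ?_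
  rw [S.dd_rad, add_mul, map_add, S.E_R_s v hv]
  congr 1
  rw [sum_mul, map_sum]
  refine sum_congr rfl fun c _ => ?_
  congr 1
  ring

end SysI

end Vale.Agent.P227.M.ID
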