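import Vale.Agent.P227.M.ID.AbsI

/-!
# P227, block ID: the key identity with independent `v` and `u'` (abstract form).
-/

namespace Vale.Agent.P227.M.ID

open Finset

namespace SysI

variable {n : ℕ} {A : Type*} [CommRing A] [Algebra ℝ A] (S : SysI n A)

/-- `L f = sum_b D_b d_b f - x_b d_b f`. -/
def Lo (f : A) : A := -∑ b, S.Ds b (S.dd b f)

lemma Lo_eq (f : A) : S.Lo f = -∑ b, S.ds b (S.D b f) := by
  unfold Lo
  congr 1
  simp_rw [S.ds_eq]
  rw [sum_comm]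
  refine sum_congr rfl fun a _ => ?_
  rw [← S.Ds_sum, S.dd_apply]
  congr 1
  refine sum_congr rfl fun b _ => ?_
  rw [S.sg_symm b a]

lemma Lo_expand (f : A) : S.Lo f = ∑ b, S.D b (S.dd b f) - ∑ b, S.x b * S.dd b f := by
  unfold Lo Ds
  rw [sum_sub_distrib]
  ring

lemma u_eq (v : A) : S.u v = -(S.Lo v + v) := by
  unfold u Lo
  ring

/-- integration by parts. -/
lemma E_Lo (f g : A) (h : f ∈ S.I ∨ g ∈ S.I) : S.E (S.Lo f * g) = -∑ b, S.E (S.D b f * S.dd b g) := by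
  rw [S.Lo_eq, neg_mul, map_neg, sum_mul, map_sum]
  congr 1
  refine sum_congr rfl fun b _ => ?_
  rw [mul_comm, ← S.E_ds _ _ _ (by
    rcases h with h | h
    · exact S.I.mul_mem_left _ (S.I_D b _ h)
    · exact S.I.mul_mem_right _ h), mul_comm]

/-- `T1` of `u'`. -/
def T1' (u' : A) : ℝ := ∑ a, ∑ b, S.E (S.H a b * S.D a u' * S.D b u')

/-- Bochner. -/
lemma E_Lo_sq (u' : A) (hu : u' ∈ S.I) : S.E (S.Lo u' * S.Lo u') =
    ∑ a, ∑ b, S.E (S.dd b (S.D a u') * S.dd a (S.D b u')) + S.T1' u' := by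
  rw [S.Lo_eq, neg_mul_neg]
  unfold T1'
  rw [sum_mul_sum, map_sum, ← sum_add_distrib]
  refine sum_congr rfl fun a _ => ?_
  rw [map_sum, ← sum_add_distrib]
  refine sum_congr rfl fun b _ => ?_
  exact S.boch a b _ _ (S.I_D a _ hu)

lemma E_DD_N (v f : A) (hv : v ∈ S.I) : ∑ a, ∑ c, S.E (S.D a (S.D c f) * S.N v a c) =
    -∑ c, S.E (S.D c f * S.Lo (S.dd c v)) := by
  rw [sum_comm, ← sum_neg_distrib]
  refine sum_congr rfl fun c _ => ?_
  unfold Lo
  rw [mul_neg, map_neg, neg_neg, mul_sum, map_sum]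
  refine sum_congr rfl fun a _ => ?_
  rw [S.E_Ds _ _ _ (S.I.mul_mem_left _ (S.I_N hv a c))]
  rfl

/-- `Q3'`: `tr (sg (D^2u' - K) sg (D^2u' - K))`. -/
def Q3' (v u' : A) : A := ∑ a, ∑ c, S.up (fun b => S.D b (S.D c u') - S.K v b c) a *
  S.up (fun d => S.D d (S.D a u') - S.K v d a) c

/-- expansion of `Q3'`. -/
lemma Q3'_eq (v u' : A) : S.Q3' v u' = (∑ a, ∑ b, S.dd b (S.D a u') * S.dd a (S.D b u'))
    - 2 * (∑ a, ∑ c, S.D a (S.D c u') * S.N v a c) + ∑ b, ∑ c, S.J v b c * S.J v c b := by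
  have eK : ∀ a c, S.up (fun b => S.K v b c) a = S.J v c a := by
    intro a c
    have : (fun b => S.K v b c) = fun b => S.K v c b := by funext b; exact S.K_symm v b c
    rw [this, S.J_up_K]
  have e : ∀ a c, S.up (fun b => S.D b (S.D c u') - S.K v b c) a = S.dd a (S.D c u') - S.J v c a := by
    intro a c
    rw [← eK a c, S.dd_eq_up]
    unfold up
    rw [← sum_sub_distrib]
    refine sum_congr rfl fun b _ => ?_
    ring
  unfold Q3'
  simp_rw [e]
  have cross : ∑ a, ∑ c, S.dd a (S.D c u') * S.J v a c = ∑ a, ∑ c, S.D a (S.D c u') * S.N v a c := by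
    rw [sum_comm]
    conv_rhs => rw [sum_comm]
    refine sum_congr rfl fun c _ => ?_
    have h1 : ∑ a, S.dd a (S.D c u') * S.J v a c =
        ∑ a, S.up (fun b => S.D b (S.D c u')) a * S.J v a c :=
      sum_congr rfl fun a _ => by rw [S.dd_eq_up]
    rw [h1, S.up_pair]
    refine sum_congr rfl fun a _ => ?_
    rw [S.N_eq]
  have cross2 : ∑ a, ∑ c, S.J v c a * S.dd c (S.D a u') = ∑ a, ∑ c, S.D a (S.D c u') * S.N v a c := by
    rw [← cross, sum_comm]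
    refine sum_congr rfl fun a _ => sum_congr rfl fun c _ => ?_
    ring
  have e5 : ∑ a, ∑ c, (S.dd a (S.D c u') - S.J v c a) * (S.dd c (S.D a u') - S.J v a c) =
      (∑ a, ∑ c, S.dd c (S.D a u') * S.dd a (S.D c u')) - (∑ a, ∑ c, S.dd a (S.D c u') * S.J v a c)
        - (∑ a, ∑ c, S.J v c a * S.dd c (S.D a u')) + ∑ a, ∑ c, S.J v a c * S.J v c a := by
    rw [← sum_sub_distrib, ← sum_sub_distrib, ← sum_add_distrib]
    refine sum_congr rfl fun a _ => ?_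
    rw [← sum_sub_distrib, ← sum_sub_distrib, ← sum_add_distrib]
    refine sum_congr rfl fun c _ => ?_
    ring
  rw [e5, cross, cross2]
  ring

/-- KEY IDENTITY, `h = L v + v + u'`:
`E (L u')^2 + 2 sum E (D_c h * L d_c v) = T1 u' + T2 v + E Q3' + E (Q2 + Q1)`. -/
theorem key (v u' : A) (hv : v ∈ S.I) (hu : u' ∈ S.I) : S.E (S.Lo u' * S.Lo u')
    + 2 * ∑ c, S.E (S.D c (S.Lo v + v + u') * S.Lo (S.dd c v)) =
    S.T1' u' + S.T2 v + S.E (S.Q3' v u') + S.E (S.Q2 v + S.Q1 v) := by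
  have h1 := S.E_Lo_sq u' hu
  have h2 := S.T2_eq v hv
  have h3 := S.X_eq v hv
  have h4 := congrArg S.E (S.pw v)
  have h5 := congrArg S.E (S.Q3'_eq v u')
  have hX : S.X v = -∑ c, S.E (S.D c (S.u v) * S.Lo (S.dd c v)) := by
    unfold X s
    exact S.E_DD_N v (S.u v) hv
  have hX2 : S.E (∑ a, ∑ c, S.D a (S.D c u') * S.N v a c) =
      -∑ c, S.E (S.D c u' * S.Lo (S.dd c v)) := by
    rw [← S.E_DD_N v u' hv]
    simp only [map_sum]
  have hh : ∑ c, S.E (S.D c (S.Lo v + v + u') * S.Lo (S.dd c v)) =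
      ∑ c, S.E (S.D c u' * S.Lo (S.dd c v)) - ∑ c, S.E (S.D c (S.u v) * S.Lo (S.dd c v)) := by
    rw [← sum_sub_distrib]
    refine sum_congr rfl fun c _ => ?_
    rw [← map_sub]
    congr 1
    rw [S.u_eq, map_add, map_neg]
    ring
  rw [map_add] at h4
  rw [map_add, map_sub] at h5
  have h6 : S.E (2 * ∑ a, ∑ c, S.D a (S.D c u') * S.N v a c) =
      2 * -∑ c, S.E (S.D c u' * S.Lo (S.dd c v)) := by
    rw [two_mul, map_add, hX2]
    ring
  rw [h6] at h5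
  have h7 : S.E (∑ a, ∑ b, ∑ c, S.dd b (S.J v a c) * S.dd a (S.K v c b)) =
      ∑ a, ∑ b, ∑ c, S.E (S.dd b (S.J v a c) * S.dd a (S.K v c b)) := by simp only [map_sum]
  have h8 : S.E (∑ a, ∑ b, ∑ c, S.D a (S.J v b c) * S.D c (S.N v a b)) =
      ∑ a, ∑ b, ∑ c, S.E (S.D a (S.J v b c) * S.D c (S.N v a b)) := by simp only [map_sum]
  have h9 : S.E (∑ b, ∑ c, S.J v b c * S.J v c b) = ∑ b, ∑ c, S.E (S.J v b c * S.J v c b) := by
    simp only [map_sum]
  have h10 : S.E (∑ a, ∑ b, S.dd b (S.D a u') * S.dd a (S.D b u')) =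
      ∑ a, ∑ b, S.E (S.dd b (S.D a u') * S.dd a (S.D b u')) := by simp only [map_sum]
  rw [h7, h8] at h4
  rw [h9, h10] at h5
  rw [hh]
  unfold T2
  linarith

end SysI

end Vale.Agent.P227.M.ID
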