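import Mathlib

/-!
P227, block ID: pointwise tensor algebra of the key identity (helper852, note 10725, (4) and (5)).
All indices run over a finite type.  `tau` symmetric, `ti` its inverse, `p` a symmetric 3-tensor
(third derivatives of `phi`), `X c j = X^c_j`, `Y c j k = X^c_{jk}`.
-/

namespace Vale.Agent.P227.M.ID

open Finset
open scoped MatrixOrder Matrix.Norms.L2Operator

variable {I : Type*} [Fintype I]

/-- `T_{i|jk} = tau_ic X^c_jk` -/
def tT (tau : I → I → ℝ) (Y : I → I → I → ℝ) (i j k : I) : ℝ := ∑ c, tau i c * Y c j k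

/-- `Q_{ik|j} = p_ikc X^c_j` -/
def tQ (p : I → I → I → ℝ) (X : I → I → ℝ) (i k j : I) : ℝ := ∑ c, p i k c * X c j

/-- `<tau Y, V> = ti^{bb'} ti^{cc'} Y^i_{bc} V_{ib'c'}` -/
def tJ (ti : I → I → ℝ) (Y V : I → I → I → ℝ) : ℝ :=
  ∑ i, ∑ b, ∑ b', ∑ c, ∑ c', ti b b' * ti c c' * (Y i b c * V i b' c')

theorem tJ_add (ti : I → I → ℝ) (Y V V' : I → I → I → ℝ) :
    tJ ti Y (fun i b c => V i b c + V' i b c) = tJ ti Y V + tJ ti Y V' := by
  simp only [tJ, mul_add, Finset.sum_add_distrib]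

theorem tJ_sub (ti : I → I → ℝ) (Y V V' : I → I → I → ℝ) :
    tJ ti Y (fun i b c => V i b c - V' i b c) = tJ ti Y V - tJ ti Y V' := by
  simp only [tJ, mul_sub, Finset.sum_sub_distrib]

/-- `W = X^b_ca X^e_b ti^{c al} ti^{a be} p_{al be e}` -/
def tW (ti : I → I → ℝ) (p : I → I → I → ℝ) (X : I → I → ℝ) (Y : I → I → I → ℝ) : ℝ :=
  ∑ b, ∑ c, ∑ a, ∑ e, ∑ al, ∑ be, Y b c a * X e b * ti c al * ti a be * p al be e

/-- `W2 = X^e_j X^c_eb ti^{b al} ti^{j be} p_{al be c}` -/
def tW2 (ti : I → I → ℝ) (p : I → I → I → ℝ) (X : I → I → ℝ) (Y : I → I → I → ℝ) : ℝ :=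
  ∑ e, ∑ j, ∑ c, ∑ b, ∑ al, ∑ be, X e j * Y c e b * ti b al * ti j be * p al be c

/-- `t2 = ti^{ca} X^e_ab X^b_ec` -/
def tt2 (ti : I → I → ℝ) (Y : I → I → I → ℝ) : ℝ :=
  ∑ c, ∑ a, ∑ e, ∑ b, ti c a * Y e a b * Y b e c

/-- `|T|^2 = tau_bb' ti^{aa'} ti^{cc'} X^b_ac X^b'_a'c'` -/
def tT2 (tau ti : I → I → ℝ) (Y : I → I → I → ℝ) : ℝ :=
  ∑ b, ∑ b', ∑ a, ∑ a', ∑ c, ∑ c', tau b b' * ti a a' * ti c c' * Y b a c * Y b' a' c'

/-! ### expansions of the contractions -/

theorem tW_eq (ti : I → I → ℝ) (p : I → I → I → ℝ) (X : I → I → ℝ) (Y : I → I → I → ℝ) :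
    tJ ti Y (fun c e i => tQ p X e i c) = tW ti p X Y := by
  unfold tJ tW tQ
  refine Finset.sum_congr rfl fun b _ => Finset.sum_congr rfl fun c _ => ?_
  -- `∑ b', ∑ c, ∑ c', ...` against `∑ a, ∑ e, ∑ al, ∑ be`
  simp only [Finset.mul_sum]
  calc ∑ al, ∑ a, ∑ be, ∑ e, ti c al * ti a be * (Y b c a * (p al be e * X e b))
      = ∑ a, ∑ al, ∑ be, ∑ e, ti c al * ti a be * (Y b c a * (p al be e * X e b)) :=
        Finset.sum_comm
    _ = ∑ a, ∑ al, ∑ e, ∑ be, ti c al * ti a be * (Y b c a * (p al be e * X e b)) :=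
        Finset.sum_congr rfl fun a _ => Finset.sum_congr rfl fun al _ => Finset.sum_comm
    _ = ∑ a, ∑ e, ∑ al, ∑ be, ti c al * ti a be * (Y b c a * (p al be e * X e b)) :=
        Finset.sum_congr rfl fun a _ => Finset.sum_comm
    _ = _ := by
        refine Finset.sum_congr rfl fun a _ => Finset.sum_congr rfl fun e _ =>
          Finset.sum_congr rfl fun al _ => Finset.sum_congr rfl fun be _ => ?_
        ring

theorem tT2_eq (tau ti : I → I → ℝ) (Y : I → I → I → ℝ) :
    tJ ti Y (tT tau Y) = tT2 tau ti Y := by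
  unfold tJ tT2 tT
  refine Finset.sum_congr rfl fun b _ => ?_
  simp only [Finset.mul_sum]
  calc ∑ a, ∑ a', ∑ c, ∑ c', ∑ b', ti a a' * ti c c' * (Y b a c * (tau b b' * Y b' a' c'))
      = ∑ a, ∑ a', ∑ c, ∑ b', ∑ c', ti a a' * ti c c' * (Y b a c * (tau b b' * Y b' a' c')) :=
        Finset.sum_congr rfl fun a _ => Finset.sum_congr rfl fun a' _ =>
          Finset.sum_congr rfl fun c _ => Finset.sum_comm
    _ = ∑ a, ∑ a', ∑ b', ∑ c, ∑ c', ti a a' * ti c c' * (Y b a c * (tau b b' * Y b' a' c')) :=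
        Finset.sum_congr rfl fun a _ => Finset.sum_congr rfl fun a' _ => Finset.sum_comm
    _ = ∑ a, ∑ b', ∑ a', ∑ c, ∑ c', ti a a' * ti c c' * (Y b a c * (tau b b' * Y b' a' c')) :=
        Finset.sum_congr rfl fun a _ => Finset.sum_comm
    _ = ∑ b', ∑ a, ∑ a', ∑ c, ∑ c', ti a a' * ti c c' * (Y b a c * (tau b b' * Y b' a' c')) :=
        Finset.sum_comm
    _ = _ := by
        refine Finset.sum_congr rfl fun b' _ => Finset.sum_congr rfl fun a _ =>
          Finset.sum_congr rfl fun a' _ => Finset.sum_congr rfl fun c _ =>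
          Finset.sum_congr rfl fun c' _ => ?_
        ring

variable [DecidableEq I]

/-- `ti tau = 1` contracted with a tensor -/
theorem tcontract {tau ti : I → I → ℝ} (hinv : ∀ a b, ∑ c, ti a c * tau c b = if a = b then 1 else 0)
    (Y : I → I → I → ℝ) (a j k : I) : ∑ b, ti a b * tT tau Y b j k = Y a j k := by
  unfold tT
  simp only [Finset.mul_sum]
  rw [Finset.sum_comm]
  calc ∑ c, ∑ b, ti a b * (tau b c * Y c j k) = ∑ c, (∑ b, ti a b * tau b c) * Y c j k := by
        refine Finset.sum_congr rfl fun c _ => ?_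
        rw [Finset.sum_mul]
        exact Finset.sum_congr rfl fun b _ => by ring
    _ = Y a j k := by
        simp [hinv]

theorem tt2_eq {tau ti : I → I → ℝ} (hti : ∀ a b, ti a b = ti b a)
    (hinv : ∀ a b, ∑ c, ti a c * tau c b = if a = b then 1 else 0)
    (Y : I → I → I → ℝ) (hY : ∀ c j k, Y c j k = Y c k j) :
    tJ ti Y (fun c e i => tT tau Y e c i) = tt2 ti Y := by
  unfold tJ tt2
  calc ∑ i, ∑ b, ∑ b', ∑ c, ∑ c', ti b b' * ti c c' * (Y i b c * tT tau Y b' i c')
      = ∑ i, ∑ b, ∑ c, ∑ b', ∑ c', ti b b' * ti c c' * (Y i b c * tT tau Y b' i c') :=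
        Finset.sum_congr rfl fun i _ => Finset.sum_congr rfl fun b _ => Finset.sum_comm
    _ = ∑ i, ∑ b, ∑ c, ∑ c', ∑ b', ti b b' * ti c c' * (Y i b c * tT tau Y b' i c') :=
        Finset.sum_congr rfl fun i _ => Finset.sum_congr rfl fun b _ =>
          Finset.sum_congr rfl fun c _ => Finset.sum_comm
    _ = ∑ i, ∑ b, ∑ c, ∑ c', ti c c' * Y i b c * Y b i c' := by
        refine Finset.sum_congr rfl fun i _ => Finset.sum_congr rfl fun b _ =>
          Finset.sum_congr rfl fun c _ => Finset.sum_congr rfl fun c' _ => ?_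
        rw [← tcontract hinv Y b i c', Finset.mul_sum]
        exact Finset.sum_congr rfl fun b' _ => by ring
    _ = ∑ i, ∑ c, ∑ b, ∑ c', ti c c' * Y i b c * Y b i c' :=
        Finset.sum_congr rfl fun i _ => Finset.sum_comm
    _ = ∑ i, ∑ c, ∑ c', ∑ b, ti c c' * Y i b c * Y b i c' :=
        Finset.sum_congr rfl fun i _ => Finset.sum_congr rfl fun c _ => Finset.sum_comm
    _ = ∑ c, ∑ i, ∑ c', ∑ b, ti c c' * Y i b c * Y b i c' := Finset.sum_comm
    _ = ∑ c, ∑ c', ∑ i, ∑ b, ti c c' * Y i b c * Y b i c' :=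
        Finset.sum_congr rfl fun c _ => Finset.sum_comm
    _ = ∑ c', ∑ c, ∑ i, ∑ b, ti c c' * Y i b c * Y b i c' := Finset.sum_comm
    _ = _ := by
        refine Finset.sum_congr rfl fun c' _ => Finset.sum_congr rfl fun c _ =>
          Finset.sum_congr rfl fun i _ => Finset.sum_congr rfl fun b _ => ?_
        rw [hti c c', hY i b c]

/-- `X^e_j ti^{j b}` is symmetric if `tau X` is -/
theorem tN_symm {tau ti : I → I → ℝ} (hti : ∀ a b, ti a b = ti b a)
    (htau : ∀ a b, tau a b = tau b a)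
    (hinv : ∀ a b, ∑ c, ti a c * tau c b = if a = b then 1 else 0)
    {X : I → I → ℝ} (hK : ∀ a b, ∑ c, tau a c * X c b = ∑ c, tau b c * X c a) (e b : I) :
    ∑ j, X e j * ti j b = ∑ j, X b j * ti j e := by
  have h1 : ∀ e b, ∑ j, X e j * ti j b = ∑ a, ∑ j, ti e a * (∑ c, tau a c * X c j) * ti j b := by
    intro e b
    rw [Finset.sum_comm]
    refine Finset.sum_congr rfl fun j _ => ?_
    rw [← Finset.sum_mul]
    congr 1
    have h2 : ∀ a, ti e a * (∑ c, tau a c * X c j) = ∑ c, ti e a * tau a c * X c j := by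
      intro a
      rw [Finset.mul_sum]
      exact Finset.sum_congr rfl fun c _ => by ring
    simp only [h2]
    rw [Finset.sum_comm]
    simp only [← Finset.sum_mul, hinv]
    simp
  rw [h1 e b, h1 b e, Finset.sum_comm]
  refine Finset.sum_congr rfl fun j _ => Finset.sum_congr rfl fun a _ => ?_
  rw [hK a j, hti e a, hti j b]
  ring

theorem tW2_eq {tau ti : I → I → ℝ} (hti : ∀ a b, ti a b = ti b a)
    (htau : ∀ a b, tau a b = tau b a)
    (hinv : ∀ a b, ∑ c, ti a c * tau c b = if a = b then 1 else 0)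
    {p : I → I → I → ℝ} (hp1 : ∀ a b c, p a b c = p b a c) (hp2 : ∀ a b c, p a b c = p a c b)
    {X : I → I → ℝ} (hK : ∀ a b, ∑ c, tau a c * X c b = ∑ c, tau b c * X c a)
    (Y : I → I → I → ℝ) :
    tJ ti Y (fun c e i => tQ p X c i e) = tW2 ti p X Y := by
  have hN := tN_symm hti htau hinv hK
  unfold tJ tW2 tQ
  symm
  calc ∑ e, ∑ j, ∑ c, ∑ b, ∑ al, ∑ be, X e j * Y c e b * ti b al * ti j be * p al be c
      = ∑ e, ∑ c, ∑ j, ∑ b, ∑ al, ∑ be, X e j * Y c e b * ti b al * ti j be * p al be c :=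
        Finset.sum_congr rfl fun e _ => Finset.sum_comm
    _ = ∑ c, ∑ e, ∑ j, ∑ b, ∑ al, ∑ be, X e j * Y c e b * ti b al * ti j be * p al be c :=
        Finset.sum_comm
    _ = ∑ c, ∑ e, ∑ b, ∑ j, ∑ al, ∑ be, X e j * Y c e b * ti b al * ti j be * p al be c :=
        Finset.sum_congr rfl fun c _ => Finset.sum_congr rfl fun e _ => Finset.sum_comm
    _ = ∑ c, ∑ e, ∑ b, ∑ al, ∑ j, ∑ be, X e j * Y c e b * ti b al * ti j be * p al be c :=
        Finset.sum_congr rfl fun c _ => Finset.sum_congr rfl fun e _ =>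
          Finset.sum_congr rfl fun b _ => Finset.sum_comm
    _ = ∑ c, ∑ e, ∑ b, ∑ al, ∑ be, ∑ j, X e j * Y c e b * ti b al * ti j be * p al be c :=
        Finset.sum_congr rfl fun c _ => Finset.sum_congr rfl fun e _ =>
          Finset.sum_congr rfl fun b _ => Finset.sum_congr rfl fun al _ => Finset.sum_comm
    _ = ∑ c, ∑ e, ∑ b, ∑ al, ∑ be, ∑ j, X be j * Y c e b * ti b al * ti j e * p al be c := by
        refine Finset.sum_congr rfl fun c _ => Finset.sum_congr rfl fun e _ =>
          Finset.sum_congr rfl fun b _ => Finset.sum_congr rfl fun al _ =>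
          Finset.sum_congr rfl fun be _ => ?_
        have h1 : ∑ j, X e j * Y c e b * ti b al * ti j be * p al be c =
            (∑ j, X e j * ti j be) * (Y c e b * ti b al * p al be c) := by
          rw [Finset.sum_mul]
          exact Finset.sum_congr rfl fun j _ => by ring
        have h2 : ∑ j, X be j * Y c e b * ti b al * ti j e * p al be c =
            (∑ j, X be j * ti j e) * (Y c e b * ti b al * p al be c) := by
          rw [Finset.sum_mul]
          exact Finset.sum_congr rfl fun j _ => by ring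
        rw [h1, h2, hN e be]
    _ = ∑ c, ∑ e, ∑ b, ∑ al, ∑ j, ∑ be, X be j * Y c e b * ti b al * ti j e * p al be c :=
        Finset.sum_congr rfl fun c _ => Finset.sum_congr rfl fun e _ =>
          Finset.sum_congr rfl fun b _ => Finset.sum_congr rfl fun al _ => Finset.sum_comm
    _ = ∑ c, ∑ e, ∑ b, ∑ j, ∑ al, ∑ be, X be j * Y c e b * ti b al * ti j e * p al be c :=
        Finset.sum_congr rfl fun c _ => Finset.sum_congr rfl fun e _ =>
          Finset.sum_congr rfl fun b _ => Finset.sum_comm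
    _ = ∑ c, ∑ e, ∑ j, ∑ b, ∑ al, ∑ be, X be j * Y c e b * ti b al * ti j e * p al be c :=
        Finset.sum_congr rfl fun c _ => Finset.sum_congr rfl fun e _ => Finset.sum_comm
    _ = _ := by
        refine Finset.sum_congr rfl fun c _ => Finset.sum_congr rfl fun e _ =>
          Finset.sum_congr rfl fun j _ => Finset.sum_congr rfl fun b _ =>
          Finset.sum_congr rfl fun al _ => ?_
        rw [Finset.mul_sum, Finset.mul_sum]
        refine Finset.sum_congr rfl fun be _ => ?_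
        rw [hti j e, show p al be c = p c al be by rw [hp2 al be c, hp1 al c be]]
        ring

/-- (4): `W2 = W + t2 - |T|^2` -/
theorem tW2_identity {tau ti : I → I → ℝ} (hti : ∀ a b, ti a b = ti b a)
    (htau : ∀ a b, tau a b = tau b a)
    (hinv : ∀ a b, ∑ c, ti a c * tau c b = if a = b then 1 else 0)
    {p : I → I → I → ℝ} (hp1 : ∀ a b c, p a b c = p b a c) (hp2 : ∀ a b c, p a b c = p a c b)
    {X : I → I → ℝ} (hK : ∀ a b, ∑ c, tau a c * X c b = ∑ c, tau b c * X c a)
    {Y : I → I → I → ℝ} (hY : ∀ c j k, Y c j k = Y c k j)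
    (hS : ∀ i k j, (∑ c, (p i k c * X c j + tau i c * Y c j k)) =
      ∑ c, (p j k c * X c i + tau j c * Y c i k)) :
    tW2 ti p X Y = tW ti p X Y + tt2 ti Y - tT2 tau ti Y := by
  rw [← tW2_eq hti htau hinv hp1 hp2 hK, ← tW_eq, ← tt2_eq hti hinv Y hY, ← tT2_eq, ← tJ_add,
    ← tJ_sub]
  congr 1
  funext c e i
  have h := hS c i e
  simp only [Finset.sum_add_distrib] at h
  change tQ p X c i e + tT tau Y c e i = tQ p X e i c + tT tau Y e c i at h
  linarith

/-! ### positivity -/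

theorem t_swap2 {A B C : Type*} [Fintype A] [Fintype B] [Fintype C] (G : A → B → C → ℝ) :
    ∑ m, ∑ k, ∑ a, G m k a = ∑ a, ∑ m, ∑ k, G m k a := by
  calc ∑ m, ∑ k, ∑ a, G m k a = ∑ m, ∑ a, ∑ k, G m k a :=
        Finset.sum_congr rfl fun m _ => Finset.sum_comm
    _ = _ := Finset.sum_comm

/-- if `ti = A^T A` then `ti^{aa'} ti^{cc'} S_ac S_a'c' >= 0` -/
theorem t_pos_two {M : Type*} [Fintype M] {ti : I → I → ℝ} {A : M → I → ℝ}
    (hA : ∀ a b, ti a b = ∑ m, A m a * A m b) (S : I → I → ℝ) :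
    0 ≤ ∑ a, ∑ a', ∑ c, ∑ c', ti a a' * ti c c' * (S a c * S a' c') := by
  have h : ∑ a, ∑ a', ∑ c, ∑ c', ti a a' * ti c c' * (S a c * S a' c') =
      ∑ m, ∑ k, (∑ a, ∑ c, A m a * A k c * S a c) ^ 2 := by
    symm
    calc ∑ m, ∑ k, (∑ a, ∑ c, A m a * A k c * S a c) ^ 2
        = ∑ m, ∑ k, ∑ a, ∑ a', ∑ c, ∑ c', (A m a * A k c * S a c) * (A m a' * A k c' * S a' c') := by
          refine Finset.sum_congr rfl fun m _ => Finset.sum_congr rfl fun k _ => ?_
          rw [sq, Finset.sum_mul_sum]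
          refine Finset.sum_congr rfl fun a _ => Finset.sum_congr rfl fun a' _ => ?_
          rw [Finset.sum_mul_sum]
      _ = ∑ a, ∑ a', ∑ c, ∑ c', ∑ m, ∑ k, (A m a * A k c * S a c) * (A m a' * A k c' * S a' c') := by
          rw [t_swap2]
          refine Finset.sum_congr rfl fun a _ => ?_
          rw [t_swap2]
          refine Finset.sum_congr rfl fun a' _ => ?_
          rw [t_swap2]
          refine Finset.sum_congr rfl fun c _ => ?_
          rw [t_swap2]
      _ = _ := by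
          refine Finset.sum_congr rfl fun a _ => Finset.sum_congr rfl fun a' _ =>
            Finset.sum_congr rfl fun c _ => Finset.sum_congr rfl fun c' _ => ?_
          rw [hA a a', hA c c', Finset.sum_mul_sum, Finset.sum_mul]
          refine Finset.sum_congr rfl fun m _ => ?_
          rw [Finset.sum_mul]
          exact Finset.sum_congr rfl fun k _ => by ring
  rw [h]
  positivity

/-- the full inner product of two 3-tensors -/
def tP (ti : I → I → ℝ) (U V : I → I → I → ℝ) : ℝ :=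
  ∑ c, ∑ c', ∑ a, ∑ a', ∑ b, ∑ b', ti c c' * (ti a a' * ti b b' * (U a b c * V a' b' c'))

theorem tP_nonneg {M : Type*} [Fintype M] {ti : I → I → ℝ} {A : M → I → ℝ}
    (hA : ∀ a b, ti a b = ∑ m, A m a * A m b) (U : I → I → I → ℝ) : 0 ≤ tP ti U U := by
  have h : tP ti U U = ∑ k, ∑ a, ∑ a', ∑ b, ∑ b', ti a a' * ti b b' *
      ((∑ c, A k c * U a b c) * (∑ c, A k c * U a' b' c)) := by
    symm
    calc ∑ k, ∑ a, ∑ a', ∑ b, ∑ b', ti a a' * ti b b' *
          ((∑ c, A k c * U a b c) * (∑ c, A k c * U a' b' c))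
        = ∑ k, ∑ a, ∑ a', ∑ b, ∑ b', ∑ c, ∑ c', ti a a' * ti b b' *
          ((A k c * U a b c) * (A k c' * U a' b' c')) := by
          refine Finset.sum_congr rfl fun k _ => Finset.sum_congr rfl fun a _ =>
            Finset.sum_congr rfl fun a' _ => Finset.sum_congr rfl fun b _ =>
            Finset.sum_congr rfl fun b' _ => ?_
          rw [Finset.sum_mul_sum, Finset.mul_sum]
          refine Finset.sum_congr rfl fun c _ => ?_
          rw [Finset.mul_sum]
      _ = ∑ k, ∑ c, ∑ c', ∑ a, ∑ a', ∑ b, ∑ b', ti a a' * ti b b' *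
          ((A k c * U a b c) * (A k c' * U a' b' c')) := by
          refine Finset.sum_congr rfl fun k _ => ?_
          symm
          rw [t_swap2]
          refine Finset.sum_congr rfl fun a _ => ?_
          rw [t_swap2]
          refine Finset.sum_congr rfl fun a' _ => ?_
          rw [t_swap2]
          refine Finset.sum_congr rfl fun b _ => ?_
          rw [t_swap2]
      _ = ∑ c, ∑ c', ∑ k, ∑ a, ∑ a', ∑ b, ∑ b', ti a a' * ti b b' *
          ((A k c * U a b c) * (A k c' * U a' b' c')) := by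
          symm
          rw [t_swap2]
      _ = ∑ c, ∑ c', ∑ a, ∑ a', ∑ b, ∑ b', ∑ k, ti a a' * ti b b' *
          ((A k c * U a b c) * (A k c' * U a' b' c')) := by
          refine Finset.sum_congr rfl fun c _ => Finset.sum_congr rfl fun c' _ => ?_
          rw [Finset.sum_comm]
          refine Finset.sum_congr rfl fun a _ => ?_
          rw [Finset.sum_comm]
          refine Finset.sum_congr rfl fun a' _ => ?_
          rw [Finset.sum_comm]
          refine Finset.sum_congr rfl fun b _ => ?_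
          rw [Finset.sum_comm]
      _ = _ := by
          refine Finset.sum_congr rfl fun c _ => Finset.sum_congr rfl fun c' _ =>
            Finset.sum_congr rfl fun a _ => Finset.sum_congr rfl fun a' _ =>
            Finset.sum_congr rfl fun b _ => Finset.sum_congr rfl fun b' _ => ?_
          rw [hA c c', Finset.sum_mul]
          exact Finset.sum_congr rfl fun k _ => by ring
  rw [h]
  exact Finset.sum_nonneg fun k _ => t_pos_two hA fun a b => ∑ c, A k c * U a b c

theorem tP_add_left (ti : I → I → ℝ) (U U' V : I → I → I → ℝ) :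
    tP ti (fun a b c => U a b c + U' a b c) V = tP ti U V + tP ti U' V := by
  simp only [tP, add_mul, mul_add, Finset.sum_add_distrib]

theorem tP_add_right (ti : I → I → ℝ) (U V V' : I → I → I → ℝ) :
    tP ti U (fun a b c => V a b c + V' a b c) = tP ti U V + tP ti U V' := by
  simp only [tP, mul_add, Finset.sum_add_distrib]

/-- exchange of the first two indices -/
theorem tP_swap (ti : I → I → ℝ) (U V : I → I → I → ℝ) :
    tP ti (fun a b c => U b a c) (fun a b c => V b a c) = tP ti U V := by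
  unfold tP
  refine Finset.sum_congr rfl fun c _ => Finset.sum_congr rfl fun c' _ => ?_
  calc ∑ a, ∑ a', ∑ b, ∑ b', ti c c' * (ti a a' * ti b b' * (U b a c * V b' a' c'))
      = ∑ b, ∑ a, ∑ a', ∑ b', ti c c' * (ti a a' * ti b b' * (U b a c * V b' a' c')) :=
        t_swap2 _
    _ = ∑ b, ∑ b', ∑ a, ∑ a', ti c c' * (ti a a' * ti b b' * (U b a c * V b' a' c')) :=
        Finset.sum_congr rfl fun b _ => t_swap2 _
    _ = _ := by
        refine Finset.sum_congr rfl fun b _ => Finset.sum_congr rfl fun b' _ =>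
          Finset.sum_congr rfl fun a _ => Finset.sum_congr rfl fun a' _ => ?_
        ring

/-- `tJ` is the inner product with `tau Y` -/
theorem tJ_eq_tP {tau ti : I → I → ℝ} (hti : ∀ a b, ti a b = ti b a)
    (hinv : ∀ a b, ∑ c, ti a c * tau c b = if a = b then 1 else 0)
    (Y V : I → I → I → ℝ) : tJ ti Y V = tP ti (tT tau Y) V := by
  unfold tP tJ
  symm
  calc ∑ c, ∑ c', ∑ a, ∑ i, ∑ b, ∑ b', ti c c' * (ti a i * ti b b' * (tT tau Y a b c * V i b' c'))
      = ∑ c, ∑ c', ∑ i, ∑ a, ∑ b, ∑ b', ti c c' *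
          (ti a i * ti b b' * (tT tau Y a b c * V i b' c')) :=
        Finset.sum_congr rfl fun c _ => Finset.sum_congr rfl fun c' _ => Finset.sum_comm
    _ = ∑ c, ∑ c', ∑ i, ∑ b, ∑ b', ∑ a, ti c c' *
          (ti a i * ti b b' * (tT tau Y a b c * V i b' c')) := by
        refine Finset.sum_congr rfl fun c _ => Finset.sum_congr rfl fun c' _ =>
          Finset.sum_congr rfl fun i _ => ?_
        symm
        rw [t_swap2]
    _ = ∑ c, ∑ c', ∑ i, ∑ b, ∑ b', ti b b' * ti c c' * (Y i b c * V i b' c') := by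
        refine Finset.sum_congr rfl fun c _ => Finset.sum_congr rfl fun c' _ =>
          Finset.sum_congr rfl fun i _ => Finset.sum_congr rfl fun b _ =>
          Finset.sum_congr rfl fun b' _ => ?_
        rw [← tcontract hinv Y i b c, Finset.sum_mul, Finset.mul_sum]
        refine Finset.sum_congr rfl fun a _ => ?_
        rw [hti a i]
        ring
    _ = ∑ i, ∑ c, ∑ c', ∑ b, ∑ b', ti b b' * ti c c' * (Y i b c * V i b' c') := t_swap2 _
    _ = ∑ i, ∑ b, ∑ c, ∑ c', ∑ b', ti b b' * ti c c' * (Y i b c * V i b' c') :=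
        Finset.sum_congr rfl fun i _ => t_swap2 _
    _ = _ := Finset.sum_congr rfl fun i _ => Finset.sum_congr rfl fun b _ => t_swap2 _

/-- (5): `|T|^2 + t2 >= 0` -/
theorem tT2_add_tt2_nonneg {M : Type*} [Fintype M] {tau ti : I → I → ℝ} {A : M → I → ℝ}
    (hA : ∀ a b, ti a b = ∑ m, A m a * A m b)
    (hinv : ∀ a b, ∑ c, ti a c * tau c b = if a = b then 1 else 0)
    {Y : I → I → I → ℝ} (hY : ∀ c j k, Y c j k = Y c k j) :
    0 ≤ tT2 tau ti Y + tt2 ti Y := by
  have hti : ∀ a b, ti a b = ti b a := by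
    intro a b
    rw [hA, hA]
    exact Finset.sum_congr rfl fun m _ => mul_comm _ _
  have h1 := tP_nonneg hA fun a b c => tT tau Y a b c + tT tau Y b a c
  rw [tP_add_left, tP_add_right, tP_add_right] at h1
  have h2 : tP ti (fun a b c => tT tau Y b a c) (fun a b c => tT tau Y b a c) =
      tP ti (fun a b c => tT tau Y a b c) (fun a b c => tT tau Y a b c) :=
    tP_swap ti (tT tau Y) (tT tau Y)
  have h3 : tP ti (fun a b c => tT tau Y b a c) (fun a b c => tT tau Y a b c) =
      tP ti (fun a b c => tT tau Y a b c) (fun a b c => tT tau Y b a c) :=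
    tP_swap ti (tT tau Y) (fun a b c => tT tau Y b a c)
  rw [← tT2_eq, ← tt2_eq hti hinv Y hY, tJ_eq_tP hti hinv, tJ_eq_tP hti hinv]
  rw [h2, h3] at h1
  change 0 ≤ tP ti (tT tau Y) (tT tau Y) + tP ti (tT tau Y) (fun a b c => tT tau Y b a c) +
    (tP ti (tT tau Y) (fun a b c => tT tau Y b a c) + tP ti (tT tau Y) (tT tau Y)) at h1
  linarith

/-- `tr (ti S)^2 >= 0` for symmetric `S` -/
theorem t_trace_sq_nonneg {M : Type*} [Fintype M] {ti : I → I → ℝ} {A : M → I → ℝ}
    (hA : ∀ a b, ti a b = ∑ m, A m a * A m b) {S : I → I → ℝ} (hS : ∀ a b, S a b = S b a) :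
    0 ≤ ∑ b, ∑ c, (∑ a, ti b a * S a c) * (∑ a, ti c a * S a b) := by
  have h := t_pos_two hA S
  have h2 : ∑ b, ∑ c, (∑ a, ti b a * S a c) * (∑ a, ti c a * S a b) =
      ∑ a, ∑ a', ∑ c, ∑ c', ti a a' * ti c c' * (S a c * S a' c') := by
    calc ∑ b, ∑ c, (∑ a, ti b a * S a c) * (∑ a, ti c a * S a b)
        = ∑ b, ∑ c, ∑ a', ∑ c', ti b a' * ti c c' * (S b c' * S a' c) := by
          refine Finset.sum_congr rfl fun b _ => Finset.sum_congr rfl fun c _ => ?_
          rw [Finset.sum_mul_sum]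
          refine Finset.sum_congr rfl fun a' _ => Finset.sum_congr rfl fun c' _ => ?_
          rw [hS c' b]
          ring
      _ = ∑ b, ∑ a', ∑ c, ∑ c', ti b a' * ti c c' * (S b c' * S a' c) :=
          Finset.sum_congr rfl fun b _ => Finset.sum_comm
      _ = ∑ b, ∑ a', ∑ c', ∑ c, ti b a' * ti c c' * (S b c' * S a' c) :=
          Finset.sum_congr rfl fun b _ => Finset.sum_congr rfl fun a' _ => Finset.sum_comm
      _ = _ := by
          refine Finset.sum_congr rfl fun b _ => Finset.sum_congr rfl fun a' _ =>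
            Finset.sum_congr rfl fun c' _ => Finset.sum_congr rfl fun c _ => ?_
          have h3 : ti c c' = ti c' c := by
            rw [hA, hA]
            exact Finset.sum_congr rfl fun m _ => mul_comm _ _
          rw [h3]
  rw [h2]
  exact h

/-! ### positive definite matrices -/

theorem t_matrix_inv {tau : Matrix I I ℝ} (h : tau.PosDef) (a b : I) :
    ∑ c, tau⁻¹ a c * tau c b = if a = b then 1 else 0 := by
  have h1 : tau⁻¹ * tau = 1 := Matrix.nonsing_inv_mul _ ((Matrix.isUnit_iff_isUnit_det _).1 h.isUnit)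
  have h2 := congrFun (congrFun h1 a) b
  rw [Matrix.mul_apply, Matrix.one_apply] at h2
  exact h2

theorem t_matrix_root {tau : Matrix I I ℝ} (h : tau.PosDef) :
    ∃ A : I → I → ℝ, ∀ a b, tau⁻¹ a b = ∑ m, A m a * A m b := by
  obtain ⟨B, hB⟩ := CStarAlgebra.nonneg_iff_eq_star_mul_self.1 h.inv.posSemidef.nonneg
  refine ⟨fun m a => B m a, fun a b => ?_⟩
  rw [hB, Matrix.mul_apply]
  exact Finset.sum_congr rfl fun m _ => by rw [Matrix.star_apply, star_trivial]

theorem t_matrix_symm {tau : Matrix I I ℝ} (h : tau.PosDef) (a b : I) : tau⁻¹ a b = tau⁻¹ b a := by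
  obtain ⟨A, hA⟩ := t_matrix_root h
  rw [hA, hA]
  exact Finset.sum_congr rfl fun m _ => mul_comm _ _

end Vale.Agent.P227.M.ID
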