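import Mathlib

/-!
P227, block ID, algebraic part 1: commuting derivations `D a`, a potential `phi`, its Hessian
`tau` with inverse `g`, the derivations `d a = sum_b g a b * D b`, the operator `L`, and an
expectation `E` with `E (D a G) = E (D a phi * G)`.
-/

namespace Vale.P227.ID

open Finset Matrix

structure Sys (ι : Type) [Fintype ι] [DecidableEq ι] (A : Type) [CommRing A] [Algebra ℝ A] where
  D : ι → Derivation ℝ A A
  comm : ∀ a b f, D a (D b f) = D b (D a f)
  phi : A
  g : Matrix ι ι A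
  hg : (Matrix.of fun a b => D a (D b phi)) * g = 1
  E : A →ₗ[ℝ] ℝ
  hE : ∀ a G, E (D a G) = E (D a phi * G)

namespace Sys

variable {ι : Type} [Fintype ι] [DecidableEq ι] {A : Type} [CommRing A] [Algebra ℝ A]
variable (S : Sys ι A)

def x (a : ι) : A := S.D a S.phi

def tau : Matrix ι ι A := Matrix.of fun a b => S.D a (S.D b S.phi)

/-- derivative in the `x` coordinates -/
def d (a : ι) (f : A) : A := ∑ b, S.g a b * S.D b f

/-- entrywise derivative of a matrix -/
def DM (c : ι) (M : Matrix ι ι A) : Matrix ι ι A := Matrix.of fun a b => S.D c (M a b)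

def L (f : A) : A := ∑ j, (S.D j (S.d j f) - S.x j * S.d j f)

def V (a : ι) : A := ∑ f, S.g a f * (S.x f + ∑ i, ∑ j, S.g i j * S.D f (S.tau i j))

lemma tau_apply (a b : ι) : S.tau a b = S.D a (S.D b S.phi) := rfl

lemma DM_apply (c : ι) (M : Matrix ι ι A) (a b : ι) : S.DM c M a b = S.D c (M a b) := rfl

lemma tau_g : S.tau * S.g = 1 := S.hg

lemma g_tau : S.g * S.tau = 1 := mul_eq_one_comm.mp S.tau_g

lemma tau_symm (a b : ι) : S.tau a b = S.tau b a := S.comm a b S.phi

lemma tau_T : S.tauᵀ = S.tau := by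
  ext a b; exact S.tau_symm b a

lemma g_T : S.gᵀ = S.g := by
  have h1 : S.gᵀ * S.tau = 1 := by
    have h := congrArg Matrix.transpose S.tau_g
    rw [Matrix.transpose_mul, S.tau_T, Matrix.transpose_one] at h
    exact h
  calc S.gᵀ = S.gᵀ * (S.tau * S.g) := by rw [S.tau_g, Matrix.mul_one]
    _ = (S.gᵀ * S.tau) * S.g := by rw [Matrix.mul_assoc]
    _ = S.g := by rw [h1, Matrix.one_mul]

lemma g_symm (a b : ι) : S.g a b = S.g b a := by
  have h := congrFun (congrFun S.g_T b) a
  simpa [Matrix.transpose_apply] using h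

lemma Dtau_symm (c a b : ι) : S.D c (S.tau a b) = S.D a (S.tau c b) := by
  simp only [tau_apply]
  exact S.comm c a _

lemma Dtau_symm2 (c a b : ι) : S.D c (S.tau a b) = S.D c (S.tau b a) := by
  rw [S.tau_symm a b]

lemma sum_tau_g (a b : ι) : ∑ c, S.tau a c * S.g c b = if a = b then 1 else 0 := by
  have h := congrFun (congrFun S.tau_g a) b
  simpa [Matrix.mul_apply, Matrix.one_apply] using h

lemma sum_g_tau (a b : ι) : ∑ c, S.g a c * S.tau c b = if a = b then 1 else 0 := by
  have h := congrFun (congrFun S.g_tau a) b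
  simpa [Matrix.mul_apply, Matrix.one_apply] using h

lemma D_sum {κ : Type} (s : Finset κ) (a : ι) (f : κ → A) :
    S.D a (∑ i ∈ s, f i) = ∑ i ∈ s, S.D a (f i) := map_sum _ _ _

lemma D_mul (a : ι) (f h : A) : S.D a (f * h) = S.D a f * h + f * S.D a h := by
  rw [Derivation.leibniz]
  simp only [smul_eq_mul]
  ring

lemma d_add (a : ι) (f h : A) : S.d a (f + h) = S.d a f + S.d a h := by
  simp only [d, map_add, mul_add, Finset.sum_add_distrib]

lemma d_sub (a : ι) (f h : A) : S.d a (f - h) = S.d a f - S.d a h := by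
  simp only [d, map_sub, mul_sub, Finset.sum_sub_distrib]

lemma d_neg (a : ι) (f : A) : S.d a (-f) = - S.d a f := by
  simp only [d, map_neg, mul_neg, Finset.sum_neg_distrib]

lemma d_sum {κ : Type} (s : Finset κ) (a : ι) (f : κ → A) :
    S.d a (∑ i ∈ s, f i) = ∑ i ∈ s, S.d a (f i) := by
  simp only [d, D_sum, Finset.mul_sum]
  rw [Finset.sum_comm]

lemma d_mul (a : ι) (f h : A) : S.d a (f * h) = S.d a f * h + f * S.d a h := by
  simp only [d, D_mul, mul_add, Finset.sum_add_distrib, Finset.sum_mul, Finset.mul_sum]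
  congr 1
  · exact Finset.sum_congr rfl fun b _ => by ring
  · exact Finset.sum_congr rfl fun b _ => by ring

lemma d_one (a : ι) : S.d a 1 = 0 := by
  simp [d]

/-- `D a = sum_b tau a b * d b` -/
lemma D_eq (a : ι) (f : A) : S.D a f = ∑ b, S.tau a b * S.d b f := by
  simp only [d, Finset.mul_sum]
  rw [Finset.sum_comm]
  have : ∀ c, ∑ b, S.tau a b * (S.g b c * S.D c f) = (if a = c then 1 else 0) * S.D c f := by
    intro c
    rw [← S.sum_tau_g a c, Finset.sum_mul]
    exact Finset.sum_congr rfl fun b _ => by ring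
  simp only [this]
  simp

lemma d_x (a b : ι) : S.d a (S.x b) = if a = b then 1 else 0 := by
  rw [← S.sum_g_tau a b]
  rfl

/-- derivative of the inverse matrix -/
lemma D_g (c a b : ι) :
    S.D c (S.g a b) = - ∑ p, ∑ q, S.g a p * S.D c (S.tau p q) * S.g q b := by
  have h1 : ∀ p, ∑ q, (S.D c (S.tau p q) * S.g q b + S.tau p q * S.D c (S.g q b)) = 0 := by
    intro p
    have h := congrArg (S.D c) (S.sum_tau_g p b)
    rw [D_sum] at h
    simp only [D_mul] at h
    rw [h]
    split_ifs <;> simp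
  have h2 : ∑ p, S.g a p * ∑ q, (S.D c (S.tau p q) * S.g q b + S.tau p q * S.D c (S.g q b)) = 0 := by
    simp only [h1, mul_zero, Finset.sum_const_zero]
  have h3 : ∑ p, S.g a p * ∑ q, S.tau p q * S.D c (S.g q b) = S.D c (S.g a b) := by
    simp only [Finset.mul_sum]
    rw [Finset.sum_comm]
    have : ∀ q, ∑ p, S.g a p * (S.tau p q * S.D c (S.g q b))
        = (if a = q then 1 else 0) * S.D c (S.g q b) := by
      intro q
      rw [← S.sum_g_tau a q, Finset.sum_mul]
      exact Finset.sum_congr rfl fun b _ => by ring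
    simp only [this]
    simp
  simp only [Finset.sum_add_distrib, mul_add, Finset.sum_add_distrib] at h2
  rw [h3] at h2
  have h4 : ∑ p, S.g a p * ∑ q, S.D c (S.tau p q) * S.g q b
      = ∑ p, ∑ q, S.g a p * S.D c (S.tau p q) * S.g q b := by
    refine Finset.sum_congr rfl fun p _ => ?_
    rw [Finset.mul_sum]
    exact Finset.sum_congr rfl fun b _ => by ring
  rw [h4] at h2
  linear_combination h2

/-- the `d a` commute -/
lemma d_comm (a b : ι) (f : A) : S.d a (S.d b f) = S.d b (S.d a f) := by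
  have key : ∀ a b, S.d a (S.d b f) = (- ∑ c, ∑ e, ∑ p, ∑ q,
      S.g a c * S.g b p * S.D c (S.tau p q) * S.g q e * S.D e f)
      + ∑ c, ∑ e, S.g a c * S.g b e * S.D c (S.D e f) := by
    intro a b
    simp only [d, D_sum, D_mul, D_g, Finset.sum_add_distrib, mul_add, Finset.mul_sum]
    congr 1
    · rw [← Finset.sum_neg_distrib]
      refine Finset.sum_congr rfl fun c _ => ?_
      rw [← Finset.sum_neg_distrib]
      refine Finset.sum_congr rfl fun e _ => ?_
      rw [neg_mul, mul_neg, Finset.sum_mul, Finset.mul_sum]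
      congr 1
      refine Finset.sum_congr rfl fun p _ => ?_
      rw [Finset.sum_mul, Finset.mul_sum]
      exact Finset.sum_congr rfl fun q _ => by ring
    · refine Finset.sum_congr rfl fun c _ => ?_
      exact Finset.sum_congr rfl fun q _ => by ring
  rw [key a b, key b a]
  congr 1
  · congr 1
    -- swap c and p
    have e1 : ∑ c, ∑ e, ∑ p, ∑ q,
        S.g b c * S.g a p * S.D c (S.tau p q) * S.g q e * S.D e f
        = ∑ c, ∑ p, ∑ e, ∑ q,
        S.g b c * S.g a p * S.D c (S.tau p q) * S.g q e * S.D e f :=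
      Finset.sum_congr rfl fun c _ => Finset.sum_comm
    have e2 : ∑ c, ∑ e, ∑ p, ∑ q,
        S.g a c * S.g b p * S.D c (S.tau p q) * S.g q e * S.D e f
        = ∑ c, ∑ p, ∑ e, ∑ q,
        S.g a c * S.g b p * S.D c (S.tau p q) * S.g q e * S.D e f :=
      Finset.sum_congr rfl fun c _ => Finset.sum_comm
    rw [e1, e2, Finset.sum_comm]
    refine Finset.sum_congr rfl fun p _ => Finset.sum_congr rfl fun c _ =>
      Finset.sum_congr rfl fun e _ => Finset.sum_congr rfl fun q _ => ?_
    rw [S.Dtau_symm c p q]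
    ring
  · rw [Finset.sum_comm]
    refine Finset.sum_congr rfl fun p _ => Finset.sum_congr rfl fun c _ => ?_
    rw [S.comm c p]
    ring

/-- `L` in the `x` coordinates -/
lemma L_x (f : A) : S.L f = ∑ i, ∑ j, S.tau i j * S.d i (S.d j f) - ∑ j, S.x j * S.d j f := by
  unfold L
  rw [Finset.sum_sub_distrib]
  congr 1
  rw [Finset.sum_comm]
  refine Finset.sum_congr rfl fun j _ => ?_
  rw [S.D_eq j]
  refine Finset.sum_congr rfl fun i _ => ?_
  rw [S.tau_symm]

/-- `L` in the `y` coordinates -/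
lemma L_y (f : A) : S.L f = ∑ i, ∑ j, S.g i j * S.D i (S.D j f) - ∑ b, S.V b * S.D b f := by
  unfold L
  have h1 : ∀ j, S.D j (S.d j f) - S.x j * S.d j f
      = ∑ b, S.g j b * S.D j (S.D b f)
        - ∑ b, (∑ p, ∑ q, S.g j p * S.D j (S.tau p q) * S.g q b) * S.D b f
        - ∑ b, S.g j b * S.x j * S.D b f := by
    intro j
    simp only [d, D_sum, D_mul, D_g, Finset.sum_add_distrib, Finset.mul_sum]
    have e1 : ∑ i, (-∑ p, ∑ q, S.g j p * S.D j (S.tau p q) * S.g q i) * S.D i f
        = - ∑ b, (∑ p, ∑ q, S.g j p * S.D j (S.tau p q) * S.g q b) * S.D b f := by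
      rw [← Finset.sum_neg_distrib]
      exact Finset.sum_congr rfl fun b _ => by ring
    have e2 : ∑ i, S.x j * (S.g j i * S.D i f) = ∑ b, S.g j b * S.x j * S.D b f :=
      Finset.sum_congr rfl fun b _ => by ring
    rw [e1, e2]
    ring
  rw [Finset.sum_congr rfl fun j _ => h1 j]
  rw [Finset.sum_sub_distrib, Finset.sum_sub_distrib]
  have h2 : ∑ b, S.V b * S.D b f
      = ∑ j, ∑ b, (∑ p, ∑ q, S.g j p * S.D j (S.tau p q) * S.g q b) * S.D b f
        + ∑ j, ∑ b, S.g j b * S.x j * S.D b f := by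
    rw [Finset.sum_comm (f := fun j b => (∑ p, ∑ q, S.g j p * S.D j (S.tau p q) * S.g q b) * S.D b f),
      Finset.sum_comm (f := fun j b => S.g j b * S.x j * S.D b f), ← Finset.sum_add_distrib]
    refine Finset.sum_congr rfl fun b _ => ?_
    unfold V
    rw [← Finset.sum_mul, ← Finset.sum_mul, ← add_mul]
    congr 1
    simp only [mul_add, Finset.sum_add_distrib]
    rw [add_comm]
    congr 1
    · -- sum_f g b f * sum_ij g i j D_f tau i j = sum_j sum_p sum_q g j p D_j tau p q g q b
      simp only [Finset.mul_sum]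
      -- LHS over f i j ; RHS over j p q with f = q, i = j, j = p
      rw [Finset.sum_comm]
      refine Finset.sum_congr rfl fun i _ => ?_
      rw [Finset.sum_comm]
      refine Finset.sum_congr rfl fun p _ => ?_
      refine Finset.sum_congr rfl fun q _ => ?_
      rw [S.g_symm b q, S.Dtau_symm q i p, S.tau_symm q p]
      ring
    · refine Finset.sum_congr rfl fun j _ => ?_
      rw [S.g_symm b j]
  rw [h2]
  ring

/-- commutation of `L` and `d a` -/
lemma L_d (a : ι) (f : A) :
    S.L (S.d a f) = S.d a (S.L f) - ∑ i, ∑ j, S.d a (S.tau i j) * S.d i (S.d j f) + S.d a f := by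
  rw [S.L_x (S.d a f), S.L_x f]
  simp only [d_sub, d_sum, d_mul, d_x, Finset.sum_add_distrib]
  have h1 : ∑ j, (if a = j then (1 : A) else 0) * S.d j f = S.d a f := by simp
  have h2 : ∑ i, ∑ j, S.tau i j * S.d i (S.d j (S.d a f))
      = ∑ i, ∑ j, S.tau i j * S.d a (S.d i (S.d j f)) := by
    refine Finset.sum_congr rfl fun i _ => Finset.sum_congr rfl fun j _ => ?_
    rw [S.d_comm j a f, S.d_comm i a]
  have h3 : ∑ j, S.x j * S.d j (S.d a f) = ∑ j, S.x j * S.d a (S.d j f) :=
    Finset.sum_congr rfl fun j _ => by rw [S.d_comm j a f]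
  rw [h1, h2, h3]
  ring

/-- integration by parts for `L` -/
lemma E_L (h f : A) : S.E (h * S.L f) = - S.E (∑ j, S.D j h * S.d j f) := by
  unfold L
  rw [Finset.mul_sum, map_sum, map_sum, ← Finset.sum_neg_distrib]
  refine Finset.sum_congr rfl fun j _ => ?_
  have h1 := S.hE j (h * S.d j f)
  rw [D_mul, map_add] at h1
  rw [mul_sub, map_sub]
  have h2 : S.D j S.phi * (h * S.d j f) = h * (S.x j * S.d j f) := by
    unfold x; ring
  rw [h2] at h1
  linarith

/-- integration by parts for `d a` -/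
lemma E_d (a : ι) (G : A) : S.E (S.d a G) = S.E (S.V a * G) := by
  have h1 : ∀ b, S.E (S.g a b * S.D b G)
      = S.E (S.g a b * S.x b * G) + S.E ((∑ p, ∑ q, S.g a p * S.D b (S.tau p q) * S.g q b) * G) := by
    intro b
    have h := S.hE b (S.g a b * G)
    rw [D_mul, D_g, map_add] at h
    have e1 : S.D b S.phi * (S.g a b * G) = S.g a b * S.x b * G := by unfold x; ring
    rw [e1, neg_mul, map_neg] at h
    linarith
  unfold d
  rw [map_sum, Finset.sum_congr rfl fun b _ => h1 b, Finset.sum_add_distrib, ← map_sum, ← map_sum,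
    ← map_add, ← Finset.sum_mul, ← Finset.sum_mul, ← add_mul]
  congr 2
  unfold V
  simp only [mul_add, Finset.sum_add_distrib]
  congr 1
  simp only [Finset.mul_sum]
  -- LHS sum b p q g a p D_b tau p q g q b ; RHS sum f i j  g a f g i j D_f tau i j (f = p, i = q, j = b)
  have e1 : ∑ b, ∑ p, ∑ q, S.g a p * S.D b (S.tau p q) * S.g q b
      = ∑ p, ∑ b, ∑ q, S.g a p * S.D b (S.tau p q) * S.g q b := Finset.sum_comm
  rw [e1]
  refine Finset.sum_congr rfl fun p _ => ?_
  rw [Finset.sum_comm]
  refine Finset.sum_congr rfl fun q _ => ?_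
  refine Finset.sum_congr rfl fun b _ => ?_
  rw [S.Dtau_symm b p q, S.tau_symm b q]
  ring

end Sys

end Vale.P227.ID
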