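import Vale.Agent.P227.M.ID.Alg1

/-!
P227, block ID, algebraic part 2: divergence formula, Bochner formula.
-/

namespace Vale.P227.ID

open Finset Matrix

namespace Sys

variable {ι : Type} [Fintype ι] [DecidableEq ι] {A : Type} [CommRing A] [Algebra ℝ A]
variable (S : Sys ι A)

/-- Hessian in the `x` coordinates -/
def N (F : A) : Matrix ι ι A := Matrix.of fun a b => S.d a (S.d b F)

/-- Hessian in the `y` coordinates -/
def Y (u : A) : Matrix ι ι A := Matrix.of fun a b => S.D a (S.D b u)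

/-- `H = D_x^2 V` -/
def H : Matrix ι ι A := Matrix.of fun a b => S.d a (S.V b)

lemma N_apply (F : A) (a b : ι) : S.N F a b = S.d a (S.d b F) := rfl

lemma Y_apply (F : A) (a b : ι) : S.Y F a b = S.D a (S.D b F) := rfl

lemma H_apply (a b : ι) : S.H a b = S.d a (S.V b) := rfl

lemma N_symm (F : A) (a b : ι) : S.N F a b = S.N F b a := S.d_comm a b F

lemma N_T (F : A) : (S.N F)ᵀ = S.N F := by
  ext a b; exact S.N_symm F b a

lemma Y_symm (F : A) (a b : ι) : S.Y F a b = S.Y F b a := S.comm a b F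

lemma Y_T (F : A) : (S.Y F)ᵀ = S.Y F := by
  ext a b; exact S.Y_symm F b a

/-- `U = N tau`, `U b c = D c (d b F)` -/
lemma U_apply (F : A) (b c : ι) : (S.N F * S.tau) b c = S.D c (S.d b F) := by
  rw [Matrix.mul_apply, S.D_eq c]
  refine Finset.sum_congr rfl fun e _ => ?_
  rw [S.N_symm F b e, S.N_apply, S.tau_symm c e]
  ring

/-- `K = tau N tau` -/
def K (F : A) : Matrix ι ι A := S.tau * S.N F * S.tau

lemma K_T (F : A) : (S.K F)ᵀ = S.K F := by
  unfold K
  rw [Matrix.transpose_mul, Matrix.transpose_mul, S.tau_T, S.N_T, Matrix.mul_assoc]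

lemma K_symm (F : A) (a b : ι) : S.K F a b = S.K F b a := by
  have h := congrFun (congrFun (S.K_T F) b) a
  simpa [Matrix.transpose_apply] using h

lemma K_apply (F : A) (a b : ι) : S.K F a b = ∑ e, S.tau a e * S.D b (S.d e F) := by
  unfold K
  rw [Matrix.mul_assoc, Matrix.mul_apply]
  exact Finset.sum_congr rfl fun e _ => by rw [S.U_apply]

lemma K_apply2 (F : A) (a b : ι) : S.K F a b = ∑ e, S.tau b e * S.D a (S.d e F) := by
  rw [S.K_symm, S.K_apply]

lemma g_K (F : A) : S.g * S.K F = S.N F * S.tau := by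
  unfold K
  rw [Matrix.mul_assoc S.tau, ← Matrix.mul_assoc, S.g_tau, Matrix.one_mul]

/-- symmetry of the carre du champ -/
lemma Gam_symm (f h : A) : ∑ j, S.D j f * S.d j h = ∑ j, S.d j f * S.D j h := by
  simp only [d, Finset.mul_sum, Finset.sum_mul]
  rw [Finset.sum_comm]
  refine Finset.sum_congr rfl fun a _ => Finset.sum_congr rfl fun b _ => ?_
  rw [S.g_symm a b]
  ring

lemma sum_D_tau (b : ι) (f : A) : ∑ e, S.tau b e * S.d e f = S.D b f := (S.D_eq b f).symm

/-- the divergence of `K` -/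
lemma divK (F : A) (b : ι) :
    ∑ e, (S.tau b e * S.L (S.d e F) + ∑ j, S.D j (S.tau b e) * S.d j (S.d e F))
      = S.D b (S.L F + F) := by
  have h1 : ∀ e, S.tau b e * S.L (S.d e F) = S.tau b e * S.d e (S.L F + F)
      - ∑ i, ∑ j, (S.tau b e * S.d e (S.tau i j)) * S.d i (S.d j F) := by
    intro e
    rw [S.L_d, S.d_add]
    have : ∑ i, ∑ j, (S.tau b e * S.d e (S.tau i j)) * S.d i (S.d j F)
        = S.tau b e * ∑ i, ∑ j, S.d e (S.tau i j) * S.d i (S.d j F) := by
      simp only [Finset.mul_sum]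
      refine Finset.sum_congr rfl fun i _ => Finset.sum_congr rfl fun j _ => ?_
      ring
    rw [this]
    ring
  simp only [h1]
  rw [Finset.sum_add_distrib, Finset.sum_sub_distrib, S.sum_D_tau]
  have h2 : ∑ e, ∑ i, ∑ j, (S.tau b e * S.d e (S.tau i j)) * S.d i (S.d j F)
      = ∑ i, ∑ j, S.D b (S.tau i j) * S.d i (S.d j F) := by
    rw [Finset.sum_comm]
    refine Finset.sum_congr rfl fun i _ => ?_
    rw [Finset.sum_comm]
    refine Finset.sum_congr rfl fun j _ => ?_
    rw [← Finset.sum_mul, S.sum_D_tau]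
  have h3 : ∑ e, ∑ j, S.D j (S.tau b e) * S.d j (S.d e F)
      = ∑ i, ∑ j, S.D b (S.tau i j) * S.d i (S.d j F) := by
    rw [Finset.sum_comm]
    refine Finset.sum_congr rfl fun i _ => Finset.sum_congr rfl fun j _ => ?_
    rw [S.Dtau_symm i b j]
  rw [h2, h3]
  ring

/-- weak divergence formula -/
lemma E_divK (F : A) (w : ι → A) :
    S.E (∑ a, ∑ b, S.d a (w b) * S.K F a b) = - S.E (∑ b, w b * S.D b (S.L F + F)) := by
  have h1 : ∀ b e, S.E (∑ j, S.d j (w b) * S.D j (S.d e F) * S.tau b e)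
      = - S.E (w b * (S.tau b e * S.L (S.d e F)
          + ∑ j, S.D j (S.tau b e) * S.d j (S.d e F))) := by
    intro b e
    have h := S.E_L (w b * S.tau b e) (S.d e F)
    have e1 : ∑ j, S.D j (w b * S.tau b e) * S.d j (S.d e F)
        = (∑ j, S.d j (w b) * S.D j (S.d e F) * S.tau b e)
          + w b * ∑ j, S.D j (S.tau b e) * S.d j (S.d e F) := by
      have e2 := S.Gam_symm (w b) (S.d e F)
      have e3 : ∑ j, S.D j (w b * S.tau b e) * S.d j (S.d e F)
          = S.tau b e * (∑ j, S.D j (w b) * S.d j (S.d e F))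
            + w b * ∑ j, S.D j (S.tau b e) * S.d j (S.d e F) := by
        simp only [D_mul, Finset.mul_sum, ← Finset.sum_add_distrib]
        exact Finset.sum_congr rfl fun j _ => by ring
      rw [e3, e2, Finset.mul_sum]
      congr 1
      exact Finset.sum_congr rfl fun j _ => by ring
    rw [e1, map_add] at h
    rw [mul_add, map_add]
    have e4 : w b * S.tau b e * S.L (S.d e F) = w b * (S.tau b e * S.L (S.d e F)) := by ring
    rw [e4] at h
    linarith
  have h2 : ∑ a, ∑ b, S.d a (w b) * S.K F a b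
      = ∑ b, ∑ e, ∑ j, S.d j (w b) * S.D j (S.d e F) * S.tau b e := by
    rw [Finset.sum_comm]
    refine Finset.sum_congr rfl fun b _ => ?_
    rw [Finset.sum_comm]
    refine Finset.sum_congr rfl fun a _ => ?_
    rw [S.K_apply2, Finset.mul_sum]
    exact Finset.sum_congr rfl fun e _ => by ring
  rw [h2]
  simp only [map_sum (S.E) _ (univ : Finset ι)]
  rw [← Finset.sum_neg_distrib]
  refine Finset.sum_congr rfl fun b _ => ?_
  have h3 : ∀ e, ∑ j, S.E (S.d j (w b) * S.D j (S.d e F) * S.tau b e)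
      = - S.E (w b * (S.tau b e * S.L (S.d e F)
          + ∑ j, S.D j (S.tau b e) * S.d j (S.d e F))) := by
    intro e
    rw [← h1 b e, map_sum]
  simp only [h3]
  rw [Finset.sum_neg_distrib, ← map_sum, ← Finset.mul_sum, S.divK]

/-- `-L u` as a divergence in the `x` coordinates -/
lemma L_div (u : A) : S.L u = ∑ a, (S.d a (S.D a u) - S.V a * S.D a u) := by
  rw [S.L_y, Finset.sum_sub_distrib]
  congr 1
  refine Finset.sum_congr rfl fun a _ => ?_
  exact Finset.sum_congr rfl fun b _ => by rw [S.comm a b u]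

/-- Bochner -/
lemma bochner (u : A) :
    S.E (S.L u * S.L u) = S.E (∑ a, ∑ b, S.H a b * S.D a u * S.D b u)
      + S.E (∑ a, ∑ b, S.d a (S.D b u) * S.d b (S.D a u)) := by
  have h1 := S.E_L (S.L u) u
  rw [S.Gam_symm] at h1
  have h2 : ∑ j, S.d j (S.L u) * S.D j u
      = - (∑ a, ∑ b, S.H a b * S.D a u * S.D b u)
        + ∑ a, ∑ b, S.d a (S.d b (S.D b u)) * S.D a u
        - ∑ b, S.V b * ∑ a, S.d a (S.D b u) * S.D a u := by
    have e1 : ∀ a, S.d a (S.L u) = ∑ b, (S.d a (S.d b (S.D b u))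
        - (S.H a b * S.D b u + S.V b * S.d a (S.D b u))) := by
      intro a
      conv_lhs => rw [S.L_div u]
      simp only [d_sum, d_sub, d_mul, H_apply]
    simp only [e1, Finset.sum_mul, Finset.mul_sum]
    rw [Finset.sum_comm (f := fun b a => S.V b * (S.d a (S.D b u) * S.D a u)),
      ← Finset.sum_neg_distrib, ← Finset.sum_add_distrib, ← Finset.sum_sub_distrib]
    refine Finset.sum_congr rfl fun a _ => ?_
    rw [← Finset.sum_neg_distrib, ← Finset.sum_add_distrib, ← Finset.sum_sub_distrib]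
    exact Finset.sum_congr rfl fun b _ => by ring
  have h3 : S.E (∑ b, S.V b * ∑ a, S.d a (S.D b u) * S.D a u)
      = S.E (∑ a, ∑ b, S.d a (S.d b (S.D b u)) * S.D a u)
        + S.E (∑ a, ∑ b, S.d a (S.D b u) * S.d b (S.D a u)) := by
    rw [map_sum]
    simp only [← S.E_d]
    rw [← map_sum, ← map_add]
    congr 1
    simp only [d_sum, d_mul]
    rw [Finset.sum_comm, ← Finset.sum_add_distrib]
    refine Finset.sum_congr rfl fun a _ => ?_
    rw [← Finset.sum_add_distrib]
    refine Finset.sum_congr rfl fun b _ => ?_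
    rw [S.d_comm b a]
  rw [h1, h2, map_sub, map_add, h3, map_neg]
  ring

/-- the second Bochner term as a trace -/
lemma trace_gY (u : A) : ∑ a, ∑ b, S.d a (S.D b u) * S.d b (S.D a u)
    = (S.g * S.Y u * (S.g * S.Y u)).trace := by
  have h : ∀ a b, (S.g * S.Y u) a b = S.d a (S.D b u) := by
    intro a b
    rw [Matrix.mul_apply]
    rfl
  rw [Matrix.trace]
  refine Finset.sum_congr rfl fun a _ => ?_
  rw [Matrix.diag_apply, Matrix.mul_apply]
  exact Finset.sum_congr rfl fun b _ => by rw [h, h]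

end Sys

end Vale.P227.ID
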