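import Vale.Agent.P227.M.ID.Alg2

/-!
P227, block ID, algebraic part 3: the formula for `tau H tau`, and the two evaluations
of `E tr (H K tau^{-1} K)`.
-/

namespace Vale.P227.ID

open Finset Matrix

namespace Sys

variable {ι : Type} [Fintype ι] [DecidableEq ι] {A : Type} [CommRing A] [Algebra ℝ A]
variable (S : Sys ι A)

lemma DM_mul (c : ι) (M M' : Matrix ι ι A) :
    S.DM c (M * M') = S.DM c M * M' + M * S.DM c M' := by
  ext a b
  simp only [DM_apply, Matrix.mul_apply, Matrix.add_apply, D_sum, D_mul, Finset.sum_add_distrib]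

lemma DM_T (c : ι) (M : Matrix ι ι A) : (S.DM c M)ᵀ = S.DM c Mᵀ := rfl

/-- third derivatives of `phi` -/
def T (c : ι) : Matrix ι ι A := S.DM c S.tau

lemma T_apply (c a b : ι) : S.T c a b = S.D c (S.tau a b) := rfl

lemma T_T (c : ι) : (S.T c)ᵀ = S.T c := by
  unfold T
  rw [DM_T, S.tau_T]

/-- the matrix `S` -/
def SS : Matrix ι ι A := ∑ i, ∑ p, S.g i p • (S.T p * S.g * S.T i)

/-- (F1) -/
lemma F1 (e f : ι) : (S.tau * S.H * S.tau) e f = S.tau e f + S.L (S.tau e f) - S.SS e f := by
  -- W f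
  have hinv : ∀ (W : ι → A) (f : ι), ∑ b, S.tau f b * ∑ c, S.g b c * W c = W f := by
    intro W f
    simp only [Finset.mul_sum]
    rw [Finset.sum_comm]
    have : ∀ c, ∑ b, S.tau f b * (S.g b c * W c) = (if f = c then 1 else 0) * W c := by
      intro c
      rw [← S.sum_tau_g f c, Finset.sum_mul]
      exact Finset.sum_congr rfl fun b _ => by ring
    simp only [this]
    simp
  have hW : ∀ f, ∑ b, S.tau f b * S.V b = S.x f + ∑ i, ∑ j, S.g i j * S.D f (S.tau i j) :=
    fun f => hinv (fun c => S.x c + ∑ i, ∑ j, S.g i j * S.D c (S.tau i j)) f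
  have h1 := congrArg (S.D e) (hW f)
  rw [D_sum] at h1
  simp only [D_mul, map_add, D_sum, Finset.sum_add_distrib] at h1
  -- left side
  have h2 : (S.tau * S.H * S.tau) e f = ∑ b, S.tau f b * S.D e (S.V b) := by
    rw [Matrix.mul_apply]
    refine Finset.sum_congr rfl fun b _ => ?_
    rw [Matrix.mul_apply, S.D_eq e (S.V b), S.tau_symm b f, mul_comm]
    rfl
  have h3 : S.L (S.tau e f) = ∑ i, ∑ j, S.g i j * S.D e (S.D f (S.tau i j))
      - ∑ b, S.D e (S.tau f b) * S.V b := by
    rw [S.L_y]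
    congr 1
    · refine Finset.sum_congr rfl fun i _ => Finset.sum_congr rfl fun j _ => ?_
      congr 1
      rw [S.Dtau_symm f i j, S.comm e i, S.Dtau_symm2 e f j, S.Dtau_symm e j f]
    · refine Finset.sum_congr rfl fun b _ => ?_
      rw [S.Dtau_symm2 e f b, S.Dtau_symm e b f, mul_comm]
  have h4 : S.SS e f = - ∑ i, ∑ j, S.D e (S.g i j) * S.D f (S.tau i j) := by
    unfold SS
    have e0 : (∑ i, ∑ p, S.g i p • (S.T p * S.g * S.T i)) e f
        = ∑ i, ∑ p, S.g i p * ∑ j, ∑ q, S.D e (S.tau p q) * S.g q j * S.D f (S.tau i j) := by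
      rw [Matrix.sum_apply]
      refine Finset.sum_congr rfl fun i _ => ?_
      rw [Matrix.sum_apply]
      refine Finset.sum_congr rfl fun p _ => ?_
      rw [Matrix.smul_apply, smul_eq_mul, Matrix.mul_apply]
      congr 1
      refine Finset.sum_congr rfl fun j _ => ?_
      rw [Matrix.mul_apply, Finset.sum_mul]
      refine Finset.sum_congr rfl fun q _ => ?_
      rw [T_apply, T_apply, S.Dtau_symm p e q, S.Dtau_symm2 i j f, S.Dtau_symm i f j]
    rw [e0, ← Finset.sum_neg_distrib]
    refine Finset.sum_congr rfl fun i _ => ?_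
    rw [← Finset.sum_neg_distrib]
    simp only [D_g, Finset.mul_sum, neg_mul, neg_neg, Finset.sum_mul]
    rw [Finset.sum_comm]
    refine Finset.sum_congr rfl fun j _ => ?_
    refine Finset.sum_congr rfl fun p _ => ?_
    exact Finset.sum_congr rfl fun q _ => by ring
  rw [h2, h3, h4]
  have h5 : S.D e (S.x f) = S.tau e f := rfl
  rw [h5] at h1
  linear_combination h1

lemma SS_T : S.SSᵀ = S.SS := by
  unfold SS
  rw [Matrix.transpose_sum]
  simp only [Matrix.transpose_sum, Matrix.transpose_smul, Matrix.transpose_mul, T_T, g_T]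
  rw [Finset.sum_comm]
  refine Finset.sum_congr rfl fun i _ => Finset.sum_congr rfl fun p _ => ?_
  rw [S.g_symm, Matrix.mul_assoc]

lemma H_T : S.Hᵀ = S.H := by
  have h1 : (S.tau * S.H * S.tau)ᵀ = S.tau * S.H * S.tau := by
    ext e f
    rw [Matrix.transpose_apply, S.F1, S.F1, S.tau_symm f e]
    have := congrFun (congrFun S.SS_T e) f
    rw [Matrix.transpose_apply] at this
    rw [this]
  have h2 : S.H = S.g * (S.tau * S.H * S.tau) * S.g := by
    calc S.H = (S.g * S.tau) * S.H * (S.tau * S.g) := by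
          rw [S.g_tau, S.tau_g, Matrix.one_mul, Matrix.mul_one]
      _ = _ := by simp only [Matrix.mul_assoc]
  calc S.Hᵀ = (S.g * (S.tau * S.H * S.tau) * S.g)ᵀ := by rw [← h2]
    _ = S.gᵀ * (S.tau * S.H * S.tau)ᵀ * S.gᵀ := by
        simp only [Matrix.transpose_mul, Matrix.mul_assoc]
    _ = S.H := by rw [h1, S.g_T, ← h2]

lemma H_symm (a b : ι) : S.H a b = S.H b a := by
  have h := congrFun (congrFun S.H_T b) a
  simpa [Matrix.transpose_apply] using h

def al (F : A) : A := ∑ c, ∑ c', S.g c c' * (S.tau * S.DM c (S.N F) * S.tau * S.DM c' (S.N F)).trace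
def be (F : A) : A := ∑ c, ∑ c', S.g c c' * (S.T c * S.N F * S.tau * S.DM c' (S.N F)).trace
def pp (F : A) : A := ∑ c, ∑ c', S.g c c' * (S.T c * S.N F * S.tau * S.N F * S.T c' * S.g).trace
def ga (F : A) : A := ∑ c, ∑ c', S.g c c' * (S.T c * S.N F * S.T c' * S.N F).trace

lemma sum_g_comm (f : ι → ι → A) :
    ∑ c, ∑ c', S.g c c' * f c c' = ∑ c, ∑ c', S.g c c' * f c' c := by
  rw [Finset.sum_comm]
  exact Finset.sum_congr rfl fun c _ => Finset.sum_congr rfl fun c' _ => by rw [S.g_symm]

/-- `C` in terms of `tau H tau` -/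
lemma C_eq (F : A) : (S.H * S.K F * (S.N F * S.tau)).trace
    = (S.tau * S.H * S.tau * (S.N F * S.tau * S.N F)).trace := by
  unfold K
  rw [Matrix.trace_mul_comm]
  have : S.N F * S.tau * (S.H * (S.tau * S.N F * S.tau))
      = S.N F * (S.tau * S.H * S.tau * (S.N F * S.tau)) := by simp only [Matrix.mul_assoc]
  rw [this, Matrix.trace_mul_comm]
  simp only [Matrix.mul_assoc]

/-- evaluation (II) -/
lemma evalII (F : A) : S.E (S.H * S.K F * (S.N F * S.tau)).trace
    = S.E (S.tau * S.N F * S.tau * S.N F).trace - S.E (2 * S.be F + S.ga F) - S.E (S.pp F) := by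
  rw [C_eq]
  set M := S.N F * S.tau * S.N F with hM
  have h1 : (S.tau * S.H * S.tau * M).trace
      = (S.tau * M).trace + ∑ e, ∑ f, M f e * S.L (S.tau e f) - (S.SS * M).trace := by
    have e1 : ∀ (X : Matrix ι ι A), (X * M).trace = ∑ e, ∑ f, X e f * M f e := by
      intro X
      rw [Matrix.trace]
      exact Finset.sum_congr rfl fun e _ => by rw [Matrix.diag_apply, Matrix.mul_apply]
    rw [e1, e1, e1, ← Finset.sum_add_distrib, ← Finset.sum_sub_distrib]
    refine Finset.sum_congr rfl fun e _ => ?_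
    rw [← Finset.sum_add_distrib, ← Finset.sum_sub_distrib]
    refine Finset.sum_congr rfl fun f _ => ?_
    rw [S.F1]
    ring
  have h2 : S.E (∑ e, ∑ f, M f e * S.L (S.tau e f))
      = - S.E (∑ j, ∑ k, S.g j k * (S.T k * S.DM j M).trace) := by
    simp only [map_sum (S.E) _ (univ : Finset ι)]
    have e1 : ∀ e f, S.E (M f e * S.L (S.tau e f))
        = - ∑ j, ∑ k, S.E (S.g j k * (S.T k e f * S.DM j M f e)) := by
      intro e f
      rw [S.E_L, map_sum]
      congr 1
      refine Finset.sum_congr rfl fun j _ => ?_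
      rw [← map_sum]
      congr 1
      simp only [d, Finset.mul_sum]
      refine Finset.sum_congr rfl fun k _ => ?_
      rw [T_apply, DM_apply]
      ring
    simp only [e1]
    have e2 : ∀ j k, S.E (S.g j k * (S.T k * S.DM j M).trace)
        = ∑ e, ∑ f, S.E (S.g j k * (S.T k e f * S.DM j M f e)) := by
      intro j k
      rw [Matrix.trace, Finset.mul_sum, map_sum]
      refine Finset.sum_congr rfl fun e _ => ?_
      rw [Matrix.diag_apply, Matrix.mul_apply, Finset.mul_sum, map_sum]
    simp only [e2, Finset.sum_neg_distrib]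
    congr 1
    -- reorder sums e f j k to j k e f
    have e3 : ∀ (G : ι → ι → ι → ι → ℝ), ∑ e, ∑ f, ∑ j, ∑ k, G e f j k
        = ∑ j, ∑ k, ∑ e, ∑ f, G e f j k := by
      intro G
      calc ∑ e, ∑ f, ∑ j, ∑ k, G e f j k = ∑ e, ∑ j, ∑ f, ∑ k, G e f j k :=
            Finset.sum_congr rfl fun e _ => Finset.sum_comm
        _ = ∑ j, ∑ e, ∑ f, ∑ k, G e f j k := Finset.sum_comm
        _ = ∑ j, ∑ e, ∑ k, ∑ f, G e f j k :=
            Finset.sum_congr rfl fun j _ => Finset.sum_congr rfl fun e _ => Finset.sum_comm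
        _ = ∑ j, ∑ k, ∑ e, ∑ f, G e f j k :=
            Finset.sum_congr rfl fun j _ => Finset.sum_comm
    exact e3 _
  have h3 : ∑ j, ∑ k, S.g j k * (S.T k * S.DM j M).trace = 2 * S.be F + S.ga F := by
    have e1 : ∀ j k, (S.T k * S.DM j M).trace
        = (S.T k * S.N F * S.tau * S.DM j (S.N F)).trace
          + (S.T k * S.N F * S.T j * S.N F).trace
          + (S.T k * S.N F * S.tau * S.DM j (S.N F)).trace := by
      intro j k
      rw [hM, DM_mul, DM_mul]
      have e2 : (S.T k * (S.DM j (S.N F) * S.tau * S.N F)).trace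
          = (S.T k * S.N F * S.tau * S.DM j (S.N F)).trace := by
        rw [← Matrix.trace_transpose]
        simp only [Matrix.transpose_mul, T_T, N_T, tau_T, DM_T]
        rw [← Matrix.mul_assoc, Matrix.trace_mul_comm]
        simp only [Matrix.mul_assoc]
      rw [Matrix.add_mul, Matrix.mul_add, Matrix.trace_add, Matrix.mul_add, Matrix.trace_add, e2]
      simp only [T, Matrix.mul_assoc]
    simp only [e1, mul_add, Finset.sum_add_distrib]
    unfold be ga
    rw [S.sum_g_comm (fun j k => (S.T k * S.N F * S.tau * S.DM j (S.N F)).trace),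
      S.sum_g_comm (fun j k => (S.T k * S.N F * S.T j * S.N F).trace)]
    ring
  have h4 : (S.SS * M).trace = S.pp F := by
    unfold SS pp
    rw [Finset.sum_mul, Matrix.trace_sum]
    refine Finset.sum_congr rfl fun i _ => ?_
    rw [Finset.sum_mul, Matrix.trace_sum]
    refine Finset.sum_congr rfl fun p _ => ?_
    rw [Matrix.smul_mul, Matrix.trace_smul, smul_eq_mul, hM]
    congr 1
    have : S.T p * S.g * S.T i * (S.N F * S.tau * S.N F)
        = (S.T p * S.g) * (S.T i * (S.N F * S.tau * S.N F)) := by simp only [Matrix.mul_assoc]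
    rw [this, Matrix.trace_mul_comm]
    simp only [Matrix.mul_assoc]
  rw [h1, map_sub, map_add, h2, h3, h4, hM]
  have h5 : S.tau * (S.N F * S.tau * S.N F) = S.tau * S.N F * S.tau * S.N F := by
    simp only [Matrix.mul_assoc]
  rw [h5]
  ring

end Sys

end Vale.P227.ID
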