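import Vale.Agent.P227.M.ID.Alg3

/-!
P227, block ID, algebraic part 4: the key identity.
-/

namespace Vale.P227.ID

open Finset Matrix

namespace Sys

variable {ι : Type} [Fintype ι] [DecidableEq ι] {A : Type} [CommRing A] [Algebra ℝ A]
variable (S : Sys ι A)

/-- `U = N tau` -/
def U (F : A) : Matrix ι ι A := S.N F * S.tau

lemma U_eq (F : A) (b c : ι) : S.U F b c = S.D c (S.d b F) := S.U_apply F b c

lemma DU_symm (F : A) (a b c : ι) : S.D a (S.U F b c) = S.D c (S.U F b a) := by
  rw [U_eq, U_eq, S.comm a c]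

/-- first form of (I) -/
lemma evalI0 (F : A) : S.E (S.H * S.K F * S.U F).trace
    = - S.E (∑ c, ∑ b, S.U F b c * S.d c (S.D b (S.L F + F)))
      - S.E (∑ c, ∑ a, ∑ b, S.d a (S.U F b c) * S.d c (S.K F a b)) := by
  set P := S.L F + F with hP
  have h1 : (S.H * S.K F * S.U F).trace
      = (∑ a, ∑ b, S.d a (∑ c, S.V c * S.U F b c) * S.K F a b)
        - ∑ c, S.V c * ∑ a, ∑ b, S.d a (S.U F b c) * S.K F a b := by
    have e1 : (S.H * S.K F * S.U F).trace
        = ∑ c, ∑ a, ∑ b, S.H a c * S.K F a b * S.U F b c := by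
      rw [Matrix.trace]
      refine Finset.sum_congr rfl fun c _ => ?_
      rw [Matrix.diag_apply, Matrix.mul_apply, Finset.sum_comm]
      refine Finset.sum_congr rfl fun b _ => ?_
      rw [Matrix.mul_apply, Finset.sum_mul]
      exact Finset.sum_congr rfl fun a _ => by rw [S.H_symm c a]
    have e2 : ∑ a, ∑ b, S.d a (∑ c, S.V c * S.U F b c) * S.K F a b
        = ∑ c, ∑ a, ∑ b, (S.H a c * S.K F a b * S.U F b c
            + S.V c * (S.d a (S.U F b c) * S.K F a b)) := by
      have e3 : ∀ a b, S.d a (∑ c, S.V c * S.U F b c) * S.K F a b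
          = ∑ c, (S.H a c * S.K F a b * S.U F b c
            + S.V c * (S.d a (S.U F b c) * S.K F a b)) := by
        intro a b
        rw [d_sum, Finset.sum_mul]
        refine Finset.sum_congr rfl fun c _ => ?_
        rw [d_mul, H_apply]
        ring
      simp only [e3]
      calc ∑ a, ∑ b, ∑ c, (S.H a c * S.K F a b * S.U F b c
            + S.V c * (S.d a (S.U F b c) * S.K F a b))
          = ∑ a, ∑ c, ∑ b, (S.H a c * S.K F a b * S.U F b c
            + S.V c * (S.d a (S.U F b c) * S.K F a b)) :=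
            Finset.sum_congr rfl fun a _ => Finset.sum_comm
        _ = _ := Finset.sum_comm
    rw [e1, e2]
    simp only [Finset.sum_add_distrib, Finset.mul_sum]
    ring
  have h2 : S.E (∑ a, ∑ b, S.d a (∑ c, S.V c * S.U F b c) * S.K F a b)
      = - S.E (∑ c, S.V c * ∑ b, S.U F b c * S.D b P) := by
    rw [S.E_divK F (fun b => ∑ c, S.V c * S.U F b c)]
    congr 2
    simp only [Finset.sum_mul, Finset.mul_sum]
    rw [Finset.sum_comm]
    exact Finset.sum_congr rfl fun c _ => Finset.sum_congr rfl fun b _ => by ring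
  have h3 : ∀ (G : ι → A), S.E (∑ c, S.V c * G c) = S.E (∑ c, S.d c (G c)) := by
    intro G
    rw [map_sum, map_sum]
    exact Finset.sum_congr rfl fun c _ => (S.E_d c (G c)).symm
  have h4 : S.E (∑ c, ∑ a, ∑ b, S.d c (S.d a (S.U F b c)) * S.K F a b)
      = - S.E (∑ c, ∑ b, S.d c (S.U F b c) * S.D b P) := by
    have e1 := S.E_divK F (fun b => ∑ c, S.d c (S.U F b c))
    have e2 : ∑ a, ∑ b, S.d a (∑ c, S.d c (S.U F b c)) * S.K F a b
        = ∑ c, ∑ a, ∑ b, S.d c (S.d a (S.U F b c)) * S.K F a b := by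
      simp only [d_sum, Finset.sum_mul]
      calc ∑ a, ∑ b, ∑ c, S.d a (S.d c (S.U F b c)) * S.K F a b
          = ∑ a, ∑ c, ∑ b, S.d a (S.d c (S.U F b c)) * S.K F a b :=
            Finset.sum_congr rfl fun a _ => Finset.sum_comm
        _ = ∑ c, ∑ a, ∑ b, S.d a (S.d c (S.U F b c)) * S.K F a b := Finset.sum_comm
        _ = _ := Finset.sum_congr rfl fun c _ => Finset.sum_congr rfl fun a _ =>
            Finset.sum_congr rfl fun b _ => by rw [S.d_comm a c]
    rw [← e2, e1]
    congr 2
    simp only [Finset.sum_mul]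
    rw [Finset.sum_comm]
  rw [h1, map_sub, h2, h3, h3]
  simp only [d_sum, d_mul, Finset.sum_add_distrib, map_add]
  rw [h4]
  ring

/-- the quadratic term -/
lemma evalZ (F : A) : ∑ c, ∑ a, ∑ b, S.d a (S.U F b c) * S.d c (S.K F a b)
    = S.al F + 3 * S.be F + S.pp F + S.ga F := by
  have h1 : ∑ c, ∑ a, ∑ b, S.d a (S.U F b c) * S.d c (S.K F a b)
      = ∑ c, ∑ c', S.g c c' * (S.DM c (S.K F) * S.DM c' (S.U F) * S.g).trace := by
    have e1 : ∀ c a b, S.d a (S.U F b c) * S.d c (S.K F a b)
        = ∑ c', S.g c c' * ∑ a', S.D c' (S.K F a b) * S.D c (S.U F b a') * S.g a' a := by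
      intro c a b
      simp only [d, Finset.mul_sum, Finset.sum_mul]
      refine Finset.sum_congr rfl fun c' _ => Finset.sum_congr rfl fun a' _ => ?_
      rw [S.DU_symm F a' b c, S.g_symm a' a]
      ring
    have e2 : ∀ c c', (S.DM c (S.K F) * S.DM c' (S.U F) * S.g).trace
        = ∑ a, ∑ b, ∑ a', S.D c (S.K F a b) * S.D c' (S.U F b a') * S.g a' a := by
      intro c c'
      rw [Matrix.trace]
      refine Finset.sum_congr rfl fun a _ => ?_
      rw [Matrix.diag_apply, Matrix.mul_apply, Finset.sum_comm]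
      refine Finset.sum_congr rfl fun a' _ => ?_
      rw [Matrix.mul_apply, Finset.sum_mul]
      rfl
    rw [S.sum_g_comm (fun c c' => (S.DM c (S.K F) * S.DM c' (S.U F) * S.g).trace)]
    refine Finset.sum_congr rfl fun c _ => ?_
    simp only [e1, e2]
    calc ∑ a, ∑ b, ∑ c', S.g c c' * ∑ a', S.D c' (S.K F a b) * S.D c (S.U F b a') * S.g a' a
        = ∑ a, ∑ c', ∑ b, S.g c c' * ∑ a', S.D c' (S.K F a b) * S.D c (S.U F b a') * S.g a' a :=
          Finset.sum_congr rfl fun a _ => Finset.sum_comm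
      _ = ∑ c', ∑ a, ∑ b, S.g c c' * ∑ a', S.D c' (S.K F a b) * S.D c (S.U F b a') * S.g a' a :=
          Finset.sum_comm
      _ = _ := by
          refine Finset.sum_congr rfl fun c' _ => ?_
          simp only [Finset.mul_sum]
  rw [h1]
  have h2 : ∀ c c', (S.DM c (S.K F) * S.DM c' (S.U F) * S.g).trace
      = (S.tau * S.DM c (S.N F) * S.tau * S.DM c' (S.N F)).trace
        + (S.T c' * S.N F * S.tau * S.DM c (S.N F)).trace
        + (S.T c * S.N F * S.tau * S.DM c' (S.N F)).trace
        + (S.T c * S.N F * S.tau * S.N F * S.T c' * S.g).trace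
        + (S.T c * S.N F * S.tau * S.DM c' (S.N F)).trace
        + (S.T c * S.N F * S.T c' * S.N F).trace := by
    intro c c'
    have cyc : ∀ (X : Matrix ι ι A), (X * S.tau * S.g) = X := by
      intro X
      rw [Matrix.mul_assoc, S.tau_g, Matrix.mul_one]
    have t1 : S.DM c (S.K F) = S.T c * S.N F * S.tau + S.tau * S.DM c (S.N F) * S.tau
        + S.tau * S.N F * S.T c := by
      unfold K
      rw [DM_mul, DM_mul, Matrix.add_mul]
      rfl
    have t2 : S.DM c' (S.U F) * S.g = S.DM c' (S.N F) + S.N F * S.T c' * S.g := by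
      unfold U
      rw [DM_mul, Matrix.add_mul, cyc]
      rfl
    rw [Matrix.mul_assoc, t2, t1]
    have q1 : (S.tau * S.DM c (S.N F) * S.tau * (S.N F * S.T c' * S.g)).trace
        = (S.T c' * S.N F * S.tau * S.DM c (S.N F)).trace := by
      have e1 : S.tau * S.DM c (S.N F) * S.tau * (S.N F * S.T c' * S.g)
          = S.tau * (S.DM c (S.N F) * S.tau * (S.N F * S.T c' * S.g)) := by
        simp only [Matrix.mul_assoc]
      rw [e1, Matrix.trace_mul_comm]
      have e2 : S.DM c (S.N F) * S.tau * (S.N F * S.T c' * S.g) * S.tau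
          = S.DM c (S.N F) * S.tau * S.N F * S.T c' := by
        have : S.DM c (S.N F) * S.tau * (S.N F * S.T c' * S.g) * S.tau
            = S.DM c (S.N F) * S.tau * (S.N F * S.T c' * (S.g * S.tau)) := by
          simp only [Matrix.mul_assoc]
        rw [this, S.g_tau, Matrix.mul_one]
        simp only [Matrix.mul_assoc]
      rw [e2, ← Matrix.trace_transpose]
      simp only [Matrix.transpose_mul, T_T, N_T, tau_T, DM_T]
      simp only [Matrix.mul_assoc]
    have q2 : (S.tau * S.N F * S.T c * S.DM c' (S.N F)).trace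
        = (S.T c * S.N F * S.tau * S.DM c' (S.N F)).trace := by
      rw [← Matrix.trace_transpose]
      simp only [Matrix.transpose_mul, T_T, N_T, tau_T, DM_T]
      rw [Matrix.trace_mul_comm]
      simp only [Matrix.mul_assoc]
    have q3 : (S.tau * S.N F * S.T c * (S.N F * S.T c' * S.g)).trace
        = (S.T c * S.N F * S.T c' * S.N F).trace := by
      have e1 : S.tau * S.N F * S.T c * (S.N F * S.T c' * S.g)
          = S.tau * (S.N F * S.T c * (S.N F * S.T c' * S.g)) := by
        simp only [Matrix.mul_assoc]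
      rw [e1, Matrix.trace_mul_comm]
      have e2 : S.N F * S.T c * (S.N F * S.T c' * S.g) * S.tau
          = S.N F * (S.T c * (S.N F * S.T c')) := by
        have : S.N F * S.T c * (S.N F * S.T c' * S.g) * S.tau
            = S.N F * S.T c * (S.N F * S.T c' * (S.g * S.tau)) := by
          simp only [Matrix.mul_assoc]
        rw [this, S.g_tau, Matrix.mul_one]
        simp only [Matrix.mul_assoc]
      rw [e2, Matrix.trace_mul_comm]
      simp only [Matrix.mul_assoc]
    have q4 : (S.T c * S.N F * S.tau * (S.N F * S.T c' * S.g)).trace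
        = (S.T c * S.N F * S.tau * S.N F * S.T c' * S.g).trace := by
      simp only [Matrix.mul_assoc]
    simp only [Matrix.add_mul, Matrix.mul_add, Matrix.trace_add]
    rw [q1, q2, q3, q4]
    ring
  simp only [h2, mul_add, Finset.sum_add_distrib]
  rw [S.sum_g_comm (fun c c' => (S.T c' * S.N F * S.tau * S.DM c (S.N F)).trace)]
  unfold al be pp ga
  ring

/-- evaluation (I) -/
lemma evalI (F u : A) : S.E (S.H * S.K F * S.U F).trace
    = S.E (S.N F * S.Y u).trace
      + S.E (∑ b, S.D b (S.L F + F + u) * S.L (S.d b F))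
      - S.E (S.al F + 3 * S.be F + S.pp F + S.ga F) := by
  rw [evalI0, evalZ]
  have h1 : ∀ w : A, ∑ c, ∑ b, S.U F b c * S.d c (S.D b w)
      = ∑ b, ∑ e, S.N F b e * S.D e (S.D b w) := by
    intro w
    rw [Finset.sum_comm]
    refine Finset.sum_congr rfl fun b _ => ?_
    have e1 : ∀ c, S.U F b c * S.d c (S.D b w) = ∑ e, S.U F b c * S.g c e * S.D e (S.D b w) := by
      intro c
      rw [d, Finset.mul_sum]
      exact Finset.sum_congr rfl fun e _ => by ring
    simp only [e1]
    rw [Finset.sum_comm]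
    refine Finset.sum_congr rfl fun e _ => ?_
    rw [← Finset.sum_mul]
    congr 1
    have : (S.U F * S.g) b e = S.N F b e := by
      unfold U
      rw [Matrix.mul_assoc, S.tau_g, Matrix.mul_one]
    rw [← this, Matrix.mul_apply]
  have h2 : (S.N F * S.Y u).trace = ∑ b, ∑ e, S.N F b e * S.D e (S.D b u) := by
    rw [Matrix.trace]
    refine Finset.sum_congr rfl fun b _ => ?_
    rw [Matrix.diag_apply, Matrix.mul_apply]
    rfl
  have h3 : S.E (∑ b, S.D b (S.L F + F + u) * S.L (S.d b F))
      = - S.E (∑ b, ∑ e, S.N F b e * S.D e (S.D b (S.L F + F + u))) := by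
    rw [map_sum, map_sum, ← Finset.sum_neg_distrib]
    refine Finset.sum_congr rfl fun b _ => ?_
    rw [S.E_L]
    congr 2
    refine Finset.sum_congr rfl fun e _ => ?_
    rw [S.N_symm F b e, S.N_apply]
    ring
  rw [h1, h2, h3]
  have h4 : ∑ b, ∑ e, S.N F b e * S.D e (S.D b (S.L F + F + u))
      = ∑ b, ∑ e, S.N F b e * S.D e (S.D b (S.L F + F))
        + ∑ b, ∑ e, S.N F b e * S.D e (S.D b u) := by
    rw [← Finset.sum_add_distrib]
    refine Finset.sum_congr rfl fun b _ => ?_
    rw [← Finset.sum_add_distrib]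
    refine Finset.sum_congr rfl fun e _ => ?_
    rw [map_add, map_add]
    ring
  have h5 := congrArg S.E h4
  rw [map_add] at h5
  linarith

/-- the key identity -/
theorem key (F u : A) :
    S.E (S.H * S.tau * S.N F * S.tau * S.N F * S.tau).trace
      + S.E (∑ a, ∑ b, S.H a b * S.D a u * S.D b u)
      = S.E (S.L u * S.L u) + 2 * S.E (∑ b, S.D b (S.L F + F + u) * S.L (S.d b F))
        - S.E (S.g * (S.Y u - S.K F) * (S.g * (S.Y u - S.K F))).trace
        - S.E (2 * S.al F + 4 * S.be F + S.pp F + S.ga F) := by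
  have h1 := S.evalI F u
  have h2 := S.evalII F
  have h3 := S.bochner u
  rw [S.trace_gY] at h3
  have e0 : S.H * S.tau * S.N F * S.tau * S.N F * S.tau = S.H * S.K F * S.U F := by
    unfold K U
    simp only [Matrix.mul_assoc]
  have e1 : S.H * S.K F * (S.N F * S.tau) = S.H * S.K F * S.U F := rfl
  rw [e1] at h2
  have e2 : (S.g * (S.Y u - S.K F) * (S.g * (S.Y u - S.K F))).trace
      = (S.g * S.Y u * (S.g * S.Y u)).trace - 2 * (S.N F * S.Y u).trace
        + (S.tau * S.N F * S.tau * S.N F).trace := by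
    have r1 : S.g * (S.Y u - S.K F) = S.g * S.Y u - S.N F * S.tau := by
      rw [Matrix.mul_sub, S.g_K]
    rw [r1, Matrix.sub_mul, Matrix.mul_sub, Matrix.mul_sub, Matrix.trace_sub, Matrix.trace_sub,
      Matrix.trace_sub]
    have r2 : (S.g * S.Y u * (S.N F * S.tau)).trace = (S.N F * S.Y u).trace := by
      rw [Matrix.trace_mul_comm]
      have : S.N F * S.tau * (S.g * S.Y u) = S.N F * ((S.tau * S.g) * S.Y u) := by
        simp only [Matrix.mul_assoc]
      rw [this, S.tau_g, Matrix.one_mul]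
    have r3 : (S.N F * S.tau * (S.g * S.Y u)).trace = (S.N F * S.Y u).trace := by
      have : S.N F * S.tau * (S.g * S.Y u) = S.N F * ((S.tau * S.g) * S.Y u) := by
        simp only [Matrix.mul_assoc]
      rw [this, S.tau_g, Matrix.one_mul]
    have r4 : (S.N F * S.tau * (S.N F * S.tau)).trace
        = (S.tau * S.N F * S.tau * S.N F).trace := by
      rw [← Matrix.mul_assoc, Matrix.trace_mul_comm]
      simp only [Matrix.mul_assoc]
    rw [r2, r3, r4]
    ring
  have two : ∀ X : A, S.E (2 * X) = 2 * S.E X := by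
    intro X
    rw [two_mul, map_add]; ring
  have e3 : S.E (S.g * (S.Y u - S.K F) * (S.g * (S.Y u - S.K F))).trace
      = S.E (S.g * S.Y u * (S.g * S.Y u)).trace - 2 * S.E (S.N F * S.Y u).trace
        + S.E (S.tau * S.N F * S.tau * S.N F).trace := by
    rw [e2, map_add, map_sub, two]
  have e4 : S.E (2 * S.al F + 4 * S.be F + S.pp F + S.ga F)
      = 2 * S.E (S.al F + 3 * S.be F + S.pp F + S.ga F) - S.E (2 * S.be F + S.ga F)
        - S.E (S.pp F) := by
    rw [← two, ← map_sub, ← map_sub]
    congr 1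
    ring
  rw [e0, e3, e4]
  linarith

end Sys

end Vale.P227.ID
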