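import Mathlib

/-!
Algebraic Bochner identity on a Hessian structure (P227, block ID).
`A` commutative real algebra, commuting derivations `D a`, `φ : A`, `T = D²φ`, `g * T = 1`,
`E` a linear functional with `E (D a f) = E (D a φ * f)`.
-/

namespace P227ID519

open Finset Matrix

variable {n : ℕ} {A : Type*} [CommRing A] [Algebra ℝ A]

/-- The abstract data. -/
structure HData (n : ℕ) (A : Type*) [CommRing A] [Algebra ℝ A] where
  D : Fin n → Derivation ℝ A A
  comm : ∀ a b f, D a (D b f) = D b (D a f)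
  φ : A
  g : Matrix (Fin n) (Fin n) A
  inv : ∀ a c, ∑ b, g a b * D b (D c φ) = if a = c then 1 else 0
  E : A →ₗ[ℝ] ℝ
  ibp : ∀ a f, E (D a f) = E (D a φ * f)

namespace HData

variable (S : HData n A)

/-- Hessian of φ. -/
def T : Matrix (Fin n) (Fin n) A := fun a b => S.D a (S.D b S.φ)

/-- x-derivative. -/
def dx (c : Fin n) (f : A) : A := ∑ b, S.g c b * S.D b f

/-- gradient of the potential V in x. -/
def V (c : Fin n) : A := ∑ b, (S.D b S.φ * S.g b c - S.D b (S.g b c))

/-- connection matrices. -/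
def Γ (k c i : Fin n) : A := ∑ l, S.g c l * S.D k (S.T l i)

lemma T_symm (a b : Fin n) : S.T a b = S.T b a := S.comm a b S.φ

lemma DT (a b c : Fin n) : S.D a (S.T b c) = S.D b (S.T a c) := S.comm a b _

lemma gT : S.g * S.T = 1 := by
  ext a c
  rw [Matrix.mul_apply, Matrix.one_apply]
  exact S.inv a c

lemma Tg : S.T * S.g = 1 := mul_eq_one_comm.mp S.gT

lemma T_transpose : S.Tᵀ = S.T := by
  ext a b
  exact S.T_symm b a

lemma g_transpose : S.gᵀ = S.g := by
  have h1 : S.gᵀ * S.T = 1 := by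
    have h := congrArg Matrix.transpose S.Tg
    rw [Matrix.transpose_mul, T_transpose, Matrix.transpose_one] at h
    exact h
  calc S.gᵀ = S.gᵀ * (S.T * S.g) := by rw [S.Tg, Matrix.mul_one]
    _ = (S.gᵀ * S.T) * S.g := by rw [Matrix.mul_assoc]
    _ = S.g := by rw [h1, Matrix.one_mul]

lemma g_symm (a b : Fin n) : S.g a b = S.g b a := by
  have h := congrFun (congrFun S.g_transpose b) a
  rw [Matrix.transpose_apply] at h
  exact h

lemma Tg_apply (a c : Fin n) : ∑ b, S.T a b * S.g b c = if a = c then 1 else 0 := by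
  have h := congrFun (congrFun S.Tg a) c
  rw [Matrix.mul_apply, Matrix.one_apply] at h
  exact h

lemma gT_apply (a c : Fin n) : ∑ b, S.g a b * S.T b c = if a = c then 1 else 0 := by
  have h := congrFun (congrFun S.gT a) c
  rw [Matrix.mul_apply, Matrix.one_apply] at h
  exact h

@[simp] lemma dx_add (c : Fin n) (f h : A) : S.dx c (f + h) = S.dx c f + S.dx c h := by
  simp only [dx, map_add, mul_add, sum_add_distrib]

@[simp] lemma dx_sub (c : Fin n) (f h : A) : S.dx c (f - h) = S.dx c f - S.dx c h := by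
  simp only [dx, map_sub, mul_sub, sum_sub_distrib]

lemma dx_sum {ι : Type*} (s : Finset ι) (c : Fin n) (f : ι → A) :
    S.dx c (∑ i ∈ s, f i) = ∑ i ∈ s, S.dx c (f i) := by
  simp only [dx, map_sum, mul_sum]
  rw [sum_comm]

lemma dx_mul (c : Fin n) (f h : A) : S.dx c (f * h) = S.dx c f * h + f * S.dx c h := by
  simp only [dx, Derivation.leibniz, smul_eq_mul, sum_mul, mul_sum]
  rw [← sum_add_distrib]
  refine sum_congr rfl fun b _ => ?_
  ring

/-- `D_i g = - g (D_i T) g`. -/
lemma Dg (i c b : Fin n) :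
    S.D i (S.g c b) = - ∑ l, ∑ k, S.g c l * S.D i (S.T l k) * S.g k b := by
  -- differentiate  ∑_k g_ck T_kj = δ
  have h1 : ∀ j, ∑ k, S.D i (S.g c k) * S.T k j = - ∑ k, S.g c k * S.D i (S.T k j) := by
    intro j
    have h := congrArg (S.D i) (S.gT_apply c j)
    rw [map_sum] at h
    have h2 : S.D i (if c = j then (1 : A) else 0) = 0 := by
      split_ifs <;> simp
    rw [h2] at h
    simp only [Derivation.leibniz, smul_eq_mul, sum_add_distrib] at h
    have h3 : ∑ x, S.T x j * S.D i (S.g c x) = ∑ k, S.D i (S.g c k) * S.T k j :=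
      sum_congr rfl fun k _ => by ring
    rw [h3] at h
    linear_combination h
  calc S.D i (S.g c b) = ∑ k, S.D i (S.g c k) * (if k = b then 1 else 0) := by
        simp
    _ = ∑ k, S.D i (S.g c k) * ∑ j, S.T k j * S.g j b := by
        refine sum_congr rfl fun k _ => ?_
        rw [S.Tg_apply]
    _ = ∑ j, (∑ k, S.D i (S.g c k) * S.T k j) * S.g j b := by
        simp only [mul_sum, sum_mul]
        rw [sum_comm]
        refine sum_congr rfl fun j _ => sum_congr rfl fun k _ => ?_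
        ring
    _ = ∑ j, (- ∑ k, S.g c k * S.D i (S.T k j)) * S.g j b := by
        refine sum_congr rfl fun j _ => ?_
        rw [h1]
    _ = - ∑ l, ∑ k, S.g c l * S.D i (S.T l k) * S.g k b := by
        simp only [neg_mul, sum_neg_distrib, sum_mul]
        rw [sum_comm]

/-- commutator of `dx c` and `D i`. -/
lemma dx_D (c i : Fin n) (f : A) :
    S.dx c (S.D i f) = S.D i (S.dx c f) + ∑ k, S.Γ k c i * S.dx k f := by
  have h1 : S.D i (S.dx c f) = ∑ b, S.D i (S.g c b) * S.D b f + ∑ b, S.g c b * S.D b (S.D i f) := by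
    simp only [dx, map_sum, Derivation.leibniz, smul_eq_mul]
    rw [← sum_add_distrib]
    refine sum_congr rfl fun b _ => ?_
    rw [S.comm i b]
    ring
  have h2 : ∑ b, S.D i (S.g c b) * S.D b f = - ∑ k, S.Γ k c i * S.dx k f := by
    calc ∑ b, S.D i (S.g c b) * S.D b f
        = ∑ b, ∑ l, ∑ k, -(S.g c l * S.D i (S.T l k) * S.g k b * S.D b f) := by
          refine sum_congr rfl fun b _ => ?_
          rw [S.Dg i c b]
          simp only [neg_mul, sum_neg_distrib, sum_mul]
      _ = ∑ k, ∑ l, ∑ b, -(S.g c l * S.D i (S.T l k) * S.g k b * S.D b f) := by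
          rw [sum_comm]
          rw [sum_comm (s := (univ : Finset (Fin n))) (t := (univ : Finset (Fin n)))
            (f := fun k l => ∑ b, -(S.g c l * S.D i (S.T l k) * S.g k b * S.D b f))]
          refine sum_congr rfl fun l _ => ?_
          rw [sum_comm]
      _ = - ∑ k, S.Γ k c i * S.dx k f := by
          rw [← sum_neg_distrib]
          refine sum_congr rfl fun k _ => ?_
          simp only [Γ, dx, sum_mul, mul_sum]
          rw [← sum_neg_distrib]
          rw [sum_comm]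
          refine sum_congr rfl fun l _ => ?_
          rw [← sum_neg_distrib]
          refine sum_congr rfl fun b _ => ?_
          have : S.D i (S.T b k) = S.D k (S.T b i) := by
            rw [S.T_symm b k, S.DT i k b, S.T_symm i b]
          rw [this]
          ring
  rw [h1, h2]
  simp only [dx]
  ring

lemma T_dx (a : Fin n) (f : A) : ∑ c, S.T a c * S.dx c f = S.D a f := by
  calc ∑ c, S.T a c * S.dx c f = ∑ c, ∑ b, S.T a c * S.g c b * S.D b f := by
        refine sum_congr rfl fun c _ => ?_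
        simp only [dx, mul_sum]
        refine sum_congr rfl fun b _ => ?_
        ring
    _ = ∑ b, (∑ c, S.T a c * S.g c b) * S.D b f := by
        rw [sum_comm]
        refine sum_congr rfl fun b _ => ?_
        rw [sum_mul]
    _ = S.D a f := by
        simp [S.Tg_apply]

/-- the `dx` commute. -/
lemma dx_comm (a c : Fin n) (f : A) : S.dx a (S.dx c f) = S.dx c (S.dx a f) := by
  have h1 : S.dx a (S.dx c f) = ∑ b, S.dx a (S.g c b) * S.D b f
      + (∑ b, S.g c b * S.D b (S.dx a f) + ∑ b, S.g c b * ∑ k, S.Γ k a b * S.dx k f) := by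
    rw [show S.dx c f = ∑ b, S.g c b * S.D b f from rfl, S.dx_sum]
    rw [← sum_add_distrib, ← sum_add_distrib]
    refine sum_congr rfl fun b _ => ?_
    rw [S.dx_mul, S.dx_D]
    ring
  have h2 : ∑ b, S.dx a (S.g c b) * S.D b f = - ∑ b, S.g c b * ∑ k, S.Γ k a b * S.dx k f := by
    calc ∑ b, S.dx a (S.g c b) * S.D b f
        = ∑ b, ∑ i, ∑ l, ∑ k, -(S.g a i * S.g c l * S.D i (S.T l k) * S.g k b * S.D b f) := by
          refine sum_congr rfl fun b _ => ?_
          rw [show S.dx a (S.g c b) = ∑ i, S.g a i * S.D i (S.g c b) from rfl, sum_mul]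
          refine sum_congr rfl fun i _ => ?_
          rw [S.Dg i c b]
          simp only [mul_neg, neg_mul, sum_neg_distrib, sum_mul, mul_sum]
          congr 1
          refine sum_congr rfl fun l _ => sum_congr rfl fun k _ => ?_
          ring
      _ = ∑ l, ∑ k, ∑ i, ∑ b, -(S.g a i * S.g c l * S.D i (S.T l k) * S.g k b * S.D b f) := by
          rw [sum_comm]
          have : ∀ i, ∑ b, ∑ l, ∑ k, -(S.g a i * S.g c l * S.D i (S.T l k) * S.g k b * S.D b f)
              = ∑ l, ∑ k, ∑ b, -(S.g a i * S.g c l * S.D i (S.T l k) * S.g k b * S.D b f) := by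
            intro i
            rw [sum_comm]
            refine sum_congr rfl fun l _ => ?_
            rw [sum_comm]
          simp only [this]
          rw [sum_comm]
          refine sum_congr rfl fun l _ => ?_
          rw [sum_comm]
      _ = - ∑ b, S.g c b * ∑ k, S.Γ k a b * S.dx k f := by
          rw [← sum_neg_distrib]
          refine sum_congr rfl fun l _ => ?_
          rw [mul_sum, ← sum_neg_distrib]
          refine sum_congr rfl fun k _ => ?_
          simp only [Γ, dx, sum_mul, mul_sum]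
          rw [← sum_neg_distrib, sum_comm]
          refine sum_congr rfl fun b _ => ?_
          rw [← sum_neg_distrib]
          refine sum_congr rfl fun i _ => ?_
          have : S.D i (S.T l k) = S.D k (S.T i l) := by
            rw [S.T_symm l k, S.DT i k l]
          rw [this]
          ring
  rw [h1, h2]
  rw [show S.dx c (S.dx a f) = ∑ b, S.g c b * S.D b (S.dx a f) from rfl]
  ring

/-! ### integration by parts -/

lemma parts (G : Fin n → A) (f : A) :
    S.E (∑ i, G i * S.D i f) = S.E ((∑ i, (S.D i S.φ * G i - S.D i (G i))) * f) := by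
  have h : ∀ i, S.E (G i * S.D i f) = S.E ((S.D i S.φ * G i - S.D i (G i)) * f) := by
    intro i
    have h1 := S.ibp i (G i * f)
    rw [Derivation.leibniz, smul_eq_mul, smul_eq_mul, map_add] at h1
    have h2 : S.E ((S.D i S.φ * G i - S.D i (G i)) * f)
        = S.E (S.D i S.φ * (G i * f)) - S.E (f * S.D i (G i)) := by
      rw [← map_sub]; congr 1; ring
    rw [h2]
    linear_combination h1
  rw [map_sum, sum_mul, map_sum]
  exact sum_congr rfl fun i _ => h i

lemma EV (c : Fin n) (G : A) : S.E (S.dx c G) = S.E (S.V c * G) := by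
  rw [show S.dx c G = ∑ b, S.g c b * S.D b G from rfl, S.parts]
  congr 2
  refine sum_congr rfl fun b _ => ?_
  rw [S.g_symm c b]

/-- `U c a = D_a (d^c F)`. -/
def U (F : A) : Matrix (Fin n) (Fin n) A := fun c a => S.D a (S.dx c F)

lemma U_D (F : A) (m c a : Fin n) : S.D m (S.U F c a) = S.D a (S.U F c m) := S.comm m a _

/-- generator. -/
def L (f : A) : A := ∑ i, (S.D i (S.dx i f) - S.D i S.φ * S.dx i f)

/-- `u = -(L+1)F`. -/
def u (F : A) : A := -(S.L F) - F

def s (F : A) (b : Fin n) : A := ∑ i, (S.D i S.φ * S.U F i b - S.D i (S.U F i b))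

lemma s_eq (F : A) (b : Fin n) : S.s F b = S.D b (S.u F) := by
  simp only [s, u, L, U, map_sub, map_neg, map_sum, Derivation.leibniz, smul_eq_mul]
  have h : S.D b F = ∑ i, S.dx i F * S.D b (S.D i S.φ) := by
    rw [← S.T_dx b F]
    refine sum_congr rfl fun i _ => ?_
    rw [T]; ring
  rw [h, ← sum_neg_distrib, ← sum_sub_distrib]
  refine sum_congr rfl fun i _ => ?_
  rw [S.comm i b]
  ring

lemma TU_apply (F : A) (a b : Fin n) :
    ∑ c, S.T a c * S.U F c b = S.D b (S.D a F) - ∑ c, S.D b (S.T a c) * S.dx c F := by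
  have h := congrArg (S.D b) (S.T_dx a F)
  rw [map_sum] at h
  simp only [Derivation.leibniz, smul_eq_mul, sum_add_distrib] at h
  have h2 : ∑ x, S.dx x F * S.D b (S.T a x) = ∑ c, S.D b (S.T a c) * S.dx c F :=
    sum_congr rfl fun c _ => by ring
  rw [h2] at h
  rw [← h]
  simp only [U]
  ring

lemma TU_symm (F : A) (a b : Fin n) :
    ∑ c, S.T a c * S.U F c b = ∑ c, S.T b c * S.U F c a := by
  rw [S.TU_apply, S.TU_apply, S.comm b a F]
  congr 1
  refine sum_congr rfl fun c _ => ?_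
  rw [S.DT b a c]

def J (F : A) : Matrix (Fin n) (Fin n) A := fun c b => S.dx c (S.s F b)

/-- `C = E ∑ H (M g M)` in the form `∑ (U U)_{ic} D_i V_c`. -/
def Cc (F : A) : A := ∑ c, ∑ i, (∑ b, S.U F i b * S.U F b c) * S.D i (S.V c)

def P (F : A) (c : Fin n) : A :=
  ∑ b, S.s F b * S.U F b c - ∑ i, ∑ b, S.U F i b * S.D i (S.U F b c)

lemma P_eq (F : A) (c : Fin n) :
    ∑ i, (S.D i S.φ * (∑ b, S.U F i b * S.U F b c) - S.D i (∑ b, S.U F i b * S.U F b c))
      = S.P F c := by
  have h1 : ∑ b, S.s F b * S.U F b c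
      = ∑ i, ∑ b, (S.D i S.φ * S.U F i b - S.D i (S.U F i b)) * S.U F b c := by
    rw [sum_comm]
    refine sum_congr rfl fun b _ => ?_
    rw [s, sum_mul]
  rw [P, h1, ← sum_sub_distrib]
  refine sum_congr rfl fun i _ => ?_
  rw [← sum_sub_distrib, map_sum, mul_sum, ← sum_sub_distrib]
  refine sum_congr rfl fun b _ => ?_
  rw [Derivation.leibniz, smul_eq_mul, smul_eq_mul]
  ring

lemma dxP (F : A) (c : Fin n) :
    S.dx c (S.P F c) = (∑ b, S.J F c b * S.U F b c + ∑ b, S.s F b * S.dx c (S.U F b c))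
      - (∑ i, ∑ b, S.dx c (S.U F i b) * S.D i (S.U F b c)
        + ∑ i, ∑ b, S.U F i b * S.D i (S.dx c (S.U F b c))
        + ∑ i, ∑ b, S.U F i b * ∑ k, S.Γ k c i * S.dx k (S.U F b c)) := by
  rw [P, dx_sub, dx_sum, dx_sum]
  congr 1
  · rw [← sum_add_distrib]
    refine sum_congr rfl fun b _ => ?_
    rw [dx_mul, J]
  · rw [← sum_add_distrib, ← sum_add_distrib]
    refine sum_congr rfl fun i _ => ?_
    rw [dx_sum, ← sum_add_distrib, ← sum_add_distrib]
    refine sum_congr rfl fun b _ => ?_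
    rw [dx_mul, dx_D]
    ring

/-- First form of `C`. -/
theorem formI (F : A) :
    S.E (S.Cc F) = S.E (∑ c, ∑ b, S.J F c b * S.U F b c)
      - S.E (∑ c, ∑ i, ∑ b, S.dx c (S.U F i b) * S.D i (S.U F b c))
      - S.E (∑ c, ∑ i, ∑ b, S.U F i b * ∑ k, S.Γ k c i * S.dx k (S.U F b c)) := by
  have h1 : S.E (S.Cc F) = S.E (∑ c, S.dx c (S.P F c)) := by
    rw [Cc, map_sum, map_sum]
    refine sum_congr rfl fun c _ => ?_
    rw [S.parts, S.P_eq, S.EV, mul_comm]
  have h2 : S.E (∑ c, ∑ i, ∑ b, S.U F i b * S.D i (S.dx c (S.U F b c)))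
      = S.E (∑ c, ∑ b, S.s F b * S.dx c (S.U F b c)) := by
    rw [map_sum, map_sum]
    refine sum_congr rfl fun c _ => ?_
    rw [sum_comm, map_sum, map_sum]
    refine sum_congr rfl fun b _ => ?_
    rw [S.parts, s]
  rw [h1]
  simp only [dxP, sum_sub_distrib, sum_add_distrib, map_sub, map_add]
  rw [h2]
  ring

lemma Jform (F : A) (m c : Fin n) :
    ∑ b, (S.D b S.φ * S.dx m (S.U F b c) - S.D b (S.dx m (S.U F b c)))
      = S.J F m c - S.U F m c + ∑ b, ∑ k, S.Γ k m b * S.dx k (S.U F b c) := by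
  have h1 : ∀ b, S.dx m (S.D b S.φ) = if m = b then 1 else 0 := by
    intro b
    have h := S.gT_apply m b
    rw [← h]
    rfl
  have h2 : S.J F m c = ∑ b, ((if m = b then 1 else 0) * S.U F b c
      + S.D b S.φ * S.dx m (S.U F b c) - S.dx m (S.D b (S.U F b c))) := by
    rw [J, s, dx_sum]
    refine sum_congr rfl fun b _ => ?_
    rw [dx_sub, dx_mul, h1]
  have h3 : ∑ b, (if m = b then (1 : A) else 0) * S.U F b c = S.U F m c := by simp
  rw [h2, ← h3, ← sum_sub_distrib, ← sum_add_distrib]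
  refine sum_congr rfl fun b _ => ?_
  rw [dx_D]
  ring

/-- `Γ`-term. -/
theorem star1 (F : A) :
    S.E (∑ m, ∑ c, ∑ b, S.dx m (S.U F b c) * S.D m (S.U F c b))
      = S.E (∑ m, ∑ c, (S.J F m c - S.U F m c
          + ∑ b, ∑ k, S.Γ k m b * S.dx k (S.U F b c)) * S.U F c m) := by
  rw [map_sum, map_sum]
  refine sum_congr rfl fun m _ => ?_
  rw [map_sum, map_sum]
  refine sum_congr rfl fun c _ => ?_
  have h : ∑ b, S.dx m (S.U F b c) * S.D m (S.U F c b)
      = ∑ b, S.dx m (S.U F b c) * S.D b (S.U F c m) := by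
    refine sum_congr rfl fun b _ => ?_
    rw [S.U_D]
  rw [h, S.parts, S.Jform]

/-- entrywise derivative of a matrix. -/
def dM (m : Fin n) (X : Matrix (Fin n) (Fin n) A) : Matrix (Fin n) (Fin n) A :=
  fun i j => S.D m (X i j)

lemma dM_mul (m : Fin n) (X Y : Matrix (Fin n) (Fin n) A) :
    S.dM m (X * Y) = S.dM m X * Y + X * S.dM m Y := by
  ext i j
  simp only [dM, Matrix.mul_apply, Matrix.add_apply, map_sum, Derivation.leibniz, smul_eq_mul]
  rw [← sum_add_distrib]
  refine sum_congr rfl fun k _ => ?_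
  ring

lemma dM_g (m : Fin n) : S.dM m S.g = - (S.g * S.dM m S.T * S.g) := by
  ext i j
  rw [Matrix.neg_apply, Matrix.mul_assoc, Matrix.mul_apply]
  rw [show S.dM m S.g i j = S.D m (S.g i j) from rfl, S.Dg]
  congr 1
  refine sum_congr rfl fun l _ => ?_
  rw [Matrix.mul_apply, mul_sum]
  refine sum_congr rfl fun k _ => ?_
  rw [dM]
  ring

/-- connection matrix. -/
def Γm (m : Fin n) : Matrix (Fin n) (Fin n) A := S.g * S.dM m S.T

lemma Γm_apply (m c i : Fin n) : S.Γm m c i = S.Γ m c i := by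
  rw [Γm, Matrix.mul_apply, Γ]
  rfl

lemma TU_mat (F : A) : (S.U F)ᵀ * S.T = S.T * S.U F := by
  ext a b
  rw [Matrix.mul_apply, Matrix.mul_apply, S.TU_symm F a b]
  refine sum_congr rfl fun c _ => ?_
  rw [Matrix.transpose_apply, S.T_symm c b]
  ring

lemma U_eq (F : A) : S.g * (S.U F)ᵀ * S.T = S.U F := by
  rw [Matrix.mul_assoc, TU_mat, ← Matrix.mul_assoc, gT, Matrix.one_mul]

lemma gU_eq (F : A) : S.g * (S.U F)ᵀ = S.U F * S.g := by
  calc S.g * (S.U F)ᵀ = S.g * (S.U F)ᵀ * (S.T * S.g) := by rw [Tg, Matrix.mul_one]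
    _ = (S.g * (S.U F)ᵀ * S.T) * S.g := by simp only [Matrix.mul_assoc]
    _ = S.U F * S.g := by rw [U_eq]

/-- `W_m = g (D_m U)ᵀ T`. -/
def W (m : Fin n) (F : A) : Matrix (Fin n) (Fin n) A := S.g * (S.dM m (S.U F))ᵀ * S.T

lemma cov (m : Fin n) (F : A) :
    S.W m F = S.dM m (S.U F) + S.Γm m * S.U F - S.U F * S.Γm m := by
  have h := congrArg (S.dM m) (S.U_eq F)
  rw [dM_mul, dM_mul, dM_g] at h
  have h1 : S.dM m (S.U F)ᵀ = (S.dM m (S.U F))ᵀ := by
    ext i j; rfl
  rw [h1] at h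
  have h2 : -(S.g * S.dM m S.T * S.g) * (S.U F)ᵀ * S.T = -(S.Γm m * S.U F) := by
    rw [Γm]
    calc -(S.g * S.dM m S.T * S.g) * (S.U F)ᵀ * S.T
        = -(S.g * S.dM m S.T * (S.g * (S.U F)ᵀ * S.T)) := by
          simp only [Matrix.neg_mul, Matrix.mul_assoc]
      _ = _ := by rw [U_eq]
  have h3 : S.g * (S.U F)ᵀ * S.dM m S.T = S.U F * S.Γm m := by
    rw [gU_eq, Γm, Matrix.mul_assoc]
  rw [Matrix.add_mul, h2, h3] at h
  rw [W]
  calc S.g * (S.dM m (S.U F))ᵀ * S.T
      = (-(S.Γm m * S.U F) + S.g * (S.dM m (S.U F))ᵀ * S.T + S.U F * S.Γm m)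
          + S.Γm m * S.U F - S.U F * S.Γm m := by abel
    _ = _ := by rw [h]

omit [Algebra ℝ A] in
lemma sum4_a (f : Fin n → Fin n → Fin n → Fin n → A) :
    ∑ c, ∑ i, ∑ b, ∑ k, f c i b k = ∑ k, ∑ c, ∑ b, ∑ i, f c i b k := by
  calc ∑ c, ∑ i, ∑ b, ∑ k, f c i b k = ∑ c, ∑ k, ∑ b, ∑ i, f c i b k := by
        refine sum_congr rfl fun c _ => ?_
        rw [sum_comm]
        have : ∀ b, ∑ i, ∑ k, f c i b k = ∑ k, ∑ i, f c i b k := fun b => sum_comm
        simp only [this]
        rw [sum_comm]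
    _ = _ := sum_comm

omit [Algebra ℝ A] in
lemma sum4_b (f : Fin n → Fin n → Fin n → Fin n → A) :
    ∑ m, ∑ c, ∑ b, ∑ k, f m c b k = ∑ k, ∑ c, ∑ b, ∑ m, f m c b k := by
  rw [sum_comm]
  calc ∑ c, ∑ m, ∑ b, ∑ k, f m c b k = ∑ c, ∑ k, ∑ b, ∑ m, f m c b k := by
        refine sum_congr rfl fun c _ => ?_
        rw [sum_comm]
        have : ∀ b, ∑ m, ∑ k, f m c b k = ∑ k, ∑ m, f m c b k := fun b => sum_comm
        simp only [this]
        rw [sum_comm]
    _ = _ := sum_comm

/-- Second-order remainder, algebraic form. -/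
def Rem (F : A) : A :=
  ∑ m, ∑ i, ∑ b, (S.W m F i b + S.D m (S.U F i b)) * S.dx m (S.U F b i)

/-- The key identity. -/
theorem key (F : A) :
    S.E (∑ a, ∑ b, S.J F a b * S.J F b a) - S.E (S.Cc F)
      = S.E (∑ a, ∑ b, (S.J F a b - S.U F a b) * (S.J F b a - S.U F b a)) + S.E (S.Rem F) := by
  have hI := S.formI F
  have hS := S.star1 F
  -- GamE in two forms
  have hG : ∑ c, ∑ i, ∑ b, S.dx c (S.U F i b) * S.D i (S.U F b c)
      = ∑ m, ∑ c, ∑ b, S.dx m (S.U F b c) * S.D m (S.U F c b) := by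
    refine sum_congr rfl fun m _ => ?_
    rw [sum_comm]
    refine sum_congr rfl fun c _ => sum_congr rfl fun b _ => ?_
    rw [S.U_D F b c m]
  rw [hG] at hI
  -- expand Rem
  have hR : S.Rem F = (∑ m, ∑ c, ∑ b, S.dx m (S.U F b c) * S.D m (S.U F c b))
      + (∑ m, ∑ c, ∑ b, S.dx m (S.U F b c) * S.D m (S.U F c b))
      + (∑ c, ∑ i, ∑ b, S.U F i b * ∑ k, S.Γ k c i * S.dx k (S.U F b c))
      - (∑ m, ∑ c, ∑ b, ∑ k, S.Γ k m b * S.dx k (S.U F b c) * S.U F c m) := by
    have e1 : (∑ c, ∑ i, ∑ b, S.U F i b * ∑ k, S.Γ k c i * S.dx k (S.U F b c))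
        = ∑ m, ∑ i, ∑ b, (S.Γm m * S.U F) i b * S.dx m (S.U F b i) := by
      simp only [Matrix.mul_apply, Γm_apply, mul_sum, sum_mul]
      rw [sum4_a]
      refine sum_congr rfl fun m _ => sum_congr rfl fun i _ => sum_congr rfl fun b _ =>
        sum_congr rfl fun j _ => ?_
      ring
    have e2 : (∑ m, ∑ c, ∑ b, ∑ k, S.Γ k m b * S.dx k (S.U F b c) * S.U F c m)
        = ∑ m, ∑ i, ∑ b, (S.U F * S.Γm m) i b * S.dx m (S.U F b i) := by
      simp only [Matrix.mul_apply, Γm_apply, sum_mul]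
      rw [sum4_b]
      refine sum_congr rfl fun m _ => sum_congr rfl fun i _ => sum_congr rfl fun b _ =>
        sum_congr rfl fun j _ => ?_
      ring
    rw [e1, e2, Rem, ← sum_add_distrib, ← sum_add_distrib, ← sum_sub_distrib]
    refine sum_congr rfl fun m _ => ?_
    rw [← sum_add_distrib, ← sum_add_distrib, ← sum_sub_distrib]
    refine sum_congr rfl fun i _ => ?_
    rw [← sum_add_distrib, ← sum_add_distrib, ← sum_sub_distrib]
    refine sum_congr rfl fun b _ => ?_
    rw [cov, Matrix.sub_apply, Matrix.add_apply]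
    rw [show S.dM m (S.U F) i b = S.D m (S.U F i b) from rfl]
    ring
  have hS' : S.E (∑ m, ∑ c, ∑ b, S.dx m (S.U F b c) * S.D m (S.U F c b))
      = S.E (∑ c, ∑ b, S.J F c b * S.U F b c) - S.E (∑ a, ∑ b, S.U F a b * S.U F b a)
        + S.E (∑ m, ∑ c, ∑ b, ∑ k, S.Γ k m b * S.dx k (S.U F b c) * S.U F c m) := by
    rw [hS, ← map_sub, ← map_add]
    congr 1
    rw [← sum_sub_distrib, ← sum_add_distrib]
    refine sum_congr rfl fun m _ => ?_
    rw [← sum_sub_distrib, ← sum_add_distrib]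
    refine sum_congr rfl fun c _ => ?_
    simp only [add_mul, sub_mul, sum_mul]
  have hQ : S.E (∑ a, ∑ b, (S.J F a b - S.U F a b) * (S.J F b a - S.U F b a))
      = S.E (∑ a, ∑ b, S.J F a b * S.J F b a) - 2 * S.E (∑ c, ∑ b, S.J F c b * S.U F b c)
        + S.E (∑ a, ∑ b, S.U F a b * S.U F b a) := by
    have e : ∑ a, ∑ b, (S.J F a b - S.U F a b) * (S.J F b a - S.U F b a)
        = ∑ a, ∑ b, S.J F a b * S.J F b a - ∑ c, ∑ b, S.J F c b * S.U F b c
          - ∑ c, ∑ b, S.J F c b * S.U F b c + ∑ a, ∑ b, S.U F a b * S.U F b a := by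
      have e3 : ∑ c, ∑ b, S.J F c b * S.U F b c = ∑ a, ∑ b, S.U F a b * S.J F b a := by
        rw [sum_comm]
        refine sum_congr rfl fun a _ => sum_congr rfl fun b _ => ?_
        ring
      conv_rhs => rw [sub_eq_add_neg (∑ a, ∑ b, S.J F a b * S.J F b a - _), e3]
      rw [← sub_eq_add_neg, ← e3]
      conv_rhs =>
        arg 1
        arg 2
        rw [e3]
      rw [← sum_sub_distrib, ← sum_sub_distrib, ← sum_add_distrib]
      refine sum_congr rfl fun a _ => ?_
      rw [← sum_sub_distrib, ← sum_sub_distrib, ← sum_add_distrib]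
      refine sum_congr rfl fun b _ => ?_
      ring
    rw [e, map_add, map_sub, map_sub]
    ring
  rw [hQ, hR, map_sub, map_add, map_add, hI]
  linear_combination (-1 : ℝ) * hS'

/-! ### other identities -/

/-- Hessian of the potential in `x`-coordinates. -/
def H (a c : Fin n) : A := S.dx a (S.V c)

/-- `M = T U = T N T`. -/
def M (F : A) : Matrix (Fin n) (Fin n) A := S.T * S.U F

lemma M_symm (F : A) (a b : Fin n) : S.M F a b = S.M F b a := by
  rw [M, Matrix.mul_apply, Matrix.mul_apply, S.TU_symm]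

lemma U_D_eq (F : A) (b : Fin n) (f : A) :
    ∑ i, S.U F i b * S.D i f = ∑ a, S.M F a b * S.dx a f := by
  have h : ∀ i, S.D i f = ∑ a, S.T i a * S.dx a f := fun i => (S.T_dx i f).symm
  calc ∑ i, S.U F i b * S.D i f = ∑ i, ∑ a, S.T a i * S.U F i b * S.dx a f := by
        refine sum_congr rfl fun i _ => ?_
        rw [h, mul_sum]
        refine sum_congr rfl fun a _ => ?_
        rw [S.T_symm i a]
        ring
    _ = _ := by
        rw [sum_comm]
        refine sum_congr rfl fun a _ => ?_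
        rw [M, Matrix.mul_apply, sum_mul]

/-- `C = ∑ H_{ac} (M U)_{ac}`. -/
lemma Cc_eq (F : A) : S.Cc F = ∑ a, ∑ c, S.H a c * (S.M F * S.U F) a c := by
  rw [Cc, sum_comm (s := univ) (t := univ) (f := fun a c => S.H a c * (S.M F * S.U F) a c)]
  refine sum_congr rfl fun c _ => ?_
  calc ∑ i, (∑ b, S.U F i b * S.U F b c) * S.D i (S.V c)
      = ∑ b, S.U F b c * ∑ i, S.U F i b * S.D i (S.V c) := by
        simp only [sum_mul, mul_sum]
        rw [sum_comm]
        refine sum_congr rfl fun b _ => sum_congr rfl fun i _ => ?_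
        ring
    _ = ∑ b, S.U F b c * ∑ a, S.M F a b * S.dx a (S.V c) := by
        refine sum_congr rfl fun b _ => ?_
        rw [S.U_D_eq]
    _ = ∑ a, S.H a c * (S.M F * S.U F) a c := by
        simp only [Matrix.mul_apply, mul_sum, H]
        rw [sum_comm]
        refine sum_congr rfl fun a _ => sum_congr rfl fun b _ => ?_
        ring

/-- (DIV): `E ⟨w, s⟩ = E ∑ M_ab dx_a w_b`. -/
theorem div_id (F : A) (w : Fin n → A) :
    S.E (∑ b, w b * S.s F b) = S.E (∑ a, ∑ b, S.M F a b * S.dx a (w b)) := by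
  rw [sum_comm]
  simp only [← S.U_D_eq]
  rw [map_sum, map_sum]
  refine sum_congr rfl fun b _ => ?_
  rw [S.parts, s, mul_comm]

/-- (STEIN): `E ⟨w, x⟩ = E ∑ T_ab dx_a w_b`. -/
theorem stein (w : Fin n → A) :
    S.E (∑ b, w b * S.D b S.φ) = S.E (∑ a, ∑ b, S.T a b * S.dx a (w b)) := by
  rw [sum_comm]
  have h : ∀ b, ∑ a, S.T a b * S.dx a (w b) = S.D b (w b) := by
    intro b
    rw [← S.T_dx b (w b)]
    refine sum_congr rfl fun a _ => ?_
    rw [S.T_symm]
  simp only [h]
  rw [map_sum, map_sum]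
  refine sum_congr rfl fun b _ => ?_
  rw [S.ibp, mul_comm]

/-- divergence of a field. -/
def dlt (v : Fin n → A) : A := ∑ c, (S.V c * v c - S.dx c (v c))

theorem dlt_adj (v : Fin n → A) (f : A) :
    S.E (f * S.dlt v) = S.E (∑ c, v c * S.dx c f) := by
  rw [dlt, mul_sum, map_sum, map_sum]
  refine sum_congr rfl fun c _ => ?_
  have h := S.EV c (f * v c)
  rw [dx_mul, map_add] at h
  have e : S.E (f * (S.V c * v c - S.dx c (v c)))
      = S.E (S.V c * (f * v c)) - S.E (f * S.dx c (v c)) := by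
    rw [← map_sub]; congr 1; ring
  rw [e, ← h, mul_comm (v c)]
  ring

/-- (BOCH): `E (δv)² = E ⟨H v, v⟩ + E tr (Dv)²`. -/
theorem bochner (v : Fin n → A) :
    S.E (S.dlt v * S.dlt v) = S.E (∑ c, ∑ a, S.H c a * v a * v c)
      + S.E (∑ c, ∑ a, S.dx a (v c) * S.dx c (v a)) := by
  rw [S.dlt_adj v (S.dlt v)]
  have e1 : ∑ c, v c * S.dx c (S.dlt v)
      = ∑ c, ∑ a, S.H c a * v a * v c
        + (∑ c, ∑ a, S.V a * (v c * S.dx c (v a)) - ∑ c, ∑ a, v c * S.dx a (S.dx c (v a))) := by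
    rw [← sum_sub_distrib, ← sum_add_distrib]
    refine sum_congr rfl fun c _ => ?_
    rw [← sum_sub_distrib, ← sum_add_distrib, dlt, dx_sum, mul_sum]
    refine sum_congr rfl fun a _ => ?_
    rw [dx_sub, dx_mul, S.dx_comm c a, H]
    ring
  have e2 : S.E (∑ c, ∑ a, S.V a * (v c * S.dx c (v a)))
      = S.E (∑ c, ∑ a, S.dx a (v c) * S.dx c (v a)) + S.E (∑ c, ∑ a, v c * S.dx a (S.dx c (v a))) := by
    rw [← map_add, ← sum_add_distrib]
    simp only [← sum_add_distrib]
    simp only [map_sum]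
    refine sum_congr rfl fun c _ => sum_congr rfl fun a _ => ?_
    rw [← S.EV, dx_mul]
  rw [e1, map_add, map_sub, e2]
  ring

/-- `δ (grad_y u) = - L u`. -/
lemma dlt_grad (u : A) : S.dlt (fun b => S.D b u) = -S.L u := by
  have h1 : ∑ b, S.D b (S.dx b u) = ∑ b, ∑ c, S.D b (S.g b c) * S.D c u
      + ∑ b, S.dx b (S.D b u) := by
    rw [← sum_add_distrib]
    refine sum_congr rfl fun b _ => ?_
    simp only [dx, map_sum, Derivation.leibniz, smul_eq_mul]
    rw [← sum_add_distrib]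
    refine sum_congr rfl fun c _ => ?_
    rw [S.comm b c]
    ring
  have h2 : ∑ c, S.V c * S.D c u = ∑ b, S.D b S.φ * S.dx b u
      - ∑ b, ∑ c, S.D b (S.g b c) * S.D c u := by
    have : ∑ c, S.V c * S.D c u = ∑ c, ∑ b, (S.D b S.φ * S.g b c - S.D b (S.g b c)) * S.D c u :=
      sum_congr rfl fun c _ => by rw [V, sum_mul]
    rw [this, sum_comm, ← sum_sub_distrib]
    refine sum_congr rfl fun b _ => ?_
    rw [dx, mul_sum, ← sum_sub_distrib]
    refine sum_congr rfl fun c _ => ?_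
    ring
  rw [dlt, L, sum_sub_distrib, sum_sub_distrib, h1, h2]
  ring

lemma J_eq (F : A) (c b : Fin n) : S.J F c b = ∑ a, S.g c a * S.D a (S.D b (S.u F)) := by
  rw [J, dx]
  refine sum_congr rfl fun a _ => ?_
  rw [s_eq]

/-- `D²u`, the matrix `D_a D_b u`. -/
def Hu (F : A) : Matrix (Fin n) (Fin n) A := fun a b => S.D a (S.D b (S.u F))

/-- `J - U = g (D²u - M)`. -/
lemma J_sub_U (F : A) :
    S.J F - S.U F = S.g * (S.Hu F - S.M F) := by
  rw [Matrix.mul_sub, M, ← Matrix.mul_assoc, gT, Matrix.one_mul]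
  congr 1
  ext c b
  rw [S.J_eq, Matrix.mul_apply]
  rfl

lemma dx_D_symm (f h : A) : ∑ c, S.dx c f * S.D c h = ∑ c, S.D c f * S.dx c h := by
  simp only [dx, sum_mul, mul_sum]
  rw [sum_comm]
  refine sum_congr rfl fun b _ => sum_congr rfl fun c _ => ?_
  rw [S.g_symm c b]
  ring

/-- `E (h L f) = - E ∑ D_c h dx_c f`. -/
theorem L_adj (h f : A) : S.E (h * S.L f) = - S.E (∑ c, S.dx c f * S.D c h) := by
  rw [S.parts]
  rw [← map_neg]
  congr 1
  rw [L, mul_sum, sum_mul, ← sum_neg_distrib]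
  refine sum_congr rfl fun i _ => ?_
  ring

theorem L_symm (h f : A) : S.E (h * S.L f) = S.E (f * S.L h) := by
  rw [S.L_adj, S.L_adj, S.dx_D_symm]
  congr 2
  refine sum_congr rfl fun c _ => ?_
  ring

/-- (STAR): exact form of 981's inequality. -/
theorem star (F : A) :
    S.E (S.Cc F) + S.E (S.Rem F)
      = 2 * S.E (∑ c, ∑ b, S.J F c b * S.U F b c) - S.E (∑ a, ∑ b, S.U F a b * S.U F b a) := by
  have hk := S.key F
  have hQ : S.E (∑ a, ∑ b, (S.J F a b - S.U F a b) * (S.J F b a - S.U F b a))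
      = S.E (∑ a, ∑ b, S.J F a b * S.J F b a) - 2 * S.E (∑ c, ∑ b, S.J F c b * S.U F b c)
        + S.E (∑ a, ∑ b, S.U F a b * S.U F b a) := by
    have e3 : ∑ a, ∑ b, S.U F a b * S.J F b a = ∑ c, ∑ b, S.J F c b * S.U F b c := by
      rw [sum_comm]
      refine sum_congr rfl fun a _ => sum_congr rfl fun b _ => ?_
      ring
    have e : ∑ a, ∑ b, (S.J F a b - S.U F a b) * (S.J F b a - S.U F b a)
        = ∑ a, ∑ b, S.J F a b * S.J F b a - ∑ c, ∑ b, S.J F c b * S.U F b c
          - ∑ a, ∑ b, S.U F a b * S.J F b a + ∑ a, ∑ b, S.U F a b * S.U F b a := by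
      rw [← sum_sub_distrib, ← sum_sub_distrib, ← sum_add_distrib]
      refine sum_congr rfl fun a _ => ?_
      rw [← sum_sub_distrib, ← sum_sub_distrib, ← sum_add_distrib]
      refine sum_congr rfl fun b _ => ?_
      ring
    rw [e, e3, map_add, map_sub, map_sub]
    ring
  linear_combination (-1 : ℝ) * hk - hQ

/-- `E tr(JU) = - E ∑ s_b L(dx_b F)`. -/
theorem trJU (F : A) :
    S.E (∑ c, ∑ b, S.J F c b * S.U F b c) = - S.E (∑ b, S.s F b * S.L (S.dx b F)) := by
  rw [sum_comm, map_sum, map_sum, ← sum_neg_distrib]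
  refine sum_congr rfl fun b _ => ?_
  rw [S.L_adj, neg_neg]
  congr 1
  have h := S.dx_D_symm (S.s F b) (S.dx b F)
  rw [show ∑ c, S.dx c (S.dx b F) * S.D c (S.s F b) = ∑ c, S.D c (S.s F b) * S.dx c (S.dx b F) from
    sum_congr rfl fun c _ => by ring, ← h]
  refine sum_congr rfl fun c _ => ?_
  rw [U, J]

end HData

/-! ### pointwise positivity -/

section real

variable {n : ℕ}

lemma tr_sq_nonneg (Z : Matrix (Fin n) (Fin n) ℝ) (hZ : Zᵀ = Z) : 0 ≤ (Z * Z).trace := by
  have h : (Z * Z).trace = ∑ i, ∑ j, Z i j * Z i j := by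
    rw [Matrix.trace]
    refine sum_congr rfl fun i _ => ?_
    rw [Matrix.diag_apply, Matrix.mul_apply]
    refine sum_congr rfl fun j _ => ?_
    have := congrFun (congrFun hZ i) j
    rw [Matrix.transpose_apply] at this
    rw [this]
  rw [h]
  exact sum_nonneg fun i _ => sum_nonneg fun j _ => mul_self_nonneg _

/-- `tr (g Y g Y) ≥ 0`. -/
lemma tr_gYgY_nonneg (B Y : Matrix (Fin n) (Fin n) ℝ) (hY : Yᵀ = Y) :
    0 ≤ ((Bᵀ * B) * Y * ((Bᵀ * B) * Y)).trace := by
  have h : ((Bᵀ * B) * Y * ((Bᵀ * B) * Y)).trace = ((B * Y * Bᵀ) * (B * Y * Bᵀ)).trace := by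
    calc ((Bᵀ * B) * Y * ((Bᵀ * B) * Y)).trace = (Bᵀ * (B * Y * Bᵀ * B * Y)).trace := by
          simp only [Matrix.mul_assoc]
      _ = ((B * Y * Bᵀ * B * Y) * Bᵀ).trace := Matrix.trace_mul_comm _ _
      _ = _ := by simp only [Matrix.mul_assoc]
  rw [h]
  apply tr_sq_nonneg
  simp only [Matrix.transpose_mul, Matrix.transpose_transpose, hY, Matrix.mul_assoc]

/-- the second-order remainder is pointwise nonnegative. -/
theorem rem_nonneg (B g T : Matrix (Fin n) (Fin n) ℝ) (hg : g = Bᵀ * B) (hT : T * g = 1)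
    (X : Fin n → Matrix (Fin n) (Fin n) ℝ) :
    0 ≤ ∑ m, ∑ i, ∑ b, ((g * (X m)ᵀ * T) i b + X m i b) * ∑ k, g m k * X k b i := by
  have hgs : gᵀ = g := by rw [hg, Matrix.transpose_mul, Matrix.transpose_transpose]
  have hTg : g * T = 1 := mul_eq_one_comm.mp hT
  have hTs : Tᵀ = T := by
    have h1 : Tᵀ * g = 1 := by
      have h := congrArg Matrix.transpose hTg
      rw [Matrix.transpose_mul, hgs, Matrix.transpose_one] at h
      exact h
    calc Tᵀ = Tᵀ * (g * T) := by rw [hTg, Matrix.mul_one]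
      _ = (Tᵀ * g) * T := by rw [Matrix.mul_assoc]
      _ = T := by rw [h1, Matrix.one_mul]
  set Z : Fin n → Matrix (Fin n) (Fin n) ℝ := fun m => g * (X m)ᵀ * T + X m with hZ
  set Y : Fin n → Matrix (Fin n) (Fin n) ℝ := fun m => T * X m + (X m)ᵀ * T with hY
  have hYs : ∀ m, (Y m)ᵀ = Y m := by
    intro m
    simp only [hY, Matrix.transpose_add, Matrix.transpose_mul, Matrix.transpose_transpose, hTs]
    abel
  have hZY : ∀ m, Z m = g * Y m := by
    intro m
    simp only [hZ, hY, Matrix.mul_add, ← Matrix.mul_assoc, hTg, Matrix.one_mul]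
    abel
  have htr : ∀ m k, (Z m * Z k).trace = 2 * (Z m * X k).trace := by
    intro m k
    have h1 : (Z m * (g * (X k)ᵀ * T)).trace = (Z m * X k).trace := by
      have a1 : (X m * (g * (X k)ᵀ * T)).trace = (g * (X m)ᵀ * T * X k).trace := by
        rw [← Matrix.trace_transpose (X m * (g * (X k)ᵀ * T))]
        simp only [Matrix.transpose_mul, Matrix.transpose_transpose, hTs, hgs]
        calc (T * (X k * g) * (X m)ᵀ).trace = (T * (X k * g * (X m)ᵀ)).trace := by
              simp only [Matrix.mul_assoc]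
          _ = ((X k * g * (X m)ᵀ) * T).trace := Matrix.trace_mul_comm _ _
          _ = (X k * (g * (X m)ᵀ * T)).trace := by simp only [Matrix.mul_assoc]
          _ = _ := Matrix.trace_mul_comm _ _
      have a2 : (g * (X m)ᵀ * T * (g * (X k)ᵀ * T)).trace = (X m * X k).trace := by
        calc (g * (X m)ᵀ * T * (g * (X k)ᵀ * T)).trace
            = (g * ((X m)ᵀ * (T * g) * (X k)ᵀ * T)).trace := by simp only [Matrix.mul_assoc]
          _ = ((X m)ᵀ * (T * g) * (X k)ᵀ * T * g).trace := Matrix.trace_mul_comm _ _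
          _ = ((X m)ᵀ * (X k)ᵀ).trace := by
              rw [hT, Matrix.mul_one, Matrix.mul_assoc _ T g, hT, Matrix.mul_one]
          _ = ((X k * X m)ᵀ).trace := by rw [Matrix.transpose_mul]
          _ = (X k * X m).trace := Matrix.trace_transpose _
          _ = _ := Matrix.trace_mul_comm _ _
      rw [show Z m = g * (X m)ᵀ * T + X m from rfl, Matrix.add_mul, Matrix.add_mul,
        Matrix.trace_add, Matrix.trace_add, a1, a2]
      ring
    rw [show Z k = g * (X k)ᵀ * T + X k from rfl, Matrix.mul_add, Matrix.trace_add, h1]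
    ring
  have hq : ∑ m, ∑ i, ∑ b, ((g * (X m)ᵀ * T) i b + X m i b) * ∑ k, g m k * X k b i
      = ∑ m, ∑ k, g m k * (Z m * X k).trace := by
    refine sum_congr rfl fun m _ => ?_
    have : ∀ k, g m k * (Z m * X k).trace = ∑ i, ∑ b, g m k * (Z m i b * X k b i) := by
      intro k
      rw [Matrix.trace, mul_sum]
      refine sum_congr rfl fun i _ => ?_
      rw [Matrix.diag_apply, Matrix.mul_apply, mul_sum]
    simp only [this]
    calc ∑ i, ∑ b, ((g * (X m)ᵀ * T) i b + X m i b) * ∑ k, g m k * X k b i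
        = ∑ i, ∑ b, ∑ k, g m k * (Z m i b * X k b i) := by
          refine sum_congr rfl fun i _ => sum_congr rfl fun b _ => ?_
          rw [mul_sum]
          refine sum_congr rfl fun k _ => ?_
          rw [show Z m i b = (g * (X m)ᵀ * T) i b + X m i b from rfl]
          ring
      _ = ∑ i, ∑ k, ∑ b, g m k * (Z m i b * X k b i) :=
          sum_congr rfl fun i _ => sum_comm
      _ = _ := sum_comm
  have hgB : ∀ m k, g m k = ∑ l, B l m * B l k := by
    intro m k
    rw [hg, Matrix.mul_apply]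
    rfl
  have hfin : ∑ m, ∑ k, g m k * (Z m * Z k).trace
      = ∑ l, ((∑ m, B l m • Z m) * (∑ k, B l k • Z k)).trace := by
    have e : ∀ l, ((∑ m, B l m • Z m) * (∑ k, B l k • Z k)).trace
        = ∑ m, ∑ k, B l m * B l k * (Z m * Z k).trace := by
      intro l
      rw [Matrix.sum_mul, Matrix.trace_sum]
      refine sum_congr rfl fun m _ => ?_
      rw [Matrix.mul_sum, Matrix.trace_sum]
      refine sum_congr rfl fun k _ => ?_
      rw [Matrix.smul_mul, Matrix.mul_smul, Matrix.trace_smul, Matrix.trace_smul,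
        smul_eq_mul, smul_eq_mul]
      ring
    simp only [e]
    calc ∑ m, ∑ k, g m k * (Z m * Z k).trace
        = ∑ m, ∑ k, ∑ l, B l m * B l k * (Z m * Z k).trace := by
          refine sum_congr rfl fun m _ => sum_congr rfl fun k _ => ?_
          rw [hgB, sum_mul]
      _ = ∑ m, ∑ l, ∑ k, B l m * B l k * (Z m * Z k).trace :=
          sum_congr rfl fun m _ => sum_comm
      _ = _ := sum_comm
  have hpos : ∀ l, 0 ≤ ((∑ m, B l m • Z m) * (∑ k, B l k • Z k)).trace := by
    intro l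
    have e : ∑ m, B l m • Z m = (Bᵀ * B) * ∑ m, B l m • Y m := by
      rw [Matrix.mul_sum]
      refine sum_congr rfl fun m _ => ?_
      rw [hZY, hg, Matrix.mul_smul]
    rw [e]
    apply tr_gYgY_nonneg
    rw [Matrix.transpose_sum]
    refine sum_congr rfl fun m _ => ?_
    rw [Matrix.transpose_smul, hYs]
  have h2 : ∑ m, ∑ k, g m k * (Z m * Z k).trace = 2 * ∑ m, ∑ k, g m k * (Z m * X k).trace := by
    rw [mul_sum]
    refine sum_congr rfl fun m _ => ?_
    rw [mul_sum]
    refine sum_congr rfl fun k _ => ?_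
    rw [htr]
    ring
  rw [hq]
  have h3 : 0 ≤ ∑ m, ∑ k, g m k * (Z m * Z k).trace := by
    rw [hfin]
    exact sum_nonneg fun l _ => hpos l
  linarith

end real
end P227ID519
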