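import Vale.Agent.P227.M.ID.K.AlgQ848

/-! # P227/M/ID : pointwise algebra in the form of helper940 (helper848) -/

namespace Vale.Agent.P227.M.ID

/-- the pointwise inequality, form of helper940 -/
theorem alg940 {n : ℕ} {t N Y : Fin n → Fin n → ℝ} {dt N3 dY : Fin n → Fin n → Fin n → ℝ}
    (ht : (Matrix.of t).PosDef) (hN : ∀ a b, N a b = N b a)
    (hN1 : ∀ a b c, N3 a b c = N3 b a c) (hN2 : ∀ a b c, N3 a b c = N3 a c b)
    (hdt : ∀ k a b, dt k a b = dt k b a)
    (hc : ∀ a b c, ∑ k, t a k * dt k b c = ∑ k, t b k * dt k a c)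
    (hY : ∀ b e, Y b e = ∑ c, t b c * N c e)
    (hdY : ∀ k b e, dY k b e = ∑ c, (dt k b c * N c e + t b c * N3 k c e)) :
    0 ≤ (∑ c, ∑ b, ∑ e, dY c b e * ∑ l, t e l * dY l c b) +
      (∑ c, ∑ b, ∑ e, ∑ k, Y b e * dt c e k * dY k c b) +
      (∑ c, ∑ e, ∑ b, (∑ k, t c k * N3 k e b) * (∑ l, t e l * dY l b c)) := by
  have hdet : IsUnit (Matrix.of t).det := (Matrix.isUnit_iff_isUnit_det _).1 ht.isUnit
  have hXX : ∀ k b e, K814.XX (Matrix.of t) (Matrix.of N) (fun k => Matrix.of (dt k))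
      (fun k => Matrix.of (N3 k)) k b e = dY k b e := by
    intro k b e
    rw [hdY, Finset.sum_add_distrib]
    unfold K814.XX
    rw [Matrix.add_apply, Matrix.mul_apply, Matrix.mul_apply]
    rfl
  have hU : ∀ b e, (Matrix.of t * Matrix.of N) b e = Y b e := by
    intro b e
    rw [hY, Matrix.mul_apply]
    rfl
  have h := K814.algQ848 n (Matrix.of t) (Matrix.of t)⁻¹ (Matrix.of N) (fun k => Matrix.of (dt k))
    (fun k => Matrix.of (N3 k)) ht (Matrix.mul_nonsing_inv _ hdet)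
    (by ext a b; exact hN b a) (fun k => by ext a b; exact hdt k b a) hc
    (fun a b c => hN1 a b c) (fun k => by ext a b; exact hN2 k b a)
  simp only [hXX, hU, Finset.sum_add_distrib] at h
  have e1 : ∑ a, ∑ b, ∑ d, (∑ e, Matrix.of t a e * dY e b d) *
      (∑ f, Matrix.of t d f * Matrix.of (N3 f) a b) =
      ∑ c, ∑ e, ∑ b, (∑ k, t c k * N3 k e b) * (∑ l, t e l * dY l b c) := by
    symm
    rw [Finset.sum_comm]
    refine Finset.sum_congr rfl fun a _ => ?_
    rw [Finset.sum_comm]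
    refine Finset.sum_congr rfl fun b _ => Finset.sum_congr rfl fun d _ => ?_
    rw [mul_comm]
    rfl
  have e2 : ∑ a, ∑ b, ∑ d, (∑ f, Matrix.of t d f * dY f a b) * dY a b d =
      ∑ c, ∑ b, ∑ e, dY c b e * ∑ l, t e l * dY l c b := by
    refine Finset.sum_congr rfl fun a _ => Finset.sum_congr rfl fun b _ =>
      Finset.sum_congr rfl fun d _ => ?_
    rw [mul_comm]
    rfl
  have e3 : ∑ a, ∑ b, ∑ d, ∑ e, Matrix.of (dt a) d e * dY e a b * Y b d =
      ∑ c, ∑ b, ∑ e, ∑ k, Y b e * dt c e k * dY k c b := by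
    refine Finset.sum_congr rfl fun a _ => Finset.sum_congr rfl fun b _ =>
      Finset.sum_congr rfl fun d _ => Finset.sum_congr rfl fun e _ => ?_
    rw [Matrix.of_apply]
    ring
  rw [e1, e2, e3] at h
  linarith

end Vale.Agent.P227.M.ID
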