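import Vale.Agent.P227.M.ID.Alg

/-!
P227, block ID: the pointwise inequality in the x-space form of helper814.
-/

namespace Vale.Agent.P227.M.ID

open Finset

variable {I : Type*} [Fintype I]

theorem ax_sum4 (F : I → I → I → I → ℝ) :
    ∑ a, ∑ b, ∑ c, ∑ d, F a b c d = ∑ x : I × I × I × I, F x.1 x.2.1 x.2.2.1 x.2.2.2 := by
  simp only [Fintype.sum_prod_type]

theorem ax_sum5 (F : I → I → I → I → I → ℝ) :
    ∑ a, ∑ b, ∑ c, ∑ d, ∑ e, F a b c d e =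
      ∑ x : I × I × I × I × I, F x.1 x.2.1 x.2.2.1 x.2.2.2.1 x.2.2.2.2 := by
  simp only [Fintype.sum_prod_type]

theorem ax_sum6 (F : I → I → I → I → I → I → ℝ) :
    ∑ a, ∑ b, ∑ c, ∑ d, ∑ e, ∑ f, F a b c d e f =
      ∑ x : I × I × I × I × I × I, F x.1 x.2.1 x.2.2.1 x.2.2.2.1 x.2.2.2.2.1 x.2.2.2.2.2 := by
  simp only [Fintype.sum_prod_type]

/-- `W_{a;bd} s_ac W_{d;cb}` -/
theorem ax_one {s : I → I → ℝ} (hs : ∀ a b, s a b = s b a) (W : I → I → I → ℝ) :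
    ∑ a, ∑ b, ∑ c, ∑ d, W a b d * (s a c * W d c b) = tt2 s (fun d a b => W a b d) := by
  unfold tt2
  rw [ax_sum4, ax_sum4]
  refine Fintype.sum_equiv ⟨fun x => (x.2.2.1, x.1, x.2.2.2, x.2.1),
    fun y => (y.2.1, y.2.2.2, y.1, y.2.2.1), fun _ => rfl, fun _ => rfl⟩ _ _ fun x => ?_
  simp only [Equiv.coe_fn_mk]
  rw [hs x.2.2.1 x.1]
  ring

/-- `W_{d;ab} s_ac W_{c;bd}` -/
theorem ax_four {s : I → I → ℝ} (hs : ∀ a b, s a b = s b a) {W : I → I → I → ℝ}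
    (hW : ∀ a b d, W a b d = W b a d) :
    ∑ a, ∑ b, ∑ c, ∑ d, W d a b * (s a c * W c b d) = tt2 s (fun d a b => W a b d) := by
  unfold tt2
  rw [ax_sum4, ax_sum4]
  refine Fintype.sum_equiv ⟨fun x => (x.2.2.1, x.1, x.2.1, x.2.2.2),
    fun y => (y.2.1, y.2.2.1, y.1, y.2.2.2), fun _ => rfl, fun _ => rfl⟩ _ _ fun x => ?_
  simp only [Equiv.coe_fn_mk]
  rw [hs x.2.2.1 x.1, hW x.2.2.2 x.1 x.2.1, hW x.2.2.1 x.2.1 x.2.2.2]
  ring

/-- `W_{a;bd} s_ae T_def s_fg U_gb` -/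
theorem ax_two {s : I → I → ℝ} (hs : ∀ a b, s a b = s b a) {W T : I → I → I → ℝ}
    (hW : ∀ a b d, W a b d = W b a d) (hT1 : ∀ a b c, T a b c = T b a c)
    (hT2 : ∀ a b c, T a b c = T a c b) (U : I → I → ℝ) :
    ∑ a, ∑ b, ∑ d, ∑ e, ∑ f, W a b d * (s a e * T d e f * ∑ g, s f g * U g b) =
      tW2 s T (fun c j => U j c) (fun d a b => W a b d) := by
  unfold tW2
  simp only [Finset.mul_sum]
  rw [ax_sum6, ax_sum6]
  refine Fintype.sum_equiv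
    ⟨fun x => (x.2.1, x.2.2.2.2.2, x.2.2.1, x.1, x.2.2.2.1, x.2.2.2.2.1),
    fun y => (y.2.2.2.1, y.1, y.2.2.1, y.2.2.2.2.1, y.2.2.2.2.2, y.2.1), fun _ => rfl,
    fun _ => rfl⟩ _ _ fun x => ?_
  simp only [Equiv.coe_fn_mk]
  rw [hW x.2.1 x.1 x.2.2.1, hs x.2.2.2.2.2 x.2.2.2.2.1, hT1 x.2.2.1 x.2.2.2.1 x.2.2.2.2.1,
    hT2 x.2.2.2.1 x.2.2.1 x.2.2.2.2.1]
  ring

/-- `U_bd s_ap T_pde s_eq W_{q;ab}` -/
theorem ax_three {s : I → I → ℝ} (hs : ∀ a b, s a b = s b a) {W T : I → I → I → ℝ}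
    (hT1 : ∀ a b c, T a b c = T b a c) (hT2 : ∀ a b c, T a b c = T a c b) (U : I → I → ℝ) :
    ∑ a, ∑ b, ∑ d, ∑ e, ∑ p, ∑ q, U b d * (s a p * T p d e * s e q * W q a b) =
      tW s T (fun c j => U j c) (fun d a b => W a b d) := by
  unfold tW
  rw [ax_sum6, ax_sum6]
  refine Fintype.sum_equiv
    ⟨fun x => (x.2.1, x.2.2.2.2.2, x.1, x.2.2.1, x.2.2.2.1, x.2.2.2.2.1),
    fun y => (y.2.2.1, y.1, y.2.2.2.1, y.2.2.2.2.1, y.2.2.2.2.2, y.2.1), fun _ => rfl,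
    fun _ => rfl⟩ _ _ fun x => ?_
  simp only [Equiv.coe_fn_mk]
  rw [hs x.2.2.2.2.2 x.2.2.2.1, hT2 x.2.2.2.2.1 x.2.2.1 x.2.2.2.1,
    hT1 x.2.2.2.2.1 x.2.2.2.1 x.2.2.1]
  ring

variable [DecidableEq I]

/-- the pointwise inequality -/
theorem alg814 {M : Type*} [Fintype M] {tau s : I → I → ℝ} {A : M → I → ℝ}
    (hA : ∀ a b, s a b = ∑ m, A m a * A m b) (htau : ∀ a b, tau a b = tau b a)
    (hinv : ∀ a b, ∑ c, s a c * tau c b = if a = b then 1 else 0)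
    {T W : I → I → I → ℝ} (hT1 : ∀ a b c, T a b c = T b a c) (hT2 : ∀ a b c, T a b c = T a c b)
    (hW : ∀ a b d, W a b d = W b a d) {U N : I → I → ℝ} (hN : ∀ f b, N f b = ∑ g, s f g * U g b)
    (hK : ∀ b c, ∑ d, U b d * tau d c = ∑ d, U c d * tau d b)
    (hDK : ∀ a b c, ∑ d, (W a b d * tau d c + U b d * T a d c) =
      ∑ d, (W a c d * tau d b + U c d * T a d b)) :
    0 ≤ ∑ a, ∑ b, ∑ c, ∑ d, W a b d * (s a c * W d c b) -
        ∑ a, ∑ b, ∑ d, ∑ e, ∑ f, W a b d * (s a e * T d e f * N f b) +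
        ∑ a, ∑ b, ∑ d, ∑ e, ∑ p, ∑ q, U b d * (s a p * T p d e * s e q * W q a b) +
        ∑ a, ∑ b, ∑ c, ∑ d, W d a b * (s a c * W c b d) := by
  have hs : ∀ a b, s a b = s b a := by
    intro a b
    rw [hA, hA]
    exact Finset.sum_congr rfl fun m _ => mul_comm _ _
  simp only [hN]
  rw [ax_one hs, ax_two hs hW hT1 hT2, ax_three hs hT1 hT2, ax_four hs hW]
  have h1 := tW2_identity (tau := tau) (ti := s) hs htau hinv (p := T) hT1 hT2
    (X := fun c j => U j c) (Y := fun d a b => W a b d) ?_ ?_ ?_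
  · have h2 := tT2_add_tt2_nonneg (tau := tau) hA hinv (Y := fun d a b => W a b d) fun c j k =>
      hW j k c
    linarith
  · intro a b
    have h3 := hK b a
    have e1 : ∀ a b, ∑ c, tau a c * U b c = ∑ c, U b c * tau c a := fun a b =>
      Finset.sum_congr rfl fun c _ => by rw [htau a c, mul_comm]
    rw [e1 a b, e1 b a]
    exact h3
  · intro c j k
    exact hW j k c
  · intro i k j
    have h3 := hDK k j i
    have e1 : ∀ c, T i k c * U j c + tau i c * W j k c = W k j c * tau c i + U j c * T k c i := by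
      intro c
      rw [hW j k c, htau i c, hT1 i k c, hT2 k i c]
      ring
    have e2 : ∀ c, T j k c * U i c + tau j c * W i k c = W k i c * tau c j + U i c * T k c j := by
      intro c
      rw [hW i k c, htau j c, hT1 j k c, hT2 k j c]
      ring
    simp only [e1, e2]
    exact h3

end Vale.Agent.P227.M.ID
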