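import Vale.Agent.P227.M.Stmts
import Vale.Agent.P227.M.Dif.Grad

/-! # P227/M/ID: basic calculus of `pd`, `hess`, `tau` (helper294) -/

open MeasureTheory
open scoped Topology

namespace Vale.Agent.P227.M.B294

variable {n : ℕ}

lemma eq_sum_ei (v : E n) : v = ∑ i, v i • (ei i : E n) := by
  ext k
  simp [ei, Pi.single_apply]

lemma clm_apply {F : Type*} [NormedAddCommGroup F] [NormedSpace ℝ F] (L : E n →L[ℝ] F) (v : E n) :
    L v = ∑ i, v i • L (ei i) := by
  conv_lhs => rw [eq_sum_ei v]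
  simp [map_sum]

lemma fderiv_apply_eq (f : E n → ℝ) (x v : E n) : fderiv ℝ f x v = ∑ i, v i * pd i f x := by
  rw [clm_apply (fderiv ℝ f x) v]
  simp [pd]

lemma pd_add {f g : E n → ℝ} {x : E n} (i : Fin n) (hf : DifferentiableAt ℝ f x)
    (hg : DifferentiableAt ℝ g x) : pd i (fun z => f z + g z) x = pd i f x + pd i g x := by
  unfold pd
  rw [fderiv_fun_add hf hg]
  simp

lemma pd_mul {f g : E n → ℝ} {x : E n} (i : Fin n) (hf : DifferentiableAt ℝ f x)
    (hg : DifferentiableAt ℝ g x) :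
    pd i (fun z => f z * g z) x = f x * pd i g x + pd i f x * g x := by
  unfold pd
  rw [fderiv_fun_mul hf hg]
  simp [mul_comm]

lemma pd_sum {ι : Type*} {s : Finset ι} {f : ι → E n → ℝ} {x : E n} (i : Fin n)
    (hf : ∀ k ∈ s, DifferentiableAt ℝ (f k) x) :
    pd i (fun z => ∑ k ∈ s, f k z) x = ∑ k ∈ s, pd i (f k) x := by
  unfold pd
  rw [fderiv_fun_sum hf]
  simp

lemma pd_coord (i j : Fin n) (x : E n) : pd i (fun z : E n => z j) x = if j = i then 1 else 0 := by
  unfold pd
  have h : HasFDerivAt (fun z : E n => z j) (EuclideanSpace.proj j : E n →L[ℝ] ℝ) x :=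
    (EuclideanSpace.proj j : E n →L[ℝ] ℝ).hasFDerivAt
  rw [h.fderiv]
  simp [ei, Pi.single_apply]

/-- partial derivatives of `C^{k+1}` functions are `C^k` -/
lemma contDiff_pd {f : E n → ℝ} {m k : WithTop ℕ∞} (hf : ContDiff ℝ k f) (h : m + 1 ≤ k) (i : Fin n) :
    ContDiff ℝ m (pd i f) := by
  unfold pd
  exact (hf.fderiv_right h).clm_apply contDiff_const

lemma differentiable_pd {f : E n → ℝ} (hf : ContDiff ℝ 2 f) (i : Fin n) :
    Differentiable ℝ (pd i f) :=
  (contDiff_pd (m := 1) hf (by norm_num) i).differentiable (by norm_num)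

lemma hess_eq {f : E n → ℝ} (hf : ContDiff ℝ 2 f) (x : E n) (i j : Fin n) :
    hess f x i j = fderiv ℝ (fderiv ℝ f) x (ei i) (ei j) := by
  unfold hess pd
  have h : DifferentiableAt ℝ (fderiv ℝ f) x :=
    ((hf.fderiv_right (m := 1) (by norm_num)).differentiable (by norm_num)) x
  have := (h.hasFDerivAt.clm_apply (hasFDerivAt_const (ei j) x)).fderiv
  rw [this]
  simp

lemma hess_symm {f : E n → ℝ} (hf : ContDiff ℝ 2 f) (x : E n) (i j : Fin n) :
    hess f x i j = hess f x j i := by
  rw [hess_eq hf, hess_eq hf]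
  have h : IsSymmSndFDerivAt ℝ f x :=
    (hf.contDiffAt (x := x)).isSymmSndFDerivAt (by simp)
  exact h (ei i) (ei j)

lemma continuous_hess {f : E n → ℝ} (hf : ContDiff ℝ 2 f) (i j : Fin n) :
    Continuous (fun x => hess f x i j) := by
  unfold hess
  exact (contDiff_pd (m := 0) (contDiff_pd (m := 1) hf (by norm_num) j) (by norm_num) i).continuous

/-- the gradient as a vector -/
noncomputable def gr (f : E n → ℝ) (x : E n) : E n := WithLp.toLp 2 (fun i => pd i f x)

@[simp] lemma gr_apply (f : E n → ℝ) (x : E n) (i : Fin n) : gr f x i = pd i f x := rfl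

/-- the Hessian as an operator -/
noncomputable def Aop (f : E n → ℝ) (x : E n) : E n →L[ℝ] E n :=
  Matrix.toEuclideanCLM (𝕜 := ℝ) (n := Fin n) (hess f x)

lemma Aop_apply (f : E n → ℝ) (x v : E n) (i : Fin n) :
    Aop f x v i = ∑ j, hess f x i j * v j := by
  unfold Aop
  rw [Matrix.ofLp_toEuclideanCLM]
  rfl

lemma inner_eq (v w : E n) : inner ℝ v w = ∑ i, v i * w i := by
  simp [PiLp.inner_apply, mul_comm]

lemma hasFDerivAt_gr {f : E n → ℝ} (hf : ContDiff ℝ 2 f) (x : E n) :
    HasFDerivAt (gr f) (Aop f x) x := by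
  rw [← hasFDerivWithinAt_univ, hasFDerivWithinAt_piLp]
  intro i
  have h := (differentiable_pd hf i x).hasFDerivAt
  rw [hasFDerivWithinAt_univ]
  refine h.congr_fderiv ?_
  refine ContinuousLinearMap.ext fun v => ?_
  change fderiv ℝ (pd i f) x v = Aop f x v i
  rw [fderiv_apply_eq, Aop_apply]
  refine Finset.sum_congr rfl fun j _ => ?_
  rw [hess_symm hf x i j, mul_comm]
  rfl

lemma continuous_Aop {f : E n → ℝ} (hf : ContDiff ℝ 2 f) : Continuous (Aop f) := by
  unfold Aop
  refine LinearMap.continuous_of_finiteDimensional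
    ((Matrix.toEuclideanCLM (𝕜 := ℝ) (n := Fin n)).toAlgEquiv.toLinearMap) |>.comp ?_
  refine continuous_matrix fun i j => continuous_hess hf i j

lemma inner_Aop (f : E n → ℝ) (x v w : E n) :
    inner ℝ (Aop f x v) w = ∑ i, ∑ j, hess f x i j * v j * w i := by
  rw [inner_eq]
  refine Finset.sum_congr rfl fun i _ => ?_
  rw [Aop_apply, Finset.sum_mul]

lemma gmap {ψ V : E n → ℝ} {c C M : ℝ} (h : MM ψ V c C M) :
    Dif.GMap (gr ψ) (Aop ψ) c C where
  pos := h.c_pos
  der := fun x => hasFDerivAt_gr h.C2 x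
  cont := continuous_Aop h.C2
  lower := fun x v => by
    have := h.lower x v
    rw [inner_Aop]
    unfold qf at this
    refine this.trans (le_of_eq ?_)
    refine Finset.sum_congr rfl fun i _ => Finset.sum_congr rfl fun j _ => by ring
  upper := fun x v => by
    have := h.upper x v
    rw [inner_Aop]
    unfold qf at this
    refine le_trans (le_of_eq ?_) this
    refine Finset.sum_congr rfl fun i _ => Finset.sum_congr rfl fun j _ => by ring
  symm := fun x v w => by
    rw [real_inner_comm (Aop ψ x w) v, inner_Aop, inner_Aop, Finset.sum_comm]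
    refine Finset.sum_congr rfl fun i _ => Finset.sum_congr rfl fun j _ => ?_
    rw [hess_symm h.C2 x j i]
    ring

lemma det_Aop (f : E n → ℝ) (x : E n) : (Aop f x).det = (hess f x).det := by
  unfold Aop ContinuousLinearMap.det
  have : ((Matrix.toEuclideanCLM (𝕜 := ℝ) (n := Fin n) (hess f x) : E n →L[ℝ] E n) : E n →ₗ[ℝ] E n)
      = Matrix.toLin (PiLp.basisFun 2 ℝ (Fin n)) (PiLp.basisFun 2 ℝ (Fin n)) (hess f x) := rfl
  rw [this, LinearMap.det_toLin]

end Vale.Agent.P227.M.B294
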