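import Mathlib

/-! # Mollification of Lipschitz functions: the derivatives converge almost everywhere -/

open MeasureTheory Filter Topology Set
open scoped Convolution ContDiff

namespace Vale.Agent.P227.M.Flat

variable {E : Type*} [NormedAddCommGroup E] [InnerProductSpace ℝ E] [FiniteDimensional ℝ E]
  [MeasurableSpace E] [BorelSpace E]

/-- the bump functions -/
noncomputable def bmp (E : Type*) [NormedAddCommGroup E] [InnerProductSpace ℝ E] (k : ℕ) :
    ContDiffBump (0 : E) where
  rIn := 1 / (2 * ((k : ℝ) + 1))
  rOut := 1 / ((k : ℝ) + 1)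
  rIn_pos := by positivity
  rIn_lt_rOut := by
    have : (0 : ℝ) < (k : ℝ) + 1 := by positivity
    rw [div_lt_div_iff₀ (by positivity) (by positivity)]
    linarith

/-- the mollified function -/
noncomputable def mol (k : ℕ) (f : E → ℝ) : E → ℝ :=
  (bmp E k).normed volume ⋆[ContinuousLinearMap.lsmul ℝ ℝ, volume] f

theorem mol_eq (k : ℕ) (f : E → ℝ) (x : E) :
    mol k f x = ∫ t, (bmp E k).normed volume t * f (x - t) := by
  simp [mol, convolution_def]

theorem fderiv_meas (f : E → ℝ) : StronglyMeasurable (fderiv ℝ f) := by
  borelize (E →L[ℝ] ℝ)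
  exact (measurable_fderiv ℝ f).stronglyMeasurable

omit [FiniteDimensional ℝ E] [MeasurableSpace E] [BorelSpace E] in
theorem lip_norm_fderiv {f : E → ℝ} {K : NNReal} (hf : LipschitzWith K f) (x : E) :
    ‖fderiv ℝ f x‖ ≤ K := norm_fderiv_le_of_lipschitz ℝ hf

theorem mol_lip (k : ℕ) {f : E → ℝ} {K : NNReal} (hf : LipschitzWith K f) :
    LipschitzWith K (mol k f) := by
  have hint : ∀ x : E, Integrable (fun t => (bmp E k).normed volume t * f (x - t)) := by
    intro x
    refine Continuous.integrable_of_hasCompactSupport ?_ ?_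
    · exact (bmp E k).continuous_normed.mul (hf.continuous.comp (by fun_prop))
    · exact (bmp E k).hasCompactSupport_normed.mul_right
  refine LipschitzWith.of_dist_le_mul fun x y => ?_
  rw [Real.dist_eq, mol_eq, mol_eq, ← integral_sub (hint x) (hint y)]
  calc |∫ t, ((bmp E k).normed volume t * f (x - t) - (bmp E k).normed volume t * f (y - t))|
      ≤ ∫ t, (bmp E k).normed volume t * (K * dist x y) := by
        rw [← Real.norm_eq_abs]
        refine norm_integral_le_of_norm_le ?_ ?_
        · exact (bmp E k).integrable_normed.mul_const _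
        · refine Eventually.of_forall fun t => ?_
          rw [← mul_sub, norm_mul, Real.norm_of_nonneg ((bmp E k).nonneg_normed t)]
          refine mul_le_mul_of_nonneg_left ?_ ((bmp E k).nonneg_normed t)
          have := hf.dist_le_mul (x - t) (y - t)
          rw [dist_sub_right, Real.dist_eq] at this
          exact this
    _ = K * dist x y := by
        rw [integral_mul_const, (bmp E k).integral_normed, one_mul]

theorem mol_fderiv (k : ℕ) {f : E → ℝ} {K : NNReal} (hf : LipschitzWith K f) (x : E) :
    HasFDerivAt (mol k f)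
      (((bmp E k).normed volume ⋆[ContinuousLinearMap.lsmul ℝ ℝ, volume] (fderiv ℝ f)) x) x := by
  have h := hasFDerivAt_integral_of_dominated_loc_of_lip (μ := (volume : Measure E)) (𝕜 := ℝ)
    (F := fun x t => (bmp E k).normed volume t * f (x - t))
    (F' := fun t => (bmp E k).normed volume t • fderiv ℝ f (x - t)) (x₀ := x)
    (s := Set.univ) (bound := fun t => (bmp E k).normed volume t * K) Filter.univ_mem
    (Eventually.of_forall fun y => ?_) ?_ ?_ ?_ ?_ ?_
  · have h2 := h.2
    rw [convolution_def]
    simp only [ContinuousLinearMap.lsmul_apply]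
    refine h2.congr_of_eventuallyEq (Eventually.of_forall fun y => ?_)
    exact mol_eq k f y
  · exact ((bmp E k).continuous_normed.mul (hf.continuous.comp (by fun_prop))).aestronglyMeasurable
  · refine Continuous.integrable_of_hasCompactSupport ?_ ?_
    · exact (bmp E k).continuous_normed.mul (hf.continuous.comp (by fun_prop))
    · exact (bmp E k).hasCompactSupport_normed.mul_right
  · exact (bmp E k).continuous_normed.aestronglyMeasurable.smul
      ((fderiv_meas f).comp_measurable (by fun_prop)).aestronglyMeasurable
  · refine Eventually.of_forall fun t => ?_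
    refine LipschitzOnWith.of_dist_le_mul fun y _ z _ => ?_
    rw [Real.dist_eq, ← mul_sub, abs_mul, abs_of_nonneg ((bmp E k).nonneg_normed t),
      Real.coe_nnabs, abs_of_nonneg (mul_nonneg ((bmp E k).nonneg_normed t) K.coe_nonneg), mul_assoc]
    refine mul_le_mul_of_nonneg_left ?_ ((bmp E k).nonneg_normed t)
    have := hf.dist_le_mul (y - t) (z - t)
    rw [dist_sub_right, Real.dist_eq] at this
    exact this
  · exact (bmp E k).integrable_normed.mul_const _
  · have h1 : ∀ᵐ t : E, DifferentiableAt ℝ f t := hf.ae_differentiableAt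
    have h2 : ∀ᵐ t : E, DifferentiableAt ℝ f (x - t) := by
      have h3 : MeasurePreserving (fun t : E => x - t) volume volume :=
        Measure.measurePreserving_sub_left volume x
      exact h3.quasiMeasurePreserving.ae h1
    filter_upwards [h2] with t ht
    have h4 : HasFDerivAt (fun y : E => f (y - t)) (fderiv ℝ f (x - t)) x := by
      have h5 : HasFDerivAt (fun y : E => y - t) (ContinuousLinearMap.id ℝ E) x :=
        (hasFDerivAt_id x).sub_const t
      have := HasFDerivAt.comp x ht.hasFDerivAt h5
      rw [ContinuousLinearMap.comp_id] at this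
      exact this
    exact h4.const_mul _

theorem lip_moll {f : E → ℝ} {K : NNReal} (hf : LipschitzWith K f) (hs : HasCompactSupport f) :
    ∃ (g : ℕ → E → ℝ) (R B : ℝ), (∀ k, ContDiff ℝ ∞ (g k)) ∧ (∀ k, HasCompactSupport (g k)) ∧
      (∀ x, R < ‖x‖ → f x = 0) ∧ (∀ k x, R < ‖x‖ → g k x = 0) ∧
      (∀ x, |f x| ≤ B) ∧ (∀ k x, |g k x| ≤ B) ∧ (∀ k, LipschitzWith K (g k)) ∧
      (∀ x, Tendsto (fun k => g k x) atTop (𝓝 (f x))) ∧
      (∀ᵐ x, Tendsto (fun k => fderiv ℝ (g k) x) atTop (𝓝 (fderiv ℝ f x))) := by
  obtain ⟨R, hR⟩ := hs.isCompact.isBounded.exists_norm_le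
  obtain ⟨B, hB⟩ := hs.exists_bound_of_continuous hf.continuous
  have hout : ∀ x, R < ‖x‖ → f x = 0 := by
    intro x hx
    by_contra h
    exact absurd (hR x (subset_tsupport f (Function.mem_support.mpr h))) (not_le.mpr hx)
  have hr : Tendsto (fun k => (bmp E k).rOut) atTop (𝓝 0) := by
    simpa [bmp] using tendsto_one_div_add_atTop_nhds_zero_nat (𝕜 := ℝ)
  refine ⟨fun k => mol k f, R + 1, B, fun k => ?_, fun k => ?_, fun x hx => hout x (by linarith),
    fun k x hx => ?_, hB, fun k x => ?_, fun k => mol_lip k hf, fun x => ?_, ?_⟩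
  · exact (bmp E k).hasCompactSupport_normed.contDiff_convolution_left _ (bmp E k).contDiff_normed
      hf.continuous.locallyIntegrable
  · exact (bmp E k).hasCompactSupport_normed.convolution _ hs
  · have h0 : ∀ y ∈ Metric.ball x (bmp E k).rOut, f y = 0 := by
      intro y hy
      apply hout
      have h1 : (bmp E k).rOut ≤ 1 := by
        simp only [bmp]
        rw [div_le_one (by positivity)]
        linarith [(Nat.cast_nonneg k : (0 : ℝ) ≤ k)]
      rw [Metric.mem_ball, dist_eq_norm] at hy
      have h2 : ‖x‖ ≤ ‖y‖ + ‖y - x‖ := by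
        have := norm_sub_norm_le x y
        rw [norm_sub_rev] at this
        linarith
      linarith
    have h3 : f x = 0 := hout x (by linarith)
    have := (bmp E k).normed_convolution_eq_right (μ := volume) (g := f) (x₀ := x)
      (fun y hy => by rw [h0 y hy, h3])
    simp only [mol]
    rw [this, h3]
  · show |mol k f x| ≤ B
    rw [mol_eq, ← Real.norm_eq_abs]
    have h1 : ‖∫ t, (bmp E k).normed volume t * f (x - t)‖ ≤
        ∫ t, (bmp E k).normed volume t * B := by
      refine norm_integral_le_of_norm_le ((bmp E k).integrable_normed.mul_const _) ?_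
      refine Eventually.of_forall fun t => ?_
      rw [norm_mul, Real.norm_of_nonneg ((bmp E k).nonneg_normed t)]
      exact mul_le_mul_of_nonneg_left (hB _) ((bmp E k).nonneg_normed t)
    rwa [integral_mul_const, (bmp E k).integral_normed, one_mul] at h1
  · exact ContDiffBump.convolution_tendsto_right_of_continuous hr hf.continuous x
  · have hloc : LocallyIntegrable (fderiv ℝ f) (volume : Measure E) := by
      refine (locallyIntegrable_const (K : ℝ)).mono (fderiv_meas f).aestronglyMeasurable ?_
      refine Eventually.of_forall fun x => ?_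
      rw [Real.norm_of_nonneg K.coe_nonneg]
      exact lip_norm_fderiv hf x
    have hae := ContDiffBump.ae_convolution_tendsto_right_of_locallyIntegrable (μ := volume)
      (φ := fun k => bmp E k) (l := atTop) (K := 2) hr
      (Eventually.of_forall fun k => by
        simp only [bmp]
        rw [div_le_iff₀ (by positivity)]
        field_simp
        norm_num) hloc
    filter_upwards [hae] with x hx
    refine hx.congr fun k => ?_
    exact (mol_fderiv k hf x).fderiv.symm

end Vale.Agent.P227.M.Flat
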