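import Vale.Agent.P227.M.Defs
import Vale.Agent.P227.M.ID.Moll

/-! # Flat Bochner formula and integration by parts for Lipschitz fields -/

open MeasureTheory Filter Topology Set
open scoped ContDiff

namespace Vale.Agent.P227.M.Flat

variable {n : ℕ}

theorem pd_add {i : Fin n} {f g : E n → ℝ} {x : E n} (hf : DifferentiableAt ℝ f x)
    (hg : DifferentiableAt ℝ g x) : pd i (fun y => f y + g y) x = pd i f x + pd i g x := by
  simp only [pd]
  rw [fderiv_fun_add hf hg]
  rfl

theorem pd_sub {i : Fin n} {f g : E n → ℝ} {x : E n} (hf : DifferentiableAt ℝ f x)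
    (hg : DifferentiableAt ℝ g x) : pd i (fun y => f y - g y) x = pd i f x - pd i g x := by
  simp only [pd]
  rw [fderiv_fun_sub hf hg]
  rfl

theorem pd_sum {ι : Type*} (u : Finset ι) {i : Fin n} {f : ι → E n → ℝ} {x : E n}
    (hf : ∀ j ∈ u, DifferentiableAt ℝ (f j) x) :
    pd i (fun y => ∑ j ∈ u, f j y) x = ∑ j ∈ u, pd i (f j) x := by
  simp only [pd]
  rw [fderiv_fun_sum hf]
  simp

theorem pd_mul {i : Fin n} {f g : E n → ℝ} {x : E n} (hf : DifferentiableAt ℝ f x)
    (hg : DifferentiableAt ℝ g x) :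
    pd i (fun y => f y * g y) x = pd i f x * g x + f x * pd i g x := by
  simp only [pd]
  rw [fderiv_fun_mul hf hg]
  simp
  ring

theorem pd_exp_neg {i : Fin n} {V : E n → ℝ} {x : E n} (hV : DifferentiableAt ℝ V x) :
    pd i (fun y => Real.exp (-V y)) x = -(pd i V x * Real.exp (-V x)) := by
  simp only [pd]
  have h : HasFDerivAt (fun y => Real.exp (-V y)) (Real.exp (-V x) • -fderiv ℝ V x) x :=
    hV.hasFDerivAt.neg.exp
  rw [h.fderiv]
  simp
  ring

theorem contDiff_pd {k : ℕ∞} {f : E n → ℝ} {i : Fin n} (hf : ContDiff ℝ (k + 1) f) :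
    ContDiff ℝ k (pd i f) := by
  have h : ContDiff ℝ k (fderiv ℝ f) := hf.fderiv_right le_rfl
  exact h.clm_apply contDiff_const

theorem hcs_pd {f : E n → ℝ} {i : Fin n} (hf : HasCompactSupport f) :
    HasCompactSupport (pd i f) := by
  have h : HasCompactSupport (fderiv ℝ f) := hf.fderiv ℝ
  refine h.mono' ?_
  intro x hx
  apply subset_tsupport
  intro h0
  apply hx
  simp only [pd, h0]
  rfl

/-- second derivatives are symmetric -/
theorem pd_comm {f : E n → ℝ} (hf : ContDiff ℝ 2 f) (i j : Fin n) (x : E n) :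
    pd i (pd j f) x = pd j (pd i f) x := by
  have h1 : DifferentiableAt ℝ (fderiv ℝ f) x :=
    ((hf.fderiv_right (m := 1) (by norm_num)).differentiable (by norm_num)) x
  have h2 : ∀ a b : Fin n, pd a (pd b f) x = fderiv ℝ (fderiv ℝ f) x (ei a) (ei b) := by
    intro a b
    have h3 : HasFDerivAt (fun y => fderiv ℝ f y (ei b))
        ((ContinuousLinearMap.apply ℝ ℝ (ei b : E n)).comp (fderiv ℝ (fderiv ℝ f) x)) x :=
      (ContinuousLinearMap.apply ℝ ℝ (ei b : E n)).hasFDerivAt.comp x h1.hasFDerivAt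
    have h4 : pd a (pd b f) x = fderiv ℝ (fun y => fderiv ℝ f y (ei b)) x (ei a) := rfl
    rw [h4, h3.fderiv]
    rfl
  rw [h2, h2]
  exact ((hf.contDiffAt (x := x)).isSymmSndFDerivAt (by simp)) _ _

theorem int_pd_zero {g : E n → ℝ} (hg : ContDiff ℝ 1 g) (hc : HasCompactSupport g) (i : Fin n) :
    ∫ x, pd i g x = 0 := by
  have h := integral_mul_fderiv_eq_neg_fderiv_mul_of_integrable (μ := (volume : Measure (E n)))
    (f := fun _ => (1 : ℝ)) (g := g) (v := ei i) ?_ ?_ ?_ (fun _ _ => by fun_prop)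
    (fun x _ => (hg.differentiable (by norm_num)) x)
  · simpa [pd] using h
  · simp
  · simp only [one_mul]
    exact ((hg.continuous_fderiv (by norm_num)).clm_apply continuous_const).integrable_of_hasCompactSupport
      (hcs_pd (i := i) hc)
  · simp only [one_mul]
    exact hg.continuous.integrable_of_hasCompactSupport hc

/-- weighted integration by parts, smooth -/
theorem ibp_smooth {V f g : E n → ℝ} (hV : ContDiff ℝ 1 V) (hf : ContDiff ℝ 1 f)
    (hc : HasCompactSupport f) (hg : ContDiff ℝ 1 g) (i : Fin n) :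
    ∫ x, pd i f x * g x * Real.exp (-V x) =
      ∫ x, f x * (pd i V x * g x - pd i g x) * Real.exp (-V x) := by
  have hE : ContDiff ℝ 1 (fun x => Real.exp (-V x)) := hV.neg.exp
  have hfg : ContDiff ℝ 1 (fun x => f x * g x) := hf.mul hg
  have h0 := int_pd_zero (hfg.mul hE) ((hc.mul_right (f' := g)).mul_right) i
  have hd : ∀ {h : E n → ℝ}, ContDiff ℝ 1 h → ∀ x, DifferentiableAt ℝ h x :=
    fun hh x => (hh.differentiable (by norm_num)) x
  have hpt : ∀ x, pd i (fun y => f y * g y * Real.exp (-V y)) x =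
      pd i f x * g x * Real.exp (-V x) -
        f x * (pd i V x * g x - pd i g x) * Real.exp (-V x) := by
    intro x
    rw [pd_mul (hd hfg x) (hd hE x), pd_mul (hd hf x) (hd hg x), pd_exp_neg (hd hV x)]
    ring
  have h1 : Integrable (fun x => pd i f x * g x * Real.exp (-V x)) := by
    refine Continuous.integrable_of_hasCompactSupport ?_ ?_
    · exact ((contDiff_pd (k := 0) (by simpa using hf)).continuous.mul hg.continuous).mul hE.continuous
    · exact ((hcs_pd hc).mul_right).mul_right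
  have h2 : Integrable (fun x => f x * (pd i V x * g x - pd i g x) * Real.exp (-V x)) := by
    refine Continuous.integrable_of_hasCompactSupport ?_ ?_
    · exact (hf.continuous.mul (((contDiff_pd (k := 0) (by simpa using hV)).continuous.mul
        hg.continuous).sub (contDiff_pd (k := 0) (by simpa using hg)).continuous)).mul hE.continuous
    · exact (hc.mul_right).mul_right
  have h3 : ∫ x, (pd i f x * g x * Real.exp (-V x) -
      f x * (pd i V x * g x - pd i g x) * Real.exp (-V x)) = 0 := by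
    rw [← h0]
    exact integral_congr_ae (Eventually.of_forall fun x => (hpt x).symm)
  rw [integral_sub h1 h2] at h3
  linarith

/-- A polynomial identity in the function and its derivatives passes from smooth to Lipschitz
functions with compact support. -/
theorem lip_transfer {ι : Type*} [Fintype ι] (P : E n → (ι → ℝ) → (ι → Fin n → ℝ) → ℝ)
    (hP : Continuous fun z : E n × (ι → ℝ) × (ι → Fin n → ℝ) => P z.1 z.2.1 z.2.2)
    (h0 : ∀ x, P x 0 0 = 0)
    (hs : ∀ s : ι → E n → ℝ, (∀ b, Test (s b)) →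
      ∫ x, P x (fun b => s b x) (fun b a => pd a (s b) x) = 0)
    (s : ι → E n → ℝ) (hL : ∀ b, ∃ K, LipschitzWith K (s b)) (hc : ∀ b, HasCompactSupport (s b)) :
    ∫ x, P x (fun b => s b x) (fun b a => pd a (s b) x) = 0 := by
  choose K hK using hL
  choose g R B g1 g2 g3 g4 g5 g6 g7 g8 g9 using fun b => lip_moll (hK b) (hc b)
  -- bounds
  obtain ⟨R0, hR0⟩ : ∃ R0 : ℝ, ∀ b, R b ≤ R0 :=
    ⟨∑ b, |R b|, fun b => (le_abs_self _).trans
      (Finset.single_le_sum (f := fun b => |R b|) (fun _ _ => abs_nonneg _) (Finset.mem_univ b))⟩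
  obtain ⟨B0, hB0⟩ : ∃ B0 : ℝ, ∀ b, B b ≤ B0 ∧ (K b : ℝ) ≤ B0 := by
    refine ⟨(∑ b, |B b|) + ∑ b, (K b : ℝ), fun b => ⟨?_, ?_⟩⟩
    · have h1 := Finset.single_le_sum (f := fun b => |B b|) (fun _ _ => abs_nonneg _)
        (Finset.mem_univ b)
      have h2 : 0 ≤ ∑ b, (K b : ℝ) := Finset.sum_nonneg fun _ _ => (K _).coe_nonneg
      have h3 := le_abs_self (B b)
      linarith
    · have h1 := Finset.single_le_sum (f := fun b => (K b : ℝ)) (fun b _ => (K b).coe_nonneg)
        (Finset.mem_univ b)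
      have h2 : 0 ≤ ∑ b, |B b| := Finset.sum_nonneg fun _ _ => abs_nonneg _
      linarith
  have hpdb : ∀ (k : ℕ) (b : ι) (a : Fin n) (x : E n), |pd a (g b k) x| ≤ B0 := by
    intro k b a x
    have h1 : ‖fderiv ℝ (g b k) x‖ ≤ K b := norm_fderiv_le_of_lipschitz ℝ (g7 b k)
    have h2 : ‖fderiv ℝ (g b k) x (ei a)‖ ≤ ‖fderiv ℝ (g b k) x‖ * ‖(ei a : E n)‖ :=
      ContinuousLinearMap.le_opNorm _ _
    have h3 : ‖(ei a : E n)‖ = 1 := by simp [ei]
    rw [h3, mul_one, Real.norm_eq_abs] at h2
    exact (h2.trans h1).trans (hB0 b).2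
  have hpd0 : ∀ (k : ℕ) (b : ι) (a : Fin n) (x : E n), R0 < ‖x‖ → pd a (g b k) x = 0 := by
    intro k b a x hx
    have h1 : (g b k) =ᶠ[𝓝 x] fun _ => 0 := by
      have h2 : ∀ᶠ y in 𝓝 x, R0 < ‖y‖ := continuous_norm.continuousAt.eventually (lt_mem_nhds hx)
      filter_upwards [h2] with y hy
      exact g4 b k y ((hR0 b).trans_lt hy)
    simp only [pd]
    rw [h1.fderiv_eq]
    simp
  -- the compact set
  obtain ⟨C, hC⟩ : ∃ C : ℝ, ∀ x : E n, ‖x‖ ≤ R0 → ∀ (p : ι → ℝ) (q : ι → Fin n → ℝ),
      (∀ b, |p b| ≤ B0) → (∀ b a, |q b a| ≤ B0) → |P x p q| ≤ C := by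
    have hcomp : IsCompact ((Metric.closedBall (0 : E n) R0) ×ˢ
        ((Set.univ.pi fun _ : ι => Icc (-B0) B0) ×ˢ
          (Set.univ.pi fun _ : ι => Set.univ.pi fun _ : Fin n => Icc (-B0) B0))) :=
      (isCompact_closedBall _ _).prod ((isCompact_univ_pi fun _ => isCompact_Icc).prod
        (isCompact_univ_pi fun _ => isCompact_univ_pi fun _ => isCompact_Icc))
    obtain ⟨C, hC⟩ := hcomp.exists_bound_of_continuousOn hP.continuousOn
    refine ⟨C, fun x hx p q hp hq => ?_⟩
    have := hC (x, p, q) ⟨by simpa using hx, fun b _ => abs_le.mp (hp b),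
      fun b _ a _ => abs_le.mp (hq b a)⟩
    simpa using this
  have hC0 : ∀ x : E n, ‖x‖ ≤ R0 → (0 : ℝ) ≤ C := by
    intro x hx
    have h1 := hC x hx (fun _ => 0)
    by_cases hB : 0 ≤ B0
    · exact (abs_nonneg _).trans (h1 (fun _ _ => 0) (fun _ => by simpa using hB)
        (fun _ _ => by simpa using hB))
    · have hE : IsEmpty ι := ⟨fun b => hB ((K b).coe_nonneg.trans (hB0 b).2)⟩
      exact (abs_nonneg _).trans (h1 (fun _ _ => 0) (fun b => (hE.false b).elim)
        (fun b => (hE.false b).elim))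
  have hlim : Tendsto (fun k => ∫ x, P x (fun b => g b k x) (fun b a => pd a (g b k) x)) atTop
      (𝓝 (∫ x, P x (fun b => s b x) (fun b a => pd a (s b) x))) := by
    refine tendsto_integral_of_dominated_convergence
      ((Metric.closedBall (0 : E n) R0).indicator fun _ => C) ?_ ?_ ?_ ?_
    · intro k
      have : Continuous fun x : E n => ((x, (fun b => g b k x), (fun b a => pd a (g b k) x)) :
          E n × (ι → ℝ) × (ι → Fin n → ℝ)) := by
        refine continuous_id.prodMk ((continuous_pi fun b => (g1 b k).continuous).prodMk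
          (continuous_pi fun b => continuous_pi fun a => ?_))
        exact (contDiff_pd (k := 0) ((g1 b k).of_le (by exact_mod_cast le_top))).continuous
      exact (hP.comp this).aestronglyMeasurable
    · exact (integrable_indicator_iff measurableSet_closedBall).mpr
        (integrableOn_const measure_closedBall_lt_top.ne)
    · intro k
      refine Eventually.of_forall fun x => ?_
      by_cases hx : ‖x‖ ≤ R0
      · rw [indicator_of_mem (by simpa using hx), Real.norm_eq_abs]
        exact hC x hx _ _ (fun b => (g6 b k x).trans (hB0 b).1) (fun b a => hpdb k b a x)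
      · rw [indicator_of_notMem (by simpa using hx)]
        have h1 : (fun b => g b k x) = 0 := by
          funext b
          exact g4 b k x ((hR0 b).trans_lt (not_le.mp hx))
        have h2 : (fun b a => pd a (g b k) x) = (0 : ι → Fin n → ℝ) := by
          funext b a
          exact hpd0 k b a x (not_le.mp hx)
        rw [h1, h2, h0, norm_zero]
    · have hall : ∀ᵐ x : E n, ∀ b, Tendsto (fun k => fderiv ℝ (g b k) x) atTop
          (𝓝 (fderiv ℝ (s b) x)) := by
        rw [ae_all_iff]
        exact g9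
      filter_upwards [hall] with x hx
      have h1 : Tendsto (fun k => ((x, (fun b => g b k x), (fun b a => pd a (g b k) x)) :
          E n × (ι → ℝ) × (ι → Fin n → ℝ))) atTop
          (𝓝 (x, (fun b => s b x), (fun b a => pd a (s b) x))) := by
        refine tendsto_const_nhds.prodMk_nhds (Tendsto.prodMk_nhds ?_ ?_)
        · rw [tendsto_pi_nhds]
          exact fun b => g8 b x
        · rw [tendsto_pi_nhds]
          intro b
          rw [tendsto_pi_nhds]
          intro a
          exact (ContinuousLinearMap.apply ℝ ℝ (ei a : E n)).continuous.continuousAt.tendsto.comp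
            (hx b)
      exact (hP.tendsto _).comp h1
  have hz : ∀ k, ∫ x, P x (fun b => g b k x) (fun b a => pd a (g b k) x) = 0 :=
    fun k => hs (fun b => g b k) fun b => ⟨g1 b k, g2 b k⟩
  simp only [hz] at hlim
  exact (tendsto_nhds_unique hlim tendsto_const_nhds)

/-- integrability for Lipschitz functions with compact support -/
theorem lip_integrable {ι : Type*} [Fintype ι] (P : E n → (ι → ℝ) → (ι → Fin n → ℝ) → ℝ)
    (hP : Continuous fun z : E n × (ι → ℝ) × (ι → Fin n → ℝ) => P z.1 z.2.1 z.2.2)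
    (h0 : ∀ x, P x 0 0 = 0)
    (s : ι → E n → ℝ) (hL : ∀ b, ∃ K, LipschitzWith K (s b)) (hc : ∀ b, HasCompactSupport (s b)) :
    Integrable (fun x => P x (fun b => s b x) (fun b a => pd a (s b) x)) := by
  choose K hK using hL
  choose B hB using fun b => (hc b).exists_bound_of_continuous (hK b).continuous
  choose R hR using fun b => (hc b).isCompact.isBounded.exists_norm_le
  obtain ⟨R0, hR0⟩ : ∃ R0 : ℝ, ∀ b, R b ≤ R0 :=
    ⟨∑ b, |R b|, fun b => (le_abs_self _).trans
      (Finset.single_le_sum (f := fun b => |R b|) (fun _ _ => abs_nonneg _) (Finset.mem_univ b))⟩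
  obtain ⟨B0, hB0⟩ : ∃ B0 : ℝ, ∀ b, B b ≤ B0 ∧ (K b : ℝ) ≤ B0 := by
    refine ⟨(∑ b, |B b|) + ∑ b, (K b : ℝ), fun b => ⟨?_, ?_⟩⟩
    · have h1 := Finset.single_le_sum (f := fun b => |B b|) (fun _ _ => abs_nonneg _)
        (Finset.mem_univ b)
      have h2 : 0 ≤ ∑ b, (K b : ℝ) := Finset.sum_nonneg fun _ _ => (K _).coe_nonneg
      have h3 := le_abs_self (B b)
      linarith
    · have h1 := Finset.single_le_sum (f := fun b => (K b : ℝ)) (fun b _ => (K b).coe_nonneg)
        (Finset.mem_univ b)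
      have h2 : 0 ≤ ∑ b, |B b| := Finset.sum_nonneg fun _ _ => abs_nonneg _
      linarith
  have hpdb : ∀ (b : ι) (a : Fin n) (x : E n), |pd a (s b) x| ≤ B0 := by
    intro b a x
    have h1 : ‖fderiv ℝ (s b) x‖ ≤ K b := norm_fderiv_le_of_lipschitz ℝ (hK b)
    have h2 : ‖fderiv ℝ (s b) x (ei a)‖ ≤ ‖fderiv ℝ (s b) x‖ * ‖(ei a : E n)‖ :=
      ContinuousLinearMap.le_opNorm _ _
    have h3 : ‖(ei a : E n)‖ = 1 := by simp [ei]
    rw [h3, mul_one, Real.norm_eq_abs] at h2
    exact (h2.trans h1).trans (hB0 b).2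
  have hs0 : ∀ (b : ι) (x : E n), R0 < ‖x‖ → s b x = 0 := by
    intro b x hx
    by_contra h
    exact absurd ((hR b x (subset_tsupport _ (Function.mem_support.mpr h))).trans (hR0 b))
      (not_le.mpr hx)
  have hpd0 : ∀ (b : ι) (a : Fin n) (x : E n), R0 < ‖x‖ → pd a (s b) x = 0 := by
    intro b a x hx
    have h1 : (s b) =ᶠ[𝓝 x] fun _ => 0 := by
      have h2 : ∀ᶠ y in 𝓝 x, R0 < ‖y‖ := continuous_norm.continuousAt.eventually (lt_mem_nhds hx)
      filter_upwards [h2] with y hy
      exact hs0 b y hy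
    simp only [pd]
    rw [h1.fderiv_eq]
    simp
  obtain ⟨C, hC⟩ : ∃ C : ℝ, ∀ x : E n, ‖x‖ ≤ R0 → ∀ (p : ι → ℝ) (q : ι → Fin n → ℝ),
      (∀ b, |p b| ≤ B0) → (∀ b a, |q b a| ≤ B0) → |P x p q| ≤ C := by
    have hcomp : IsCompact ((Metric.closedBall (0 : E n) R0) ×ˢ
        ((Set.univ.pi fun _ : ι => Icc (-B0) B0) ×ˢ
          (Set.univ.pi fun _ : ι => Set.univ.pi fun _ : Fin n => Icc (-B0) B0))) :=
      (isCompact_closedBall _ _).prod ((isCompact_univ_pi fun _ => isCompact_Icc).prod
        (isCompact_univ_pi fun _ => isCompact_univ_pi fun _ => isCompact_Icc))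
    obtain ⟨C, hC⟩ := hcomp.exists_bound_of_continuousOn hP.continuousOn
    refine ⟨C, fun x hx p q hp hq => ?_⟩
    have := hC (x, p, q) ⟨by simpa using hx, fun b _ => abs_le.mp (hp b),
      fun b _ a _ => abs_le.mp (hq b a)⟩
    simpa using this
  have hmeas : Measurable fun x : E n => ((x, (fun b => s b x), (fun b a => pd a (s b) x)) :
      E n × (ι → ℝ) × (ι → Fin n → ℝ)) := by
    refine measurable_id.prodMk ((measurable_pi_lambda _ fun b => (hK b).continuous.measurable).prodMk
      (measurable_pi_lambda _ fun b => measurable_pi_lambda _ fun a => ?_))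
    exact measurable_fderiv_apply_const ℝ (s b) (ei a)
  refine Integrable.mono' (g := (Metric.closedBall (0 : E n) R0).indicator fun _ => C)
    ((integrable_indicator_iff measurableSet_closedBall).mpr
      (integrableOn_const measure_closedBall_lt_top.ne)) ?_ ?_
  · exact (hP.measurable.comp hmeas).aestronglyMeasurable
  · refine Eventually.of_forall fun x => ?_
    by_cases hx : ‖x‖ ≤ R0
    · rw [indicator_of_mem (by simpa using hx), Real.norm_eq_abs]
      exact hC x hx _ _ (fun b => (hB b x).trans (hB0 b).1) (fun b a => hpdb b a x)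
    · rw [indicator_of_notMem (by simpa using hx)]
      have h1 : (fun b => s b x) = 0 := by
        funext b
        exact hs0 b x (not_le.mp hx)
      have h2 : (fun b a => pd a (s b) x) = (0 : ι → Fin n → ℝ) := by
        funext b a
        exact hpd0 b a x (not_le.mp hx)
      rw [h1, h2, h0, norm_zero]

/-- identities pass from smooth to Lipschitz functions with compact support -/
theorem lip_transfer_eq {ι : Type*} [Fintype ι] (P Q : E n → (ι → ℝ) → (ι → Fin n → ℝ) → ℝ)
    (hP : Continuous fun z : E n × (ι → ℝ) × (ι → Fin n → ℝ) => P z.1 z.2.1 z.2.2)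
    (hQ : Continuous fun z : E n × (ι → ℝ) × (ι → Fin n → ℝ) => Q z.1 z.2.1 z.2.2)
    (hP0 : ∀ x, P x 0 0 = 0) (hQ0 : ∀ x, Q x 0 0 = 0)
    (hs : ∀ s : ι → E n → ℝ, (∀ b, Test (s b)) →
      ∫ x, P x (fun b => s b x) (fun b a => pd a (s b) x) =
        ∫ x, Q x (fun b => s b x) (fun b a => pd a (s b) x))
    (s : ι → E n → ℝ) (hL : ∀ b, ∃ K, LipschitzWith K (s b)) (hc : ∀ b, HasCompactSupport (s b)) :
    ∫ x, P x (fun b => s b x) (fun b a => pd a (s b) x) =
        ∫ x, Q x (fun b => s b x) (fun b a => pd a (s b) x) := by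
  have hint : ∀ (t : ι → E n → ℝ), (∀ b, ∃ K, LipschitzWith K (t b)) →
      (∀ b, HasCompactSupport (t b)) →
      Integrable (fun x => P x (fun b => t b x) (fun b a => pd a (t b) x)) ∧
      Integrable (fun x => Q x (fun b => t b x) (fun b a => pd a (t b) x)) :=
    fun t h1 h2 => ⟨lip_integrable P hP hP0 t h1 h2, lip_integrable Q hQ hQ0 t h1 h2⟩
  have h := lip_transfer (fun x p q => P x p q - Q x p q) (hP.sub hQ)
    (fun x => by rw [hP0, hQ0, sub_zero]) (fun t ht => ?_) s hL hc
  · rw [integral_sub (hint s hL hc).1 (hint s hL hc).2] at h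
    linarith
  · have h1 : ∀ b, ∃ K, LipschitzWith K (t b) := fun b =>
      (ht b).1.lipschitzWith_of_hasCompactSupport (ht b).2 (by norm_num)
    rw [integral_sub (hint t h1 fun b => (ht b).2).1 (hint t h1 fun b => (ht b).2).2, hs t ht,
      sub_self]

end Vale.Agent.P227.M.Flat
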