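import Mathlib

/-! # P227/M: mollification of Lipschitz maps

`w : E → G` Lipschitz between finite-dimensional real normed spaces. The mollifications
`mol μ k w` are smooth, have the same Lipschitz constant, converge uniformly to `w`, their
derivative is the mollification of the (a.e. defined) derivative of `w` and converges a.e. -/

set_option linter.all false
set_option autoImplicit false

open MeasureTheory Filter Topology Set Metric Function ContinuousLinearMap
open scoped Convolution NNReal ContDiff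

namespace Vale.Agent.P227.M.LipMoll

variable {E G : Type*} [NormedAddCommGroup E] [NormedSpace ℝ E] [FiniteDimensional ℝ E]
  [NormedAddCommGroup G] [NormedSpace ℝ G] [FiniteDimensional ℝ G]

/-- the `k`-th bump function, radii `1/(k+1)` and `2/(k+1)` -/
noncomputable def bp (E : Type*) [NormedAddCommGroup E] [NormedSpace ℝ E] (k : ℕ) :
    ContDiffBump (0 : E) where
  rIn := 1 / ((k : ℝ) + 1)
  rOut := 2 / ((k : ℝ) + 1)
  rIn_pos := by positivity
  rIn_lt_rOut := by
    apply div_lt_div_of_pos_right (by norm_num)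
    positivity

theorem bp_rOut (k : ℕ) : (bp E k).rOut = 2 / ((k : ℝ) + 1) := rfl

theorem bp_rOut_le (k : ℕ) : (bp E k).rOut ≤ 2 := by
  rw [bp_rOut, div_le_iff₀ (by positivity)]
  have : (0 : ℝ) ≤ k := Nat.cast_nonneg k
  nlinarith

theorem bp_tendsto : Tendsto (fun k => (bp E k).rOut) atTop (𝓝 0) := by
  have h : Tendsto (fun k : ℕ => 2 * (1 / ((k : ℝ) + 1))) atTop (𝓝 (2 * 0)) :=
    tendsto_one_div_add_atTop_nhds_zero_nat.const_mul 2
  rw [mul_zero] at h
  refine h.congr fun k => ?_
  rw [bp_rOut]
  ring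

variable [MeasurableSpace E] [BorelSpace E] (μ : Measure E) [μ.IsAddHaarMeasure]

/-- the `k`-th mollification -/
noncomputable def mol (k : ℕ) (w : E → G) : E → G :=
  ((bp E k).normed μ ⋆[lsmul ℝ ℝ, μ] w)

theorem mol_apply (k : ℕ) (w : E → G) (x : E) :
    mol μ k w x = ∫ y, (bp E k).normed μ y • w (x - y) ∂μ := by
  unfold mol convolution
  simp only [lsmul_apply]

theorem contDiff_mol (k : ℕ) {w : E → G} (hw : LocallyIntegrable w μ) :
    ContDiff ℝ ∞ (mol μ k w) := by
  unfold mol
  exact HasCompactSupport.contDiff_convolution_left _ (bp E k).hasCompactSupport_normed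
    (bp E k).contDiff_normed hw

theorem norm_mol_le (k : ℕ) {w : E → G} {C : ℝ} (hw : ∀ x, ‖w x‖ ≤ C) (x : E) :
    ‖mol μ k w x‖ ≤ C := by
  rw [mol_apply]
  have h1 : Integrable (fun y => (bp E k).normed μ y * C) μ :=
    (bp E k).integrable_normed.mul_const C
  refine (norm_integral_le_of_norm_le h1 (Eventually.of_forall fun y => ?_)).trans ?_
  · rw [norm_smul, Real.norm_eq_abs, abs_of_nonneg ((bp E k).nonneg_normed y)]
    exact mul_le_mul_of_nonneg_left (hw _) ((bp E k).nonneg_normed y)
  · rw [integral_mul_const, (bp E k).integral_normed, one_mul]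

theorem dist_mol_le (k : ℕ) {w : E → G} {C : ℝ≥0} (hw : LipschitzWith C w) (x : E) :
    dist (mol μ k w x) (w x) ≤ C * (2 / ((k : ℝ) + 1)) := by
  unfold mol
  refine (bp E k).dist_normed_convolution_le hw.continuous.aestronglyMeasurable fun y hy => ?_
  refine (hw.dist_le_mul y x).trans ?_
  rw [mem_ball, bp_rOut] at hy
  exact mul_le_mul_of_nonneg_left hy.le C.2

theorem tendsto_mol {w : E → G} (hw : Continuous w) (x : E) :
    Tendsto (fun k => mol μ k w x) atTop (𝓝 (w x)) :=
  ContDiffBump.convolution_tendsto_right_of_continuous bp_tendsto hw x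

theorem ae_tendsto_mol {w : E → G} (hw : LocallyIntegrable w μ) :
    ∀ᵐ x ∂μ, Tendsto (fun k => mol μ k w x) atTop (𝓝 (w x)) := by
  refine ContDiffBump.ae_convolution_tendsto_right_of_locallyIntegrable (K := 2) bp_tendsto
    (Eventually.of_forall fun k => ?_) hw
  change 2 / ((k : ℝ) + 1) ≤ 2 * (1 / ((k : ℝ) + 1))
  rw [mul_one_div]

/-- the derivative of a Lipschitz map is locally integrable -/
theorem locallyIntegrable_fderiv {w : E → G} {C : ℝ≥0} (hw : LipschitzWith C w) :
    LocallyIntegrable (fderiv ℝ w) μ := by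
  have h1 : AEStronglyMeasurable (fderiv ℝ w) μ := (measurable_fderiv ℝ w).aestronglyMeasurable
  refine (locallyIntegrable_const (C : ℝ)).mono h1 (Eventually.of_forall fun x => ?_)
  exact (norm_fderiv_le_of_lipschitz ℝ hw).trans (le_abs_self _)

theorem hasFDerivAt_mol (k : ℕ) {w : E → G} {C : ℝ≥0} (hw : LipschitzWith C w) (x : E) :
    HasFDerivAt (mol μ k w) (mol μ k (fderiv ℝ w) x) x := by
  have hf : mol μ k w = fun x => ∫ y, (bp E k).normed μ y • w (x - y) ∂μ := by
    funext x
    exact mol_apply μ k w x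
  rw [hf, mol_apply]
  have hc : Continuous ((bp E k).normed μ) := (bp E k).continuous_normed
  have hint : ∀ z : E, Integrable (fun y => (bp E k).normed μ y • w (z - y)) μ := by
    intro z
    have h1 : Continuous (fun y => (bp E k).normed μ y • w (z - y)) :=
      hc.smul (hw.continuous.comp (continuous_const.sub continuous_id))
    refine h1.integrable_of_hasCompactSupport ?_
    exact (bp E k).hasCompactSupport_normed.smul_right
  refine (hasFDerivAt_integral_of_dominated_loc_of_lip (s := univ)
    (F' := fun y => (bp E k).normed μ y • fderiv ℝ w (x - y))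
    (bound := fun y => (bp E k).normed μ y * C) univ_mem
    (Eventually.of_forall fun z => (hint z).aestronglyMeasurable) (hint x) ?_ ?_ ?_ ?_).2
  · refine hc.aestronglyMeasurable.smul ?_
    exact ((measurable_fderiv ℝ w).comp (measurable_const.sub measurable_id)).aestronglyMeasurable
  · refine Eventually.of_forall fun y => ?_
    refine LipschitzOnWith.of_dist_le_mul fun z _ z' _ => ?_
    rw [dist_eq_norm, ← smul_sub, norm_smul, Real.norm_eq_abs,
      abs_of_nonneg ((bp E k).nonneg_normed y)]
    have h2 : ‖w (z - y) - w (z' - y)‖ ≤ C * dist z z' := by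
      rw [← dist_eq_norm]
      refine (hw.dist_le_mul _ _).trans (le_of_eq ?_)
      rw [dist_sub_right]
    have h3 : (0 : ℝ) ≤ (bp E k).normed μ y * C :=
      mul_nonneg ((bp E k).nonneg_normed y) C.2
    rw [Real.coe_nnabs, abs_of_nonneg h3, mul_assoc]
    exact mul_le_mul_of_nonneg_left h2 ((bp E k).nonneg_normed y)
  · exact (bp E k).integrable_normed.mul_const _
  · have hd : ∀ᵐ z ∂μ, DifferentiableAt ℝ w z := hw.ae_differentiableAt
    have hq : Measure.QuasiMeasurePreserving (fun y : E => x - y) μ μ :=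
      (Measure.measurePreserving_sub_left μ x).quasiMeasurePreserving
    filter_upwards [hq.ae hd] with y hy
    have h3 : HasFDerivAt (fun z : E => w (z - y)) (fderiv ℝ w (x - y)) x := by
      have h4 := hy.hasFDerivAt
      have h5 : HasFDerivAt (fun z : E => z - y) (ContinuousLinearMap.id ℝ E) x :=
        (hasFDerivAt_id x).sub_const y
      have h6 := h4.comp x h5
      rw [ContinuousLinearMap.comp_id] at h6
      exact h6
    exact h3.const_smul _

theorem fderiv_mol (k : ℕ) {w : E → G} {C : ℝ≥0} (hw : LipschitzWith C w) (x : E) :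
    fderiv ℝ (mol μ k w) x = mol μ k (fderiv ℝ w) x :=
  (hasFDerivAt_mol μ k hw x).fderiv

theorem norm_fderiv_mol_le (k : ℕ) {w : E → G} {C : ℝ≥0} (hw : LipschitzWith C w) (x : E) :
    ‖fderiv ℝ (mol μ k w) x‖ ≤ C := by
  rw [fderiv_mol μ k hw]
  exact norm_mol_le μ k (fun z => norm_fderiv_le_of_lipschitz ℝ hw) x

theorem lipschitzWith_mol (k : ℕ) {w : E → G} {C : ℝ≥0} (hw : LipschitzWith C w) :
    LipschitzWith C (mol μ k w) :=
  lipschitzWith_of_nnnorm_fderiv_le
    (fun x => (hasFDerivAt_mol μ k hw x).differentiableAt)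
    (fun x => by
      have := norm_fderiv_mol_le μ k hw x
      exact_mod_cast this)

theorem ae_tendsto_fderiv_mol {w : E → G} {C : ℝ≥0} (hw : LipschitzWith C w) :
    ∀ᵐ x ∂μ, Tendsto (fun k => fderiv ℝ (mol μ k w) x) atTop (𝓝 (fderiv ℝ w x)) := by
  filter_upwards [ae_tendsto_mol μ (locallyIntegrable_fderiv μ hw)] with x hx
  refine hx.congr fun k => ?_
  rw [fderiv_mol μ k hw]

theorem mol_eq_zero (k : ℕ) {w : E → G} {R : ℝ} (hw : ∀ x, R < ‖x‖ → w x = 0) (x : E)
    (hx : R + 2 < ‖x‖) : mol μ k w x = 0 := by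
  rw [mol_apply]
  refine integral_eq_zero_of_ae (Eventually.of_forall fun y => ?_)
  by_cases hy : ‖y‖ < (bp E k).rOut
  · have h1 : R < ‖x - y‖ := by
      have h2 := norm_sub_norm_le x y
      have h3 := bp_rOut_le (E := E) k
      linarith
    change (bp E k).normed μ y • w (x - y) = 0
    rw [hw _ h1, smul_zero]
  · have h1 : (bp E k).normed μ y = 0 := by
      have h2 : y ∉ support ((bp E k).normed μ) := by
        rw [(bp E k).support_normed_eq, mem_ball, dist_zero_right]
        exact hy
      exact notMem_support.1 h2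
    change (bp E k).normed μ y • w (x - y) = 0
    rw [h1, zero_smul]

theorem hasCompactSupport_mol (k : ℕ) {w : E → G} {R : ℝ} (hw : ∀ x, R < ‖x‖ → w x = 0) :
    HasCompactSupport (mol μ k w) := by
  refine HasCompactSupport.intro (isCompact_closedBall (0 : E) (R + 2)) fun x hx => ?_
  rw [mem_closedBall, dist_zero_right, not_le] at hx
  exact mol_eq_zero μ k hw x hx

/-- mollification of an even (odd) map is even (odd) -/
theorem mol_neg (k : ℕ) {w : E → G} {s : ℝ} (hw : ∀ x, w (-x) = s • w x) (x : E) :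
    mol μ k w (-x) = s • mol μ k w x := by
  rw [mol_apply, mol_apply, ← integral_smul, ← integral_neg_eq_self]
  refine integral_congr_ae (Eventually.of_forall fun y => ?_)
  change (bp E k).normed μ (-y) • w (-x - -y) = s • (bp E k).normed μ y • w (x - y)
  have h1 : -x - -y = -(x - y) := by abel
  rw [h1, hw, (bp E k).normed_neg, smul_comm]

/-- summary: a Lipschitz map that vanishes outside a ball is the limit of smooth ones -/
theorem exists_approx {w : E → G} {C : ℝ≥0} (hw : LipschitzWith C w) {R : ℝ}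
    (hR : ∀ x, R < ‖x‖ → w x = 0) :
    ∃ f : ℕ → E → G, (∀ k, ContDiff ℝ ∞ (f k)) ∧ (∀ k, LipschitzWith C (f k)) ∧
      (∀ k x, R + 2 < ‖x‖ → f k x = 0) ∧ (∀ k x, dist (f k x) (w x) ≤ C * (2 / ((k : ℝ) + 1))) ∧
      (∀ k x, ‖fderiv ℝ (f k) x‖ ≤ C) ∧
      (∀ᵐ x ∂μ, Tendsto (fun k => fderiv ℝ (f k) x) atTop (𝓝 (fderiv ℝ w x))) :=
  ⟨fun k => mol μ k w, fun k => contDiff_mol μ k hw.continuous.locallyIntegrable,
    fun k => lipschitzWith_mol μ k hw, fun k x hx => mol_eq_zero μ k hR x hx,
    fun k x => dist_mol_le μ k hw x, fun k x => norm_fderiv_mol_le μ k hw x,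
    ae_tendsto_fderiv_mol μ hw⟩

end Vale.Agent.P227.M.LipMoll
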