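import Vale.Agent.P227.M.Defs
import Vale.Agent.P227.M.ID.LipMoll

/-! # P227/M: flat Bochner identity for Lipschitz fields with compact support -/

set_option linter.all false
set_option autoImplicit false

open MeasureTheory Filter Topology Set Metric Function
open scoped NNReal ContDiff

namespace Vale.Agent.P227.M.FlatB

open Vale.Agent.P227.M Vale.Agent.P227.M.LipMoll

variable {n : ℕ}

theorem int_pd_zero {h : E n → ℝ} {C : ℝ≥0} (hh : LipschitzWith C h) (hc : HasCompactSupport h)
    (a : Fin n) : ∫ x, pd a h x = 0 := by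
  have h1 := LipschitzWith.integral_lineDeriv_mul_eq (μ := (volume : Measure (E n)))
    (LipschitzWith.const (1 : ℝ) : LipschitzWith 0 (fun _ : E n => (1 : ℝ))) hh hc (ei a)
  have h2 : ∀ x : E n, lineDeriv ℝ (fun _ : E n => (1 : ℝ)) x (ei a) = 0 := by
    intro x
    have : HasLineDerivAt ℝ (fun _ : E n => (1 : ℝ)) (0 : ℝ) x (ei a) := by
      unfold HasLineDerivAt
      exact hasDerivAt_const _ _
    exact this.lineDeriv
  simp only [h2, zero_mul, integral_zero, mul_one] at h1
  have h3 : ∫ x, pd a h x = ∫ x, -(lineDeriv ℝ h x (-(ei a))) := by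
    refine integral_congr_ae ?_
    filter_upwards [hh.ae_differentiableAt] with x hx
    rw [hx.lineDeriv_eq_fderiv, map_neg, neg_neg]
    rfl
  rw [h3, integral_neg, ← h1, neg_zero]

theorem int_pd_zero' {h : E n → ℝ} (hh : ContDiff ℝ 1 h) (hc : HasCompactSupport h)
    (a : Fin n) : ∫ x, pd a h x = 0 := by
  obtain ⟨C, hC⟩ := ContDiff.lipschitzWith_of_hasCompactSupport hc hh one_ne_zero
  exact int_pd_zero hC hc a

theorem continuous_pd {f : E n → ℝ} (hf : ContDiff ℝ 1 f) (a : Fin n) : Continuous (pd a f) :=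
  (hf.continuous_fderiv (by norm_num)).clm_apply continuous_const

theorem contDiff_pd {f : E n → ℝ} (hf : ContDiff ℝ 2 f) (a : Fin n) : ContDiff ℝ 1 (pd a f) :=
  (hf.fderiv_right (m := 1) (by norm_num)).clm_apply contDiff_const

theorem pd_mul {f g : E n → ℝ} (hf : ContDiff ℝ 1 f) (hg : ContDiff ℝ 1 g) (a : Fin n) (x : E n) :
    pd a (fun z => f z * g z) x = pd a f x * g x + f x * pd a g x := by
  have hf' := (hf.differentiable (by norm_num)) x
  have hg' := (hg.differentiable (by norm_num)) x
  unfold pd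
  rw [fderiv_fun_mul hf' hg']
  simp only [ContinuousLinearMap.add_apply, ContinuousLinearMap.smul_apply, smul_eq_mul]
  ring

theorem pd_sum {ι : Type} (s : Finset ι) {f : ι → E n → ℝ} (hf : ∀ i ∈ s, ContDiff ℝ 1 (f i))
    (a : Fin n) (x : E n) : pd a (fun z => ∑ i ∈ s, f i z) x = ∑ i ∈ s, pd a (f i) x := by
  unfold pd
  rw [fderiv_fun_sum fun i hi => (hf i hi).differentiable (by norm_num) x]
  simp

theorem pd_sub {f g : E n → ℝ} (hf : ContDiff ℝ 1 f) (hg : ContDiff ℝ 1 g) (a : Fin n) (x : E n) :
    pd a (fun z => f z - g z) x = pd a f x - pd a g x := by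
  have hf' := (hf.differentiable (by norm_num)) x
  have hg' := (hg.differentiable (by norm_num)) x
  unfold pd
  rw [fderiv_fun_sub hf' hg']
  simp

theorem pd_exp_neg {V : E n → ℝ} (hV : ContDiff ℝ 1 V) (a : Fin n) (x : E n) :
    pd a (fun z => Real.exp (-V z)) x = -(pd a V x) * Real.exp (-V x) := by
  have hV' := (hV.differentiable (by norm_num)) x
  unfold pd
  have h1 : HasFDerivAt (fun z => Real.exp (-V z)) (Real.exp (-V x) • -(fderiv ℝ V x)) x :=
    hV'.hasFDerivAt.neg.exp
  rw [h1.fderiv]
  simp only [ContinuousLinearMap.smul_apply, ContinuousLinearMap.neg_apply, smul_eq_mul]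
  ring

theorem hess_symm {f : E n → ℝ} (hf : ContDiff ℝ 2 f) (a b : Fin n) (x : E n) :
    pd a (pd b f) x = pd b (pd a f) x := by
  have h1 : ∀ c d : Fin n, pd c (pd d f) x = fderiv ℝ (fderiv ℝ f) x (ei c) (ei d) := by
    intro c d
    have h2 : DifferentiableAt ℝ (fderiv ℝ f) x :=
      ((hf.fderiv_right (m := 1) (by norm_num)).differentiable (by norm_num)) x
    unfold pd
    rw [fderiv_clm_apply h2 (differentiableAt_const _)]
    simp
  rw [h1, h1]
  have h3 : IsSymmSndFDerivAt ℝ f x := hf.contDiffAt.isSymmSndFDerivAt (by simp)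
  exact h3 (ei a) (ei b)

/-- integration by parts, one component -/
theorem ibp {V f g : E n → ℝ} (hV : ContDiff ℝ 1 V) (hf : ContDiff ℝ 1 f)
    (hfc : HasCompactSupport f) (hg : ContDiff ℝ 1 g) (a : Fin n) :
    ∫ x, (pd a V x * f x - pd a f x) * g x * Real.exp (-V x) =
      ∫ x, f x * pd a g x * Real.exp (-V x) := by
  have hE : ContDiff ℝ 1 (fun z => Real.exp (-V z)) := hV.neg.exp
  have h1 : ContDiff ℝ 1 (fun z => f z * g z) := hf.mul hg
  have h2 := int_pd_zero' (h1.mul hE) ((hfc.mul_right).mul_right) a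
  have h3 : ∀ x, pd a (fun z => f z * g z * Real.exp (-V z)) x =
      f x * pd a g x * Real.exp (-V x) - (pd a V x * f x - pd a f x) * g x * Real.exp (-V x) := by
    intro x
    rw [pd_mul h1 hE, pd_mul hf hg, pd_exp_neg hV]
    ring
  have hi : ∀ u : E n → ℝ, Continuous u → HasCompactSupport u → Integrable u :=
    fun u hu hc => hu.integrable_of_hasCompactSupport hc
  have hpf : HasCompactSupport (pd a f) := hfc.fderiv_apply (𝕜 := ℝ) (ei a)
  have i1 : Integrable (fun x => f x * pd a g x * Real.exp (-V x)) := by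
    refine hi _ ?_ ((hfc.mul_right).mul_right)
    exact (hf.continuous.mul (continuous_pd hg a)).mul hE.continuous
  have i2 : Integrable (fun x => (pd a V x * f x - pd a f x) * g x * Real.exp (-V x)) := by
    refine hi _ ?_ (((hfc.mul_left).sub hpf).mul_right.mul_right)
    exact ((((continuous_pd hV a).mul hf.continuous).sub (continuous_pd hf a)).mul
      hg.continuous).mul hE.continuous
  have h4 : ∫ x, (f x * pd a g x * Real.exp (-V x) -
      (pd a V x * f x - pd a f x) * g x * Real.exp (-V x)) = 0 := by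
    rw [← h2]
    exact integral_congr_ae (Eventually.of_forall fun x => (h3 x).symm)
  rw [integral_sub i1 i2] at h4
  linarith

theorem continuous_hess {V : E n → ℝ} (hV : ContDiff ℝ 2 V) (a b : Fin n) :
    Continuous (fun x => hess V x a b) :=
  continuous_pd (contDiff_pd hV b) a

/-- polarised flat Bochner identity, `C²` fields -/
theorem flat_smooth {V : E n → ℝ} (hV : ContDiff ℝ 2 V) {w w' : Fin n → E n → ℝ}
    (hw : ∀ b, ContDiff ℝ 2 (w b)) (hwc : ∀ b, HasCompactSupport (w b))
    (hw' : ∀ b, ContDiff ℝ 2 (w' b)) (hwc' : ∀ b, HasCompactSupport (w' b)) :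
    ∫ x, (∑ a, (pd a V x * w a x - pd a (w a) x)) * (∑ b, (pd b V x * w' b x - pd b (w' b) x)) *
        Real.exp (-V x) =
      ∫ x, ((∑ a, ∑ b, hess V x a b * w a x * w' b x) +
        ∑ a, ∑ b, pd b (w a) x * pd a (w' b) x) * Real.exp (-V x) := by
  have hV1 : ContDiff ℝ 1 V := hV.of_le (by norm_num)
  have hw1 : ∀ b, ContDiff ℝ 1 (w b) := fun b => (hw b).of_le (by norm_num)
  have hw1' : ∀ b, ContDiff ℝ 1 (w' b) := fun b => (hw' b).of_le (by norm_num)
  have hE : Continuous (fun z => Real.exp (-V z)) := (hV1.neg.exp).continuous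
  have hi : ∀ u : E n → ℝ, Continuous u → HasCompactSupport u → Integrable u :=
    fun u hu hc => hu.integrable_of_hasCompactSupport hc
  have hpw : ∀ a b, HasCompactSupport (pd b (w a)) :=
    fun a b => (hwc a).fderiv_apply (𝕜 := ℝ) (ei b)
  let δ : E n → ℝ := fun x => ∑ b, (pd b V x * w' b x - pd b (w' b) x)
  have hδt : ∀ b, ContDiff ℝ 1 (fun x => pd b V x * w' b x - pd b (w' b) x) := fun b =>
    ((contDiff_pd hV b).mul (hw1' b)).sub (contDiff_pd (hw' b) b)
  have hδ : ContDiff ℝ 1 δ := ContDiff.sum fun b _ => hδt b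
  have hpδ : ∀ a x, pd a δ x = ∑ b, (hess V x a b * w' b x + pd b V x * pd a (w' b) x -
      pd a (pd b (w' b)) x) := by
    intro a x
    change pd a (fun x => ∑ b, (pd b V x * w' b x - pd b (w' b) x)) x = _
    rw [pd_sum Finset.univ (fun b _ => hδt b)]
    refine Finset.sum_congr rfl fun b _ => ?_
    rw [pd_sub ((contDiff_pd hV b).mul (hw1' b)) (contDiff_pd (hw' b) b),
      pd_mul (contDiff_pd hV b) (hw1' b)]
    rfl
  -- left-hand side
  have hL : ∫ x, (∑ a, (pd a V x * w a x - pd a (w a) x)) * δ x * Real.exp (-V x) =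
      ∑ a, ∑ b, ∫ x, w a x * (hess V x a b * w' b x + pd b V x * pd a (w' b) x -
        pd a (pd b (w' b)) x) * Real.exp (-V x) := by
    have h1 : ∀ x, (∑ a, (pd a V x * w a x - pd a (w a) x)) * δ x * Real.exp (-V x) =
        ∑ a, (pd a V x * w a x - pd a (w a) x) * δ x * Real.exp (-V x) := by
      intro x
      rw [Finset.sum_mul, Finset.sum_mul]
    simp only [h1]
    rw [integral_finset_sum]
    · refine Finset.sum_congr rfl fun a _ => ?_
      rw [ibp hV1 (hw1 a) (hwc a) hδ a]
      have h2 : ∀ x, w a x * pd a δ x * Real.exp (-V x) =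
          ∑ b, w a x * (hess V x a b * w' b x + pd b V x * pd a (w' b) x -
            pd a (pd b (w' b)) x) * Real.exp (-V x) := by
        intro x
        rw [hpδ, Finset.mul_sum, Finset.sum_mul]
      simp only [h2]
      rw [integral_finset_sum]
      intro b _
      refine hi _ ?_ ((hwc a).mul_right.mul_right)
      refine ((hw1 a).continuous.mul ?_).mul hE
      exact (((continuous_hess hV a b).mul (hw1' b).continuous).add
        ((continuous_pd hV1 b).mul (continuous_pd (hw1' b) a))).sub
        (continuous_pd (contDiff_pd (hw' b) b) a)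
    · intro a _
      refine hi _ ?_ ?_
      · exact ((((continuous_pd hV1 a).mul (hw1 a).continuous).sub
          (continuous_pd (hw1 a) a)).mul hδ.continuous).mul hE
      · exact (((hwc a).mul_left).sub (hpw a a)).mul_right.mul_right
  -- right-hand side
  have hR : ∫ x, ((∑ a, ∑ b, hess V x a b * w a x * w' b x) +
        ∑ a, ∑ b, pd b (w a) x * pd a (w' b) x) * Real.exp (-V x) =
      ∑ a, ∑ b, ∫ x, (hess V x a b * w a x * w' b x + pd b (w a) x * pd a (w' b) x) *
        Real.exp (-V x) := by
    have h1 : ∀ x, ((∑ a, ∑ b, hess V x a b * w a x * w' b x) +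
        ∑ a, ∑ b, pd b (w a) x * pd a (w' b) x) * Real.exp (-V x) =
        ∑ a, ∑ b, (hess V x a b * w a x * w' b x + pd b (w a) x * pd a (w' b) x) *
        Real.exp (-V x) := by
      intro x
      simp only [Finset.sum_add_distrib, add_mul, Finset.sum_mul]
    simp only [h1]
    have h2 : ∀ a b, Integrable (fun x => (hess V x a b * w a x * w' b x +
        pd b (w a) x * pd a (w' b) x) * Real.exp (-V x)) := by
      intro a b
      refine hi _ ?_ ?_
      · exact ((((continuous_hess hV a b).mul (hw1 a).continuous).mul (hw1' b).continuous).add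
          ((continuous_pd (hw1 a) b).mul (continuous_pd (hw1' b) a))).mul hE
      · exact (((hwc a).mul_left.mul_right).add ((hpw a b).mul_right)).mul_right
    rw [integral_finset_sum _ fun a _ => integrable_finset_sum _ fun b _ => h2 a b]
    refine Finset.sum_congr rfl fun a _ => ?_
    rw [integral_finset_sum _ fun b _ => h2 a b]
  change ∫ x, (∑ a, (pd a V x * w a x - pd a (w a) x)) * δ x * Real.exp (-V x) = _
  rw [hL, hR]
  refine Finset.sum_congr rfl fun a _ => Finset.sum_congr rfl fun b _ => ?_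
  have h5 := ibp hV1 (hw1 a) (hwc a) (contDiff_pd (hw' b) a) b
  have i1 : Integrable (fun x => (pd b V x * w a x - pd b (w a) x) * pd a (w' b) x *
      Real.exp (-V x)) := by
    refine hi _ ?_ (((hwc a).mul_left.sub (hpw a b)).mul_right.mul_right)
    exact ((((continuous_pd hV1 b).mul (hw1 a).continuous).sub
      (continuous_pd (hw1 a) b)).mul (continuous_pd (hw1' b) a)).mul hE
  have i2 : Integrable (fun x => w a x * pd b (pd a (w' b)) x * Real.exp (-V x)) := by
    refine hi _ ?_ ((hwc a).mul_right.mul_right)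
    exact ((hw1 a).continuous.mul (continuous_pd (contDiff_pd (hw' b) a) b)).mul hE
  have i3 : Integrable (fun x => (hess V x a b * w a x * w' b x + pd b (w a) x * pd a (w' b) x) *
      Real.exp (-V x)) := by
    refine hi _ ?_ ?_
    · exact ((((continuous_hess hV a b).mul (hw1 a).continuous).mul (hw1' b).continuous).add
        ((continuous_pd (hw1 a) b).mul (continuous_pd (hw1' b) a))).mul hE
    · exact (((hwc a).mul_left.mul_right).add ((hpw a b).mul_right)).mul_right
  have h6 : ∀ x, w a x * (hess V x a b * w' b x + pd b V x * pd a (w' b) x -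
        pd a (pd b (w' b)) x) * Real.exp (-V x) =
      ((hess V x a b * w a x * w' b x + pd b (w a) x * pd a (w' b) x) * Real.exp (-V x) +
      (pd b V x * w a x - pd b (w a) x) * pd a (w' b) x * Real.exp (-V x)) -
      w a x * pd b (pd a (w' b)) x * Real.exp (-V x) := by
    intro x
    rw [hess_symm (hw' b) b a x]
    ring
  have i4 : Integrable (fun x => (hess V x a b * w a x * w' b x + pd b (w a) x * pd a (w' b) x) *
      Real.exp (-V x) +
      (pd b V x * w a x - pd b (w a) x) * pd a (w' b) x * Real.exp (-V x)) := i3.add i1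
  simp only [h6]
  rw [integral_sub i4 i2, integral_add i3 i1, h5]
  ring

/-- dominated convergence on a ball -/
theorem tendsto_int {F : ℕ → E n → ℝ} {G : E n → ℝ} {K R : ℝ} (hF : ∀ k, Continuous (F k))
    (hK : ∀ k x, ‖x‖ ≤ R → |F k x| ≤ K) (hz : ∀ k x, R < ‖x‖ → F k x = 0)
    (hlim : ∀ᵐ x, Tendsto (fun k => F k x) atTop (𝓝 (G x))) :
    Tendsto (fun k => ∫ x, F k x) atTop (𝓝 (∫ x, G x)) := by
  refine tendsto_integral_of_dominated_convergence
    (indicator (closedBall (0 : E n) R) (fun _ => K)) (fun k => (hF k).aestronglyMeasurable)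
    ?_ (fun k => Eventually.of_forall fun x => ?_) hlim
  · rw [integrable_indicator_iff measurableSet_closedBall]
    exact integrableOn_const (by exact (isCompact_closedBall (0 : E n) R).measure_lt_top.ne)
  · by_cases hx : ‖x‖ ≤ R
    · rw [indicator_of_mem (by rw [mem_closedBall, dist_zero_right]; exact hx)]
      exact hK k x hx
    · rw [hz k x (not_le.1 hx), norm_zero, indicator_of_notMem]
      rw [mem_closedBall, dist_zero_right]
      exact hx

theorem lip_support {w : Fin n → E n → ℝ} (hw : ∀ b, ∃ C : ℝ≥0, LipschitzWith C (w b))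
    (hwc : ∀ b, HasCompactSupport (w b)) : ∃ (C : ℝ≥0) (R : ℝ), (∀ b, LipschitzWith C (w b)) ∧
      ∀ b x, R < ‖x‖ → w b x = 0 := by
  choose C hC using hw
  have h1 : ∀ b, ∃ R : ℝ, ∀ x, R < ‖x‖ → w b x = 0 := by
    intro b
    obtain ⟨R, hR⟩ := (hwc b).isCompact.isBounded.subset_closedBall (0 : E n)
    refine ⟨R, fun x hx => ?_⟩
    by_contra hne
    have h2 := hR (subset_tsupport _ (mem_support.2 hne))
    rw [mem_closedBall, dist_zero_right] at h2
    exact absurd h2 (not_le.2 hx)
  choose R hR using h1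
  refine ⟨∑ b, C b, ∑ b, |R b|, fun b => ?_, fun b x hx => ?_⟩
  · exact (hC b).weaken (Finset.single_le_sum (f := C) (fun i _ => bot_le) (Finset.mem_univ b))
  · refine hR b x (lt_of_le_of_lt ?_ hx)
    exact (le_abs_self _).trans
      (Finset.single_le_sum (f := fun b => |R b|) (fun i _ => abs_nonneg _) (Finset.mem_univ b))

/-- polarised flat Bochner identity for Lipschitz fields with compact support -/
theorem flatB {V : E n → ℝ} (hV : ContDiff ℝ 2 V) {w w' : Fin n → E n → ℝ}
    (hw : ∀ b, ∃ C : ℝ≥0, LipschitzWith C (w b)) (hwc : ∀ b, HasCompactSupport (w b))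
    (hw' : ∀ b, ∃ C : ℝ≥0, LipschitzWith C (w' b)) (hwc' : ∀ b, HasCompactSupport (w' b)) :
    ∫ x, (∑ a, (pd a V x * w a x - pd a (w a) x)) * (∑ b, (pd b V x * w' b x - pd b (w' b) x)) *
        Real.exp (-V x) =
      ∫ x, ((∑ a, ∑ b, hess V x a b * w a x * w' b x) +
        ∑ a, ∑ b, pd b (w a) x * pd a (w' b) x) * Real.exp (-V x) := by
  obtain ⟨C₁, R₁, hC₁, hR₁⟩ := lip_support hw hwc
  obtain ⟨C₂, R₂, hC₂, hR₂⟩ := lip_support hw' hwc'
  have hV1 : ContDiff ℝ 1 V := hV.of_le (by norm_num)
  have hE : Continuous (fun z => Real.exp (-V z)) := (hV1.neg.exp).continuous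
  let f : ℕ → Fin n → E n → ℝ := fun k b => mol volume k (w b)
  let f' : ℕ → Fin n → E n → ℝ := fun k b => mol volume k (w' b)
  have hf : ∀ k b, ContDiff ℝ ∞ (f k b) := fun k b =>
    contDiff_mol volume k (hC₁ b).continuous.locallyIntegrable
  have hf' : ∀ k b, ContDiff ℝ ∞ (f' k b) := fun k b =>
    contDiff_mol volume k (hC₂ b).continuous.locallyIntegrable
  have hf2 : ∀ k b, ContDiff ℝ 2 (f k b) := fun k b => contDiff_infty.1 (hf k b) 2
  have hf2' : ∀ k b, ContDiff ℝ 2 (f' k b) := fun k b => contDiff_infty.1 (hf' k b) 2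
  have hf1 : ∀ k b, ContDiff ℝ 1 (f k b) := fun k b => (hf2 k b).of_le (by norm_num)
  have hf1' : ∀ k b, ContDiff ℝ 1 (f' k b) := fun k b => (hf2' k b).of_le (by norm_num)
  have hfc : ∀ k b, HasCompactSupport (f k b) := fun k b =>
    hasCompactSupport_mol volume k (hR₁ b)
  have hfc' : ∀ k b, HasCompactSupport (f' k b) := fun k b =>
    hasCompactSupport_mol volume k (hR₂ b)
  have key : ∀ k, _ := fun k => flat_smooth hV (hf2 k) (hfc k) (hf2' k) (hfc' k)
  -- radius and bounds
  set R : ℝ := |R₁| + |R₂| + 2 with hRdef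
  have hzf : ∀ k b x, R < ‖x‖ → f k b x = 0 := fun k b x hx =>
    mol_eq_zero volume k (hR₁ b) x (by
      have h1 := le_abs_self R₁
      have h2 := abs_nonneg R₂
      linarith)
  have hzf' : ∀ k b x, R < ‖x‖ → f' k b x = 0 := fun k b x hx =>
    mol_eq_zero volume k (hR₂ b) x (by
      have h1 := le_abs_self R₂
      have h2 := abs_nonneg R₁
      linarith)
  have hzp : ∀ {g : E n → ℝ} (a : Fin n), (∀ x, R < ‖x‖ → g x = 0) →
      ∀ x, R < ‖x‖ → pd a g x = 0 := by
    intro g a hg x hx
    have h1 : g =ᶠ[𝓝 x] fun _ => 0 := by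
      have h2 : {y : E n | R < ‖y‖} ∈ 𝓝 x :=
        (isOpen_lt continuous_const continuous_norm).mem_nhds hx
      filter_upwards [h2] with y hy
      exact hg y hy
    unfold pd
    rw [h1.fderiv_eq]
    simp
  let T : E n → ℝ := fun x => (∑ a, |pd a V x|) + (∑ a, ∑ b, |hess V x a b|) + Real.exp (-V x) +
    (∑ a, |w a x|) + ∑ a, |w' a x|
  have hT : Continuous T := by
    refine (((Continuous.add ?_ ?_).add hE).add ?_).add ?_
    · exact continuous_finset_sum _ fun a _ => (continuous_pd hV1 a).abs
    · exact continuous_finset_sum _ fun a _ => continuous_finset_sum _ fun b _ =>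
        (continuous_hess hV a b).abs
    · exact continuous_finset_sum _ fun a _ => (hC₁ a).continuous.abs
    · exact continuous_finset_sum _ fun a _ => (hC₂ a).continuous.abs
  obtain ⟨M₀, hM₀⟩ := (isCompact_closedBall (0 : E n) R).exists_bound_of_continuousOn
    hT.continuousOn
  set M : ℝ := |M₀| + 2 * C₁ + 2 * C₂ + 1 with hMdef
  have hC₁0 : (0 : ℝ) ≤ C₁ := C₁.2
  have hC₂0 : (0 : ℝ) ≤ C₂ := C₂.2
  have hM1 : 1 ≤ M := by
    have := abs_nonneg M₀
    linarith
  have hM0 : 0 ≤ M := by linarith
  have hTM : ∀ x : E n, ‖x‖ ≤ R → T x ≤ |M₀| := by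
    intro x hx
    have h1 := hM₀ x (by rw [mem_closedBall, dist_zero_right]; exact hx)
    exact (le_abs_self _).trans (h1.trans (le_abs_self _))
  have n1 : ∀ x, 0 ≤ ∑ a, |pd a V x| := fun x => Finset.sum_nonneg fun a _ => abs_nonneg _
  have n2 : ∀ x, 0 ≤ ∑ a, ∑ b, |hess V x a b| := fun x =>
    Finset.sum_nonneg fun a _ => Finset.sum_nonneg fun b _ => abs_nonneg _
  have n3 : ∀ x, 0 ≤ ∑ a, |w a x| := fun x => Finset.sum_nonneg fun a _ => abs_nonneg _
  have n4 : ∀ x, 0 ≤ ∑ a, |w' a x| := fun x => Finset.sum_nonneg fun a _ => abs_nonneg _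
  have bV : ∀ a x, ‖x‖ ≤ R → |pd a V x| ≤ M := by
    intro a x hx
    have h1 := hTM x hx
    have h2 : |pd a V x| ≤ ∑ a, |pd a V x| :=
      Finset.single_le_sum (f := fun a => |pd a V x|) (fun i _ => abs_nonneg _) (Finset.mem_univ a)
    have h3 := n2 x
    have h4 := n3 x
    have h5 := n4 x
    have h6 := (Real.exp_pos (-V x)).le
    simp only [T] at h1
    linarith
  have bH : ∀ a b x, ‖x‖ ≤ R → |hess V x a b| ≤ M := by
    intro a b x hx
    have h1 := hTM x hx
    have h2 : |hess V x a b| ≤ ∑ b, |hess V x a b| :=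
      Finset.single_le_sum (f := fun b => |hess V x a b|) (fun i _ => abs_nonneg _)
        (Finset.mem_univ b)
    have h2' : ∑ b, |hess V x a b| ≤ ∑ a, ∑ b, |hess V x a b| :=
      Finset.single_le_sum (f := fun a => ∑ b, |hess V x a b|)
        (fun i _ => Finset.sum_nonneg fun b _ => abs_nonneg _) (Finset.mem_univ a)
    have h3 := n1 x
    have h4 := n3 x
    have h5 := n4 x
    have h6 := (Real.exp_pos (-V x)).le
    simp only [T] at h1
    linarith
  have bE : ∀ x, ‖x‖ ≤ R → |Real.exp (-V x)| ≤ M := by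
    intro x hx
    have h1 := hTM x hx
    have h2 := n2 x
    have h3 := n1 x
    have h4 := n3 x
    have h5 := n4 x
    rw [abs_of_pos (Real.exp_pos _)]
    simp only [T] at h1
    linarith
  have bd2 : ∀ k : ℕ, 2 / ((k : ℝ) + 1) ≤ 2 := fun k => bp_rOut_le (E := E n) k
  have bw : ∀ k a x, ‖x‖ ≤ R → |f k a x| ≤ M := by
    intro k a x hx
    have h1 := hTM x hx
    have h2 : |w a x| ≤ ∑ a, |w a x| :=
      Finset.single_le_sum (f := fun a => |w a x|) (fun i _ => abs_nonneg _) (Finset.mem_univ a)
    have h3 := n1 x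
    have h4 := n2 x
    have h5 := n4 x
    have h6 := (Real.exp_pos (-V x)).le
    have h7 := dist_mol_le volume k (hC₁ a) x
    have h8 : |f k a x| ≤ |w a x| + C₁ * 2 := by
      have h9 : |f k a x - w a x| ≤ C₁ * 2 := by
        rw [← Real.dist_eq]
        exact h7.trans (mul_le_mul_of_nonneg_left (bd2 k) hC₁0)
      have h10 := abs_sub_abs_le_abs_sub (f k a x) (w a x)
      linarith
    simp only [T] at h1
    linarith
  have bw' : ∀ k a x, ‖x‖ ≤ R → |f' k a x| ≤ M := by
    intro k a x hx
    have h1 := hTM x hx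
    have h2 : |w' a x| ≤ ∑ a, |w' a x| :=
      Finset.single_le_sum (f := fun a => |w' a x|) (fun i _ => abs_nonneg _) (Finset.mem_univ a)
    have h3 := n1 x
    have h4 := n2 x
    have h5 := n3 x
    have h6 := (Real.exp_pos (-V x)).le
    have h7 := dist_mol_le volume k (hC₂ a) x
    have h8 : |f' k a x| ≤ |w' a x| + C₂ * 2 := by
      have h9 : |f' k a x - w' a x| ≤ C₂ * 2 := by
        rw [← Real.dist_eq]
        exact h7.trans (mul_le_mul_of_nonneg_left (bd2 k) hC₂0)
      have h10 := abs_sub_abs_le_abs_sub (f' k a x) (w' a x)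
      linarith
    simp only [T] at h1
    linarith
  have hei : ∀ a : Fin n, ‖(ei a : E n)‖ = 1 := fun a => by simp [ei]
  have bp1 : ∀ k a b x, |pd a (f k b) x| ≤ M := by
    intro k a b x
    unfold pd
    have h1 := (fderiv ℝ (f k b) x).le_opNorm (ei a)
    rw [hei, mul_one] at h1
    have h2 := norm_fderiv_mol_le volume k (hC₁ b) x
    have h3 := abs_nonneg M₀
    rw [← Real.norm_eq_abs]
    refine h1.trans (h2.trans ?_)
    linarith
  have bp2 : ∀ k a b x, |pd a (f' k b) x| ≤ M := by
    intro k a b x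
    unfold pd
    have h1 := (fderiv ℝ (f' k b) x).le_opNorm (ei a)
    rw [hei, mul_one] at h1
    have h2 := norm_fderiv_mol_le volume k (hC₂ b) x
    have h3 := abs_nonneg M₀
    rw [← Real.norm_eq_abs]
    refine h1.trans (h2.trans ?_)
    linarith
  -- pointwise limits
  have lw : ∀ a x, Tendsto (fun k => f k a x) atTop (𝓝 (w a x)) := fun a x =>
    tendsto_mol volume (hC₁ a).continuous x
  have lw' : ∀ a x, Tendsto (fun k => f' k a x) atTop (𝓝 (w' a x)) := fun a x =>
    tendsto_mol volume (hC₂ a).continuous x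
  have lp : ∀ᵐ x : E n, ∀ a b, Tendsto (fun k => pd a (f k b) x) atTop (𝓝 (pd a (w b) x)) := by
    rw [ae_all_iff]
    intro a
    rw [ae_all_iff]
    intro b
    filter_upwards [ae_tendsto_fderiv_mol volume (hC₁ b)] with x hx
    exact (((ContinuousLinearMap.apply ℝ ℝ (ei a : E n)).continuous.tendsto _).comp hx)
  have lp' : ∀ᵐ x : E n, ∀ a b, Tendsto (fun k => pd a (f' k b) x) atTop (𝓝 (pd a (w' b) x)) := by
    rw [ae_all_iff]
    intro a
    rw [ae_all_iff]
    intro b
    filter_upwards [ae_tendsto_fderiv_mol volume (hC₂ b)] with x hx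
    exact (((ContinuousLinearMap.apply ℝ ℝ (ei a : E n)).continuous.tendsto _).comp hx)
  have bsum : ∀ (g : Fin n → ℝ) (B : ℝ), (∀ a, |g a| ≤ B) → |∑ a, g a| ≤ n * B := by
    intro g B hg
    refine (Finset.abs_sum_le_sum_abs _ _).trans ?_
    refine (Finset.sum_le_sum fun a _ => hg a).trans ?_
    rw [Finset.sum_const, Finset.card_univ, Fintype.card_fin, nsmul_eq_mul]
  -- left-hand side
  have tL := tendsto_int (n := n) (R := R) (K := (n * (M * M + M)) * (n * (M * M + M)) * M)
    (F := fun k x => (∑ a, (pd a V x * f k a x - pd a (f k a) x)) *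
      (∑ b, (pd b V x * f' k b x - pd b (f' k b) x)) * Real.exp (-V x))
    (G := fun x => (∑ a, (pd a V x * w a x - pd a (w a) x)) *
      (∑ b, (pd b V x * w' b x - pd b (w' b) x)) * Real.exp (-V x))
    (by
      intro k
      refine (Continuous.mul ?_ ?_).mul hE
      · exact continuous_finset_sum _ fun a _ => ((continuous_pd hV1 a).mul
          (hf1 k a).continuous).sub (continuous_pd (hf1 k a) a)
      · exact continuous_finset_sum _ fun a _ => ((continuous_pd hV1 a).mul
          (hf1' k a).continuous).sub (continuous_pd (hf1' k a) a))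
    (by
      intro k x hx
      rw [abs_mul, abs_mul]
      have h1 : |∑ a, (pd a V x * f k a x - pd a (f k a) x)| ≤ n * (M * M + M) := by
        refine bsum _ _ fun a => ?_
        refine (abs_sub _ _).trans ?_
        rw [abs_mul]
        exact add_le_add (mul_le_mul (bV a x hx) (bw k a x hx) (abs_nonneg _) hM0) (bp1 k a a x)
      have h2 : |∑ b, (pd b V x * f' k b x - pd b (f' k b) x)| ≤ n * (M * M + M) := by
        refine bsum _ _ fun a => ?_
        refine (abs_sub _ _).trans ?_
        rw [abs_mul]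
        exact add_le_add (mul_le_mul (bV a x hx) (bw' k a x hx) (abs_nonneg _) hM0) (bp2 k a a x)
      exact mul_le_mul (mul_le_mul h1 h2 (abs_nonneg _) ((abs_nonneg _).trans h1)) (bE x hx)
        (abs_nonneg _) (mul_nonneg ((abs_nonneg _).trans h1) ((abs_nonneg _).trans h2)))
    (by
      intro k x hx
      have h1 : ∑ a, (pd a V x * f k a x - pd a (f k a) x) = 0 := by
        refine Finset.sum_eq_zero fun a _ => ?_
        rw [hzf k a x hx, hzp a (hzf k a) x hx]
        ring
      simp only [h1, zero_mul])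
    (by
      filter_upwards [lp, lp'] with x hx hx'
      refine (Tendsto.mul ?_ ?_).mul tendsto_const_nhds
      · exact tendsto_finset_sum _ fun a _ => ((lw a x).const_mul _).sub (hx a a)
      · exact tendsto_finset_sum _ fun a _ => ((lw' a x).const_mul _).sub (hx' a a))
  have tR := tendsto_int (n := n) (R := R) (K := (n * (n * (M * M * M)) + n * (n * (M * M))) * M)
    (F := fun k x => ((∑ a, ∑ b, hess V x a b * f k a x * f' k b x) +
        ∑ a, ∑ b, pd b (f k a) x * pd a (f' k b) x) * Real.exp (-V x))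
    (G := fun x => ((∑ a, ∑ b, hess V x a b * w a x * w' b x) +
        ∑ a, ∑ b, pd b (w a) x * pd a (w' b) x) * Real.exp (-V x))
    (by
      intro k
      refine (Continuous.add ?_ ?_).mul hE
      · exact continuous_finset_sum _ fun a _ => continuous_finset_sum _ fun b _ =>
          ((continuous_hess hV a b).mul (hf1 k a).continuous).mul (hf1' k b).continuous
      · exact continuous_finset_sum _ fun a _ => continuous_finset_sum _ fun b _ =>
          (continuous_pd (hf1 k a) b).mul (continuous_pd (hf1' k b) a))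
    (by
      intro k x hx
      rw [abs_mul]
      have h1 : |∑ a, ∑ b, hess V x a b * f k a x * f' k b x| ≤ n * (n * (M * M * M)) := by
        refine bsum _ _ fun a => bsum _ _ fun b => ?_
        rw [abs_mul, abs_mul]
        exact mul_le_mul (mul_le_mul (bH a b x hx) (bw k a x hx) (abs_nonneg _) hM0)
          (bw' k b x hx) (abs_nonneg _) (mul_nonneg hM0 hM0)
      have h2 : |∑ a, ∑ b, pd b (f k a) x * pd a (f' k b) x| ≤ n * (n * (M * M)) := by
        refine bsum _ _ fun a => bsum _ _ fun b => ?_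
        rw [abs_mul]
        exact mul_le_mul (bp1 k b a x) (bp2 k a b x) (abs_nonneg _) hM0
      refine mul_le_mul ((abs_add_le _ _).trans (add_le_add h1 h2)) (bE x hx) (abs_nonneg _) ?_
      exact add_nonneg ((abs_nonneg _).trans h1) ((abs_nonneg _).trans h2))
    (by
      intro k x hx
      have h1 : ∑ a, ∑ b, hess V x a b * f k a x * f' k b x = 0 := by
        refine Finset.sum_eq_zero fun a _ => Finset.sum_eq_zero fun b _ => ?_
        rw [hzf k a x hx]
        ring
      have h2 : ∑ a, ∑ b, pd b (f k a) x * pd a (f' k b) x = 0 := by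
        refine Finset.sum_eq_zero fun a _ => Finset.sum_eq_zero fun b _ => ?_
        rw [hzp b (hzf k a) x hx]
        ring
      simp only [h1, h2, zero_mul, add_zero])
    (by
      filter_upwards [lp, lp'] with x hx hx'
      refine (Tendsto.add ?_ ?_).mul tendsto_const_nhds
      · exact tendsto_finset_sum _ fun a _ => tendsto_finset_sum _ fun b _ =>
          ((lw a x).const_mul _).mul (lw' b x)
      · exact tendsto_finset_sum _ fun a _ => tendsto_finset_sum _ fun b _ =>
          (hx b a).mul (hx' a b))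
  refine tendsto_nhds_unique tL (tR.congr fun k => ?_)
  exact (key k).symm

/-- flat Bochner identity for a Lipschitz field with compact support -/
theorem flatB_sq {V : E n → ℝ} (hV : ContDiff ℝ 2 V) {w : Fin n → E n → ℝ}
    (hw : ∀ b, ∃ C : ℝ≥0, LipschitzWith C (w b)) (hwc : ∀ b, HasCompactSupport (w b)) :
    ∫ x, (∑ a, (pd a V x * w a x - pd a (w a) x)) ^ 2 * Real.exp (-V x) =
      ∫ x, ((∑ a, ∑ b, hess V x a b * w a x * w b x) +
        ∑ a, ∑ b, pd b (w a) x * pd a (w b) x) * Real.exp (-V x) := by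
  rw [← flatB hV hw hwc hw hwc]
  refine integral_congr_ae (Eventually.of_forall fun x => ?_)
  simp only [sq]

end Vale.Agent.P227.M.FlatB

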