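import Vale.Agent.P227.M.ID.TGrowth

/-!
# P227, block ID: the differential algebra of temperate functions in x-space

`TA n` = functions on `EuclideanSpace ℝ (Fin n)` of temperate growth (smooth, all derivatives
polynomially bounded), a subalgebra of all functions.  `pd b` = partial derivative as a
derivation of `TA n`; they commute.
-/

namespace Vale.Agent.P227.M.IDI

open MeasureTheory Function

open scoped ContDiff Nat

noncomputable section

variable {n : ℕ}

/-- The algebra of temperate functions. -/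
def TA (n : ℕ) : Subalgebra ℝ (EuclideanSpace ℝ (Fin n) → ℝ) where
  carrier := {f | f.HasTemperateGrowth}
  mul_mem' := fun hf hg => Function.HasTemperateGrowth.mul hf hg
  add_mem' := fun hf hg => Function.HasTemperateGrowth.add hf hg
  algebraMap_mem' := fun r => Function.HasTemperateGrowth.const r

theorem ta_tg (f : TA n) : (f : EuclideanSpace ℝ (Fin n) → ℝ).HasTemperateGrowth := f.2

/-- Evaluation at a point. -/
def ev (x : EuclideanSpace ℝ (Fin n)) : TA n →ₐ[ℝ] ℝ :=
  (Pi.evalAlgHom ℝ (fun _ : EuclideanSpace ℝ (Fin n) => ℝ) x).comp (TA n).val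

@[simp] theorem ev_apply (x : EuclideanSpace ℝ (Fin n)) (f : TA n) : ev x f = f.1 x := rfl

theorem ta_ext {f g : TA n} (h : ∀ x, ev x f = ev x g) : f = g :=
  Subtype.ext (funext h)

/-- The basis vector `e_b`. -/
abbrev eb (b : Fin n) : EuclideanSpace ℝ (Fin n) := EuclideanSpace.single b (1 : ℝ)

theorem ta_cd (f : TA n) : ContDiff ℝ ∞ f.1 := f.2.1

theorem ta_diff (f : TA n) : Differentiable ℝ f.1 := f.2.1.differentiable (by simp)

theorem fderiv_tg {E : Type*} [NormedAddCommGroup E] [NormedSpace ℝ E] {f : E → ℝ}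
    (hf : f.HasTemperateGrowth) : (fderiv ℝ f).HasTemperateGrowth := by
  refine ⟨(hf.1.fderiv_right (m := ∞) (by simp)), fun n => ?_⟩
  obtain ⟨k, C, hC⟩ := hf.2 (n + 1)
  refine ⟨k, C, fun x => ?_⟩
  have := hC x
  rwa [← norm_iteratedFDeriv_fderiv] at this

theorem fderiv_apply_tg {E : Type*} [NormedAddCommGroup E] [NormedSpace ℝ E] {f : E → ℝ}
    (hf : f.HasTemperateGrowth) (v : E) : (fun x => fderiv ℝ f x v).HasTemperateGrowth :=
  (ContinuousLinearMap.apply ℝ ℝ v).hasTemperateGrowth.comp (fderiv_tg hf)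

/-- The partial derivative `∂/∂x_b` as a derivation. -/
def pd (b : Fin n) : Derivation ℝ (TA n) (TA n) :=
  Derivation.mk'
    { toFun := fun f => ⟨fun x => fderiv ℝ f.1 x (eb b), fderiv_apply_tg f.2 _⟩
      map_add' := by
        intro f g
        apply Subtype.ext
        funext x
        show fderiv ℝ (f.1 + g.1) x (eb b) = fderiv ℝ f.1 x (eb b) + fderiv ℝ g.1 x (eb b)
        rw [fderiv_add (ta_diff f x) (ta_diff g x)]
        rfl
      map_smul' := by
        intro r f
        apply Subtype.ext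
        funext x
        show fderiv ℝ (r • f.1) x (eb b) = r • fderiv ℝ f.1 x (eb b)
        rw [fderiv_const_smul (ta_diff f x)]
        rfl }
    (by
      intro f g
      apply Subtype.ext
      funext x
      show fderiv ℝ (f.1 * g.1) x (eb b) = f.1 x * fderiv ℝ g.1 x (eb b)
        + g.1 x * fderiv ℝ f.1 x (eb b)
      rw [fderiv_mul (ta_diff f x) (ta_diff g x)]
      simp)

theorem pd_apply (b : Fin n) (f : TA n) (x : EuclideanSpace ℝ (Fin n)) :
    (pd b f).1 x = fderiv ℝ f.1 x (eb b) := rfl

/-- Partial derivatives commute. -/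
theorem pd_comm (a b : Fin n) (f : TA n) : pd a (pd b f) = pd b (pd a f) := by
  apply Subtype.ext
  funext x
  have hd : DifferentiableAt ℝ (fderiv ℝ f.1) x :=
    (((ta_cd f).fderiv_right (m := 1) (by norm_cast)).differentiable (by simp)) x
  have h1 : ∀ v w : EuclideanSpace ℝ (Fin n),
      fderiv ℝ (fun y => fderiv ℝ f.1 y v) x w = fderiv ℝ (fderiv ℝ f.1) x w v := by
    intro v w
    rw [fderiv_clm_apply hd (differentiableAt_const v)]
    simp
  have hs : IsSymmSndFDerivAt ℝ f.1 x := by
    apply ContDiffAt.isSymmSndFDerivAt (n := 2) ((ta_cd f).contDiffAt.of_le (by norm_cast))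
    simp
  rw [pd_apply, pd_apply]
  show fderiv ℝ (fun y => fderiv ℝ f.1 y (eb b)) x (eb a)
    = fderiv ℝ (fun y => fderiv ℝ f.1 y (eb a)) x (eb b)
  rw [h1, h1]
  exact hs _ _

/-- The coordinate function. -/
def X (a : Fin n) : TA n :=
  ⟨fun x => x a, (EuclideanSpace.proj (𝕜 := ℝ) a).hasTemperateGrowth⟩

theorem pd_X (a b : Fin n) : pd b (X a) = if a = b then 1 else 0 := by
  apply Subtype.ext
  funext x
  have h1 : HasFDerivAt (fun x : EuclideanSpace ℝ (Fin n) => x a)
      (EuclideanSpace.proj (𝕜 := ℝ) a) x := (EuclideanSpace.proj (𝕜 := ℝ) a).hasFDerivAt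
  rw [pd_apply]
  show fderiv ℝ (fun x : EuclideanSpace ℝ (Fin n) => x a) x (eb b) = _
  rw [h1.fderiv]
  by_cases h : a = b
  · subst h; simp
  · simp [h]

/-- Hessian matrix over the algebra. -/
def hess (ψ : TA n) : Matrix (Fin n) (Fin n) (TA n) := fun a b => pd a (pd b ψ)

theorem hess_symm (ψ : TA n) (a b : Fin n) : hess ψ a b = hess ψ b a := pd_comm a b ψ

theorem pd_hess (ψ : TA n) (a b c : Fin n) : pd a (hess ψ b c) = pd b (hess ψ a c) := by
  unfold hess
  exact pd_comm a b _

/-- Determinant bounds from bounds of the quadratic form. -/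
theorem det_bounds (A : Matrix (Fin n) (Fin n) ℝ) (hA : A.IsHermitian) (c C : ℝ) (hc : 0 < c)
    (h1 : ∀ v : Fin n → ℝ, c * ∑ i, v i ^ 2 ≤ ∑ i, ∑ j, v i * A i j * v j)
    (h2 : ∀ v : Fin n → ℝ, ∑ i, ∑ j, v i * A i j * v j ≤ C * ∑ i, v i ^ 2) :
    c ^ n ≤ A.det ∧ A.det ≤ C ^ n := by
  have hev : ∀ i, c ≤ hA.eigenvalues i ∧ hA.eigenvalues i ≤ C := by
    intro i
    set w : Fin n → ℝ := fun j => hA.eigenvectorBasis i j with hw
    have hn : ∑ j, w j ^ 2 = 1 := by
      have h := hA.eigenvectorBasis.orthonormal.1 i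
      rw [EuclideanSpace.norm_eq, Real.sqrt_eq_one] at h
      simpa [w] using h
    have hmul : A.mulVec w = hA.eigenvalues i • w := by
      have := hA.mulVec_eigenvectorBasis i
      exact this
    have hq : ∑ a, ∑ b, w a * A a b * w b = hA.eigenvalues i := by
      have h3 : ∀ a, ∑ b, w a * A a b * w b = w a * (A.mulVec w a) := by
        intro a
        rw [Matrix.mulVec, dotProduct, Finset.mul_sum]
        exact Finset.sum_congr rfl fun b _ => by ring
      rw [Finset.sum_congr rfl fun a _ => h3 a, hmul]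
      have h4 : ∀ a, w a * (hA.eigenvalues i • w) a = hA.eigenvalues i * w a ^ 2 := by
        intro a
        simp only [Pi.smul_apply, smul_eq_mul]
        ring
      rw [Finset.sum_congr rfl fun a _ => h4 a, ← Finset.mul_sum, hn, mul_one]
    constructor
    · have := h1 w
      rw [hn, hq] at this
      linarith
    · have := h2 w
      rw [hn, hq] at this
      linarith
  have hdet : A.det = ∏ i, hA.eigenvalues i := by
    have := hA.det_eq_prod_eigenvalues
    simpa using this
  rw [hdet]
  constructor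
  · calc c ^ n = ∏ _i : Fin n, c := by simp
      _ ≤ ∏ i, hA.eigenvalues i :=
        Finset.prod_le_prod (fun _ _ => hc.le) fun i _ => (hev i).1
  · calc ∏ i, hA.eigenvalues i ≤ ∏ _i : Fin n, C :=
        Finset.prod_le_prod (fun i _ => hc.le.trans (hev i).1) fun i _ => (hev i).2
      _ = C ^ n := by simp

end

end Vale.Agent.P227.M.IDI
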