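import Mathlib

/-! # P227, block ID: pointwise positivity facts for the identity

All facts are finite dimensional linear algebra over `ℝ`, index type any `Fintype`. -/

namespace Vale.Agent.P227.M.ID

open Matrix Finset

variable {ι : Type*} [Fintype ι]

/-- trace of a product of two positive semidefinite matrices -/
theorem trace_mul_nonneg {P Q : Matrix ι ι ℝ} (hP : P.PosSemidef) (hQ : Q.PosSemidef) :
    0 ≤ (P * Q).trace := by
  obtain ⟨m, v, hv⟩ := Matrix.posSemidef_iff_eq_sum_vecMulVec.1 hP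
  have : (P * Q).trace = ∑ k, v k ⬝ᵥ (Q *ᵥ v k) := by
    rw [hv, Finset.sum_mul, trace_sum]
    refine Finset.sum_congr rfl fun k _ => ?_
    rw [star_trivial, trace_mul_comm, Matrix.mul_vecMulVec, trace_vecMulVec, dotProduct_comm]
  rw [this]
  refine Finset.sum_nonneg fun k _ => ?_
  simpa using hQ.dotProduct_mulVec_nonneg (v k)

/-- (P1) `0 ≤ tr (σ S σ S)` for `S` symmetric. -/
theorem trace_sig_nonneg {σ S : Matrix ι ι ℝ} (hσ : σ.PosSemidef) (hS : Sᵀ = S) :
    0 ≤ (σ * S * (σ * S)).trace := by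
  have h1 : (S * σ * S).PosSemidef := by
    have := hσ.conjTranspose_mul_mul_same S
    rwa [conjTranspose_eq_transpose_of_trivial, hS] at this
  have := trace_mul_nonneg hσ h1
  simpa [Matrix.mul_assoc] using this

/-- `tr (A * B)` as a double sum. -/
theorem trace_mul_sum (A B : Matrix ι ι ℝ) : (A * B).trace = ∑ a, ∑ b, A a b * B b a := by
  simp [trace, Matrix.mul_apply]

/-- (P1) in sum form. -/
theorem sum_sig_nonneg {σ S : Matrix ι ι ℝ} (hσ : σ.PosSemidef) (hS : ∀ a b, S a b = S b a) :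
    0 ≤ ∑ a, ∑ b, ∑ c, ∑ d, σ a b * S b c * σ c d * S d a := by
  have := trace_sig_nonneg (σ := σ) (S := S) hσ (by ext a b; exact hS b a)
  refine this.trans_eq ?_
  simp only [trace, diag_apply, Matrix.mul_apply, Finset.sum_mul, Finset.mul_sum]
  refine Finset.sum_congr rfl fun a _ => ?_
  rw [Finset.sum_comm' (s' := fun _ => univ) (t' := univ) (by simp)]
  rw [Finset.sum_congr rfl fun b _ => Finset.sum_comm]
  rw [Finset.sum_comm]
  refine Finset.sum_congr rfl fun b _ => ?_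
  rw [Finset.sum_comm]
  refine Finset.sum_congr rfl fun c _ => ?_
  refine Finset.sum_congr rfl fun d _ => ?_
  ring

/-- (P1) for a matrix `M` with `τ M` symmetric, `σ = τ⁻¹`: `0 ≤ tr (M M)`. -/
theorem trace_sq_nonneg {σ τ M : Matrix ι ι ℝ} [DecidableEq ι] (hσ : σ.PosSemidef)
    (hστ : σ * τ = 1) (hM : (τ * M)ᵀ = τ * M) : 0 ≤ (M * M).trace := by
  have h := trace_sig_nonneg (σ := σ) (S := τ * M) hσ hM
  rwa [← Matrix.mul_assoc σ τ M, hστ, Matrix.one_mul] at h

/-- (P5) `0 ≤ tr (H K σ K)` for `H, σ` positive semidefinite and `K` symmetric. -/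
theorem trace_HK_nonneg {H K σ : Matrix ι ι ℝ} (hH : H.PosSemidef) (hσ : σ.PosSemidef)
    (hK : Kᵀ = K) : 0 ≤ (H * (K * σ * K)).trace := by
  have h1 : (K * σ * K).PosSemidef := by
    have := hσ.conjTranspose_mul_mul_same K
    rwa [conjTranspose_eq_transpose_of_trivial, hK] at this
  exact trace_mul_nonneg hH h1

/-- (P5) in sum form. -/
theorem sum_HK_nonneg {H K σ : Matrix ι ι ℝ} (hH : H.PosSemidef) (hσ : σ.PosSemidef)
    (hK : ∀ a b, K a b = K b a) : 0 ≤ ∑ a, ∑ b, ∑ c, ∑ d, H a b * K b c * σ c d * K d a := by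
  refine (trace_HK_nonneg (H := H) (K := K) (σ := σ) hH hσ (by ext a b; exact hK b a)).trans_eq ?_
  simp only [trace, diag_apply, Matrix.mul_apply, Finset.sum_mul, Finset.mul_sum]
  refine Finset.sum_congr rfl fun a _ => Finset.sum_congr rfl fun b _ => ?_
  rw [Finset.sum_comm]
  refine Finset.sum_congr rfl fun c _ => Finset.sum_congr rfl fun d _ => ?_
  ring

/-- (P5) vectors. -/
theorem sum_H_nonneg {H : Matrix ι ι ℝ} (hH : H.PosSemidef) (s : ι → ℝ) :
    0 ≤ ∑ a, ∑ b, H a b * s a * s b := by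
  refine (hH.dotProduct_mulVec_nonneg s).trans_eq ?_
  simp only [star_trivial, dotProduct, mulVec, Finset.mul_sum]
  refine Finset.sum_congr rfl fun a _ => Finset.sum_congr rfl fun b _ => ?_
  ring

/-- (P2) for two-tensors. -/
theorem tensor2_nonneg {σ₁ σ₂ : Matrix ι ι ℝ} (h₁ : σ₁.PosSemidef) (h₂ : σ₂.PosSemidef)
    (X : ι → ι → ℝ) :
    0 ≤ ∑ a, ∑ b, ∑ a', ∑ b', σ₁ a a' * σ₂ b b' * X a b * X a' b' := by
  refine ((h₁.kronecker h₂).dotProduct_mulVec_nonneg (fun p => X p.1 p.2)).trans_eq ?_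
  simp only [star_trivial, dotProduct, mulVec, Finset.mul_sum, Fintype.sum_prod_type,
    kroneckerMap_apply]
  refine Finset.sum_congr rfl fun a _ => Finset.sum_congr rfl fun b _ => ?_
  refine Finset.sum_congr rfl fun a' _ => Finset.sum_congr rfl fun b' _ => ?_
  ring

/-- (P2) the form `σ ⊗ σ ⊗ τ` is positive semidefinite on three-tensors. -/
theorem tensor3_nonneg {σ₁ σ₂ σ₃ : Matrix ι ι ℝ} (h₁ : σ₁.PosSemidef) (h₂ : σ₂.PosSemidef)
    (h₃ : σ₃.PosSemidef) (X : ι → ι → ι → ℝ) :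
    0 ≤ ∑ a, ∑ b, ∑ c, ∑ a', ∑ b', ∑ c',
      σ₁ a a' * σ₂ b b' * σ₃ c c' * X a b c * X a' b' c' := by
  refine ((h₁.kronecker (h₂.kronecker h₃)).dotProduct_mulVec_nonneg
    (fun p => X p.1 p.2.1 p.2.2)).trans_eq ?_
  simp only [star_trivial, dotProduct, mulVec, Finset.mul_sum, Fintype.sum_prod_type,
    kroneckerMap_apply]
  refine Finset.sum_congr rfl fun a _ => Finset.sum_congr rfl fun b _ =>
    Finset.sum_congr rfl fun c _ => ?_
  refine Finset.sum_congr rfl fun a' _ => Finset.sum_congr rfl fun b' _ =>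
    Finset.sum_congr rfl fun c' _ => ?_
  ring

/-- matrix form of (P3): `0 ≤ tr (σ Y τ Yᵀ) + tr (Y Y)` for `σ = τ⁻¹` positive semidefinite. -/
theorem pair_nonneg [DecidableEq ι] {σ τ : Matrix ι ι ℝ} (hσ : σ.PosSemidef)
    (hστ : σ * τ = 1) (Y : Matrix ι ι ℝ) :
    0 ≤ (σ * Y * τ * Yᵀ).trace + (Y * Y).trace := by
  have hσs : σᵀ = σ := by
    have := hσ.1
    rwa [IsHermitian, conjTranspose_eq_transpose_of_trivial] at this
  have hτσ : τ * σ = 1 := mul_eq_one_comm.1 hστ
  set T : Matrix ι ι ℝ := Y * τ with hT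
  have hY : Y = T * σ := by rw [hT, Matrix.mul_assoc, hτσ, Matrix.mul_one]
  have hYt : Yᵀ = σ * Tᵀ := by rw [hY, transpose_mul, hσs]
  have h0 := trace_sig_nonneg (σ := σ) (S := T + Tᵀ) hσ (by
    rw [transpose_add, transpose_transpose, add_comm])
  have e1 : (σ * Y * τ * Yᵀ).trace = (σ * T * (σ * Tᵀ)).trace := by
    rw [hYt, Matrix.mul_assoc σ Y τ, ← hT]
  have e2 : (Y * Y).trace = (σ * T * (σ * T)).trace := by
    have h1 : Y * Y = T * (σ * T * σ) := by rw [hY]; simp only [Matrix.mul_assoc]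
    rw [h1, trace_mul_comm]
    simp only [Matrix.mul_assoc]
  have e3 : (σ * Tᵀ * (σ * Tᵀ)).trace = (σ * T * (σ * T)).trace := by
    have h1 : σ * Tᵀ * (σ * Tᵀ) = (T * σ * (T * σ))ᵀ := by
      simp only [transpose_mul, hσs, Matrix.mul_assoc]
    rw [h1, trace_transpose]
    have h2 : T * σ * (T * σ) = T * (σ * T * σ) := by simp only [Matrix.mul_assoc]
    rw [h2, trace_mul_comm]
    simp only [Matrix.mul_assoc]
  have e4 : (σ * Tᵀ * (σ * T)).trace = (σ * T * (σ * Tᵀ)).trace := by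
    rw [trace_mul_comm]
  have e5 : (σ * (T + Tᵀ) * (σ * (T + Tᵀ))).trace
      = (σ * T * (σ * T)).trace + (σ * T * (σ * Tᵀ)).trace + (σ * Tᵀ * (σ * T)).trace
        + (σ * Tᵀ * (σ * Tᵀ)).trace := by
    simp only [Matrix.mul_add, Matrix.add_mul, trace_add]
    ring
  rw [e1, e2]
  rw [e5, e3, e4] at h0
  linarith

/-- pairing of a positive semidefinite matrix with a nonnegative (not nec. symmetric) form -/
theorem frob_nonneg {σ : Matrix ι ι ℝ} (hσ : σ.PosSemidef) (B : ι → ι → ℝ)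
    (hB : ∀ v : ι → ℝ, 0 ≤ ∑ a, ∑ b, v a * v b * B a b) : 0 ≤ ∑ a, ∑ b, σ a b * B a b := by
  obtain ⟨m, v, hv⟩ := Matrix.posSemidef_iff_eq_sum_vecMulVec.1 hσ
  have h1 : ∑ a, ∑ b, σ a b * B a b = ∑ k, ∑ a, ∑ b, v k a * v k b * B a b := by
    calc ∑ a, ∑ b, σ a b * B a b = ∑ a, ∑ b, ∑ k, v k a * v k b * B a b := by
          rw [hv]
          simp only [Matrix.sum_apply, vecMulVec_apply, star_trivial, Finset.sum_mul]
      _ = ∑ a, ∑ k, ∑ b, v k a * v k b * B a b :=
          Finset.sum_congr rfl fun a _ => Finset.sum_comm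
      _ = _ := Finset.sum_comm
  rw [h1]
  exact Finset.sum_nonneg fun k _ => hB (v k)

/-- (P3), matrix form. -/
theorem bracket_nonneg_matrix [DecidableEq ι] {σ τ : Matrix ι ι ℝ} (hσ : σ.PosSemidef)
    (hστ : σ * τ = 1) (W : ι → Matrix ι ι ℝ) :
    0 ≤ ∑ a, ∑ b, σ a b * ((σ * W a * τ * (W b)ᵀ).trace + (W a * W b).trace) := by
  refine frob_nonneg hσ _ fun v => ?_
  refine (pair_nonneg hσ hστ (∑ a, v a • W a)).trans_eq ?_
  have e1 : (σ * (∑ a, v a • W a) * τ * (∑ a, v a • W a)ᵀ).trace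
      = ∑ a, ∑ b, v a * v b * (σ * W a * τ * (W b)ᵀ).trace := by
    simp only [transpose_sum, transpose_smul, Finset.mul_sum, Finset.sum_mul, trace_sum,
      Matrix.mul_smul, Matrix.smul_mul, trace_smul, smul_eq_mul]
    rw [Finset.sum_comm]
    refine Finset.sum_congr rfl fun a _ => Finset.sum_congr rfl fun b _ => ?_
    ring
  have e2 : ((∑ a, v a • W a) * (∑ a, v a • W a)).trace
      = ∑ a, ∑ b, v a * v b * (W a * W b).trace := by
    simp only [Finset.mul_sum, Finset.sum_mul, trace_sum,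
      Matrix.mul_smul, Matrix.smul_mul, trace_smul, smul_eq_mul]
    rw [Finset.sum_comm]
    refine Finset.sum_congr rfl fun a _ => Finset.sum_congr rfl fun b _ => ?_
    ring
  rw [e1, e2, ← Finset.sum_add_distrib]
  refine Finset.sum_congr rfl fun a _ => ?_
  rw [← Finset.sum_add_distrib]
  refine Finset.sum_congr rfl fun b _ => ?_
  ring

/-- moving the innermost sum to the front -/
theorem sum_rot4 (G : ι → ι → ι → ι → ℝ) :
    ∑ x, ∑ y, ∑ z, ∑ w, G x y z w = ∑ w, ∑ x, ∑ y, ∑ z, G x y z w := by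
  calc ∑ x, ∑ y, ∑ z, ∑ w, G x y z w = ∑ x, ∑ y, ∑ w, ∑ z, G x y z w :=
        Finset.sum_congr rfl fun x _ => Finset.sum_congr rfl fun y _ => Finset.sum_comm
    _ = ∑ x, ∑ w, ∑ y, ∑ z, G x y z w :=
        Finset.sum_congr rfl fun x _ => Finset.sum_comm
    _ = _ := Finset.sum_comm

/-- (P3), sum form: the bracket of the identity is nonnegative (no symmetry of `W` used). -/
theorem bracket_nonneg [DecidableEq ι] {σ τ : Matrix ι ι ℝ} (hσ : σ.PosSemidef)
    (hστ : σ * τ = 1) (W : ι → ι → ι → ℝ) :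
    0 ≤ (∑ a, ∑ b, ∑ c, ∑ a', ∑ b', ∑ c', σ a a' * σ b b' * τ c c' * W a b c * W a' b' c')
      + ∑ a, ∑ f, ∑ g, ∑ c, σ a f * W a g c * W f c g := by
  have hσs : ∀ a b, σ a b = σ b a := by
    have := hσ.1
    rw [IsHermitian, conjTranspose_eq_transpose_of_trivial] at this
    intro a b
    exact (congrFun (congrFun this b) a)
  refine (bracket_nonneg_matrix hσ hστ (fun a => Matrix.of (W a))).trans_eq ?_
  simp only [mul_add, Finset.sum_add_distrib]
  congr 1
  · calc ∑ a, ∑ a', σ a a' * (σ * of (W a) * τ * (of (W a'))ᵀ).trace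
        = ∑ a, ∑ a', ∑ b', ∑ c', ∑ c, ∑ b,
            σ a a' * σ b b' * τ c c' * W a b c * W a' b' c' := by
          refine Finset.sum_congr rfl fun a _ => Finset.sum_congr rfl fun a' _ => ?_
          simp only [trace, diag_apply, Matrix.mul_apply, Finset.sum_mul, Finset.mul_sum,
            transpose_apply, of_apply]
          refine Finset.sum_congr rfl fun b' _ => Finset.sum_congr rfl fun c' _ => ?_
          refine Finset.sum_congr rfl fun c _ => Finset.sum_congr rfl fun b _ => ?_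
          rw [hσs b b']
          ring
      _ = _ := by
          refine Finset.sum_congr rfl fun a _ => ?_
          rw [sum_rot4 (fun a' b' c' c => ∑ b, σ a a' * σ b b' * τ c c' * W a b c * W a' b' c')]
          rw [Finset.sum_congr rfl fun c _ => sum_rot4
            (fun a' b' c' b => σ a a' * σ b b' * τ c c' * W a b c * W a' b' c')]
          exact Finset.sum_comm
  · refine Finset.sum_congr rfl fun a _ => Finset.sum_congr rfl fun f _ => ?_
    rw [trace_mul_sum, Finset.mul_sum]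
    refine Finset.sum_congr rfl fun g _ => ?_
    rw [Finset.mul_sum]
    refine Finset.sum_congr rfl fun c _ => ?_
    simp only [of_apply]
    ring

end Vale.Agent.P227.M.ID
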