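import Vale.Agent.P227.M.ID.AbsIKey
import Vale.Agent.P227.M.ID.Pos

/-!
# P227, block ID: the squares in the key identity are nonnegative at every point.
-/

namespace Vale.Agent.P227.M.ID

open Finset

namespace SysI

variable {n : ℕ} {A : Type*} [CommRing A] [Algebra ℝ A] (S : SysI n A)

/-- value of `sg` at a point. -/
def sgv (ev : A →+* ℝ) : Matrix (Fin n) (Fin n) ℝ := fun a b => ev (S.sg a b)

/-- value of `tau` at a point. -/
def tv (ev : A →+* ℝ) : Matrix (Fin n) (Fin n) ℝ := fun a b => ev (S.t a b)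

lemma sgv_mul_tv (ev : A →+* ℝ) : S.sgv ev * S.tv ev = 1 := by
  ext a c
  rw [Matrix.mul_apply]
  have h := congrArg ev (S.sg_t a c)
  rw [map_sum] at h
  simp_rw [map_mul] at h
  unfold sgv tv
  rw [h, Matrix.one_apply]
  by_cases hac : a = c
  · simp [hac]
  · simp [hac]

lemma ev_Q3'_nonneg (ev : A →+* ℝ) (hs : (S.sgv ev).PosSemidef) (v u' : A) :
    0 ≤ ev (S.Q3' v u') := by
  have h := sum_sig_nonneg (σ := S.sgv ev)
    (S := fun b c => ev (S.D b (S.D c u')) - ev (S.K v b c)) hs (by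
      intro a b
      show ev (S.D a (S.D b u')) - ev (S.K v a b) = ev (S.D b (S.D a u')) - ev (S.K v b a)
      rw [S.comm a b, S.K_symm v a b])
  refine h.trans_eq ?_
  unfold Q3' up
  simp only [map_sum, map_mul, map_sub]
  refine sum_congr rfl fun a _ => ?_
  rw [sum_comm]
  refine sum_congr rfl fun c _ => ?_
  rw [sum_mul_sum]
  refine sum_congr rfl fun b _ => sum_congr rfl fun d _ => ?_
  unfold sgv
  ring

lemma ev_bracket_nonneg (ev : A →+* ℝ) (hs : (S.sgv ev).PosSemidef) (v : A) :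
    0 ≤ ev (S.Q2 v + S.Q1 v) := by
  have h := bracket_nonneg hs (S.sgv_mul_tv ev) (fun a b c => ev (S.W v a b c))
  refine h.trans_eq ?_
  rw [map_add, add_comm]
  congr 1
  · unfold Q2 up
    simp only [map_sum, map_mul]
    refine sum_congr rfl fun a _ => ?_
    rw [sum_comm]
    refine sum_congr rfl fun b _ => ?_
    rw [sum_comm]
    refine sum_congr rfl fun c _ => ?_
    rw [mul_sum]
    refine sum_congr rfl fun f _ => ?_
    rw [S.W_symm v b a c]
    unfold sgv
    ring
  · unfold Q1 SW up lo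
    simp only [map_sum, map_mul]
    rw [sum_comm]
    refine sum_congr rfl fun a _ => sum_congr rfl fun b _ => sum_congr rfl fun c _ => ?_
    simp only [mul_sum]
    refine sum_congr rfl fun a' _ => sum_congr rfl fun b' _ => sum_congr rfl fun c' _ => ?_
    unfold sgv tv
    ring

/-- THE KEY INEQUALITY in abstract form: if `E` is nonnegative on `Q3'` and `Q2 + Q1`. -/
theorem key_le (v u' : A) (hv : v ∈ S.I) (hu : u' ∈ S.I)
    (h3 : 0 ≤ S.E (S.Q3' v u')) (h21 : 0 ≤ S.E (S.Q2 v + S.Q1 v)) :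
    S.T2 v + S.T1' u' ≤ S.E (S.Lo u' * S.Lo u')
      + 2 * ∑ c, S.E (S.D c (S.Lo v + v + u') * S.Lo (S.dd c v)) := by
  have := S.key v u' hv hu
  linarith

end SysI

end Vale.Agent.P227.M.ID
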