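import Vale.Agent.P227.M.ID.Abs
import Vale.Agent.P227.M.ID.KeyPos

/-!
# P227, block ID: `Sys` as `SysI` with `I = ⊤`, and the key inequality for it.
-/

namespace Vale.Agent.P227.M.ID

open Finset

variable {n : ℕ} {A : Type*} [CommRing A] [Algebra ℝ A]

/-- forget: the ideal is everything. -/
def Sys.toI (S : Sys n A) : SysI n A where
  D := S.D
  comm := S.comm
  phi := S.phi
  sg := S.sg
  sg_symm := S.sg_symm
  inv := S.inv
  E := S.E
  I := ⊤
  I_D := fun _ _ _ => trivial
  ibp := fun a g _ => S.ibp a g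

/-- key inequality: `ev` a family of evaluations such that `E` is nonnegative on every element
with nonnegative values. -/
theorem Sys.key_le {X : Type*} (S : Sys n A) (ev : X → A →+* ℝ)
    (hs : ∀ x, (S.toI.sgv (ev x)).PosSemidef)
    (hE : ∀ g : A, (∀ x, 0 ≤ ev x g) → 0 ≤ S.E g) (v u' : A) :
    S.toI.T2 v + S.toI.T1' u' ≤ S.E (S.toI.Lo u' * S.toI.Lo u')
      + 2 * ∑ c, S.E (S.D c (S.toI.Lo v + v + u') * S.toI.Lo (S.toI.dd c v)) :=
  S.toI.key_le v u' trivial trivial
    (hE _ fun x => S.toI.ev_Q3'_nonneg (ev x) (hs x) v u')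
    (hE _ fun x => S.toI.ev_bracket_nonneg (ev x) (hs x) v)

end Vale.Agent.P227.M.ID
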