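import Vale.Agent.P227.M.ID.KeyCalc
import Vale.Agent.P227.M.LIN.AE

/-! # P227/M/ID: null quantities for the weight `e^{-V}` (helper121) -/

open MeasureTheory Filter Topology Set
open scoped NNReal

namespace Vale.Agent.P227.M.KY

variable {n : ℕ} {ψ V f g W Z P : E n → ℝ} {c C M : ℝ}

/-- locally Lipschitz, differentiable at the good points -/
structure DD (ψ f : E n → ℝ) : Prop where
  ll : LocallyLipschitz f
  diff : ∀ x, AE.Good ψ x → DifferentiableAt ℝ f x

lemma DD.mul (hf : DD ψ f) (hg : DD ψ g) : DD ψ (fun x => f x * g x) :=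
  ⟨ll_mul hf.ll hg.ll, fun x hx => (hf.diff x hx).fun_mul (hg.diff x hx)⟩

lemma DD.add (hf : DD ψ f) (hg : DD ψ g) : DD ψ (fun x => f x + g x) :=
  ⟨ll_add hf.ll hg.ll, fun x hx => (hf.diff x hx).fun_add (hg.diff x hx)⟩

lemma DD.sub (hf : DD ψ f) (hg : DD ψ g) : DD ψ (fun x => f x - g x) :=
  ⟨ll_sub hf.ll hg.ll, fun x hx => (hf.diff x hx).fun_sub (hg.diff x hx)⟩

lemma DD.sum {ι : Type*} (s : Finset ι) {F : ι → E n → ℝ} (h : ∀ i ∈ s, DD ψ (F i)) :
    DD ψ (fun x => ∑ i ∈ s, F i x) :=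
  ⟨ll_sum s fun i hi => (h i hi).ll, fun x hx => DifferentiableAt.fun_sum fun i hi => (h i hi).diff x hx⟩

lemma DD.of_smooth (hf : ContDiff ℝ (⊤ : ℕ∞) f) : DD ψ f :=
  ⟨ll_of_contDiff hf, fun x _ => (hf.differentiable (by simp)).differentiableAt⟩

lemma DD.tau (h : MM ψ V c C M) (i j : Fin n) : DD ψ (fun x => tau ψ x i j) := by
  obtain ⟨K, hK⟩ := AE.tau_lip h
  exact ⟨(hK i j).locallyLipschitz, fun x hx => hx.2 i j⟩

lemma DD.lb (hf : DD ψ f) : LB f := LB.of_ll hf.ll
lemma DD.lbpd (hf : DD ψ f) (i : Fin n) : LB (pd i f) := LB.pd hf.ll i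

lemma smooth_pd (hf : ContDiff ℝ (⊤ : ℕ∞) f) (i : Fin n) : ContDiff ℝ (⊤ : ℕ∞) (pd i f) := by
  unfold pd
  exact (hf.fderiv_right (m := (⊤ : ℕ∞)) (by simp)).clm_apply contDiff_const

lemma smooth_exp (hV : ContDiff ℝ (⊤ : ℕ∞) V) : ContDiff ℝ (⊤ : ℕ∞) (fun x => Real.exp (-V x)) :=
  hV.neg.exp

lemma pd_exp (hV : ContDiff ℝ (⊤ : ℕ∞) V) (i : Fin n) (x : E n) :
    pd i (fun x => Real.exp (-V x)) x = - pd i V x * Real.exp (-V x) := by
  unfold pd
  have h1 : HasFDerivAt V (fderiv ℝ V x) x := ((hV.differentiable (by simp)) x).hasFDerivAt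
  have h2 := h1.fun_neg.exp
  rw [h2.fderiv]
  simp; ring

/-- integrable with vanishing integral against `e^{-V}` -/
structure Nul (V f : E n → ℝ) : Prop where
  int : Integrable (fun x => f x * Real.exp (-V x))
  zero : ∫ x, f x * Real.exp (-V x) = 0

lemma Nul.add (hf : Nul V f) (hg : Nul V g) : Nul V (fun x => f x + g x) := by
  refine ⟨(hf.int.add hg.int).congr (Eventually.of_forall fun x => by
    simp only [Pi.add_apply]; ring), ?_⟩
  simp_rw [add_mul]
  rw [integral_add hf.int hg.int, hf.zero, hg.zero, add_zero]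

lemma Nul.const_mul (a : ℝ) (hf : Nul V f) : Nul V (fun x => a * f x) := by
  refine ⟨by simpa [mul_assoc] using hf.int.const_mul a, ?_⟩
  simp_rw [mul_assoc]
  rw [integral_const_mul, hf.zero, mul_zero]

lemma Nul.neg (hf : Nul V f) : Nul V (fun x => - f x) := by
  simpa using hf.const_mul (-1)

lemma Nul.sub (hf : Nul V f) (hg : Nul V g) : Nul V (fun x => f x - g x) := by
  simpa [sub_eq_add_neg] using hf.add hg.neg

lemma Nul.zero' : Nul V (fun _ => (0 : ℝ)) := ⟨by simp, by simp⟩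

lemma Nul.sum {ι : Type*} (s : Finset ι) {F : ι → E n → ℝ} (h : ∀ i ∈ s, Nul V (F i)) :
    Nul V (fun x => ∑ i ∈ s, F i x) := by
  classical
  induction s using Finset.induction_on with
  | empty => simpa using Nul.zero'
  | insert a s ha ih =>
    simp only [Finset.sum_insert ha]
    exact (h a (Finset.mem_insert_self a s)).add (ih fun i hi => h i (Finset.mem_insert_of_mem hi))

lemma Nul.congr (hM : MM ψ V c C M) (hf : Nul V f) (h : ∀ x, AE.Good ψ x → f x = g x) : Nul V g := by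
  have hae : (fun x => f x * Real.exp (-V x)) =ᵐ[volume] fun x => g x * Real.exp (-V x) := by
    filter_upwards [AE.ae_good hM] with x hx
    rw [h x hx]
  exact ⟨hf.int.congr hae, by rw [← integral_congr_ae hae, hf.zero]⟩

variable (hM : MM ψ V c C M) (hV : ContDiff ℝ (⊤ : ℕ∞) V)
include hM hV

/-- `E (∂_a V g - ∂_a g) = 0` -/
lemma nul_div (hg : DD ψ g) (hz : Z0 g) (a : Fin n) : Nul V (fun x => pd a V x * g x - pd a g x) := by
  have he : DD ψ (fun x => Real.exp (-V x)) := DD.of_smooth (smooth_exp hV)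
  have h1 : Z0 (fun x => pd a V x * g x - pd a g x) := (hz.mul_left).sub (hz.pd a)
  refine ⟨((((LB.of_cont (smooth_pd hV a).continuous).mul hg.lb).sub (hg.lbpd a)).mul
    he.lb).integrable h1.mul_right, ?_⟩
  have h2 := int_fderiv_zero (hg.mul he).ll (hz.mul_right).hasCompactSupport (ei a)
  have h3 : ∫ x, (pd a V x * g x - pd a g x) * Real.exp (-V x) =
      ∫ x, - (fderiv ℝ (fun x => g x * Real.exp (-V x)) x) (ei a) := by
    refine integral_congr_ae ?_
    filter_upwards [AE.ae_good hM] with x hx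
    have h4 := AE.pd_mul (hg.diff x hx) (he.diff x hx) a
    rw [pd_exp hV] at h4
    have h5 : (fderiv ℝ (fun x => g x * Real.exp (-V x)) x) (ei a) =
      pd a g x * Real.exp (-V x) + g x * (-pd a V x * Real.exp (-V x)) := h4
    simp only [h5]
    ring
  rw [h3, integral_neg, h2, neg_zero]

/-- `D_d f = ∑_e τ_de ∂_e f` -/
noncomputable def Dd (ψ : E n → ℝ) (d : Fin n) (f : E n → ℝ) (x : E n) : ℝ :=
  ∑ e, tau ψ x d e * pd e f x

/-- `E (x_d g - D_d g) = 0` -/
lemma nul_D (hg : DD ψ g) (hz : Z0 g) (d : Fin n) : Nul V (fun x => x d * g x - Dd ψ d g x) := by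
  refine (Nul.sum Finset.univ fun e _ => nul_div hM hV ((DD.tau hM d e).mul hg) hz.mul_left e).congr hM ?_
  intro x hx
  have h1 : ∀ e, pd e V x * (tau ψ x d e * g x) - pd e (fun x => tau ψ x d e * g x) x
      = (pd e V x * tau ψ x d e - pd e (fun z => tau ψ z d e) x) * g x - tau ψ x d e * pd e g x := by
    intro e
    rw [AE.pd_mul (hx.2 d e) (hg.diff x hx)]
    ring
  simp only [h1]
  rw [Finset.sum_sub_distrib, ← Finset.sum_mul, AE.stein_ae hM hx d]
  rfl

/-- the exchange identity with weight -/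
lemma nul_sw (hW : DD ψ W) (hWz : Z0 W) (hP : DD ψ P) (hPz : Z0 P) (a e : Fin n) :
    Nul V (fun x => pd a W x * (pd e P x - P x * pd e V x) - pd e W x * (pd a P x - P x * pd a V x)) := by
  have he : DD ψ (fun x => Real.exp (-V x)) := DD.of_smooth (smooth_exp hV)
  have hVa : ∀ a, LB (pd a V) := fun a => LB.of_cont (smooth_pd hV a).continuous
  have h1 : Z0 (fun x => pd a W x * (pd e P x - P x * pd e V x) - pd e W x * (pd a P x - P x * pd a V x)) :=
    ((hWz.pd a).mul_right).sub ((hWz.pd e).mul_right)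
  refine ⟨(((((hW.lbpd a).mul ((hP.lbpd e).sub (hP.lb.mul (hVa e)))).sub
    ((hW.lbpd e).mul ((hP.lbpd a).sub (hP.lb.mul (hVa a))))).mul he.lb)).integrable h1.mul_right, ?_⟩
  have h2 := swap hW.ll hWz.hasCompactSupport (hP.mul he).ll (hPz.mul_right).hasCompactSupport (ei a) (ei e)
  have hPe : DD ψ (fun x => P x * Real.exp (-V x)) := hP.mul he
  have i1 : Integrable (fun x => (fderiv ℝ W x) (ei a) * (fderiv ℝ (fun x => P x * Real.exp (-V x)) x) (ei e)) :=
    ((hW.lbpd a).mul (hPe.lbpd e)).integrable ((hWz.pd a).mul_right)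
  have i2 : Integrable (fun x => (fderiv ℝ W x) (ei e) * (fderiv ℝ (fun x => P x * Real.exp (-V x)) x) (ei a)) :=
    ((hW.lbpd e).mul (hPe.lbpd a)).integrable ((hWz.pd e).mul_right)
  have h3 : ∫ x, (pd a W x * (pd e P x - P x * pd e V x) - pd e W x * (pd a P x - P x * pd a V x)) * Real.exp (-V x)
      = ∫ x, ((fderiv ℝ W x) (ei a) * (fderiv ℝ (fun x => P x * Real.exp (-V x)) x) (ei e)
        - (fderiv ℝ W x) (ei e) * (fderiv ℝ (fun x => P x * Real.exp (-V x)) x) (ei a)) := by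
    refine integral_congr_ae ?_
    filter_upwards [AE.ae_good hM] with x hx
    have h4 : ∀ b, (fderiv ℝ (fun x => P x * Real.exp (-V x)) x) (ei b) =
      pd b P x * Real.exp (-V x) + P x * (-pd b V x * Real.exp (-V x)) := by
      intro b
      have h4 := AE.pd_mul (hP.diff x hx) (he.diff x hx) b
      rw [pd_exp hV] at h4
      exact h4
    simp only [h4, pd]
    ring
  rw [h3, integral_sub i1 i2, h2, sub_self]

/-- identity (X) -/
lemma nul_X (hW : DD ψ W) (hWz : Z0 W) (hZ : DD ψ Z) (hZz : Z0 Z) (a d : Fin n) :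
    Nul V (fun x => pd a W x * (x d * Z x - Dd ψ d Z x) - pd a V x * Dd ψ d W x * Z x
      + Dd ψ d W x * pd a Z x + (∑ e, pd a (fun y => tau ψ y d e) x * pd e W x) * Z x) := by
  refine ((Nul.sum Finset.univ fun e _ => nul_sw hM hV hW hWz ((DD.tau hM d e).mul hZ) hZz.mul_left a e).neg).congr hM ?_
  intro x hx
  have h1 : ∀ b e, pd b (fun x => tau ψ x d e * Z x) x
      = pd b (fun z => tau ψ z d e) x * Z x + tau ψ x d e * pd b Z x := by
    intro b e
    rw [AE.pd_mul (hx.2 d e) (hZ.diff x hx)]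
  have h2 : ∀ e, pd a W x * (pd e (fun x => tau ψ x d e * Z x) x - tau ψ x d e * Z x * pd e V x)
      - pd e W x * (pd a (fun x => tau ψ x d e * Z x) x - tau ψ x d e * Z x * pd a V x)
      = - (pd a W x * Z x) * (pd e V x * tau ψ x d e - pd e (fun z => tau ψ z d e) x)
        + pd a W x * (tau ψ x d e * pd e Z x) - (pd a (fun z => tau ψ z d e) x * pd e W x) * Z x
        - (tau ψ x d e * pd e W x) * (pd a Z x - Z x * pd a V x) := by
    intro e
    rw [h1, h1]
    ring
  simp only [h2]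
  simp only [Finset.sum_sub_distrib, Finset.sum_add_distrib, ← Finset.mul_sum, ← Finset.sum_mul,
    AE.stein_ae hM hx d]
  unfold Dd
  ring

/-- flat Bochner identity, one pair of indices -/
lemma nul_B {s t : E n → ℝ} (hs : DD ψ s) (hsz : Z0 s) (ht : DD ψ t) (htz : Z0 t) (a b : Fin n) :
    Nul V (fun x => (pd a V x * s x - pd a s x) * (pd b V x * t x - pd b t x)
      - hess V x a b * s x * t x - pd a t x * pd b s x) := by
  have hVb : DD ψ (pd b V) := DD.of_smooth (smooth_pd hV b)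
  refine ((nul_div hM hV (hs.mul (hVb.mul ht)) (hsz.mul_right) a).add
    (nul_sw hM hV ht htz hs hsz b a)).congr hM ?_
  intro x hx
  rw [AE.pd_mul (hs.diff x hx) ((hVb.mul ht).diff x hx), AE.pd_mul (hVb.diff x hx) (ht.diff x hx)]
  have : pd a (pd b V) x = hess V x a b := rfl
  rw [this]
  ring

end Vale.Agent.P227.M.KY
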