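import Vale.Agent.P227.M.ID.Key121A
import Vale.Agent.P227.M.ID.K.AlgQ
import Vale.Agent.P227.M.ID.K.AlgJ

/-! # P227/M/ID: `StmtKey` (helper121), first part: pointwise facts -/

open MeasureTheory Filter Topology Set
open scoped NNReal

namespace Vale.Agent.P227.M.KY

variable {n : ℕ} {ψ V F u : E n → ℝ} {c C M : ℝ}

lemma test_pd (hF : Test F) (i : Fin n) : Test (pd i F) := by
  refine ⟨smooth_pd hF.1 i, ?_⟩
  exact ((Z0.of_cs hF.2).pd i).hasCompactSupport

lemma hess_swap (hF : ContDiff ℝ (⊤ : ℕ∞) F) (a b : Fin n) (x : E n) : hess F x a b = hess F x b a :=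
  AE.hess_symm (hF.of_le (show ((2 : ℕ∞) : WithTop ℕ∞) ≤ ((⊤ : ℕ∞) : WithTop ℕ∞) by
    exact_mod_cast le_top)) x a b

lemma pd_comm (hF : ContDiff ℝ (⊤ : ℕ∞) F) (a b : Fin n) (x : E n) : pd a (pd b F) x = pd b (pd a F) x :=
  hess_swap hF a b x

/-- entries of the Hessian as functions -/
noncomputable def Nf (F : E n → ℝ) (a b : Fin n) (x : E n) : ℝ := hess F x a b

lemma Nf_eq (F : E n → ℝ) (a b : Fin n) : Nf F a b = pd a (pd b F) := rfl

lemma Nf_symm (hF : ContDiff ℝ (⊤ : ℕ∞) F) (a b : Fin n) : Nf F a b = Nf F b a := by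
  funext x; exact hess_swap hF a b x

lemma smooth_Nf (hF : ContDiff ℝ (⊤ : ℕ∞) F) (a b : Fin n) : ContDiff ℝ (⊤ : ℕ∞) (Nf F a b) :=
  smooth_pd (smooth_pd hF b) a

lemma z0_Nf (hF : Z0 F) (a b : Fin n) : Z0 (Nf F a b) := (hF.pd b).pd a

lemma pdNf_symm12 (hF : ContDiff ℝ (⊤ : ℕ∞) F) (e a b : Fin n) (x : E n) :
    pd e (Nf F a b) x = pd a (Nf F e b) x := by
  rw [Nf_eq, Nf_eq]; exact pd_comm (smooth_pd hF b) e a x

lemma pdNf_symm23 (hF : ContDiff ℝ (⊤ : ℕ∞) F) (e a b : Fin n) (x : E n) :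
    pd e (Nf F a b) x = pd e (Nf F b a) x := by rw [Nf_symm hF]

lemma pdpdNf_symm12 (hF : ContDiff ℝ (⊤ : ℕ∞) F) (c e a b : Fin n) (x : E n) :
    pd c (pd e (Nf F a b)) x = pd e (pd c (Nf F a b)) x := pd_comm (smooth_Nf hF a b) c e x

lemma pdpdNf_symm23 (hF : ContDiff ℝ (⊤ : ℕ∞) F) (c e a b : Fin n) (x : E n) :
    pd c (pd e (Nf F a b)) x = pd c (pd a (Nf F e b)) x := by
  have : pd e (Nf F a b) = pd a (Nf F e b) := by funext y; exact pdNf_symm12 hF e a b y
  rw [this]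

/-- `U = τ N` -/
noncomputable def Uf (ψ F : E n → ℝ) (a b : Fin n) (x : E n) : ℝ := ∑ e, tau ψ x a e * Nf F e b x

/-- `l_b = - L (∂_b F)` -/
noncomputable def lf (ψ F : E n → ℝ) (b : Fin n) (x : E n) : ℝ :=
  ∑ a, x a * Nf F a b x - ∑ a, ∑ k, tau ψ x a k * pd a (Nf F k b) x

/-- `G_dab = ∑_e τ_de ∂_e N_ab` -/
noncomputable def Gf (ψ F : E n → ℝ) (d a b : Fin n) (x : E n) : ℝ := ∑ e, tau ψ x d e * pd e (Nf F a b) x

lemma smooth_coord (i : Fin n) : ContDiff ℝ (⊤ : ℕ∞) (fun x : E n => x i) :=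
  (EuclideanSpace.proj i : E n →L[ℝ] ℝ).contDiff

lemma dd_Nf (hF : Test F) (a b : Fin n) : DD ψ (Nf F a b) := DD.of_smooth (smooth_Nf hF.1 a b)
lemma dd_pdNf (hF : Test F) (e a b : Fin n) : DD ψ (pd e (Nf F a b)) :=
  DD.of_smooth (smooth_pd (smooth_Nf hF.1 a b) e)
lemma dd_coord (i : Fin n) : DD ψ (fun x : E n => x i) := DD.of_smooth (smooth_coord i)

section
variable (hM : MM ψ V c C M)
include hM

lemma dd_Uf (hF : Test F) (a b : Fin n) : DD ψ (Uf ψ F a b) :=
  DD.sum _ fun e _ => (DD.tau hM a e).mul (dd_Nf hF e b)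

lemma dd_lf (hF : Test F) (b : Fin n) : DD ψ (lf ψ F b) :=
  (DD.sum _ fun a _ => (dd_coord a).mul (dd_Nf hF a b)).sub
    (DD.sum _ fun a _ => DD.sum _ fun k _ => (DD.tau hM a k).mul (dd_pdNf hF a k b))

lemma dd_Gf (hF : Test F) (d a b : Fin n) : DD ψ (Gf ψ F d a b) :=
  DD.sum _ fun e _ => (DD.tau hM d e).mul (dd_pdNf hF e a b)
end

lemma z0_Uf (hF : Test F) (a b : Fin n) : Z0 (Uf ψ F a b) :=
  Z0.sum _ fun e _ => (z0_Nf (Z0.of_cs hF.2) e b).mul_left
lemma z0_lf (hF : Test F) (b : Fin n) : Z0 (lf ψ F b) :=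
  (Z0.sum _ fun a _ => (z0_Nf (Z0.of_cs hF.2) a b).mul_left).sub
    (Z0.sum _ fun a _ => Z0.sum _ fun k _ => ((z0_Nf (Z0.of_cs hF.2) k b).pd a).mul_left)
lemma z0_Gf (hF : Test F) (d a b : Fin n) : Z0 (Gf ψ F d a b) :=
  Z0.sum _ fun e _ => ((z0_Nf (Z0.of_cs hF.2) a b).pd e).mul_left

/-- `∂_c U_ab` -/
lemma pd_Uf {x : E n} (hx : AE.Good ψ x) (hF : Test F) (k a b : Fin n) :
    pd k (Uf ψ F a b) x = ∑ e, (pd k (fun z => tau ψ z a e) x * Nf F e b x
      + tau ψ x a e * pd k (Nf F e b) x) := by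
  unfold Uf
  rw [AE.pd_sum Finset.univ (fun e _ => (hx.2 a e).fun_mul ((dd_Nf hF e b).diff x hx))]
  exact Finset.sum_congr rfl fun e _ => AE.pd_mul (hx.2 a e) ((dd_Nf hF e b).diff x hx) k

lemma pd_Gf {x : E n} (hx : AE.Good ψ x) (hF : Test F) (k d a b : Fin n) :
    pd k (Gf ψ F d a b) x = ∑ e, (pd k (fun z => tau ψ z d e) x * pd e (Nf F a b) x
      + tau ψ x d e * pd k (pd e (Nf F a b)) x) := by
  unfold Gf
  rw [AE.pd_sum Finset.univ (fun e _ => (hx.2 d e).fun_mul ((dd_pdNf hF e a b).diff x hx))]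
  exact Finset.sum_congr rfl fun e _ => AE.pd_mul (hx.2 d e) ((dd_pdNf hF e a b).diff x hx) k

lemma pd_lf {x : E n} (hx : AE.Good ψ x) (hF : Test F) (e b : Fin n) :
    pd e (lf ψ F b) x = Nf F e b x + ∑ a, x a * pd e (Nf F a b) x
      - ∑ a, ∑ k, (pd e (fun z => tau ψ z a k) x * pd a (Nf F k b) x
        + tau ψ x a k * pd e (pd a (Nf F k b)) x) := by
  unfold lf
  have d1 : ∀ a ∈ (Finset.univ : Finset (Fin n)), DifferentiableAt ℝ (fun z : E n => z a * Nf F a b z) x :=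
    fun a _ => (AE.diff_coord a x).fun_mul ((dd_Nf hF a b).diff x hx)
  have d2 : ∀ a, ∀ k ∈ (Finset.univ : Finset (Fin n)),
      DifferentiableAt ℝ (fun z : E n => tau ψ z a k * pd a (Nf F k b) z) x :=
    fun a k _ => (hx.2 a k).fun_mul ((dd_pdNf hF a k b).diff x hx)
  have d3 : ∀ a ∈ (Finset.univ : Finset (Fin n)),
      DifferentiableAt ℝ (fun z : E n => ∑ k, tau ψ z a k * pd a (Nf F k b) z) x :=
    fun a _ => DifferentiableAt.fun_sum (d2 a)
  rw [AE.pd_sub (DifferentiableAt.fun_sum d1) (DifferentiableAt.fun_sum d3), AE.pd_sum Finset.univ d1,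
    AE.pd_sum Finset.univ d3]
  congr 1
  · have h1 : ∀ a, pd e (fun z : E n => z a * Nf F a b z) x
        = (if a = e then 1 else 0) * Nf F a b x + x a * pd e (Nf F a b) x := by
      intro a
      rw [AE.pd_mul (AE.diff_coord a x) ((dd_Nf hF a b).diff x hx), AE.pd_coord]
    simp only [h1, Finset.sum_add_distrib]
    simp
  · refine Finset.sum_congr rfl fun a _ => ?_
    rw [AE.pd_sum Finset.univ (d2 a)]
    exact Finset.sum_congr rfl fun k _ => AE.pd_mul (hx.2 a k) ((dd_pdNf hF a k b).diff x hx) e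

lemma hSY (hM : MM ψ V c C M) {x : E n} (hx : AE.Good ψ x) (a b k : Fin n) :
    ∑ e, tau ψ x a e * pd e (fun z => tau ψ z b k) x = ∑ e, tau ψ x b e * pd e (fun z => tau ψ z a k) x :=
  AE.S3_symm12 hM hx a b k

/-- (f2) `D_d l_b = U_db + ∑_a (x_a G_dab - D_a G_dab)` -/
lemma f2 (hM : MM ψ V c C M) {x : E n} (hx : AE.Good ψ x) (hF : Test F) (d b : Fin n) :
    Dd ψ d (lf ψ F b) x = Uf ψ F d b x + ∑ a, (x a * Gf ψ F d a b x - Dd ψ a (Gf ψ F d a b) x) := by
  have e1 : Dd ψ d (lf ψ F b) x = Uf ψ F d b x + ∑ a, x a * Gf ψ F d a b x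
      - ((∑ a, ∑ k, (∑ e, tau ψ x d e * pd e (fun z => tau ψ z a k) x) * pd a (Nf F k b) x)
        + ∑ a, ∑ k, ∑ e, tau ψ x d e * tau ψ x a k * pd e (pd a (Nf F k b)) x) := by
    unfold Dd
    simp only [pd_lf hx hF, mul_sub, mul_add, Finset.sum_sub_distrib, Finset.sum_add_distrib]
    congr 1
    · congr 1
      unfold Gf
      simp only [Finset.mul_sum]
      rw [Finset.sum_comm]
      exact Finset.sum_congr rfl fun a _ => Finset.sum_congr rfl fun e _ => by ring
    · congr 1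
      · simp only [Finset.mul_sum, Finset.sum_mul]
        rw [Finset.sum_comm]
        refine Finset.sum_congr rfl fun a _ => ?_
        rw [Finset.sum_comm]
        exact Finset.sum_congr rfl fun k _ => Finset.sum_congr rfl fun e _ => by ring
      · simp only [Finset.mul_sum]
        rw [Finset.sum_comm]
        refine Finset.sum_congr rfl fun a _ => ?_
        rw [Finset.sum_comm]
        exact Finset.sum_congr rfl fun k _ => Finset.sum_congr rfl fun e _ => by ring
  have e2 : ∀ a, Dd ψ a (Gf ψ F d a b) x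
      = (∑ k, (∑ e, tau ψ x a e * pd e (fun z => tau ψ z d k) x) * pd k (Nf F a b) x)
        + ∑ k, ∑ e, tau ψ x a k * tau ψ x d e * pd k (pd e (Nf F a b)) x := by
    intro a
    unfold Dd
    simp only [pd_Gf hx hF, Finset.sum_add_distrib, mul_add]
    congr 1
    · simp only [Finset.mul_sum, Finset.sum_mul]
      rw [Finset.sum_comm]
      exact Finset.sum_congr rfl fun k _ => Finset.sum_congr rfl fun e _ => by ring
    · simp only [Finset.mul_sum]
      exact Finset.sum_congr rfl fun k _ => Finset.sum_congr rfl fun e _ => by ring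
  rw [e1, Finset.sum_sub_distrib]
  simp only [e2, Finset.sum_add_distrib]
  have e3 : ∀ a k, (∑ e, tau ψ x a e * pd e (fun z => tau ψ z d k) x) * pd k (Nf F a b) x
      = (∑ e, tau ψ x d e * pd e (fun z => tau ψ z a k) x) * pd a (Nf F k b) x := by
    intro a k
    rw [hSY hM hx a d k, pdNf_symm12 hF.1 k a b x]
  have e4 : ∀ a k e, tau ψ x a k * tau ψ x d e * pd k (pd e (Nf F a b)) x
      = tau ψ x d e * tau ψ x a k * pd e (pd a (Nf F k b)) x := by
    intro a k e
    rw [pdpdNf_symm12 hF.1 k e a b x, pdpdNf_symm23 hF.1 e k a b x]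
    ring
  simp only [e3, e4]
  ring

/-- (f1) `∑_a (∂_a V U_ab - ∂_a U_ab) = l_b` -/
lemma f1 (hM : MM ψ V c C M) {x : E n} (hx : AE.Good ψ x) (hF : Test F) (b : Fin n) :
    ∑ a, (pd a V x * Uf ψ F a b x - pd a (Uf ψ F a b) x) = lf ψ F b x := by
  have h1 : ∀ a, pd a V x * Uf ψ F a b x - pd a (Uf ψ F a b) x
      = ∑ e, ((pd a V x * tau ψ x e a - pd a (fun z => tau ψ z e a) x) * Nf F e b x
        - tau ψ x a e * pd a (Nf F e b) x) := by
    intro a
    rw [pd_Uf hx hF]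
    unfold Uf
    rw [Finset.mul_sum, ← Finset.sum_sub_distrib]
    refine Finset.sum_congr rfl fun e _ => ?_
    have h2 : (fun z => tau ψ z a e) = fun z => tau ψ z e a := by
      funext z; exact AE.tau_symm hM z a e
    rw [h2, AE.tau_symm hM x a e]
    ring
  simp only [h1]
  rw [Finset.sum_comm]
  have h3 : ∀ e, ∑ a, ((pd a V x * tau ψ x e a - pd a (fun z => tau ψ z e a) x) * Nf F e b x
        - tau ψ x a e * pd a (Nf F e b) x) = x e * Nf F e b x - ∑ a, tau ψ x a e * pd a (Nf F e b) x := by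
    intro e
    rw [Finset.sum_sub_distrib, ← Finset.sum_mul, AE.stein_ae hM hx e]
  simp only [h3, Finset.sum_sub_distrib]
  unfold lf
  congr 1
  rw [Finset.sum_comm]

/-- (f3) `D_b (LF + F) = - ∑_d (x_d U_bd - D_d U_bd)` -/
lemma f3 (hM : MM ψ V c C M) {x : E n} (hx : AE.Good ψ x) (hF : Test F) (b : Fin n) :
    Dd ψ b (fun z => Lop ψ F z + F z) x
      = - ∑ d, (x d * Uf ψ F b d x - Dd ψ d (Uf ψ F b d) x) := by
  have dF : DifferentiableAt ℝ F x := (hF.1.differentiable (by simp)).differentiableAt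
  have d1 : ∀ a, ∀ k ∈ (Finset.univ : Finset (Fin n)),
      DifferentiableAt ℝ (fun z : E n => tau ψ z a k * Nf F a k z) x :=
    fun a k _ => (hx.2 a k).fun_mul ((dd_Nf hF a k).diff x hx)
  have d2 : ∀ a ∈ (Finset.univ : Finset (Fin n)),
      DifferentiableAt ℝ (fun z : E n => ∑ k, tau ψ z a k * Nf F a k z) x :=
    fun a _ => DifferentiableAt.fun_sum (d1 a)
  have dp : ∀ a, DifferentiableAt ℝ (pd a F) x := fun a =>
    ((smooth_pd hF.1 a).differentiable (by simp)).differentiableAt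
  have d3 : ∀ a ∈ (Finset.univ : Finset (Fin n)), DifferentiableAt ℝ (fun z : E n => z a * pd a F z) x :=
    fun a _ => (AE.diff_coord a x).fun_mul (dp a)
  have h0 : (fun z => Lop ψ F z + F z) = fun z =>
      (∑ a, ∑ k, tau ψ z a k * Nf F a k z) - (∑ a, z a * pd a F z) + F z := by
    funext z; rfl
  have h1 : ∀ e, pd e (fun z => Lop ψ F z + F z) x =
      (∑ a, ∑ k, (pd e (fun z => tau ψ z a k) x * Nf F a k x + tau ψ x a k * pd e (Nf F a k) x))
        - ∑ a, x a * Nf F e a x := by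
    intro e
    rw [h0, AE.pd_add ((DifferentiableAt.fun_sum d2).fun_sub (DifferentiableAt.fun_sum d3)) dF,
      AE.pd_sub (DifferentiableAt.fun_sum d2) (DifferentiableAt.fun_sum d3), AE.pd_sum Finset.univ d2,
      AE.pd_sum Finset.univ d3]
    have h2 : ∀ a, pd e (fun z => ∑ k, tau ψ z a k * Nf F a k z) x
        = ∑ k, (pd e (fun z => tau ψ z a k) x * Nf F a k x + tau ψ x a k * pd e (Nf F a k) x) := by
      intro a
      rw [AE.pd_sum Finset.univ (d1 a)]
      exact Finset.sum_congr rfl fun k _ => AE.pd_mul (hx.2 a k) ((dd_Nf hF a k).diff x hx) e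
    have h3 : ∀ a, pd e (fun z : E n => z a * pd a F z) x
        = (if a = e then 1 else 0) * pd a F x + x a * Nf F e a x := by
      intro a
      rw [AE.pd_mul (AE.diff_coord a x) (dp a), AE.pd_coord]
      rfl
    simp only [h2, h3, Finset.sum_add_distrib]
    simp
    ring
  have e1 : Dd ψ b (fun z => Lop ψ F z + F z) x
      = (∑ a, ∑ k, (∑ e, tau ψ x b e * pd e (fun z => tau ψ z a k) x) * Nf F a k x)
        + (∑ a, ∑ k, ∑ e, tau ψ x b e * tau ψ x a k * pd e (Nf F a k) x)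
        - ∑ a, x a * Uf ψ F b a x := by
    unfold Dd
    simp only [h1, mul_sub, mul_add, Finset.sum_sub_distrib, Finset.sum_add_distrib]
    congr 1
    · congr 1
      · simp only [Finset.mul_sum, Finset.sum_mul]
        rw [Finset.sum_comm]
        refine Finset.sum_congr rfl fun a _ => ?_
        rw [Finset.sum_comm]
        exact Finset.sum_congr rfl fun k _ => Finset.sum_congr rfl fun e _ => by ring
      · simp only [Finset.mul_sum]
        rw [Finset.sum_comm]
        refine Finset.sum_congr rfl fun a _ => ?_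
        rw [Finset.sum_comm]
        exact Finset.sum_congr rfl fun k _ => Finset.sum_congr rfl fun e _ => by ring
    · unfold Uf
      simp only [Finset.mul_sum]
      rw [Finset.sum_comm]
      exact Finset.sum_congr rfl fun a _ => Finset.sum_congr rfl fun e _ => by ring
  have e2 : ∀ d, Dd ψ d (Uf ψ F b d) x
      = (∑ k, (∑ e, tau ψ x d e * pd e (fun z => tau ψ z b k) x) * Nf F k d x)
        + ∑ k, ∑ e, tau ψ x d e * tau ψ x b k * pd e (Nf F k d) x := by
    intro d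
    unfold Dd
    simp only [pd_Uf hx hF, Finset.sum_add_distrib, mul_add]
    congr 1
    · simp only [Finset.mul_sum, Finset.sum_mul]
      rw [Finset.sum_comm]
      exact Finset.sum_congr rfl fun k _ => Finset.sum_congr rfl fun e _ => by ring
    · simp only [Finset.mul_sum]
      rw [Finset.sum_comm]
      exact Finset.sum_congr rfl fun k _ => Finset.sum_congr rfl fun e _ => by ring
  rw [e1, Finset.sum_sub_distrib]
  simp only [e2, Finset.sum_add_distrib]
  have e3 : ∀ d k, (∑ e, tau ψ x d e * pd e (fun z => tau ψ z b k) x) * Nf F k d x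
      = (∑ e, tau ψ x b e * pd e (fun z => tau ψ z d k) x) * Nf F d k x := by
    intro d k
    rw [hSY hM hx d b k, Nf_symm hF.1 k d]
  have e4 : ∑ d, ∑ k, ∑ e, tau ψ x d e * tau ψ x b k * pd e (Nf F k d) x
      = ∑ a, ∑ k, ∑ e, tau ψ x b e * tau ψ x a k * pd e (Nf F a k) x := by
    refine Finset.sum_congr rfl fun a _ => ?_
    rw [Finset.sum_comm]
    refine Finset.sum_congr rfl fun k _ => Finset.sum_congr rfl fun e _ => ?_
    rw [pdNf_symm12 hF.1 k e a x, pdNf_symm23 hF.1 e k a x]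
    ring
  simp only [e3, e4]
  ring

end Vale.Agent.P227.M.KY
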