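import Mathlib

set_option autoImplicit false

/-! # P227/M/KX: pointwise tensor algebra of the key inequality (finite sums only) -/

open Matrix Finset

namespace Vale.Agent.P227.M.QAlg

section Slots

variable {ι : Type*} [Fintype ι]

/-- contraction of two 3-tensors -/
def dot3 (X Y : ι → ι → ι → ℝ) : ℝ := ∑ i, ∑ j, ∑ k, X i j k * Y i j k

def m1 (G : Matrix ι ι ℝ) (X : ι → ι → ι → ℝ) : ι → ι → ι → ℝ := fun i j k => ∑ l, G i l * X l j k
def m2 (G : Matrix ι ι ℝ) (X : ι → ι → ι → ℝ) : ι → ι → ι → ℝ := fun i j k => ∑ l, G j l * X i l k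
def m3 (G : Matrix ι ι ℝ) (X : ι → ι → ι → ℝ) : ι → ι → ι → ℝ := fun i j k => ∑ l, G k l * X i j l

def s12 (X : ι → ι → ι → ℝ) : ι → ι → ι → ℝ := fun i j k => X j i k
def s23 (X : ι → ι → ι → ℝ) : ι → ι → ι → ℝ := fun i j k => X i k j

theorem dot3_comm (X Y : ι → ι → ι → ℝ) : dot3 X Y = dot3 Y X := by
  unfold dot3
  simp only [mul_comm]

theorem dot3_s12 (X Y : ι → ι → ι → ℝ) : dot3 (s12 X) (s12 Y) = dot3 X Y := by
  unfold dot3 s12
  rw [sum_comm]

theorem dot3_s23 (X Y : ι → ι → ι → ℝ) : dot3 (s23 X) (s23 Y) = dot3 X Y := by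
  unfold dot3 s23
  refine sum_congr rfl (fun i _ => ?_)
  rw [sum_comm]

theorem vec_adj (G : Matrix ι ι ℝ) (x y : ι → ℝ) :
    ∑ k, (∑ l, G k l * x l) * y k = ∑ k, x k * ∑ l, Gᵀ k l * y l := by
  simp_rw [sum_mul, mul_sum, Matrix.transpose_apply]
  rw [sum_comm]
  refine sum_congr rfl (fun i _ => sum_congr rfl (fun j _ => ?_))
  ring

theorem dot3_m3 (G : Matrix ι ι ℝ) (X Y : ι → ι → ι → ℝ) :
    dot3 (m3 G X) Y = dot3 X (m3 Gᵀ Y) := by
  unfold dot3 m3
  refine sum_congr rfl (fun i _ => sum_congr rfl (fun j _ => ?_))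
  exact vec_adj G (fun l => X i j l) (fun l => Y i j l)

theorem dot3_m2 (G : Matrix ι ι ℝ) (X Y : ι → ι → ι → ℝ) :
    dot3 (m2 G X) Y = dot3 X (m2 Gᵀ Y) := by
  rw [← dot3_s23 (m2 G X) Y, ← dot3_s23 X (m2 Gᵀ Y)]
  exact dot3_m3 G (s23 X) (s23 Y)

theorem dot3_m1 (G : Matrix ι ι ℝ) (X Y : ι → ι → ι → ℝ) :
    dot3 (m1 G X) Y = dot3 X (m1 Gᵀ Y) := by
  rw [← dot3_s12 (m1 G X) Y, ← dot3_s12 X (m1 Gᵀ Y)]
  exact dot3_m2 G (s12 X) (s12 Y)

theorem m1_m1 (G H : Matrix ι ι ℝ) (X : ι → ι → ι → ℝ) : m1 G (m1 H X) = m1 (G * H) X := by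
  funext i j k
  unfold m1
  simp_rw [Matrix.mul_apply, sum_mul, mul_sum]
  rw [sum_comm]
  refine sum_congr rfl (fun i _ => sum_congr rfl (fun j _ => ?_))
  ring

theorem m2_m2 (G H : Matrix ι ι ℝ) (X : ι → ι → ι → ℝ) : m2 G (m2 H X) = m2 (G * H) X := by
  funext i j k
  exact congrFun (congrFun (congrFun (m1_m1 G H (s12 X)) j) i) k

theorem m3_m3 (G H : Matrix ι ι ℝ) (X : ι → ι → ι → ℝ) : m3 G (m3 H X) = m3 (G * H) X := by
  funext i j k
  exact congrFun (congrFun (congrFun (m2_m2 G H (s23 X)) i) k) j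

theorem m1_m2 (G H : Matrix ι ι ℝ) (X : ι → ι → ι → ℝ) : m1 G (m2 H X) = m2 H (m1 G X) := by
  funext i j k
  unfold m1 m2
  simp_rw [mul_sum]
  rw [sum_comm]
  refine sum_congr rfl (fun i _ => sum_congr rfl (fun j _ => ?_))
  ring

theorem m1_m3 (G H : Matrix ι ι ℝ) (X : ι → ι → ι → ℝ) : m1 G (m3 H X) = m3 H (m1 G X) := by
  funext i j k
  exact congrFun (congrFun (congrFun (m1_m2 G H (s23 X)) i) k) j

theorem m2_m3 (G H : Matrix ι ι ℝ) (X : ι → ι → ι → ℝ) : m2 G (m3 H X) = m3 H (m2 G X) := by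
  funext i j k
  exact congrFun (congrFun (congrFun (m1_m3 G H (s12 X)) j) i) k

theorem m1_one [DecidableEq ι] (X : ι → ι → ι → ℝ) : m1 1 X = X := by
  funext i j k
  unfold m1
  simp [Matrix.one_apply]

theorem m2_one [DecidableEq ι] (X : ι → ι → ι → ℝ) : m2 1 X = X := by
  funext i j k
  unfold m2
  simp [Matrix.one_apply]

theorem m3_one [DecidableEq ι] (X : ι → ι → ι → ℝ) : m3 1 X = X := by
  funext i j k
  unfold m3
  simp [Matrix.one_apply]

/-- the form `g ⊗ g ⊗ g` -/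
def bf (g : Matrix ι ι ℝ) (X Y : ι → ι → ι → ℝ) : ℝ := dot3 X (m1 g (m2 g (m3 g Y)))

theorem bf_comm (g : Matrix ι ι ℝ) (hg : gᵀ = g) (X Y : ι → ι → ι → ℝ) :
    bf g X Y = bf g Y X := by
  unfold bf
  have h1 : dot3 X (m1 g (m2 g (m3 g Y))) = dot3 (m1 g X) (m2 g (m3 g Y)) := by
    rw [dot3_m1, hg]
  have h2 : dot3 (m1 g X) (m2 g (m3 g Y)) = dot3 (m2 g (m1 g X)) (m3 g Y) := by
    rw [dot3_m2, hg]
  have h3 : dot3 (m2 g (m1 g X)) (m3 g Y) = dot3 (m3 g (m2 g (m1 g X))) Y := by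
    rw [dot3_m3, hg]
  rw [h1, h2, h3, dot3_comm]
  congr 1
  rw [← m1_m2, ← m1_m3, ← m2_m3]

theorem bf_s23 (g : Matrix ι ι ℝ) (X Y : ι → ι → ι → ℝ) :
    bf g (s23 X) (s23 Y) = bf g X Y := by
  unfold bf
  have h : m1 g (m2 g (m3 g (s23 Y))) = s23 (m1 g (m2 g (m3 g Y))) := by
    have h1 : m2 g (m3 g (s23 Y)) = s23 (m3 g (m2 g Y)) := rfl
    rw [h1, ← m2_m3]
    rfl
  rw [h, dot3_s23]

theorem bf_s12 (g : Matrix ι ι ℝ) (X Y : ι → ι → ι → ℝ) :
    bf g (s12 X) (s12 Y) = bf g X Y := by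
  unfold bf
  have h : m1 g (m2 g (m3 g (s12 Y))) = s12 (m1 g (m2 g (m3 g Y))) := by
    have h1 : m1 g (m2 g (m3 g (s12 Y))) = s12 (m2 g (m1 g (m3 g Y))) := rfl
    rw [h1, ← m1_m2]
  rw [h, dot3_s12]

theorem dot3_self_nonneg (X : ι → ι → ι → ℝ) : 0 ≤ dot3 X X :=
  sum_nonneg (fun _ _ => sum_nonneg (fun _ _ => sum_nonneg (fun _ _ => mul_self_nonneg _)))

theorem bf_nonneg (g b : Matrix ι ι ℝ) (hb : g = bᵀ * b) (X : ι → ι → ι → ℝ) :
    0 ≤ bf g X X := by
  have h : bf g X X = dot3 (m3 b (m2 b (m1 b X))) (m3 b (m2 b (m1 b X))) := by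
    rw [dot3_m3, dot3_m2, dot3_m1]
    unfold bf
    congr 1
    rw [hb, ← m1_m1, ← m2_m2, ← m3_m3]
    rw [← m1_m2 b b, ← m1_m3 b b, ← m2_m3 b b, ← m1_m3 b bᵀ, ← m2_m3 b bᵀ, ← m1_m2 b bᵀ]
  rw [h]
  exact dot3_self_nonneg _

theorem m_add (g : Matrix ι ι ℝ) (X Y : ι → ι → ι → ℝ) :
    m1 g (X + Y) = m1 g X + m1 g Y ∧ m2 g (X + Y) = m2 g X + m2 g Y ∧
      m3 g (X + Y) = m3 g X + m3 g Y := by
  refine ⟨?_, ?_, ?_⟩ <;>
  · funext i j k
    simp only [m1, m2, m3, Pi.add_apply, mul_add, sum_add_distrib]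

theorem m_smul (g : Matrix ι ι ℝ) (r : ℝ) (X : ι → ι → ι → ℝ) :
    m1 g (r • X) = r • m1 g X ∧ m2 g (r • X) = r • m2 g X ∧
      m3 g (r • X) = r • m3 g X := by
  refine ⟨?_, ?_, ?_⟩ <;>
  · funext i j k
    simp only [m1, m2, m3, Pi.smul_apply, smul_eq_mul, mul_sum]
    refine sum_congr rfl (fun _ _ => ?_)
    ring

theorem dot3_add (X Y Y' : ι → ι → ι → ℝ) : dot3 X (Y + Y') = dot3 X Y + dot3 X Y' := by
  unfold dot3
  simp only [Pi.add_apply, mul_add, sum_add_distrib]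

theorem dot3_smul (r : ℝ) (X Y : ι → ι → ι → ℝ) : dot3 X (r • Y) = r * dot3 X Y := by
  unfold dot3
  simp only [Pi.smul_apply, smul_eq_mul, mul_sum]
  refine sum_congr rfl (fun _ _ => sum_congr rfl (fun _ _ => sum_congr rfl (fun _ _ => ?_)))
  ring

theorem bf_add (g : Matrix ι ι ℝ) (X Y Y' : ι → ι → ι → ℝ) :
    bf g X (Y + Y') = bf g X Y + bf g X Y' := by
  unfold bf
  rw [(m_add g Y Y').2.2, (m_add g _ _).2.1, (m_add g _ _).1, dot3_add]

theorem bf_smul (g : Matrix ι ι ℝ) (r : ℝ) (X Y : ι → ι → ι → ℝ) :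
    bf g X (r • Y) = r * bf g X Y := by
  unfold bf
  rw [(m_smul g r Y).2.2, (m_smul g r _).2.1, (m_smul g r _).1, dot3_smul]

theorem bf_sub (g : Matrix ι ι ℝ) (X Y Y' : ι → ι → ι → ℝ) :
    bf g X (Y - Y') = bf g X Y - bf g X Y' := by
  have h : Y - Y' = Y + (-1 : ℝ) • Y' := by
    funext i j k
    simp [sub_eq_add_neg]
  rw [h, bf_add, bf_smul]
  ring

theorem bf_add_left (g : Matrix ι ι ℝ) (hg : gᵀ = g) (X X' Y : ι → ι → ι → ℝ) :
    bf g (X + X') Y = bf g X Y + bf g X' Y := by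
  rw [bf_comm g hg, bf_add, bf_comm g hg Y X, bf_comm g hg Y X']

theorem bf_sub_left (g : Matrix ι ι ℝ) (hg : gᵀ = g) (X X' Y : ι → ι → ι → ℝ) :
    bf g (X - X') Y = bf g X Y - bf g X' Y := by
  rw [bf_comm g hg, bf_sub, bf_comm g hg Y X, bf_comm g hg Y X']

/-- the heart: the four terms give a square -/
theorem four_terms (g b : Matrix ι ι ℝ) (hb : g = bᵀ * b) (Z R : ι → ι → ι → ℝ)
    (hZR : Z - s23 Z = R - s23 R) :
    0 ≤ 2 * bf g Z Z + 2 * bf g R (s23 Z) - bf g R Z - bf g R (s23 Z) := by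
  have hg : gᵀ = g := by rw [hb, Matrix.transpose_mul, Matrix.transpose_transpose]
  have h1 : bf g R (s23 Z) - bf g R Z = -(1 / 2) * bf g (Z - s23 Z) (Z - s23 Z) := by
    have h2 : bf g (R - s23 R) (Z - s23 Z) = bf g R Z - bf g R (s23 Z)
        - (bf g (s23 R) Z - bf g (s23 R) (s23 Z)) := by
      rw [bf_sub_left g hg, bf_sub, bf_sub]
    have h3 : bf g (s23 R) Z = bf g R (s23 Z) := by
      have := bf_s23 g R (s23 Z)
      exact this
    have h4 : bf g (s23 R) (s23 Z) = bf g R Z := bf_s23 g R Z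
    rw [← hZR, h3, h4] at h2
    linarith
  have h5 : bf g (Z - s23 Z) (Z - s23 Z) = 2 * bf g Z Z - 2 * bf g Z (s23 Z) := by
    rw [bf_sub_left g hg, bf_sub, bf_sub, bf_s23, bf_comm g hg (s23 Z) Z]
    ring
  have h6 : bf g (Z + s23 Z) (Z + s23 Z) = 2 * bf g Z Z + 2 * bf g Z (s23 Z) := by
    rw [bf_add_left g hg, bf_add, bf_add, bf_s23, bf_comm g hg (s23 Z) Z]
    ring
  have h7 := bf_nonneg g b hb (Z + s23 Z)
  linarith

end Slots

section Key

variable {ι : Type*} [Fintype ι] [DecidableEq ι]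

/-- `B (Z, Y)` for `Z = t u t` -/
theorem bf_Z (t g : Matrix ι ι ℝ) (ht : tᵀ = t) (htg : t * g = 1) (u Y : ι → ι → ι → ℝ) :
    bf g (m1 t (m3 t u)) Y = dot3 u (m2 g Y) := by
  unfold bf
  rw [dot3_m1, dot3_m3, ht, m1_m1, htg, m1_one]
  have h : m3 t (m2 g (m3 g Y)) = m2 g Y := by
    rw [← m2_m3, m3_m3, htg, m3_one]
  rw [h]


end Key

section Key0

variable {ι : Type*} [Fintype ι]

theorem m2_s12 (g : Matrix ι ι ℝ) (X : ι → ι → ι → ℝ) : m2 g (s12 X) = s12 (m1 g X) := rfl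
theorem m3_s12 (g : Matrix ι ι ℝ) (X : ι → ι → ι → ℝ) : m3 g (s12 X) = s12 (m3 g X) := rfl
theorem m1_s12 (g : Matrix ι ι ℝ) (X : ι → ι → ι → ℝ) : m1 g (s12 X) = s12 (m2 g X) := rfl
theorem m1_s23 (g : Matrix ι ι ℝ) (X : ι → ι → ι → ℝ) : m1 g (s23 X) = s23 (m1 g X) := rfl
theorem m2_s23 (g : Matrix ι ι ℝ) (X : ι → ι → ι → ℝ) : m2 g (s23 X) = s23 (m3 g X) := rfl
theorem m3_s23 (g : Matrix ι ι ℝ) (X : ι → ι → ι → ℝ) : m3 g (s23 X) = s23 (m2 g X) := rfl

end Key0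

section Key1

variable {ι : Type*} [Fintype ι] [DecidableEq ι]

/-- the pointwise inequality of the key identity. `t = τ`, `D k i j = ∂_k τ_ij`, `A k i j = ∂_k N_ij`. -/
theorem key_alg (t g b N : Matrix ι ι ℝ) (D A : ι → ι → ι → ℝ)
    (ht : tᵀ = t) (htg : t * g = 1) (hb : g = bᵀ * b) (hN : Nᵀ = N)
    (hD : s23 D = D) (hA1 : s23 A = A) (hA2 : s12 A = A)
    (hT : s12 (m1 t D) = m1 t D)
    (U : Matrix ι ι ℝ) (hU : U = t * N)
    (u dK dW : ι → ι → ι → ℝ)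
    (hu : ∀ k i j, u k i j = ∑ c, (D k i c * N c j + t i c * A k c j))
    (hdK : ∀ k i j, dK k i j = ∑ c, (u k i c * t c j + U i c * D k c j))
    (hdW : ∀ k i j, dW k i j = ∑ l, (u k j l * U l i + U j l * u k l i)) :
    0 ≤ 2 * (∑ i, ∑ j, ∑ b, dK j i b * u i j b) - ∑ i, ∑ j, ∑ k, D k i j * dW i j k := by
  have hgt : g * t = 1 := mul_eq_one_comm.1 htg
  have hg : gᵀ = g := by rw [hb, Matrix.transpose_mul, Matrix.transpose_transpose]
  set T := m1 t D with hTdef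
  have hDT : m1 g T = D := by rw [hTdef, m1_m1, hgt, m1_one]
  have hT23 : s23 T = T := by rw [hTdef, ← m1_s23, hD]
  set R := m3 U T with hR
  set Z := m1 t (m3 t u) with hZ
  -- the slot form of `u`
  have hu' : u = m3 N D + m2 t A := by
    funext k i j
    rw [hu, sum_add_distrib]
    simp only [Pi.add_apply, m3, m2]
    congr 1
    refine sum_congr rfl (fun c _ => ?_)
    have : N c j = N j c := congrFun (congrFun hN j) c
    rw [this]; ring
  have hZ12 : s12 Z = Z := by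
    rw [hZ, m1_m3, ← m3_s12]
    congr 1
    rw [hu', (m_add t _ _).1]
    have e1 : m1 t (m3 N D) = m3 N T := by rw [m1_m3]
    have e2 : s12 (m3 N T + m1 t (m2 t A)) = s12 (m3 N T) + s12 (m1 t (m2 t A)) := rfl
    rw [e1, e2, ← m3_s12, hT]
    have e3 : s12 (m1 t (m2 t A)) = m2 t (m1 t (s12 A)) := rfl
    rw [e3, hA2, ← m1_m2]
  have hR12 : s12 R = R := by rw [hR, ← m3_s12, hT]
  have hgR : m1 g R = m3 U D := by rw [hR, m1_m3, hDT]
  -- symmetry of `dK`
  have hdK' : dK = m3 t u + m2 U D := by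
    funext k i j
    rw [hdK, sum_add_distrib]
    simp only [Pi.add_apply, m3, m2]
    congr 1
    refine sum_congr rfl (fun c _ => ?_)
    have : t c j = t j c := congrFun (congrFun ht j) c
    rw [this]; ring
  have hdKs : s23 dK = dK := by
    have e1 : s23 dK = m2 t (s23 u) + m3 U (s23 D) := by rw [hdK']; rfl
    rw [e1, hD, hdK', hu']
    have e2 : s23 (m3 N D + m2 t A) = m2 N (s23 D) + m3 t (s23 A) := rfl
    rw [e2, hD, hA1, (m_add t _ _).2.1, (m_add t _ _).2.2]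
    have e3 : m2 t (m2 N D) = m2 U D := by rw [m2_m2, hU]
    have e4 : m3 t (m3 N D) = m3 U D := by rw [m3_m3, hU]
    rw [e3, e4, m2_m3]
    funext i j k
    simp only [Pi.add_apply]
    ring
  have hZR : Z - s23 Z = R - s23 R := by
    have e1 : m1 t dK = Z + s23 R := by
      rw [hdK', (m_add t _ _).1, m1_m2, ← hTdef, ← hZ]
      congr 1
      have e2 : s23 R = m2 U (s23 T) := rfl
      rw [e2, hT23]
    have e3 : s23 (m1 t dK) = m1 t dK := by rw [← m1_s23, hdKs]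
    rw [e1] at e3
    funext i j k
    have e4 := congrFun (congrFun (congrFun e3 i) j) k
    simp only [s23, Pi.add_apply] at e4
    simp only [s23, Pi.sub_apply]
    linarith
  -- the four terms
  have t1 : ∑ i, ∑ j, ∑ b, (∑ c, u j i c * t c b) * u i j b = bf g Z Z := by
    have e1 : bf g Z Z = dot3 u (m2 g Z) := bf_Z t g ht htg u Z
    have e2 : m2 g Z = s12 (m3 t u) := by
      rw [← hZ12, m2_s12, hZ, m1_m1, hgt, m1_one]
    rw [e1, e2]
    unfold dot3 s12 m3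
    refine sum_congr rfl (fun i _ => sum_congr rfl (fun j _ => sum_congr rfl (fun b _ => ?_)))
    rw [mul_comm]
    congr 1
    refine sum_congr rfl (fun c _ => ?_)
    have : t c b = t b c := congrFun (congrFun ht b) c
    rw [this]; ring
  have hRZ : bf g R (s23 Z) = bf g Z (s23 R) := by
    rw [← bf_s23, bf_comm g hg]
    rfl
  have t2 : ∑ i, ∑ j, ∑ b, (∑ c, U i c * D j c b) * u i j b = bf g R (s23 Z) := by
    have e0 : bf g Z (s23 R) = bf g Z (s12 (s23 R)) := by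
      rw [← bf_s12, hZ12]
    have e1 : bf g Z (s12 (s23 R)) = dot3 u (m2 g (s12 (s23 R))) :=
      bf_Z t g ht htg u (s12 (s23 R))
    have e2 : m2 g (s12 (s23 R)) = s12 (m2 U D) := by
      rw [m2_s12, m1_s23, hgR]
      have e3 : s23 (m3 U D) = m2 U (s23 D) := rfl
      rw [e3, hD]
    rw [hRZ, e0, e1, e2]
    unfold dot3 s12 m2
    refine sum_congr rfl (fun i _ => sum_congr rfl (fun j _ => sum_congr rfl (fun b _ => ?_)))
    rw [mul_comm]
  have t3 : ∑ i, ∑ j, ∑ k, D k i j * (∑ l, u i k l * U l j) = bf g R Z := by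
    have e1 : bf g Z R = dot3 u (m2 g R) := bf_Z t g ht htg u R
    have e2 : m2 g R = s12 (m3 U D) := by
      rw [← hR12, m2_s12, hgR]
    rw [bf_comm g hg, e1, e2]
    unfold dot3 s12 m3
    refine sum_congr rfl (fun i _ => ?_)
    simp_rw [mul_sum]
    rw [sum_comm]
    refine sum_congr rfl (fun k _ => ?_)
    rw [sum_comm]
    refine sum_congr rfl (fun l _ => sum_congr rfl (fun j _ => ?_))
    ring
  have t4 : ∑ i, ∑ j, ∑ k, D k i j * (∑ l, U k l * u i l j) = bf g R (s23 Z) := by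
    have e1 : bf g Z (s23 R) = dot3 u (m2 g (s23 R)) := bf_Z t g ht htg u (s23 R)
    have e2 : m2 g (s23 R) = s23 (m3 N T) := by
      rw [m2_s23, hR, m3_m3, hU, ← Matrix.mul_assoc, hgt, Matrix.one_mul]
    rw [hRZ, e1, e2]
    unfold dot3 s23
    refine sum_congr rfl (fun i _ => ?_)
    have e5 : ∀ l j, m3 N T i j l = ∑ k, D k i j * U k l := by
      intro l j
      have h1 : m3 N T i j l = ∑ m, N l m * T i j m := rfl
      have h2 : ∀ m, T i j m = T m i j := by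
        intro m
        have a1 : T i j m = T i m j := congrFun (congrFun (congrFun hT23 i) m) j
        have a2 : T i m j = T m i j := congrFun (congrFun (congrFun hT m) i) j
        rw [a1, a2]
      have h3 : ∀ m, T m i j = ∑ k, t m k * D k i j := fun m => rfl
      rw [h1, hU]
      simp_rw [h2, h3, Matrix.mul_apply, mul_sum]
      rw [sum_comm]
      refine sum_congr rfl (fun k _ => sum_congr rfl (fun m _ => ?_))
      have a3 : t m k = t k m := congrFun (congrFun ht k) m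
      have a4 : N l m = N m l := congrFun (congrFun hN m) l
      rw [a3, a4]; ring
    simp_rw [e5, mul_sum]
    rw [sum_congr rfl (fun j _ => sum_comm), sum_comm]
    refine sum_congr rfl (fun l _ => sum_congr rfl (fun j _ => sum_congr rfl (fun k _ => ?_)))
    ring
  have e1 : ∑ i, ∑ j, ∑ b, dK j i b * u i j b = bf g Z Z + bf g R (s23 Z) := by
    rw [← t1, ← t2, ← sum_add_distrib]
    refine sum_congr rfl (fun i _ => ?_)
    rw [← sum_add_distrib]
    refine sum_congr rfl (fun j _ => ?_)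
    rw [← sum_add_distrib]
    refine sum_congr rfl (fun b _ => ?_)
    rw [hdK, sum_add_distrib]
    ring
  have e2 : ∑ i, ∑ j, ∑ k, D k i j * dW i j k = bf g R Z + bf g R (s23 Z) := by
    rw [← t3, ← t4, ← sum_add_distrib]
    refine sum_congr rfl (fun i _ => ?_)
    rw [← sum_add_distrib]
    refine sum_congr rfl (fun j _ => ?_)
    rw [← sum_add_distrib]
    refine sum_congr rfl (fun k _ => ?_)
    rw [hdW, sum_add_distrib]
    ring
  rw [e1, e2]
  have := four_terms g b hb Z R hZR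
  linarith

/-- `tr (X²) ≥ 0` if `t X` is symmetric: applied to `X = J - Uᵀ` -/
theorem tr_sq_nonneg (t g b : Matrix ι ι ℝ) (htg : t * g = 1) (hb : g = bᵀ * b)
    (X : Matrix ι ι ℝ) (hX : (t * X)ᵀ = t * X) :
    0 ≤ ∑ i, ∑ j, X i j * X j i := by
  have hgt : g * t = 1 := mul_eq_one_comm.1 htg
  have h1 : X = g * (t * X) := by rw [← Matrix.mul_assoc, hgt, Matrix.one_mul]
  have h2 : ∑ i, ∑ j, X i j * X j i = (X * X).trace := by
    simp only [Matrix.trace, Matrix.diag_apply, Matrix.mul_apply]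
  set S := t * X with hS
  have h3 : (X * X).trace = ((b * S * bᵀ) * (b * S * bᵀ)).trace := by
    have e1 : X * X = bᵀ * (b * S * bᵀ * b * S) := by
      rw [h1, hb]
      simp only [Matrix.mul_assoc]
    rw [e1, Matrix.trace_mul_comm]
    simp only [Matrix.mul_assoc]
  have h4 : (b * S * bᵀ)ᵀ = b * S * bᵀ := by
    rw [Matrix.transpose_mul, Matrix.transpose_mul, Matrix.transpose_transpose, hX,
      ← Matrix.mul_assoc]
  rw [h2, h3]
  have h5 : ((b * S * bᵀ) * (b * S * bᵀ)).trace =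
      ∑ i, ∑ j, (b * S * bᵀ) i j * (b * S * bᵀ) i j := by
    simp only [Matrix.trace, Matrix.diag_apply]
    refine sum_congr rfl (fun i _ => ?_)
    rw [Matrix.mul_apply]
    refine sum_congr rfl (fun j _ => ?_)
    have : (b * S * bᵀ) j i = (b * S * bᵀ) i j := congrFun (congrFun h4 i) j
    rw [this]
  rw [h5]
  exact sum_nonneg (fun _ _ => sum_nonneg (fun _ _ => mul_self_nonneg _))

end Key1

end Vale.Agent.P227.M.QAlg
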