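import Vale.Agent.P227.M.Stmts
import Vale.Agent.P227.M.ID.Rad
import Vale.Agent.P227.M.ID.Swap414
import Vale.Agent.P227.M.ID.QAlg987

/-! # P227/M/ID: `StmtKey` (helper680), assembled from `Rad` (497), `Swap414` (414), `QAlg987` (987). -/

open MeasureTheory Filter
open scoped Topology NNReal

namespace Vale.Agent.P227.M.K680

open Vale.Agent.P227.M.Sw

variable {n : ℕ} {ψ V F u : E n → ℝ} {c C M : ℝ}

/-! ### calculus of the classes -/

lemma ll_sum {ι : Type*} (s : Finset ι) {f : ι → E n → ℝ} (hf : ∀ i ∈ s, LL (f i)) :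
    LL (fun x => ∑ i ∈ s, f i x) := by
  classical
  induction s using Finset.induction_on with
  | empty => simpa using LL.const (n := n) 0
  | insert a s ha ih =>
    have h := (hf a (Finset.mem_insert_self a s)).add (ih fun i hi => hf i (Finset.mem_insert_of_mem hi))
    simpa only [Finset.sum_insert ha] using h

/-- bounded, measurable, compactly supported -/
def Ok (f : E n → ℝ) : Prop := LB f ∧ BS f

lemma Ok.zero : Ok (fun _ : E n => (0 : ℝ)) := ⟨(LL.const 0).lb, ⟨0, fun _ _ => rfl⟩⟩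

lemma Ok.add {f g : E n → ℝ} (hf : Ok f) (hg : Ok g) : Ok (fun x => f x + g x) :=
  ⟨hf.1.add hg.1, hf.2.add hg.2⟩

lemma Ok.sub {f g : E n → ℝ} (hf : Ok f) (hg : Ok g) : Ok (fun x => f x - g x) :=
  ⟨hf.1.sub hg.1, hf.2.sub hg.2⟩

lemma Ok.mul_left {f g : E n → ℝ} (hf : LB f) (hg : Ok g) : Ok (fun x => f x * g x) :=
  ⟨hf.mul hg.1, hg.2.mul_left⟩

lemma Ok.mul_right {f g : E n → ℝ} (hf : Ok f) (hg : LB g) : Ok (fun x => f x * g x) :=
  ⟨hf.1.mul hg, hf.2.mul_right⟩

lemma Ok.sum {ι : Type*} (s : Finset ι) {f : ι → E n → ℝ} (hf : ∀ i ∈ s, Ok (f i)) :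
    Ok (fun x => ∑ i ∈ s, f i x) := by
  classical
  induction s using Finset.induction_on with
  | empty => simpa using Ok.zero (n := n)
  | insert a s ha ih =>
    have h := (hf a (Finset.mem_insert_self a s)).add (ih fun i hi => hf i (Finset.mem_insert_of_mem hi))
    simpa only [Finset.sum_insert ha] using h

lemma Ok.of {f : E n → ℝ} (hf : LL f) (hs : BS f) : Ok f := ⟨hf.lb, hs⟩

lemma Ok.pd {f : E n → ℝ} (hf : LL f) (hs : BS f) (a : Fin n) : Ok (pd a f) := ⟨hf.pd_lb a, hs.pd a⟩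

/-- unnormalised expectation -/
noncomputable def I (V f : E n → ℝ) : ℝ := ∫ x, f x * Real.exp (-V x)

lemma Ok.int (hV : ContDiff ℝ 2 V) {f : E n → ℝ} (hf : Ok f) :
    Integrable (fun x => f x * Real.exp (-V x)) :=
  (hf.1.mul (LL.exp_neg hV).lb).integrable hf.2.mul_right

lemma I_add (hV : ContDiff ℝ 2 V) {f g : E n → ℝ} (hf : Ok f) (hg : Ok g) :
    I V (fun x => f x + g x) = I V f + I V g := by
  unfold I
  rw [← integral_add (hf.int hV) (hg.int hV)]
  exact integral_congr_ae (Eventually.of_forall fun x => add_mul _ _ _)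

lemma I_sub (hV : ContDiff ℝ 2 V) {f g : E n → ℝ} (hf : Ok f) (hg : Ok g) :
    I V (fun x => f x - g x) = I V f - I V g := by
  unfold I
  rw [← integral_sub (hf.int hV) (hg.int hV)]
  exact integral_congr_ae (Eventually.of_forall fun x => sub_mul _ _ _)

lemma I_mul (f : E n → ℝ) (r : ℝ) : I V (fun x => r * f x) = r * I V f := by
  unfold I
  rw [← integral_const_mul]
  exact integral_congr_ae (Eventually.of_forall fun x => mul_assoc _ _ _)

lemma I_sum (hV : ContDiff ℝ 2 V) {ι : Type*} (s : Finset ι) {f : ι → E n → ℝ}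
    (hf : ∀ i ∈ s, Ok (f i)) : I V (fun x => ∑ i ∈ s, f i x) = ∑ i ∈ s, I V (f i) := by
  unfold I
  rw [← integral_finsetSum s fun i hi => (hf i hi).int hV]
  exact integral_congr_ae (Eventually.of_forall fun x => Finset.sum_mul _ _ _)

lemma I_congr {f g : E n → ℝ} (h : ∀ᵐ x, f x = g x) : I V f = I V g := by
  unfold I
  refine integral_congr_ae ?_
  filter_upwards [h] with x hx
  rw [hx]

lemma I_nonneg {f : E n → ℝ} (h : ∀ᵐ x, 0 ≤ f x) : 0 ≤ I V f := by
  unfold I
  refine integral_nonneg_of_ae ?_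
  filter_upwards [h] with x hx
  exact mul_nonneg hx (Real.exp_pos _).le

/-- formal adjoint of `∂_a` with respect to `e^{-V}` -/
noncomputable def ad (V : E n → ℝ) (a : Fin n) (P : E n → ℝ) (x : E n) : ℝ :=
  pd a V x * P x - pd a P x

lemma lb_ad (hV : ContDiff ℝ 2 V) {P : E n → ℝ} (hP : LL P) (a : Fin n) : LB (ad V a P) :=
  ((LL.of_c1 (rad_pd_c1 hV a)).lb.mul hP.lb).sub (hP.pd_lb a)

lemma ok_ad (hV : ContDiff ℝ 2 V) {P : E n → ℝ} (hP : LL P) (hs : BS P) (a : Fin n) : Ok (ad V a P) :=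
  ⟨lb_ad hV hP a, (hs.mul_left).sub (hs.pd a)⟩

lemma I_swap (hV : ContDiff ℝ 2 V) {P Q : E n → ℝ} (hP : LL P) (hQ : LL Q) (hs : BS Q) (a c : Fin n) :
    I V (fun x => ad V a P x * ad V c Q x)
      = I V (fun x => pd c P x * pd a Q x + hess V x c a * P x * Q x) := by
  unfold I ad
  exact swap hV hP hQ (Or.inr hs) a c

lemma lb_hess (hV : ContDiff ℝ 2 V) (a c : Fin n) : LB (fun x => hess V x a c) :=
  LB.of_cont (rad_hess_cont hV a c)

/-- the summed swap identity -/
lemma I_swap_sum {ι : Type} [Fintype ι] (hV : ContDiff ℝ 2 V) {P Q : Fin n → ι → E n → ℝ}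
    (hP : ∀ a e, LL (P a e))
    (hQ : ∀ a e, LL (Q a e)) (hs : ∀ a e, BS (Q a e)) :
    I V (fun x => ∑ e, (∑ a, ad V a (P a e) x) * ∑ c, ad V c (Q c e) x)
      = I V (fun x => ∑ e, ∑ a, ∑ c, pd c (P a e) x * pd a (Q c e) x)
        + I V (fun x => ∑ e, ∑ a, ∑ c, hess V x c a * P a e x * Q c e x) := by
  have k1 : ∀ e a c, Ok (fun x => pd c (P a e) x * pd a (Q c e) x) := fun e a c =>
    Ok.mul_left ((hP a e).pd_lb c) (Ok.pd (hQ c e) (hs c e) a)
  have k2 : ∀ e a c, Ok (fun x => hess V x c a * P a e x * Q c e x) := fun e a c =>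
    Ok.mul_left ((lb_hess hV c a).mul (hP a e).lb) (Ok.of (hQ c e) (hs c e))
  have k3 : ∀ e a c, Ok (fun x => ad V a (P a e) x * ad V c (Q c e) x) := fun e a c =>
    Ok.mul_left (lb_ad hV (hP a e) a) (ok_ad hV (hQ c e) (hs c e) c)
  have e1 : (fun x => ∑ e, (∑ a, ad V a (P a e) x) * ∑ c, ad V c (Q c e) x)
      = fun x => ∑ e, ∑ a, ∑ c, ad V a (P a e) x * ad V c (Q c e) x := by
    funext x
    exact Finset.sum_congr rfl fun e _ => Finset.sum_mul_sum _ _ _ _
  rw [e1, ← I_add hV (Ok.sum _ fun e _ => Ok.sum _ fun a _ => Ok.sum _ fun c _ => k1 e a c)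
    (Ok.sum _ fun e _ => Ok.sum _ fun a _ => Ok.sum _ fun c _ => k2 e a c)]
  have e2 : (fun x => (∑ e, ∑ a, ∑ c, pd c (P a e) x * pd a (Q c e) x)
        + ∑ e, ∑ a, ∑ c, hess V x c a * P a e x * Q c e x)
      = fun x => ∑ e, ∑ a, ∑ c, (pd c (P a e) x * pd a (Q c e) x + hess V x c a * P a e x * Q c e x) := by
    funext x
    simp only [Finset.sum_add_distrib]
  rw [e2, I_sum hV _ (fun e _ => Ok.sum _ fun a _ => Ok.sum _ fun c _ => k3 e a c),
    I_sum hV _ (fun e _ => Ok.sum _ fun a _ => Ok.sum _ fun c _ => (k1 e a c).add (k2 e a c))]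
  refine Finset.sum_congr rfl fun e _ => ?_
  rw [I_sum hV _ (fun a _ => Ok.sum _ fun c _ => k3 e a c),
    I_sum hV _ (fun a _ => Ok.sum _ fun c _ => (k1 e a c).add (k2 e a c))]
  refine Finset.sum_congr rfl fun a _ => ?_
  rw [I_sum hV _ (fun c _ => k3 e a c), I_sum hV _ (fun c _ => (k1 e a c).add (k2 e a c))]
  exact Finset.sum_congr rfl fun c _ => I_swap hV (hP a e) (hQ c e) (hs c e) a c

lemma I_ibp_sum (hV : ContDiff ℝ 2 V) {P : Fin n → Fin n → E n → ℝ} {Q : Fin n → E n → ℝ}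
    (hP : ∀ a e, LL (P a e)) (hs : ∀ a e, BS (P a e)) (hQ : ∀ e, LL (Q e)) :
    I V (fun x => ∑ e, (∑ a, ad V a (P a e) x) * Q e x)
      = I V (fun x => ∑ e, ∑ a, P a e x * pd a (Q e) x) := by
  have k1 : ∀ e a, Ok (fun x => P a e x * pd a (Q e) x) := fun e a =>
    Ok.mul_right (Ok.of (hP a e) (hs a e)) ((hQ e).pd_lb a)
  have k3 : ∀ e a, Ok (fun x => ad V a (P a e) x * Q e x) := fun e a =>
    Ok.mul_right (ok_ad hV (hP a e) (hs a e) a) (hQ e).lb
  have e1 : (fun x => ∑ e, (∑ a, ad V a (P a e) x) * Q e x)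
      = fun x => ∑ e, ∑ a, ad V a (P a e) x * Q e x := by
    funext x
    exact Finset.sum_congr rfl fun e _ => Finset.sum_mul _ _ _
  rw [e1, I_sum hV _ (fun e _ => Ok.sum _ fun a _ => k3 e a), I_sum hV _ (fun e _ => Ok.sum _ fun a _ => k1 e a)]
  refine Finset.sum_congr rfl fun e _ => ?_
  rw [I_sum hV _ (fun a _ => k3 e a), I_sum hV _ (fun a _ => k1 e a)]
  refine Finset.sum_congr rfl fun a _ => ?_
  unfold I ad
  exact ibpV hV (hP a e) (hQ e) (Or.inl (hs a e)) a

/-! ### the fields -/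

noncomputable def U (ψ F : E n → ℝ) (i j : Fin n) (x : E n) : ℝ := ∑ k, tau ψ x i k * hess F x k j

noncomputable def K (ψ F : E n → ℝ) (i j : Fin n) (x : E n) : ℝ := ∑ k, U ψ F i k x * tau ψ x k j

noncomputable def W (ψ F : E n → ℝ) (i j : Fin n) (x : E n) : ℝ := ∑ l, U ψ F i l x * U ψ F l j x

lemma ll_tau (h : MM ψ V c C M) (i j : Fin n) : LL (fun x => tau ψ x i j) :=
  LL.of_lip (rad_lipw fun x y => rad_tau_lip h x y i j)

lemma test_c2 (hF : Test F) : ContDiff ℝ 2 F := by exact_mod_cast contDiff_infty.1 hF.1 2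

lemma test_pd' (hF : Test F) (i : Fin n) : Test (pd i F) := by
  refine ⟨?_, ?_⟩
  · exact (hF.1.fderiv_right (m := (⊤ : ℕ∞)) (by simp)).clm_apply contDiff_const
  · exact (hF.2.fderiv (𝕜 := ℝ)).comp_left (g := fun L : E n →L[ℝ] ℝ => L (ei i)) (by simp)

lemma test_hess' (hF : Test F) (i j : Fin n) : Test (fun x => hess F x i j) := test_pd' (test_pd' hF j) i

lemma ll_test (hF : Test F) : LL F := LL.of_c1 (hF.1.of_le (by exact_mod_cast le_top))

lemma bs_test (hF : Test F) : BS F := BS.of_hcs hF.2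

lemma bs_sum {ι : Type*} (s : Finset ι) {f : ι → E n → ℝ} (hf : ∀ i ∈ s, BS (f i)) :
    BS (fun x => ∑ i ∈ s, f i x) := by
  classical
  induction s using Finset.induction_on with
  | empty => exact ⟨0, fun _ _ => by simp⟩
  | insert a s ha ih =>
    have h := (hf a (Finset.mem_insert_self a s)).add (ih fun i hi => hf i (Finset.mem_insert_of_mem hi))
    simpa only [Finset.sum_insert ha] using h

lemma ll_U (h : MM ψ V c C M) (hF : Test F) (i j : Fin n) : LL (U ψ F i j) :=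
  ll_sum _ fun k _ => (ll_tau h i k).mul (ll_test (test_hess' hF k j))

lemma bs_U (hF : Test F) (i j : Fin n) : BS (U ψ F i j) :=
  bs_sum _ fun k _ => (bs_test (test_hess' hF k j)).mul_left

lemma ll_K (h : MM ψ V c C M) (hF : Test F) (i j : Fin n) : LL (K ψ F i j) :=
  ll_sum _ fun k _ => (ll_U h hF i k).mul (ll_tau h k j)

lemma bs_K (hF : Test F) (i j : Fin n) : BS (K ψ F i j) :=
  bs_sum _ fun k _ => (bs_U hF i k).mul_right

lemma ll_W (h : MM ψ V c C M) (hF : Test F) (i j : Fin n) : LL (W ψ F i j) :=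
  ll_sum _ fun k _ => (ll_U h hF i k).mul (ll_U h hF k j)

lemma bs_W (hF : Test F) (i j : Fin n) : BS (W ψ F i j) :=
  bs_sum _ fun k _ => (bs_U hF i k).mul_right

lemma ll_fld (h : MM ψ V c C M) (hF : Test F) (b : Fin n) : LL (fld ψ F b) :=
  ll_sum _ fun k _ => (ll_tau h b k).mul (ll_test (test_pd' hF k))

lemma bs_fld (hF : Test F) (b : Fin n) : BS (fld ψ F b) :=
  bs_sum _ fun k _ => (bs_test (test_pd' hF k)).mul_left

lemma ll_LF (h : MM ψ V c C M) (hF : Test F) : LL (Lop ψ F) := by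
  refine LL.sub (ll_sum _ fun i _ => ll_sum _ fun j _ => (ll_tau h i j).mul (ll_test (test_hess' hF i j)))
    (ll_sum _ fun i _ => LL.mul ?_ (ll_test (test_pd' hF i)))
  exact LL.of_c1 (EuclideanSpace.proj i : E n →L[ℝ] ℝ).contDiff

lemma bs_LF (hF : Test F) : BS (Lop ψ F) := by
  refine BS.sub (bs_sum _ fun i _ => bs_sum _ fun j _ => (bs_test (test_hess' hF i j)).mul_left)
    (bs_sum _ fun i _ => (bs_test (test_pd' hF i)).mul_left)

lemma diff_test (hF : Test F) (x : E n) : DifferentiableAt ℝ F x :=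
  (hF.1.differentiable (by simp)) x

variable {x : E n}

lemma diff_U (hx : Good ψ x) (hF : Test F) (i j : Fin n) : DifferentiableAt ℝ (U ψ F i j) x :=
  DifferentiableAt.fun_sum fun k _ => (hx.2 i k).mul (diff_test (test_hess' hF k j) x)

lemma pd_U (hx : Good ψ x) (hF : Test F) (k i j : Fin n) :
    pd k (U ψ F i j) x = ∑ c, (pd k (fun y => tau ψ y i c) x * hess F x c j
      + tau ψ x i c * pd k (fun y => hess F y c j) x) := by
  show pd k (fun y => ∑ c, tau ψ y i c * hess F y c j) x = _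
  rw [rpd_sum (f := fun c y => tau ψ y i c * hess F y c j)
    fun c _ => (hx.2 i c).mul (diff_test (test_hess' hF c j) x)]
  exact Finset.sum_congr rfl fun c _ => rpd_mul (hx.2 i c) (diff_test (test_hess' hF c j) x)

lemma pd_K (hx : Good ψ x) (hF : Test F) (k i j : Fin n) :
    pd k (K ψ F i j) x = ∑ c, (pd k (U ψ F i c) x * tau ψ x c j
      + U ψ F i c x * pd k (fun y => tau ψ y c j) x) := by
  show pd k (fun y => ∑ c, U ψ F i c y * tau ψ y c j) x = _
  rw [rpd_sum (f := fun c y => U ψ F i c y * tau ψ y c j)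
    fun c _ => (diff_U hx hF i c).mul (hx.2 c j)]
  exact Finset.sum_congr rfl fun c _ => rpd_mul (diff_U hx hF i c) (hx.2 c j)

lemma pd_W (hx : Good ψ x) (hF : Test F) (k i j : Fin n) :
    pd k (W ψ F i j) x = ∑ l, (pd k (U ψ F i l) x * U ψ F l j x
      + U ψ F i l x * pd k (U ψ F l j) x) := by
  show pd k (fun y => ∑ c, U ψ F i c y * U ψ F c j y) x = _
  rw [rpd_sum (f := fun c y => U ψ F i c y * U ψ F c j y)
    fun c _ => (diff_U hx hF i c).mul (diff_U hx hF c j)]
  exact Finset.sum_congr rfl fun c _ => rpd_mul (diff_U hx hF i c) (diff_U hx hF c j)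

open scoped MatrixOrder in
/-- Gram factor of the Hessian of `ψ` -/
lemma exists_gram (h : MM ψ V c C M) (x : E n) :
    ∃ b : Matrix (Fin n) (Fin n) ℝ, hess ψ x = b.transpose * b := by
  have hp : (hess ψ x).PosSemidef := by
    refine Matrix.PosSemidef.of_dotProduct_mulVec_nonneg ?_ fun v => ?_
    · ext i j
      simp only [Matrix.conjTranspose_apply, star_trivial]
      exact rad_hess_symm h.C2 x j i
    · have h1 := h.lower x (WithLp.toLp 2 v)
      rw [rad_qf] at h1
      have h2 : 0 ≤ c * ‖(WithLp.toLp 2 v : E n)‖ ^ 2 := mul_nonneg h.c_pos.le (sq_nonneg _)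
      have h3 := h2.trans h1
      simpa [dotProduct] using h3
  obtain ⟨b, hb⟩ := CStarAlgebra.nonneg_iff_eq_star_mul_self.1 hp.nonneg
  exact ⟨b, by rw [hb, Matrix.star_eq_conjTranspose, Matrix.conjTranspose_eq_transpose_of_trivial]⟩

/-- the pointwise key inequality -/
lemma key_pt (h : MM ψ V c C M) (hx : Good ψ x) (hF : Test F) :
    0 ≤ 2 * (∑ e, ∑ a, ∑ c, pd c (K ψ F a e) x * pd a (U ψ F c e) x)
      - ∑ e, ∑ a, ∑ c, pd c (fun y => tau ψ y a e) x * pd a (W ψ F c e) x := by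
  obtain ⟨b, hb⟩ := exists_gram h x
  have hd : ∀ i j, DifferentiableAt ℝ (fun y => hess F y i j) x := fun i j =>
    diff_test (test_hess' hF i j) x
  have key := QAlg.key_alg (tau ψ x) (hess ψ x) b (hess F x)
    (fun k i j => pd k (fun y => tau ψ y i j) x) (fun k i j => pd k (fun y => hess F y i j) x)
    (by ext i j; exact rad_tau_symm h x j i) (rad_tau_mul h x) hb
    (by ext i j; exact rad_hess_symm (test_c2 hF) x j i)
    (by
      funext k i j
      show pd k (fun y => tau ψ y j i) x = pd k (fun y => tau ψ y i j) x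
      congr 1
      funext y
      exact rad_tau_symm h y j i)
    (by
      funext k i j
      show pd k (fun y => hess F y j i) x = pd k (fun y => hess F y i j) x
      congr 1
      funext y
      exact rad_hess_symm (test_c2 hF) y j i)
    (by
      funext k i j
      exact (rad_third (test_c2 hF) hd k i j).symm)
    (by
      funext i j k
      exact rad_T h hx j i k)
    (fun i j => U ψ F i j x) (by ext i j; rw [Matrix.mul_apply]; rfl)
    (fun k i j => pd k (U ψ F i j) x) (fun k i j => pd k (K ψ F i j) x)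
    (fun k i j => pd k (W ψ F j i) x)
    (fun k i j => pd_U hx hF k i j) (fun k i j => pd_K hx hF k i j) (fun k i j => pd_W hx hF k j i)
  have e1 : ∑ e, ∑ a, ∑ c, pd c (K ψ F a e) x * pd a (U ψ F c e) x
      = ∑ i, ∑ j, ∑ b, pd j (K ψ F i b) x * pd i (U ψ F j b) x := by
    rw [Finset.sum_comm]
    exact Finset.sum_congr rfl fun a _ => Finset.sum_comm
  have e2 : ∑ e, ∑ a, ∑ c, pd c (fun y => tau ψ y a e) x * pd a (W ψ F c e) x
      = ∑ i, ∑ j, ∑ k, pd k (fun y => tau ψ y i j) x * pd i (W ψ F k j) x := Finset.sum_comm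
  rw [e1, e2]
  exact key

end Vale.Agent.P227.M.K680
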