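import Mathlib
import Vale.Agent.P227.M.Stmts

/-! # P227/M/ID: calculus of locally Lipschitz functions with compact support

`int_fderiv_zero` (the integral of a derivative is zero), `swap` (`∫ ∂_v W ∂_w Y = ∫ ∂_w W ∂_v Y`),
the class `LB` of locally bounded measurable functions. -/

open MeasureTheory Filter Topology Set
open scoped NNReal

namespace Vale.Agent.P227.M.KY

variable {n : ℕ} {f g W Y : E n → ℝ}

/-! ### locally Lipschitz functions -/

lemma ll_mul (hf : LocallyLipschitz f) (hg : LocallyLipschitz g) :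
    LocallyLipschitz (fun x => f x * g x) := by
  have h : LocallyLipschitz (fun p : ℝ × ℝ => p.1 * p.2) :=
    ((contDiff_fst (𝕜 := ℝ) (n := 1)).mul contDiff_snd).locallyLipschitz
  exact h.comp (hf.prodMk hg)

lemma ll_add (hf : LocallyLipschitz f) (hg : LocallyLipschitz g) :
    LocallyLipschitz (fun x => f x + g x) := by
  have h : LocallyLipschitz (fun p : ℝ × ℝ => p.1 + p.2) :=
    ((contDiff_fst (𝕜 := ℝ) (n := 1)).add contDiff_snd).locallyLipschitz
  exact h.comp (hf.prodMk hg)

lemma ll_sub (hf : LocallyLipschitz f) (hg : LocallyLipschitz g) :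
    LocallyLipschitz (fun x => f x - g x) := by
  have h : LocallyLipschitz (fun p : ℝ × ℝ => p.1 - p.2) :=
    ((contDiff_fst (𝕜 := ℝ) (n := 1)).sub contDiff_snd).locallyLipschitz
  exact h.comp (hf.prodMk hg)

lemma ll_sum {ι : Type*} (s : Finset ι) {F : ι → E n → ℝ} (h : ∀ i ∈ s, LocallyLipschitz (F i)) :
    LocallyLipschitz (fun x => ∑ i ∈ s, F i x) := by
  classical
  induction s using Finset.induction_on with
  | empty => simpa using LocallyLipschitz.const (0 : ℝ)
  | insert a s ha ih =>
    simp only [Finset.sum_insert ha]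
    exact ll_add (h a (Finset.mem_insert_self a s)) (ih fun i hi => h i (Finset.mem_insert_of_mem hi))

lemma ll_of_contDiff (hf : ContDiff ℝ (⊤ : ℕ∞) f) : LocallyLipschitz f :=
  (hf.of_le (by exact_mod_cast le_top)).locallyLipschitz

lemma exists_lip (hf : LocallyLipschitz f) (hc : HasCompactSupport f) :
    ∃ C : ℝ≥0, LipschitzWith C f := by
  obtain ⟨R, hR⟩ := hc.isCompact.isBounded.subset_closedBall (0 : E n)
  obtain ⟨K, hK⟩ := (hf.locallyLipschitzOn (s := Metric.closedBall (0 : E n) (R + 1))).exists_lipschitzOnWith_of_compact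
    (isCompact_closedBall 0 (R + 1))
  obtain ⟨M, hM⟩ := hc.exists_bound_of_continuous hf.continuous
  have hM0 : 0 ≤ M := (norm_nonneg _).trans (hM 0)
  have key : ∀ x y : E n, ‖x‖ ≤ R + 1 → R + 1 < ‖y‖ → dist (f x) (f y) ≤ M * dist x y := by
    intro x y _ hy
    have hy0 : f y = 0 := by
      by_contra h
      have := hR (subset_tsupport _ h)
      rw [Metric.mem_closedBall, dist_zero_right] at this
      linarith
    by_cases hx0 : f x = 0
    · rw [hx0, hy0, dist_self]; positivity
    · have h1 := hR (subset_tsupport _ hx0)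
      rw [Metric.mem_closedBall, dist_zero_right] at h1
      have h2 : 1 ≤ dist x y := by
        rw [dist_eq_norm]
        have := norm_sub_norm_le y x
        rw [norm_sub_rev] at this
        linarith
      rw [hy0, dist_zero_right]
      exact (hM x).trans (le_mul_of_one_le_right hM0 h2)
  refine ⟨max K M.toNNReal, LipschitzWith.of_dist_le_mul fun x y => ?_⟩
  have hmax1 : (K : ℝ) ≤ ((max K M.toNNReal : ℝ≥0) : ℝ) := by exact_mod_cast le_max_left _ _
  have hmax2 : M ≤ ((max K M.toNNReal : ℝ≥0) : ℝ) :=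
    (Real.le_coe_toNNReal M).trans (by exact_mod_cast le_max_right _ _)
  by_cases hx : ‖x‖ ≤ R + 1
  · by_cases hy : ‖y‖ ≤ R + 1
    · refine (hK.dist_le_mul x (by simpa using hx) y (by simpa using hy)).trans ?_
      gcongr
    · refine (key x y hx (not_le.1 hy)).trans ?_
      gcongr
  · by_cases hy : ‖y‖ ≤ R + 1
    · rw [dist_comm (f x), dist_comm x]
      refine (key y x hy (not_le.1 hx)).trans ?_
      gcongr
    · have e1 : ∀ z : E n, ¬ ‖z‖ ≤ R + 1 → f z = 0 := by
        intro z hz
        by_contra h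
        have := hR (subset_tsupport _ h)
        rw [Metric.mem_closedBall, dist_zero_right] at this
        exact hz (by linarith)
      rw [e1 x hx, e1 y hy, dist_self]; positivity

lemma ae_lineDeriv_eq {C : ℝ≥0} (hf : LipschitzWith C f) :
    ∀ᵐ x, ∀ v, lineDeriv ℝ f x v = fderiv ℝ f x v := by
  filter_upwards [hf.ae_differentiableAt (μ := volume)] with x hx v
  exact hx.lineDeriv_eq_fderiv

/-- the integral of a derivative is zero -/
lemma int_fderiv_zero (hf : LocallyLipschitz f) (hc : HasCompactSupport f) (v : E n) :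
    ∫ x, fderiv ℝ f x v = 0 := by
  obtain ⟨C, hC⟩ := exists_lip hf hc
  have h := (LipschitzWith.const (α := E n) (1 : ℝ)).integral_lineDeriv_mul_eq
    (μ := volume) hC hc (-v)
  have e1 : ∀ x : E n, lineDeriv ℝ (fun _ : E n => (1 : ℝ)) x (-v) = 0 := by
    intro x
    simp [lineDeriv]
  simp only [e1, zero_mul, integral_zero, mul_one, neg_neg] at h
  rw [h]
  refine integral_congr_ae ?_
  filter_upwards [ae_lineDeriv_eq hC] with x hx
  exact (hx v).symm

lemma integrable_lineDeriv {C : ℝ≥0} (hf : LipschitzWith C f) (hc : HasCompactSupport f) (v : E n) :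
    Integrable (fun x => lineDeriv ℝ f x v) := by
  obtain ⟨R, hR⟩ := hc.isCompact.isBounded.subset_closedBall (0 : E n)
  have h1 : LocallyIntegrable (fun x => lineDeriv ℝ f x v) := hf.locallyIntegrable_lineDeriv v
  have h2 := h1.integrableOn_isCompact (isCompact_closedBall (0 : E n) R)
  refine (integrableOn_iff_integrable_of_support_subset ?_).1 h2
  intro x hx
  by_contra hxR
  apply hx
  have hopen : IsOpen (Metric.closedBall (0 : E n) R)ᶜ := Metric.isClosed_closedBall.isOpen_compl
  have hz : f =ᶠ[𝓝 x] fun _ => (0 : ℝ) := by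
    filter_upwards [hopen.mem_nhds hxR] with y hy
    by_contra h
    exact hy (hR (subset_tsupport _ h))
  have := hz.lineDeriv_eq (𝕜 := ℝ) (v := v)
  simp only [this]
  simp [lineDeriv]

/-- the two mixed Dirichlet forms agree -/
lemma swap (hW : LocallyLipschitz W) (hWc : HasCompactSupport W) (hY : LocallyLipschitz Y)
    (hYc : HasCompactSupport Y) (v w : E n) :
    ∫ x, fderiv ℝ W x v * fderiv ℝ Y x w = ∫ x, fderiv ℝ W x w * fderiv ℝ Y x v := by
  obtain ⟨C, hC⟩ := exists_lip hW hWc
  obtain ⟨D, hD⟩ := exists_lip hY hYc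
  have A := hC.integral_inv_smul_sub_mul_tendsto_integral_lineDeriv_mul (μ := volume)
    (integrable_lineDeriv hD hYc w) v
  have B := hD.integral_inv_smul_sub_mul_tendsto_integral_lineDeriv_mul (μ := volume)
    (integrable_lineDeriv hC hWc (-w)) (-v)
  have S1 : ∀ t : ℝ, ∫ x, (t⁻¹ • (W (x + t • v) - W x)) * lineDeriv ℝ Y x w =
      ∫ x, (t⁻¹ • (Y (x + t • (-v)) - Y x)) * lineDeriv ℝ W x (-w) := by
    intro t
    suffices S2 : ∫ x, (W (x + t • v) - W x) * lineDeriv ℝ Y x w =
        ∫ x, (Y (x + t • (-v)) - Y x) * lineDeriv ℝ W x (-w) by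
      simp only [smul_eq_mul, mul_assoc, integral_const_mul, S2]
    have hWt : LipschitzWith C (fun x => W (x + t • v)) := by
      intro x y
      have := hC (x + t • v) (y + t • v)
      rwa [edist_add_right] at this
    have hWtc : HasCompactSupport (fun x => W (x + t • v)) :=
      hWc.comp_homeomorph (Homeomorph.addRight (t • v))
    have i1 := hD.integral_lineDeriv_mul_eq (μ := volume) hWt hWtc w
    have i2 := hD.integral_lineDeriv_mul_eq (μ := volume) hC hWc w
    have e1 : ∀ x, lineDeriv ℝ (fun x => W (x + t • v)) x (-w) = lineDeriv ℝ W (x + t • v) (-w) := by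
      intro x
      simp only [lineDeriv]
      congr 1
      funext s
      rw [add_right_comm]
    have e2 : ∫ x, lineDeriv ℝ W (x + t • v) (-w) * Y x = ∫ x, lineDeriv ℝ W x (-w) * Y (x + t • (-v)) := by
      rw [← integral_add_right_eq_self (fun x => lineDeriv ℝ W x (-w) * Y (x + t • (-v))) (t • v)]
      refine integral_congr_ae (Eventually.of_forall fun x => ?_)
      simp
    simp only [e1, e2] at i1
    have j1 : Integrable (fun x => W (x + t • v) * lineDeriv ℝ Y x w) := by
      refine ((integrable_lineDeriv hD hYc w).bdd_mul (c := ?_) hWt.continuous.aestronglyMeasurable ?_)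
      · exact (hWtc.exists_bound_of_continuous hWt.continuous).choose
      · exact Eventually.of_forall (hWtc.exists_bound_of_continuous hWt.continuous).choose_spec
    have j2 : Integrable (fun x => W x * lineDeriv ℝ Y x w) := by
      refine ((integrable_lineDeriv hD hYc w).bdd_mul (c := ?_) hC.continuous.aestronglyMeasurable ?_)
      · exact (hWc.exists_bound_of_continuous hC.continuous).choose
      · exact Eventually.of_forall (hWc.exists_bound_of_continuous hC.continuous).choose_spec
    have hYt : Continuous (fun x => Y (x + t • (-v))) := hD.continuous.comp (continuous_add_const _)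
    have hYtc : HasCompactSupport (fun x => Y (x + t • (-v))) :=
      hYc.comp_homeomorph (Homeomorph.addRight (t • (-v)))
    have j3 : Integrable (fun x => Y (x + t • (-v)) * lineDeriv ℝ W x (-w)) := by
      refine ((integrable_lineDeriv hC hWc (-w)).bdd_mul (c := ?_) hYt.aestronglyMeasurable ?_)
      · exact (hYtc.exists_bound_of_continuous hYt).choose
      · exact Eventually.of_forall (hYtc.exists_bound_of_continuous hYt).choose_spec
    have j4 : Integrable (fun x => Y x * lineDeriv ℝ W x (-w)) := by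
      refine ((integrable_lineDeriv hC hWc (-w)).bdd_mul (c := ?_) hD.continuous.aestronglyMeasurable ?_)
      · exact (hYc.exists_bound_of_continuous hD.continuous).choose
      · exact Eventually.of_forall (hYc.exists_bound_of_continuous hD.continuous).choose_spec
    simp_rw [sub_mul]
    rw [integral_sub j1 j2, integral_sub j3 j4]
    simp only [mul_comm (W _), mul_comm (Y _)]
    rw [i1, i2]
  simp only [S1] at A
  have h := tendsto_nhds_unique A B
  have k1 : ∫ x, fderiv ℝ W x v * fderiv ℝ Y x w = ∫ x, lineDeriv ℝ W x v * lineDeriv ℝ Y x w := by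
    refine integral_congr_ae ?_
    filter_upwards [ae_lineDeriv_eq hC, ae_lineDeriv_eq hD] with x h1 h2
    simp only [h1, h2]
  have k2 : ∫ x, fderiv ℝ W x w * fderiv ℝ Y x v = ∫ x, lineDeriv ℝ Y x (-v) * lineDeriv ℝ W x (-w) := by
    refine integral_congr_ae ?_
    filter_upwards [ae_lineDeriv_eq hC, ae_lineDeriv_eq hD] with x h1 h2
    simp only [h1, h2, map_neg]
    ring
  rw [k1, k2, h]

/-! ### locally bounded measurable functions -/

/-- measurable and bounded on balls -/
structure LB (f : E n → ℝ) : Prop where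
  meas : Measurable f
  bdd : ∀ R : ℝ, ∃ C : ℝ, ∀ x, ‖x‖ ≤ R → |f x| ≤ C

/-- zero outside of a ball -/
def Z0 (f : E n → ℝ) : Prop := ∃ R : ℝ, ∀ x, R < ‖x‖ → f x = 0

lemma LB.of_cont (hf : Continuous f) : LB f := by
  refine ⟨hf.measurable, fun R => ?_⟩
  obtain ⟨C, hC⟩ := (isCompact_closedBall (0 : E n) R).exists_bound_of_continuousOn hf.continuousOn
  exact ⟨C, fun x hx => hC x (by simpa using hx)⟩

lemma LB.add (hf : LB f) (hg : LB g) : LB (fun x => f x + g x) := by
  refine ⟨hf.meas.add hg.meas, fun R => ?_⟩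
  obtain ⟨C, hC⟩ := hf.bdd R
  obtain ⟨D, hD⟩ := hg.bdd R
  exact ⟨C + D, fun x hx => (abs_add_le _ _).trans (add_le_add (hC x hx) (hD x hx))⟩

lemma LB.neg (hf : LB f) : LB (fun x => - f x) := by
  refine ⟨hf.meas.neg, fun R => ?_⟩
  obtain ⟨C, hC⟩ := hf.bdd R
  exact ⟨C, fun x hx => by rw [abs_neg]; exact hC x hx⟩

lemma LB.sub (hf : LB f) (hg : LB g) : LB (fun x => f x - g x) := by
  simpa [sub_eq_add_neg] using hf.add hg.neg

lemma LB.mul (hf : LB f) (hg : LB g) : LB (fun x => f x * g x) := by
  refine ⟨hf.meas.mul hg.meas, fun R => ?_⟩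
  obtain ⟨C, hC⟩ := hf.bdd R
  obtain ⟨D, hD⟩ := hg.bdd R
  refine ⟨C * D, fun x hx => ?_⟩
  rw [abs_mul]
  exact mul_le_mul (hC x hx) (hD x hx) (abs_nonneg _) ((abs_nonneg _).trans (hC x hx))

lemma LB.const (a : ℝ) : LB (fun _ : E n => a) := LB.of_cont continuous_const

lemma LB.sum {ι : Type*} (s : Finset ι) {F : ι → E n → ℝ} (h : ∀ i ∈ s, LB (F i)) :
    LB (fun x => ∑ i ∈ s, F i x) := by
  classical
  induction s using Finset.induction_on with
  | empty => simpa using LB.const (n := n) 0
  | insert a s ha ih =>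
    simp only [Finset.sum_insert ha]
    exact (h a (Finset.mem_insert_self a s)).add (ih fun i hi => h i (Finset.mem_insert_of_mem hi))

lemma LB.of_ll (hf : LocallyLipschitz f) : LB f := LB.of_cont hf.continuous

lemma LB.fd (hf : LocallyLipschitz f) (v : E n) : LB (fun x => fderiv ℝ f x v) := by
  refine ⟨measurable_fderiv_apply_const ℝ f v, fun R => ?_⟩
  obtain ⟨K, hK⟩ := (hf.locallyLipschitzOn (s := Metric.closedBall (0 : E n) (R + 1))).exists_lipschitzOnWith_of_compact
    (isCompact_closedBall 0 (R + 1))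
  refine ⟨K * ‖v‖, fun x hx => ?_⟩
  have h1 : Metric.closedBall (0 : E n) (R + 1) ∈ 𝓝 x := by
    refine mem_of_superset (Metric.ball_mem_nhds x one_pos) fun y hy => ?_
    rw [Metric.mem_closedBall, dist_zero_right]
    rw [Metric.mem_ball, dist_eq_norm] at hy
    have := norm_sub_norm_le y x
    linarith
  have h2 := norm_fderiv_le_of_lipschitzOn ℝ h1 hK
  calc |(fderiv ℝ f x) v| ≤ ‖fderiv ℝ f x‖ * ‖v‖ := (fderiv ℝ f x).le_opNorm v
    _ ≤ K * ‖v‖ := by gcongr

lemma LB.pd (hf : LocallyLipschitz f) (i : Fin n) : LB (pd i f) := LB.fd hf _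

lemma Z0.mul_left (hg : Z0 g) : Z0 (fun x => f x * g x) := by
  obtain ⟨R, hR⟩ := hg
  exact ⟨R, fun x hx => by simp [hR x hx]⟩

lemma Z0.mul_right (hf : Z0 f) : Z0 (fun x => f x * g x) := by
  obtain ⟨R, hR⟩ := hf
  exact ⟨R, fun x hx => by simp [hR x hx]⟩

lemma Z0.add (hf : Z0 f) (hg : Z0 g) : Z0 (fun x => f x + g x) := by
  obtain ⟨R, hR⟩ := hf
  obtain ⟨S, hS⟩ := hg
  exact ⟨max R S, fun x hx => by
    simp [hR x (lt_of_le_of_lt (le_max_left _ _) hx), hS x (lt_of_le_of_lt (le_max_right _ _) hx)]⟩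

lemma Z0.neg (hf : Z0 f) : Z0 (fun x => - f x) := by
  obtain ⟨R, hR⟩ := hf
  exact ⟨R, fun x hx => by simp [hR x hx]⟩

lemma Z0.sub (hf : Z0 f) (hg : Z0 g) : Z0 (fun x => f x - g x) := by
  simpa [sub_eq_add_neg] using hf.add hg.neg

lemma Z0.zero : Z0 (fun _ : E n => (0 : ℝ)) := ⟨0, fun _ _ => rfl⟩

lemma Z0.sum {ι : Type*} (s : Finset ι) {F : ι → E n → ℝ} (h : ∀ i ∈ s, Z0 (F i)) :
    Z0 (fun x => ∑ i ∈ s, F i x) := by
  classical
  induction s using Finset.induction_on with
  | empty => simpa using Z0.zero (n := n)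
  | insert a s ha ih =>
    simp only [Finset.sum_insert ha]
    exact (h a (Finset.mem_insert_self a s)).add (ih fun i hi => h i (Finset.mem_insert_of_mem hi))

lemma Z0.of_cs (hf : HasCompactSupport f) : Z0 f := by
  obtain ⟨R, hR⟩ := hf.isCompact.isBounded.subset_closedBall (0 : E n)
  refine ⟨R, fun x hx => ?_⟩
  by_contra h
  have := hR (subset_tsupport _ h)
  rw [Metric.mem_closedBall, dist_zero_right] at this
  linarith

lemma Z0.fd (hf : Z0 f) (v : E n) : Z0 (fun x => fderiv ℝ f x v) := by
  obtain ⟨R, hR⟩ := hf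
  refine ⟨R, fun x hx => ?_⟩
  have hz : f =ᶠ[𝓝 x] fun _ => (0 : ℝ) := by
    have : {y : E n | R < ‖y‖} ∈ 𝓝 x := (isOpen_lt continuous_const continuous_norm).mem_nhds hx
    filter_upwards [this] with y hy using hR y hy
  simp only [hz.fderiv_eq]
  simp

lemma Z0.pd (hf : Z0 f) (i : Fin n) : Z0 (pd i f) := hf.fd _

lemma Z0.hasCompactSupport (hf : Z0 f) : HasCompactSupport f := by
  obtain ⟨R, hR⟩ := hf
  refine HasCompactSupport.of_support_subset_isCompact (isCompact_closedBall (0 : E n) R) ?_
  intro x hx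
  rw [Metric.mem_closedBall, dist_zero_right]
  by_contra h
  exact hx (hR x (not_le.1 h))

lemma LB.integrable (hf : LB f) (hz : Z0 f) : Integrable f := by
  obtain ⟨R, hR⟩ := hz
  obtain ⟨C, hC⟩ := hf.bdd R
  have h : IntegrableOn f (Metric.closedBall (0 : E n) R) := by
    refine Measure.integrableOn_of_bounded (M := C) (isCompact_closedBall _ _).measure_lt_top.ne
      hf.meas.aestronglyMeasurable ?_
    refine (ae_restrict_iff' measurableSet_closedBall).2 (Eventually.of_forall fun x hx => ?_)
    exact hC x (by simpa using hx)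
  refine (integrableOn_iff_integrable_of_support_subset ?_).1 h
  intro x hx
  rw [Metric.mem_closedBall, dist_zero_right]
  by_contra h
  exact hx (hR x (not_le.1 h))

end Vale.Agent.P227.M.KY
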