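import Vale.Agent.P227.M.ID.KL.Mol
import Vale.Agent.P227.M.ID.KeySmStmt

/-! # P227/M/ID: `KeySm → StmtKey` (from smooth `ψ` to `ψ ∈ C^{2,1}` by mollification) -/

open MeasureTheory Filter Topology
open scoped BigOperators NNReal ContDiff

namespace Vale.Agent.P227.M.KL

variable {n : ℕ}

section smooth

variable {m : ℕ} {r : WithTop ℕ∞} {A B : E n → Matrix (Fin m) (Fin m) ℝ}

theorem sm_det (h : ∀ i j, ContDiff ℝ r fun x => A x i j) : ContDiff ℝ r fun x => (A x).det := by
  simp only [Matrix.det_apply']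
  exact ContDiff.sum fun σ _ => contDiff_const.mul (contDiff_prod fun i _ => h _ _)

theorem sm_adj (h : ∀ i j, ContDiff ℝ r fun x => A x i j) (i j : Fin m) :
    ContDiff ℝ r fun x => (A x).adjugate i j := by
  simp only [Matrix.adjugate_apply]
  refine sm_det fun a b => ?_
  simp only [Matrix.updateRow_apply]
  by_cases hab : a = j
  · simp only [hab, if_true]
    exact contDiff_const
  · simp only [hab, if_false]
    exact h a b

theorem sm_inv (h : ∀ i j, ContDiff ℝ r fun x => A x i j) (hd : ∀ x, (A x).det ≠ 0)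
    (i j : Fin m) : ContDiff ℝ r fun x => (A x)⁻¹ i j := by
  have h1 : ∀ M : Matrix (Fin m) (Fin m) ℝ, M⁻¹ i j = (M.det)⁻¹ * M.adjugate i j := by
    intro M
    rw [Matrix.inv_def, Ring.inverse_eq_inv']
    rfl
  simp only [h1]
  exact ((sm_det h).inv hd).mul (sm_adj h i j)

theorem sm_mul (hA : ∀ i j, ContDiff ℝ r fun x => A x i j)
    (hB : ∀ i j, ContDiff ℝ r fun x => B x i j) (i j : Fin m) :
    ContDiff ℝ r fun x => (A x * B x) i j := by
  simp only [Matrix.mul_apply]
  exact ContDiff.sum fun c _ => (hA i c).mul (hB c j)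

end smooth

theorem CD.mmul {m : ℕ} {A B : ℕ → E n → Matrix (Fin m) (Fin m) ℝ}
    {A' B' : E n → Matrix (Fin m) (Fin m) ℝ}
    (hA : ∀ i j, CD (fun k x => A k x i j) (fun x => A' x i j))
    (hB : ∀ i j, CD (fun k x => B k x i j) (fun x => B' x i j)) (i j : Fin m) :
    CD (fun k x => (A k x * B k x) i j) (fun x => (A' x * B' x) i j) := by
  simp only [Matrix.mul_apply]
  exact CD.sum _ fun c _ => (hA i c).mul (hB c j)

/-- lower bound of the determinant -/
theorem det_ge {A : Matrix (Fin n) (Fin n) ℝ} (hA : A.IsSymm) {c : ℝ} (hc : 0 < c)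
    (h1 : ∀ v : E n, c * ‖v‖ ^ 2 ≤ qf A v) : c ^ n ≤ A.det := by
  have hH : A.IsHermitian := by
    ext i j
    simpa using hA.apply i j
  have hev : ∀ i, c ≤ hH.eigenvalues i := by
    intro i
    set w : E n := hH.eigenvectorBasis i with hw
    have hn : ‖w‖ = 1 := hH.eigenvectorBasis.orthonormal.1 i
    have hmul : A.mulVec w.ofLp = hH.eigenvalues i • w.ofLp := hH.mulVec_eigenvectorBasis i
    have hs : ∑ a, w a ^ 2 = 1 := by
      rw [← norm_sq_eq_sum, hn, one_pow]
    have hq : qf A w = hH.eigenvalues i := by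
      unfold qf
      have h3 : ∀ a, ∑ b, A a b * w a * w b = w a * (A.mulVec w.ofLp a) := by
        intro a
        rw [Matrix.mulVec, dotProduct, Finset.mul_sum]
        exact Finset.sum_congr rfl fun b _ => by ring
      rw [Finset.sum_congr rfl fun a _ => h3 a, hmul]
      have h4 : ∀ a, w a * (hH.eigenvalues i • w.ofLp) a = hH.eigenvalues i * w a ^ 2 := by
        intro a
        simp only [Pi.smul_apply, smul_eq_mul]
        ring
      rw [Finset.sum_congr rfl fun a _ => h4 a, ← Finset.mul_sum, hs, mul_one]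
    have := h1 w
    rw [hn, hq] at this
    linarith
  have hdet : A.det = ∏ i, hH.eigenvalues i := by
    have := hH.det_eq_prod_eigenvalues
    simpa using this
  rw [hdet]
  calc c ^ n = ∏ _i : Fin n, c := by simp
    _ ≤ ∏ i, hH.eigenvalues i := Finset.prod_le_prod (fun _ _ => hc.le) fun i _ => hev i

/-! ## vanishing outside a ball -/

theorem pd_zero {f : E n → ℝ} {R : ℝ} (h : ∀ x, R < ‖x‖ → f x = 0) (i : Fin n) :
    ∀ x, R < ‖x‖ → pd i f x = 0 := by
  intro x hx
  have h1 : f =ᶠ[𝓝 x] fun _ => 0 := by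
    have ho : IsOpen {y : E n | R < ‖y‖} := isOpen_lt continuous_const continuous_norm
    filter_upwards [ho.mem_nhds hx] with y hy
    exact h y hy
  rw [pd, h1.fderiv_eq]
  simp

theorem hess_zero {f : E n → ℝ} {R : ℝ} (h : ∀ x, R < ‖x‖ → f x = 0) (x : E n) (hx : R < ‖x‖) :
    hess f x = 0 := by
  ext i j
  exact pd_zero (pd_zero h j) i x hx

theorem Lop_zero (ψ : E n → ℝ) {f : E n → ℝ} {R : ℝ} (h : ∀ x, R < ‖x‖ → f x = 0) (x : E n)
    (hx : R < ‖x‖) : Lop ψ f x = 0 := by
  unfold Lop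
  rw [hess_zero h x hx]
  simp [pd_zero h _ x hx]

theorem fld_zero (ψ : E n → ℝ) {f : E n → ℝ} {R : ℝ} (h : ∀ x, R < ‖x‖ → f x = 0) (b : Fin n)
    (x : E n) (hx : R < ‖x‖) : fld ψ f b x = 0 := by
  unfold fld
  simp [pd_zero h _ x hx]

theorem hcs_of {f : E n → ℝ} {R : ℝ} (h : ∀ x, R < ‖x‖ → f x = 0) : HasCompactSupport f :=
  HasCompactSupport.intro (isCompact_closedBall (0 : E n) R) fun x hx =>
    h x (by simpa using hx)

theorem exists_radius {f : E n → ℝ} (h : HasCompactSupport f) : ∃ R : ℝ, ∀ x, R < ‖x‖ → f x = 0 := by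
  obtain ⟨R, hR⟩ := h.isCompact.isBounded.exists_norm_le
  refine ⟨R, fun x hx => ?_⟩
  by_contra h0
  exact absurd (hR x (subset_tsupport f (Function.mem_support.mpr h0))) (not_le.mpr hx)

/-! ## integrability from `Cv` -/

theorem Cv.integrable_lim {f : ℕ → E n → ℝ} {g : E n → ℝ} (h : Cv f g) {R : ℝ}
    (hR : ∀ k x, R < ‖x‖ → f k x = 0) : Integrable g := by
  obtain ⟨B, hB⟩ := h.bdd R
  have hi : Integrable ((Metric.closedBall (0 : E n) R).indicator fun _ => B) := by
    rw [integrable_indicator_iff Metric.isClosed_closedBall.measurableSet]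
    exact integrableOn_const (isCompact_closedBall (0 : E n) R).measure_ne_top
  refine hi.mono' (aestronglyMeasurable_of_tendsto_ae atTop h.meas h.lim) ?_
  filter_upwards [h.lim] with x hx
  refine le_of_tendsto hx.norm (Eventually.of_forall fun k => ?_)
  by_cases hx : ‖x‖ ≤ R
  · rw [Set.indicator_of_mem (by simpa using hx)]
    exact hB k x hx
  · rw [Set.indicator_of_notMem (by simpa using hx), hR k x (not_le.1 hx), norm_zero]

/-! ## integration by parts -/

theorem ibp {V Q : E n → ℝ} (hV : ContDiff ℝ 2 V) (hQ : ContDiff ℝ 1 Q) {R : ℝ}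
    (hR : ∀ x, R < ‖x‖ → Q x = 0) (a b : Fin n) :
    ∫ x, hess V x a b * Q x * Real.exp (-V x) =
      ∫ x, pd b V x * (pd a V x * Q x - pd a Q x) * Real.exp (-V x) := by
  have hV1 : ContDiff ℝ 1 V := hV.of_le (by norm_num)
  have hf : ContDiff ℝ 1 (pd b V) := contDiff_pd hV (by norm_num) b
  have he : ContDiff ℝ 1 (fun x => Real.exp (-V x)) := hV1.neg.exp
  have hg : ContDiff ℝ 1 (fun x => Q x * Real.exp (-V x)) := hQ.mul he
  have hg0 : ∀ x, R < ‖x‖ → (fun x => Q x * Real.exp (-V x)) x = 0 := by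
    intro x hx
    simp [hR x hx]
  have hgs := hcs_of hg0
  have hpg : ∀ x, pd a (fun x => Q x * Real.exp (-V x)) x =
      (pd a Q x - pd a V x * Q x) * Real.exp (-V x) := by
    intro x
    rw [pd_mul' ((hQ.differentiable (by norm_num)) x) ((he.differentiable (by norm_num)) x)]
    have h1 : pd a (fun x => Real.exp (-V x)) x = Real.exp (-V x) * -pd a V x := by
      have h2 := pd_comp' (f := fun x => -V x) (φ := Real.exp)
        (((hV1.differentiable (by norm_num)) x).neg) (Real.hasDerivAt_exp (-V x)) a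
      rw [pd_neg'] at h2
      exact h2
    rw [h1]
    ring
  have hpc : Continuous (pd a (fun x => Q x * Real.exp (-V x))) :=
    (contDiff_pd (k := 0) hg (by norm_num) a).continuous
  have h0 := integral_mul_fderiv_eq_neg_fderiv_mul_of_integrable (𝕜 := ℝ)
    (μ := (volume : Measure (E n))) (f := pd b V) (g := fun x => Q x * Real.exp (-V x)) (v := ei a)
    (Continuous.integrable_of_hasCompactSupport
      ((contDiff_pd (k := 0) hf (by norm_num) a).continuous.mul hg.continuous) hgs.mul_left)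
    (Continuous.integrable_of_hasCompactSupport (hf.continuous.mul hpc)
      ((hcs_of (pd_zero hg0 a)).mul_left))
    (Continuous.integrable_of_hasCompactSupport (hf.continuous.mul hg.continuous) hgs.mul_left)
    (fun x _ => hf.differentiable (by norm_num) x) (fun x _ => hg.differentiable (by norm_num) x)
  have h1 : ∫ x, hess V x a b * Q x * Real.exp (-V x) =
      ∫ x, fderiv ℝ (pd b V) x (ei a) * (Q x * Real.exp (-V x)) := by
    refine integral_congr_ae (Eventually.of_forall fun x => ?_)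
    change hess V x a b * Q x * Real.exp (-V x) = hess V x a b * (Q x * Real.exp (-V x))
    ring
  have h2 : ∫ x, pd b V x * (pd a V x * Q x - pd a Q x) * Real.exp (-V x) =
      -∫ x, pd b V x * fderiv ℝ (fun x => Q x * Real.exp (-V x)) x (ei a) := by
    rw [← integral_neg]
    refine integral_congr_ae (Eventually.of_forall fun x => ?_)
    have h3 := hpg x
    change pd b V x * (pd a V x * Q x - pd a Q x) * Real.exp (-V x) =
      -(pd b V x * pd a (fun x => Q x * Real.exp (-V x)) x)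
    rw [h3]
    ring
  rw [h1, h2, h0, neg_neg]

variable {ψ V : E n → ℝ} {c C M : ℝ}

/-! ## the mollified objects -/

theorem det_ml_ge (h : MM ψ V c C M) (k : ℕ) (x : E n) : c ^ n ≤ (hess (ml k ψ) x).det :=
  det_ge (hess_isSymm ((contDiff_ml k h.C2.continuous).of_le (by norm_cast)) x) h.c_pos
    (lower_ml h k x)

theorem det_ml_ne (h : MM ψ V c C M) (k : ℕ) (x : E n) : (hess (ml k ψ) x).det ≠ 0 :=
  ((pow_pos h.c_pos n).trans_le (det_ml_ge h k x)).ne'

theorem sm_hess_ml (h : MM ψ V c C M) (k : ℕ) (i j : Fin n) :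
    ContDiff ℝ ∞ fun x => hess (ml k ψ) x i j :=
  contDiff_hess_top (contDiff_ml k h.C2.continuous) i j

theorem sm_tau_ml (h : MM ψ V c C M) (k : ℕ) (i j : Fin n) :
    ContDiff ℝ ∞ fun x => tau (ml k ψ) x i j :=
  sm_inv (sm_hess_ml h k) (det_ml_ne h k) i j

theorem sm_V_ml (h : MM ψ V c C M) (k : ℕ) : ContDiff ℝ ∞ (Vpsi (ml k ψ)) := by
  have h1 := contDiff_ml k h.C2.continuous
  unfold Vpsi
  refine ((ContDiff.sum fun i _ => ContDiff.mul (by fun_prop) (contDiff_pd_top h1 i)).sub h1).sub ?_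
  exact (sm_det (sm_hess_ml h k)).log (det_ml_ne h k)

theorem cd_tau (h : MM ψ V c C M) (i j : Fin n) :
    CD (fun k x => tau (ml k ψ) x i j) (fun x => tau ψ x i j) :=
  CD.minv (A := fun k x => hess (ml k ψ) x) (B := fun x => hess ψ x) (cd_hess h)
    (pow_pos h.c_pos n) (fun k x => det_ml_ge h k x) i j

theorem cd_V (h : MM ψ V c C M) : CD (fun k x => Vpsi (ml k ψ) x) V := by
  have hV : V = Vpsi ψ := by
    funext x
    exact h.ma x
  rw [hV]
  unfold Vpsi
  refine CD.sub (CD.sub (CD.sum _ fun i _ => CD.mul (CD.const (by fun_prop)) (cd_pd h i))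
    (cd_ml_c1 (h.C2.of_le (by norm_num)))) ?_
  exact CD.log (CD.det (A := fun k x => hess (ml k ψ) x) (B := fun x => hess ψ x) (cd_hess h))
    (pow_pos h.c_pos n) fun k x => det_ml_ge h k x

theorem cd_exp (h : MM ψ V c C M) :
    CD (fun k x => Real.exp (-Vpsi (ml k ψ) x)) (fun x => Real.exp (-V x)) := (cd_V h).neg.exp

theorem cd_const {f : E n → ℝ} (hf : ContDiff ℝ ∞ f) : CD (fun _ => f) f :=
  CD.const (hf.of_le (by norm_cast))

theorem cd_Lop (h : MM ψ V c C M) {f : E n → ℝ} (hf : ContDiff ℝ ∞ f) :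
    CD (fun k x => Lop (ml k ψ) f x) (fun x => Lop ψ f x) := by
  unfold Lop
  refine CD.sub (CD.sum _ fun i _ => CD.sum _ fun j _ => (cd_tau h i j).mul
    (cd_const (contDiff_hess_top hf i j))) (CD.sum _ fun i _ => CD.mul (CD.const (by fun_prop))
    (cd_const (contDiff_pd_top hf i)))

theorem cv_fld (h : MM ψ V c C M) {f : ℕ → E n → ℝ} {g : E n → ℝ} (hf : CD f g) (b : Fin n) :
    Cv (fun k x => fld (ml k ψ) (f k) b x) (fun x => fld ψ g b x) := by
  unfold fld
  exact Cv.sum _ fun c _ => (cd_tau h b c).cv.mul (hf.cd c)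

theorem cd_fld (h : MM ψ V c C M) {u : E n → ℝ} (hu : ContDiff ℝ ∞ u) (b : Fin n) :
    CD (fun k x => fld (ml k ψ) u b x) (fun x => fld ψ u b x) := by
  unfold fld
  exact CD.sum _ fun c _ => (cd_tau h b c).mul (cd_const (contDiff_pd_top hu c))

theorem sm_fld_ml (h : MM ψ V c C M) {u : E n → ℝ} (hu : ContDiff ℝ ∞ u) (k : ℕ) (b : Fin n) :
    ContDiff ℝ ∞ (fun x => fld (ml k ψ) u b x) := by
  unfold fld
  exact ContDiff.sum fun c _ => (sm_tau_ml h k b c).mul (contDiff_pd_top hu c)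

/-! ## the Hessian terms -/

theorem tends_hess (h : MM ψ V c C M) (hV : ContDiff ℝ 2 V) {Qk : ℕ → E n → ℝ} {Q : E n → ℝ}
    (hQ : CD Qk Q) (hk : ∀ k, ContDiff ℝ 1 (Qk k)) {R : ℝ} (hR : ∀ k x, R < ‖x‖ → Qk k x = 0)
    (a b : Fin n) :
    Tendsto (fun k => ∫ x, hess (Vpsi (ml k ψ)) x a b * Qk k x * Real.exp (-Vpsi (ml k ψ) x)) atTop
      (𝓝 (∫ x, hess V x a b * Q x * Real.exp (-V x))) := by
  have hV1 : CD (fun _ => V) V := CD.const (hV.of_le (by norm_num))
  -- limit integration by parts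
  have e1 : ∫ x, hess V x a b * Q x * Real.exp (-V x) =
      ∫ x, pd b V x * (pd a V x * Q x - pd a Q x) * Real.exp (-V x) := by
    have t1 : Tendsto (fun k => ∫ x, hess V x a b * Qk k x * Real.exp (-V x)) atTop
        (𝓝 (∫ x, hess V x a b * Q x * Real.exp (-V x))) := by
      refine Cv.integral (R := R) (((Cv.const (continuous_hess hV a b)).mul hQ.cv).mul
        (Cv.const (Real.continuous_exp.comp hV.continuous.neg))) fun k x hx => ?_
      simp [hR k x hx]
    have t2 : Tendsto (fun k => ∫ x, pd b V x * (pd a V x * Qk k x - pd a (Qk k) x)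
        * Real.exp (-V x)) atTop
        (𝓝 (∫ x, pd b V x * (pd a V x * Q x - pd a Q x) * Real.exp (-V x))) := by
      refine Cv.integral (R := R) (((hV1.cd b).mul (((hV1.cd a).mul hQ.cv).sub (hQ.cd a))).mul
        (Cv.const (Real.continuous_exp.comp hV.continuous.neg))) fun k x hx => ?_
      simp [hR k x hx, pd_zero (hR k) a x hx]
    refine tendsto_nhds_unique t1 (t2.congr fun k => ?_)
    exact (ibp hV (hk k) (hR k) a b).symm
  rw [e1]
  have t3 : Tendsto (fun k => ∫ x, pd b (Vpsi (ml k ψ)) x *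
      (pd a (Vpsi (ml k ψ)) x * Qk k x - pd a (Qk k) x) * Real.exp (-Vpsi (ml k ψ) x)) atTop
      (𝓝 (∫ x, pd b V x * (pd a V x * Q x - pd a Q x) * Real.exp (-V x))) := by
    refine Cv.integral (R := R) ((((cd_V h).cd b).mul ((((cd_V h).cd a).mul hQ.cv).sub
      (hQ.cd a))).mul (cd_exp h).cv) fun k x hx => ?_
    simp [hR k x hx, pd_zero (hR k) a x hx]
  refine t3.congr fun k => ?_
  exact (ibp ((sm_V_ml h k).of_le (by norm_cast)) (hk k) (hR k) a b).symm

theorem tends_hess_sum (h : MM ψ V c C M) (hV : ContDiff ℝ 2 V)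
    {Qk : Fin n → Fin n → ℕ → E n → ℝ} {Q : Fin n → Fin n → E n → ℝ}
    (hQ : ∀ a b, CD (Qk a b) (Q a b)) (hk : ∀ a b k, ContDiff ℝ 1 (Qk a b k)) {R : ℝ}
    (hR : ∀ a b k x, R < ‖x‖ → Qk a b k x = 0) :
    Tendsto (fun k => ∫ x, (∑ a, ∑ b, hess (Vpsi (ml k ψ)) x a b * Qk a b k x)
      * Real.exp (-Vpsi (ml k ψ) x)) atTop
      (𝓝 (∫ x, (∑ a, ∑ b, hess V x a b * Q a b x) * Real.exp (-V x))) := by
  have e1 : ∫ x, (∑ a, ∑ b, hess V x a b * Q a b x) * Real.exp (-V x) =
      ∑ a, ∑ b, ∫ x, hess V x a b * Q a b x * Real.exp (-V x) := by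
    have hi : ∀ a b, Integrable (fun x => hess V x a b * Q a b x * Real.exp (-V x)) := by
      intro a b
      refine Cv.integrable_lim (R := R) (((Cv.const (continuous_hess hV a b)).mul
        (hQ a b).cv).mul (Cv.const (Real.continuous_exp.comp hV.continuous.neg)))
        fun k x hx => ?_
      simp [hR a b k x hx]
    simp only [Finset.sum_mul]
    rw [integral_finsetSum _ fun a _ => integrable_finsetSum _ fun b _ => hi a b]
    exact Finset.sum_congr rfl fun a _ => integral_finsetSum _ fun b _ => hi a b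
  have e2 : ∀ k, ∫ x, (∑ a, ∑ b, hess (Vpsi (ml k ψ)) x a b * Qk a b k x)
      * Real.exp (-Vpsi (ml k ψ) x) =
      ∑ a, ∑ b, ∫ x, hess (Vpsi (ml k ψ)) x a b * Qk a b k x * Real.exp (-Vpsi (ml k ψ) x) := by
    intro k
    have hVk : ContDiff ℝ 2 (Vpsi (ml k ψ)) := (sm_V_ml h k).of_le (by norm_cast)
    have hi : ∀ a b, Integrable (fun x => hess (Vpsi (ml k ψ)) x a b * Qk a b k x
        * Real.exp (-Vpsi (ml k ψ) x)) := by
      intro a b
      refine Continuous.integrable_of_hasCompactSupport (((continuous_hess hVk a b).mul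
        (hk a b k).continuous).mul (Real.continuous_exp.comp hVk.continuous.neg))
        (hcs_of (R := R) fun x hx => ?_)
      simp [hR a b k x hx]
    simp only [Finset.sum_mul]
    rw [integral_finsetSum _ fun a _ => integrable_finsetSum _ fun b _ => hi a b]
    exact Finset.sum_congr rfl fun a _ => integral_finsetSum _ fun b _ => hi a b
  rw [e1]
  simp only [e2]
  exact tendsto_finsetSum _ fun a _ => tendsto_finsetSum _ fun b _ =>
    tends_hess h hV (hQ a b) (hk a b) (hR a b) a b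

theorem trace_eq {m : ℕ} (H T N : Matrix (Fin m) (Fin m) ℝ) :
    (H * T * N * T * N * T).trace = ∑ a, ∑ b, H a b * (T * N * T * N * T) b a := by
  have h1 : H * T * N * T * N * T = H * (T * N * T * N * T) := by
    simp only [Matrix.mul_assoc]
  rw [h1, Matrix.trace]
  refine Finset.sum_congr rfl fun a _ => ?_
  rw [Matrix.diag_apply, Matrix.mul_apply]

end KL

open KL

/-- KEY-LIM: the smooth level gives `StmtKey` -/
theorem stmtKey_of_keySm (hS : KeySm) : StmtKey := by
  intro n ψ V c C M hV h F u hF hu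
  obtain ⟨RF, hRF⟩ := exists_radius hF.2
  obtain ⟨Ru, hRu⟩ := exists_radius hu.2
  set R : ℝ := max RF Ru with hR
  have hF0 : ∀ x, R < ‖x‖ → F x = 0 := fun x hx => hRF x ((le_max_left _ _).trans_lt hx)
  have hu0 : ∀ x, R < ‖x‖ → u x = 0 := fun x hx => hRu x ((le_max_right _ _).trans_lt hx)
  have hV2 : ContDiff ℝ 2 V := hV.toReg.C2
  have hhF : ∀ i j, CD (fun (_ : ℕ) x => hess F x i j) (fun x => hess F x i j) := fun i j =>
    cd_const (contDiff_hess_top hF.1 i j)
  have hhF' : ∀ i j, ContDiff ℝ ∞ (fun x => hess F x i j) := fun i j => contDiff_hess_top hF.1 i j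
  -- T1
  have T1 : Tendsto (fun k => ∫ x, (hess (Vpsi (ml k ψ)) x * tau (ml k ψ) x * hess F x
      * tau (ml k ψ) x * hess F x * tau (ml k ψ) x).trace * Real.exp (-Vpsi (ml k ψ) x)) atTop
      (𝓝 (∫ x, (hess V x * tau ψ x * hess F x * tau ψ x * hess F x * tau ψ x).trace
        * Real.exp (-V x))) := by
    simp only [trace_eq]
    refine tends_hess_sum (R := R) h hV2
      (Qk := fun a b k x => (tau (ml k ψ) x * hess F x * tau (ml k ψ) x * hess F x
        * tau (ml k ψ) x) b a)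
      (Q := fun a b x => (tau ψ x * hess F x * tau ψ x * hess F x * tau ψ x) b a)
      (fun a b => ?_) (fun a b k => ?_) (fun a b k x hx => ?_)
    · exact CD.mmul (A := fun k x => tau (ml k ψ) x * hess F x * tau (ml k ψ) x * hess F x)
        (CD.mmul (A := fun k x => tau (ml k ψ) x * hess F x * tau (ml k ψ) x)
          (CD.mmul (A := fun k x => tau (ml k ψ) x * hess F x)
            (CD.mmul (A := fun k x => tau (ml k ψ) x) (cd_tau h) hhF) (cd_tau h)) hhF)
        (cd_tau h) b a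
    · have h1 : ContDiff ℝ ∞ (fun x => (tau (ml k ψ) x * hess F x * tau (ml k ψ) x * hess F x
          * tau (ml k ψ) x) b a) :=
        sm_mul (sm_mul (sm_mul (sm_mul (sm_tau_ml h k) hhF') (sm_tau_ml h k)) hhF')
          (sm_tau_ml h k) b a
      exact h1.of_le (by norm_cast)
    · have h1 := hess_zero hF0 x hx
      simp [h1]
  -- T2
  have T2 : Tendsto (fun k => ∫ x, (∑ a, ∑ b, hess (Vpsi (ml k ψ)) x a b * fld (ml k ψ) u a x
      * fld (ml k ψ) u b x) * Real.exp (-Vpsi (ml k ψ) x)) atTop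
      (𝓝 (∫ x, (∑ a, ∑ b, hess V x a b * fld ψ u a x * fld ψ u b x) * Real.exp (-V x))) := by
    simp only [mul_assoc (hess _ _ _ _)]
    refine tends_hess_sum (R := R) h hV2
      (Qk := fun a b k x => fld (ml k ψ) u a x * fld (ml k ψ) u b x)
      (Q := fun a b x => fld ψ u a x * fld ψ u b x)
      (fun a b => (cd_fld h hu.1 a).mul (cd_fld h hu.1 b)) (fun a b k => ?_) (fun a b k x hx => ?_)
    · exact ((sm_fld_ml h hu.1 k a).mul (sm_fld_ml h hu.1 k b)).of_le (by norm_cast)
    · simp [fld_zero (ml k ψ) hu0 a x hx]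
  -- T3
  have T3 : Tendsto (fun k => ∫ x, (Lop (ml k ψ) u x) ^ 2 * Real.exp (-Vpsi (ml k ψ) x)) atTop
      (𝓝 (∫ x, (Lop ψ u x) ^ 2 * Real.exp (-V x))) := by
    simp only [pow_two]
    refine Cv.integral (R := R) (((cd_Lop h hu.1).cv.mul (cd_Lop h hu.1).cv).mul (cd_exp h).cv)
      fun k x hx => ?_
    simp [Lop_zero (ml k ψ) hu0 x hx]
  -- T4
  have T4 : Tendsto (fun k => ∫ x, (∑ b, fld (ml k ψ) (fun z => Lop (ml k ψ) F z + F z + u z) b x
      * Lop (ml k ψ) (pd b F) x) * Real.exp (-Vpsi (ml k ψ) x)) atTop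
      (𝓝 (∫ x, (∑ b, fld ψ (fun z => Lop ψ F z + F z + u z) b x * Lop ψ (pd b F) x)
        * Real.exp (-V x))) := by
    have hg : CD (fun k z => Lop (ml k ψ) F z + F z + u z) (fun z => Lop ψ F z + F z + u z) :=
      ((cd_Lop h hF.1).add (cd_const hF.1)).add (cd_const hu.1)
    refine Cv.integral (R := R) ((Cv.sum _ fun b _ => (cv_fld h hg b).mul
      (cd_Lop h (contDiff_pd_top hF.1 b)).cv).mul (cd_exp h).cv) fun k x hx => ?_
    have h1 : ∀ b, Lop (ml k ψ) (pd b F) x = 0 := fun b =>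
      Lop_zero (ml k ψ) (pd_zero hF0 b) x hx
    simp [h1]
  have hle := le_of_tendsto_of_tendsto' (T1.add T2) (T3.add (T4.const_mul 2)) fun k =>
    hS n (ml k ψ) c C h.c_pos (contDiff_ml k h.C2.continuous) (lower_ml h k) (upper_ml h k)
      F u hF hu
  have hZ : 0 < ∫ x, Real.exp (-V x) := hV.toReg.Z_pos
  unfold Ex
  rw [← add_div, ← mul_div_assoc, ← add_div]
  exact div_le_div_of_nonneg_right hle hZ.le

end Vale.Agent.P227.M
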