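import Vale.Agent.P227.M.ID.Stein294

/-! # P227/M/ID: the core weak identity for Lipschitz functions with compact support (helper294) -/

open MeasureTheory
open scoped Topology NNReal

namespace Vale.Agent.P227.M.B294

variable {n : ℕ} {ψ V : E n → ℝ} {c C M : ℝ}

lemma inv_lip (h : MM ψ V c C M) : LipschitzWith (Real.toNNReal c⁻¹) (gmap h).inv := by
  refine LipschitzWith.of_dist_le_mul fun y z => ?_
  rw [dist_eq_norm, dist_eq_norm]
  exact ((gmap h).inv_dist_le y z).trans (mul_le_mul_of_nonneg_right (Real.le_coe_toNNReal _)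
    (norm_nonneg _))

lemma contDiff_ph (h : MM ψ V c C M) : ContDiff ℝ 1 (ph h) := by
  rw [contDiff_one_iff_hasFDerivAt]
  exact ⟨fun y => innerSL ℝ ((gmap h).inv y), (innerSL ℝ).continuous.comp (gmap h).continuous_inv,
    fun y => hasFDerivAt_ph h y⟩

/-- null sets are preserved by `inv` -/
lemma ae_inv (h : MM ψ V c C M) {p : E n → Prop} (hp : ∀ᵐ x, p x) :
    ∀ᵐ y, p ((gmap h).inv y) := by
  rw [ae_iff] at hp ⊢
  have e : {y | ¬ p ((gmap h).inv y)} = gr ψ '' {x | ¬ p x} := by
    ext y
    constructor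
    · intro hy
      exact ⟨(gmap h).inv y, hy, (gmap h).g_inv y⟩
    · rintro ⟨x, hx, rfl⟩
      change ¬ p ((gmap h).inv (gr ψ x))
      rw [(gmap h).inv_g]
      exact hx
  rw [e]
  exact addHaar_image_eq_zero_of_differentiableOn_of_addHaar_eq_zero volume
    (fun x _ => (hasFDerivAt_gr h.C2 x).differentiableAt.differentiableWithinAt) hp

/-- CORE for Lipschitz functions with compact support -/
theorem core_lip (h : MM ψ V c C M) (a : Fin n) (G : E n → ℝ) {K : ℝ≥0} (hG : LipschitzWith K G)
    (hs : HasCompactSupport G) :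
    ∫ x, (∑ b, tau ψ x a b * pd b G x) * Real.exp (-(V x))
      = ∫ x, (x a * G x) * Real.exp (-(V x)) := by
  set X : E n → E n := (gmap h).inv with hX
  set g : E n → ℝ := fun y => G (X y) with hg
  have hgl : LipschitzWith (K * Real.toNNReal c⁻¹) g := hG.comp (inv_lip h)
  have hgs : HasCompactSupport g := hs.comp_homeomorph (gmap h).homeo.symm
  obtain ⟨R, hR⟩ := hgs.isCompact.isBounded.subset_closedBall (0 : E n)
  set R' : ℝ := max R 0 with hR'
  have hR'0 : 0 ≤ R' := le_max_right _ _
  have hsub : tsupport g ⊆ Metric.closedBall 0 R' :=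
    hR.trans (Metric.closedBall_subset_closedBall (le_max_left _ _))
  let χ : ContDiffBump (0 : E n) := ⟨R' + 1, R' + 2, by linarith, by linarith⟩
  have hχ1 : ∀ y ∈ tsupport g, χ =ᶠ[𝓝 y] fun _ => 1 := by
    intro y hy
    have hy' : y ∈ Metric.ball (0 : E n) (R' + 1) := by
      have := hsub hy
      rw [Metric.mem_closedBall] at this
      rw [Metric.mem_ball]
      linarith
    exact χ.eventuallyEq_one_of_mem_ball hy'
  set ρ : E n → ℝ := fun y => χ y * Real.exp (-(ph h y)) with hρ
  have hχc : ContDiff ℝ 1 χ := χ.contDiff (n := 1)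
  have hρc : ContDiff ℝ 1 ρ := hχc.mul ((contDiff_ph h).neg.exp)
  have hρs : HasCompactSupport ρ := χ.hasCompactSupport.mul_right
  obtain ⟨D, hD⟩ := hρc.lipschitzWith_of_hasCompactSupport hρs (by norm_num)
  have hibp := hgl.integral_lineDeriv_mul_eq (μ := (volume : Measure (E n))) hD hρs (ei a)
  -- left side
  have hdiff : ∀ᵐ y, DifferentiableAt ℝ G (X y) := ae_inv h (hG.ae_differentiableAt)
  have hL : ∫ y, lineDeriv ℝ g y (ei a) * ρ y
      = ∫ y, (∑ b, tau ψ (X y) a b * pd b G (X y)) * Real.exp (-(ph h y)) := by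
    refine integral_congr_ae ?_
    filter_upwards [hdiff] with y hy
    have hd : HasFDerivAt g ((fderiv ℝ G (X y)).comp (Top ψ (X y))) y :=
      hy.hasFDerivAt.comp y (hasFDerivAt_inv h y)
    have hval : lineDeriv ℝ g y (ei a) = ∑ b, tau ψ (X y) a b * pd b G (X y) := by
      rw [(hd.hasLineDerivAt (ei a)).lineDeriv, ContinuousLinearMap.comp_apply, fderiv_apply_eq]
      refine Finset.sum_congr rfl fun b _ => ?_
      rw [Top_ei, tau_symm h]
    by_cases hyt : y ∈ tsupport g
    · have := (hχ1 y hyt).eq_of_nhds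
      rw [hval, hρ]
      simp only
      rw [this, one_mul]
    · have h0 : g =ᶠ[𝓝 y] fun _ => 0 := notMem_tsupport_iff_eventuallyEq.1 hyt
      have hz : lineDeriv ℝ g y (ei a) = 0 := by
        rw [h0.lineDeriv_eq]
        simp [lineDeriv]
      rw [hz, zero_mul, ← hval, hz, zero_mul]
  have hRt : ∫ y, lineDeriv ℝ ρ y (-(ei a)) * g y
      = ∫ y, (X y a * G (X y)) * Real.exp (-(ph h y)) := by
    refine integral_congr_ae (Filter.Eventually.of_forall fun y => ?_)
    by_cases hyt : y ∈ tsupport g
    · have h1 : ρ =ᶠ[𝓝 y] fun y => Real.exp (-(ph h y)) := by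
        filter_upwards [hχ1 y hyt] with z hz
        rw [hρ]
        simp only
        rw [hz, one_mul]
      have h2 := (hasFDerivAt_exp_ph h y).hasLineDerivAt (-(ei a))
      simp only
      rw [h1.lineDeriv_eq, h2.lineDeriv]
      simp only [smul_apply, neg_apply, innerSL_apply_apply, smul_eq_mul, inner_neg_right]
      rw [inner_eq]
      simp [ei, Pi.single_apply, hg, hX]
      ring
    · have h0 : g y = 0 := image_eq_zero_of_notMem_tsupport hyt
      simp only
      have h0' : G (X y) = 0 := h0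
      rw [h0, h0']
      simp
  rw [hL, hRt] at hibp
  rw [← integral_y h (fun x => ∑ b, tau ψ x a b * pd b G x), ← integral_y h (fun x => x a * G x)]
  exact hibp

end Vale.Agent.P227.M.B294
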