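import Vale.Agent.P227.M.ID.MollPsi

/-!
P227/M, block ID: existence of kernels of every width; the composition lemma
`D (g ∘ S_δ) = (D (g ∘ S))_δ + O(δ)` for Lipschitz `S` (no Rademacher).
-/

namespace Vale.Agent.P227.M.Moll

open MeasureTheory Set Filter Topology Metric
open scoped ContDiff Convolution

noncomputable section

set_option linter.unusedSectionVars false

variable {E : Type*} [NormedAddCommGroup E] [NormedSpace ℝ E] [FiniteDimensional ℝ E]
  [MeasurableSpace E] [BorelSpace E] (μ : Measure E) [μ.IsAddHaarMeasure]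
variable {G : Type*} [NormedAddCommGroup G] [NormedSpace ℝ G] [CompleteSpace G]

theorem exists_ker : ∃ C : ℝ, 0 ≤ C ∧ ∀ δ : ℝ, 0 < δ → ∃ k : E → ℝ, Ker μ δ C k := by
  let φ : ContDiffBump (0 : E) := ⟨1 / 2, 1, by norm_num, by norm_num⟩
  let ρ : E → ℝ := φ.normed μ
  have hρs : ContDiff ℝ ∞ ρ := φ.contDiff_normed
  have hρc : HasCompactSupport ρ := φ.hasCompactSupport_normed
  have hρn : ∀ x, 0 ≤ ρ x := fun x => φ.nonneg_normed x
  have hρ1 : ∫ x, ρ x ∂μ = 1 := φ.integral_normed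
  have hρe : ∀ x, ρ (-x) = ρ x := fun x => φ.normed_neg x
  have hρz : ∀ x, ρ x ≠ 0 → ‖x‖ ≤ 1 := by
    intro x hx
    have h1 : x ∈ Function.support (φ.normed μ) := hx
    rw [φ.support_normed_eq] at h1
    have h2 : dist x 0 < 1 := h1
    simpa using h2.le
  have hdc : Continuous fun t => fderiv ℝ ρ t := hρs.continuous_fderiv (by norm_num)
  have hds : HasCompactSupport fun t => fderiv ℝ ρ t := hρc.fderiv (𝕜 := ℝ)
  have hdi : Integrable (fun t => ‖fderiv ℝ ρ t‖) μ :=
    (hdc.integrable_of_hasCompactSupport hds).norm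
  refine ⟨∫ t, ‖fderiv ℝ ρ t‖ ∂μ, integral_nonneg fun t => norm_nonneg _, fun δ hδ => ?_⟩
  set c : ℝ := |((δ⁻¹) ^ Module.finrank ℝ E)⁻¹|⁻¹ with hc
  have hc0 : 0 < c := by
    rw [hc]
    positivity
  have hfd : ∀ x v, fderiv ℝ (fun x => c * ρ (δ⁻¹ • x)) x v
      = c * (δ⁻¹ * fderiv ℝ ρ (δ⁻¹ • x) v) := by
    intro x v
    have h1 : HasFDerivAt ρ (fderiv ℝ ρ (δ⁻¹ • x)) (δ⁻¹ • x) :=
      ((hρs.differentiable (by norm_num)) _).hasFDerivAt
    have h2 : HasFDerivAt (fun x : E => δ⁻¹ • x) (δ⁻¹ • ContinuousLinearMap.id ℝ E) x :=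
      (hasFDerivAt_id x).const_smul δ⁻¹
    have h3 : HasFDerivAt (fun x => c * ρ (δ⁻¹ • x))
        (c • ((fderiv ℝ ρ (δ⁻¹ • x)).comp (δ⁻¹ • ContinuousLinearMap.id ℝ E))) x := by
      have := (h1.comp x h2).const_mul c
      simpa [Function.comp_def] using this
    rw [h3.fderiv]
    simp
  refine ⟨fun x => c * ρ (δ⁻¹ • x), ?_, ?_, ?_, ?_, ?_, ?_⟩
  · exact contDiff_const.mul (hρs.comp (contDiff_const_smul _))
  · intro x hx
    have h1 : ρ (δ⁻¹ • x) ≠ 0 := fun h => hx (by simp [h])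
    have h2 := hρz _ h1
    rw [norm_smul, norm_inv, Real.norm_eq_abs, abs_of_pos hδ] at h2
    rwa [inv_mul_le_iff₀ hδ, mul_one] at h2
  · intro x
    exact mul_nonneg hc0.le (hρn _)
  · rw [integral_const_mul, Measure.integral_comp_smul, hρ1, smul_eq_mul, mul_one, hc]
    exact inv_mul_cancel₀ (by positivity)
  · intro x
    simp only [smul_neg, hρe]
  · intro v
    simp_rw [hfd, abs_mul, abs_of_pos hc0]
    rw [integral_const_mul, integral_const_mul,
      Measure.integral_comp_smul μ (fun y => |fderiv ℝ ρ y v|), smul_eq_mul]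
    have h1 : ∫ y, |fderiv ℝ ρ y v| ∂μ ≤ (∫ t, ‖fderiv ℝ ρ t‖ ∂μ) * ‖v‖ := by
      rw [← integral_mul_const]
      refine integral_mono_of_nonneg (Filter.Eventually.of_forall fun t => abs_nonneg _)
        (hdi.mul_const _) (Filter.Eventually.of_forall fun t => ?_)
      exact (fderiv ℝ ρ t).le_opNorm v
    have h2 : 0 < |((δ⁻¹) ^ Module.finrank ℝ E)⁻¹| := by positivity
    calc c * (|δ⁻¹| * (|((δ⁻¹) ^ Module.finrank ℝ E)⁻¹| * ∫ y, |fderiv ℝ ρ y v| ∂μ))
        = (c * |((δ⁻¹) ^ Module.finrank ℝ E)⁻¹|) * (|δ⁻¹| * ∫ y, |fderiv ℝ ρ y v| ∂μ) := by ring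
      _ = |δ⁻¹| * ∫ y, |fderiv ℝ ρ y v| ∂μ := by
          rw [hc, inv_mul_cancel₀ h2.ne', one_mul]
      _ ≤ |δ⁻¹| * ((∫ t, ‖fderiv ℝ ρ t‖ ∂μ) * ‖v‖) :=
          mul_le_mul_of_nonneg_left h1 (abs_nonneg _)
      _ = (∫ t, ‖fderiv ℝ ρ t‖ ∂μ) / δ * ‖v‖ := by
          rw [abs_of_pos (inv_pos.mpr hδ)]
          ring

variable {μ} {δ C : ℝ} {k : E → ℝ}

theorem mol_clm {G' : Type*} [NormedAddCommGroup G'] [NormedSpace ℝ G'] [CompleteSpace G']
    (hk : Ker μ δ C k) (L : G →L[ℝ] G') {g : E → G} (hg : Continuous g) (x : E) :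
    mol μ k (fun y => L (g y)) x = L (mol μ k g x) := by
  simp only [mol]
  rw [← L.integral_comp_comm (hk.integrable_smul hg x)]
  simp

theorem norm_mol_sub_le_of_lip (hk : Ker μ δ C k) {g : E → G} {M : ℝ} (hM : 0 ≤ M)
    (hg : ∀ x y, ‖g x - g y‖ ≤ M * ‖x - y‖) (x : E) : ‖mol μ k g x - g x‖ ≤ M * δ := by
  have hgc : Continuous g := by
    refine (LipschitzWith.of_dist_le_mul (K := ⟨M, hM⟩) fun x y => ?_).continuous
    rw [dist_eq_norm, dist_eq_norm]
    exact hg x y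
  refine norm_mol_sub_le hk hgc fun t ht => ?_
  refine (hg _ _).trans ?_
  have : x - t - x = -t := by abel
  rw [this, norm_neg]
  exact mul_le_mul_of_nonneg_left ht hM

theorem mol_lip (hk : Ker μ δ C k) {g : E → G} {M : ℝ} (hM : 0 ≤ M)
    (hg : ∀ x y, ‖g x - g y‖ ≤ M * ‖x - y‖) (x y : E) :
    ‖mol μ k g x - mol μ k g y‖ ≤ M * ‖x - y‖ := by
  have hgc : Continuous g := by
    refine (LipschitzWith.of_dist_le_mul (K := ⟨M, hM⟩) fun x y => ?_).continuous
    rw [dist_eq_norm, dist_eq_norm]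
    exact hg x y
  have h1 : mol μ k g x - mol μ k g y = ∫ t, k t • (g (x - t) - g (y - t)) ∂μ := by
    simp_rw [smul_sub]
    rw [integral_sub (hk.integrable_smul hgc x) (hk.integrable_smul hgc y)]
    rfl
  rw [h1]
  calc ‖∫ t, k t • (g (x - t) - g (y - t)) ∂μ‖ ≤ ∫ t, k t * (M * ‖x - y‖) ∂μ := by
        refine norm_integral_le_of_norm_le (hk.integrable.mul_const _)
          (Filter.Eventually.of_forall fun t => ?_)
        rw [norm_smul, Real.norm_eq_abs, abs_of_nonneg (hk.nonneg t)]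
        refine mul_le_mul_of_nonneg_left ((hg _ _).trans ?_) (hk.nonneg t)
        rw [sub_sub_sub_cancel_right]
    _ = M * ‖x - y‖ := by rw [integral_mul_const, hk.int_one, one_mul]

theorem Ker.fderiv_eq_zero (hk : Ker μ δ C k) {t : E} (ht : δ < ‖t‖) : fderiv ℝ k t = 0 := by
  have h1 : k =ᶠ[𝓝 t] fun _ => 0 := by
    have : {x : E | δ < ‖x‖} ∈ 𝓝 t := (isOpen_lt continuous_const continuous_norm).mem_nhds ht
    filter_upwards [this] with x hx
    exact hk.eq_zero hx
  rw [h1.fderiv_eq]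
  simp

theorem Ker.integrable_fderiv (hk : Ker μ δ C k) (v : E) {g : E → G} (hg : Continuous g)
    (x : E) : Integrable (fun t => (fderiv ℝ k t v) • g (x - t)) μ := by
  have h1 : Continuous fun t => fderiv ℝ k t v :=
    (hk.smooth.continuous_fderiv (by norm_num)).clm_apply continuous_const
  have h2 : HasCompactSupport fun t => fderiv ℝ k t v :=
    (hk.hcs.fderiv (𝕜 := ℝ)).comp_left (g := fun L : E →L[ℝ] ℝ => L v) (by simp)
  exact (h1.smul (hg.comp (continuous_const.sub continuous_id))).integrable_of_hasCompactSupport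
    h2.smul_right

/-- **Composition lemma.** If `S` is `M`-Lipschitz with values in a closed convex set `K`, `g` has
a quadratic Taylor bound on `K` and `g ∘ S` is `C¹` with derivative `ℓ`, then
`‖D (g ∘ S_δ) - ℓ_δ‖ ≤ 4 C κ M² δ`. -/
theorem hasFDerivAt_comp_mol (hk : Ker μ δ C k) (hC : 0 ≤ C) (hδ : 0 < δ) {g : G → ℝ} {g' : G → G →L[ℝ] ℝ}
    {K : Set G} (hK : Convex ℝ K) (hKc : IsClosed K) {κ : ℝ} (hκ : 0 ≤ κ)
    (hg : ∀ A ∈ K, HasFDerivAt g (g' A) A)
    (hT : ∀ A ∈ K, ∀ B ∈ K, |g B - g A - g' A (B - A)| ≤ κ * ‖B - A‖ ^ 2)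
    {S : E → G} {M : ℝ} (hM : 0 ≤ M) (hS : ∀ x y, ‖S x - S y‖ ≤ M * ‖x - y‖)
    (hSK : ∀ x, S x ∈ K) {ℓ : E → E →L[ℝ] ℝ} (hℓ : ∀ x, HasFDerivAt (fun y => g (S y)) (ℓ x) x)
    (hℓc : Continuous ℓ) (x : E) :
    ∃ D : E →L[ℝ] ℝ, HasFDerivAt (fun y => g (mol μ k S y)) D x ∧
      ‖D - mol μ k ℓ x‖ ≤ 4 * C * κ * M ^ 2 * δ := by
  have hSc : Continuous S := by
    refine (LipschitzWith.of_dist_le_mul (K := ⟨M, hM⟩) fun x y => ?_).continuous
    rw [dist_eq_norm, dist_eq_norm]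
    exact hS x y
  have hgSc : Continuous fun y => g (S y) :=
    continuous_iff_continuousAt.mpr fun y => (hℓ y).continuousAt
  obtain ⟨D1, hD1, hD1v⟩ := hasFDerivAt_mol_ker hk hSc x
  obtain ⟨D2, hD2, hD2v⟩ := hasFDerivAt_mol_ker hk hgSc x
  have hD2' : D2 = mol μ k ℓ x := hD2.unique (hasFDerivAt_mol hk hℓ hℓc x)
  set a := mol μ k S x with ha
  have haK : a ∈ K := mol_mem hk hSc hK hKc hSK x
  refine ⟨(g' a).comp D1, (hg a haK).comp x hD1, ?_⟩
  have key : ∀ v, ‖((g' a).comp D1 - mol μ k ℓ x) v‖ ≤ 4 * C * κ * M ^ 2 * δ * ‖v‖ := by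
    intro v
    have h1 : ((g' a).comp D1 - mol μ k ℓ x) v
        = ∫ t, (fderiv ℝ k t v) * (g' a (S (x - t)) - g (S (x - t))) ∂μ := by
      rw [← hD2', sub_apply, ContinuousLinearMap.comp_apply, hD1v, hD2v,
        ← (g' a).integral_comp_comm (hk.integrable_fderiv v hSc x)]
      have e1 : (fun t => (g' a) ((fderiv ℝ k t v) • S (x - t)))
          = fun t => (fderiv ℝ k t v) • (g' a (S (x - t))) := by
        funext t
        simp
      rw [e1, ← integral_sub]
      · refine integral_congr_ae (Filter.Eventually.of_forall fun t => ?_)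
        simp only [smul_eq_mul]
        ring
      · exact hk.integrable_fderiv v (g := fun y => g' a (S y)) ((g' a).continuous.comp hSc) x
      · exact hk.integrable_fderiv v (g := fun y => g (S y)) hgSc x
    have h2 : ((g' a).comp D1 - mol μ k ℓ x) v
        = ∫ t, (fderiv ℝ k t v) * (-(g (S (x - t)) - g a - g' a (S (x - t) - a))) ∂μ := by
      rw [h1]
      have e2 : (fun t => (fderiv ℝ k t v) * (-(g (S (x - t)) - g a - g' a (S (x - t) - a))))
          = fun t => (fderiv ℝ k t v) * (g' a (S (x - t)) - g (S (x - t)))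
            + (fderiv ℝ k t v) * (g a - g' a a) := by
        funext t
        rw [map_sub]
        ring
      rw [e2, integral_add, integral_mul_const, hk.integral_fderiv v, zero_mul, add_zero]
      · exact hk.integrable_fderiv v (g := fun y => g' a (S y) - g (S y))
          (((g' a).continuous.comp hSc).sub hgSc) x
      · exact (hk.integrable_fderiv v (g := fun _ : E => g a - g' a a) continuous_const x)
    rw [h2]
    have h3 : ∀ t, ‖t‖ ≤ δ → ‖S (x - t) - a‖ ≤ 2 * M * δ := by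
      intro t ht
      have e3 : ‖S (x - t) - S x‖ ≤ M * δ := by
        refine (hS _ _).trans ?_
        have : x - t - x = -t := by abel
        rw [this, norm_neg]
        exact mul_le_mul_of_nonneg_left ht hM
      have e4 : ‖a - S x‖ ≤ M * δ := norm_mol_sub_le_of_lip hk hM hS x
      calc ‖S (x - t) - a‖ = ‖(S (x - t) - S x) - (a - S x)‖ := by congr 1; abel
        _ ≤ ‖S (x - t) - S x‖ + ‖a - S x‖ := norm_sub_le _ _
        _ ≤ 2 * M * δ := by linarith
    calc ‖∫ t, (fderiv ℝ k t v) * (-(g (S (x - t)) - g a - g' a (S (x - t) - a))) ∂μ‖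
        ≤ ∫ t, |fderiv ℝ k t v| * (κ * (2 * M * δ) ^ 2) ∂μ := by
          refine norm_integral_le_of_norm_le ?_ (Filter.Eventually.of_forall fun t => ?_)
          · have := (hk.integrable_fderiv v (g := fun _ : E => (1 : ℝ)) continuous_const x)
            simp only [smul_eq_mul, mul_one] at this
            exact this.abs.mul_const _
          · rw [norm_mul, Real.norm_eq_abs, Real.norm_eq_abs, abs_neg]
            by_cases ht : ‖t‖ ≤ δ
            · refine mul_le_mul_of_nonneg_left ((hT a haK _ (hSK _)).trans ?_) (abs_nonneg _)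
              refine mul_le_mul_of_nonneg_left ?_ hκ
              exact pow_le_pow_left₀ (norm_nonneg _) (h3 t ht) 2
            · rw [hk.fderiv_eq_zero (not_le.mp ht)]
              simp
      _ = (∫ t, |fderiv ℝ k t v| ∂μ) * (κ * (2 * M * δ) ^ 2) := integral_mul_const _ _
      _ ≤ (C / δ * ‖v‖) * (κ * (2 * M * δ) ^ 2) :=
          mul_le_mul_of_nonneg_right (hk.int_deriv v) (by positivity)
      _ = 4 * C * κ * M ^ 2 * δ * ‖v‖ := by
          field_simp
          ring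
  have hnn : 0 ≤ 4 * C * κ * M ^ 2 * δ := by positivity
  exact ContinuousLinearMap.opNorm_le_bound _ hnn key

end

end Vale.Agent.P227.M.Moll
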