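import Mathlib

/-!
P227/M, block ID: mollification of the potential `ψ` (Mathlib only).

`Ker μ δ C k`: `k` is an even smooth probability kernel supported in the ball of radius `δ`, with
`∫ |∂_v k| ≤ (C / δ) |v|`. `mol μ k g x = ∫ k t • g (x - t)`.
-/

namespace Vale.Agent.P227.M.Moll

open MeasureTheory Set Filter Topology Metric
open scoped ContDiff Convolution

noncomputable section

set_option linter.unusedSectionVars false

variable {E : Type*} [NormedAddCommGroup E] [NormedSpace ℝ E] [FiniteDimensional ℝ E]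
  [MeasurableSpace E] [BorelSpace E] (μ : Measure E) [μ.IsAddHaarMeasure]
variable {G : Type*} [NormedAddCommGroup G] [NormedSpace ℝ G] [CompleteSpace G]

/-- Even smooth probability kernels of width `δ`. -/
structure Ker (δ C : ℝ) (k : E → ℝ) : Prop where
  smooth : ContDiff ℝ ∞ k
  supp : ∀ x, k x ≠ 0 → ‖x‖ ≤ δ
  nonneg : ∀ x, 0 ≤ k x
  int_one : ∫ x, k x ∂μ = 1
  even : ∀ x, k (-x) = k x
  int_deriv : ∀ v, ∫ x, |fderiv ℝ k x v| ∂μ ≤ C / δ * ‖v‖

/-- Mollification. -/
def mol (k : E → ℝ) (g : E → G) (x : E) : G := ∫ t, k t • g (x - t) ∂μ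

theorem mol_eq_conv (k : E → ℝ) (g : E → G) :
    mol μ k g = (k ⋆[ContinuousLinearMap.lsmul ℝ ℝ, μ] g) := by
  funext x
  simp [mol, convolution_def]

variable {μ} {δ C : ℝ} {k : E → ℝ}

theorem Ker.hcs (hk : Ker μ δ C k) : HasCompactSupport k := by
  refine HasCompactSupport.of_support_subset_isCompact (isCompact_closedBall (0 : E) δ) ?_
  intro x hx
  simpa using hk.supp x hx

theorem Ker.cont (hk : Ker μ δ C k) : Continuous k := hk.smooth.continuous

theorem Ker.integrable (hk : Ker μ δ C k) : Integrable k μ :=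
  hk.cont.integrable_of_hasCompactSupport hk.hcs

theorem Ker.eq_zero (hk : Ker μ δ C k) {x : E} (hx : δ < ‖x‖) : k x = 0 := by
  by_contra h
  exact absurd (hk.supp x h) (not_le.mpr hx)

theorem Ker.integrable_smul (hk : Ker μ δ C k) {g : E → G} (hg : Continuous g) (x : E) :
    Integrable (fun t => k t • g (x - t)) μ := by
  refine Continuous.integrable_of_hasCompactSupport (by
    exact hk.cont.smul (hg.comp (continuous_const.sub continuous_id))) ?_
  exact hk.hcs.smul_right

theorem contDiff_mol (hk : Ker μ δ C k) {g : E → G} (hg : Continuous g) :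
    ContDiff ℝ ∞ (mol μ k g) := by
  rw [mol_eq_conv]
  exact hk.hcs.contDiff_convolution_left _ hk.smooth hg.locallyIntegrable

/-- the derivative falls on `g`. -/
theorem hasFDerivAt_mol (hk : Ker μ δ C k) {g : E → G} {g' : E → E →L[ℝ] G}
    (hg : ∀ x, HasFDerivAt g (g' x) x) (hg' : Continuous g') (x : E) :
    HasFDerivAt (mol μ k g) (mol μ k g' x) x := by
  have hgc : Continuous g := continuous_iff_continuousAt.mpr fun y => (hg y).continuousAt
  obtain ⟨B, hB⟩ := (isCompact_closedBall x (1 + |δ|)).exists_bound_of_continuousOn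
    hg'.continuousOn
  have h := hasFDerivAt_integral_of_dominated_of_fderiv_le (𝕜 := ℝ) (μ := μ)
    (F := fun y t => k t • g (y - t)) (F' := fun y t => k t • g' (y - t)) (x₀ := x)
    (bound := fun t => |k t| * B) (s := ball x 1) (ball_mem_nhds x one_pos)
    (Filter.Eventually.of_forall fun y => (hk.integrable_smul hgc y).aestronglyMeasurable)
    (hk.integrable_smul hgc x) (hk.integrable_smul hg' x).aestronglyMeasurable
    (Filter.Eventually.of_forall fun t y hy => ?_) ?_
    (Filter.Eventually.of_forall fun t y _ => ?_)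
  · exact h
  · rw [norm_smul, Real.norm_eq_abs]
    by_cases ht : k t = 0
    · simp [ht]
    · refine mul_le_mul_of_nonneg_left (hB _ ?_) (abs_nonneg _)
      have h1 : ‖t‖ ≤ δ := hk.supp t ht
      have h2 : dist y x < 1 := hy
      rw [mem_closedBall, dist_eq_norm]
      rw [dist_eq_norm] at h2
      calc ‖y - t - x‖ = ‖(y - x) - t‖ := by congr 1; abel
        _ ≤ ‖y - x‖ + ‖t‖ := norm_sub_le _ _
        _ ≤ 1 + |δ| := add_le_add h2.le (h1.trans (le_abs_self _))
  · exact hk.integrable.abs.mul_const B
  · have h3 : HasFDerivAt (fun y : E => y - t) (ContinuousLinearMap.id ℝ E) y :=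
      (hasFDerivAt_id y).sub_const t
    have h4 : HasFDerivAt (fun y : E => g (y - t)) (g' (y - t)) y := by
      simpa [Function.comp_def] using (hg (y - t)).comp y h3
    exact h4.const_smul (k t)

/-- the derivative falls on the kernel. -/
theorem hasFDerivAt_mol_ker (hk : Ker μ δ C k) {g : E → G} (hg : Continuous g) (x : E) :
    ∃ D : E →L[ℝ] G, HasFDerivAt (mol μ k g) D x ∧
      ∀ v, D v = ∫ t, (fderiv ℝ k t v) • g (x - t) ∂μ := by
  rw [mol_eq_conv]
  refine ⟨_, hk.hcs.hasFDerivAt_convolution_left _ (hk.smooth.of_le (by norm_num))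
    hg.locallyIntegrable x, fun v => ?_⟩
  rw [convolution_def, ContinuousLinearMap.integral_apply]
  · simp
  · have h1 : Continuous fun t => fderiv ℝ k t := (hk.smooth.continuous_fderiv (by norm_num))
    have h2 : HasCompactSupport fun t => fderiv ℝ k t := hk.hcs.fderiv (𝕜 := ℝ)
    refine Continuous.integrable_of_hasCompactSupport ?_ ?_
    · exact ((ContinuousLinearMap.lsmul ℝ ℝ : ℝ →L[ℝ] G →L[ℝ] G).precompL E).continuous.comp h1
        |>.clm_apply (hg.comp (continuous_const.sub continuous_id))
    · refine h2.mono ?_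
      intro t ht hz
      apply ht
      simp [hz]

/-- zero mean of the derivative of the kernel. -/
theorem Ker.integral_fderiv (hk : Ker μ δ C k) (v : E) : ∫ t, fderiv ℝ k t v ∂μ = 0 := by
  obtain ⟨D, hD, hDv⟩ := hasFDerivAt_mol_ker hk (g := fun _ : E => (1 : ℝ)) continuous_const 0
  have h1 : mol μ k (fun _ : E => (1 : ℝ)) = fun _ => 1 := by
    funext x
    simp [mol, hk.int_one]
  rw [h1] at hD
  have h2 : D = 0 := hD.unique (hasFDerivAt_const (1 : ℝ) (0 : E))
  have h3 := hDv v
  rw [h2] at h3
  simpa using h3.symm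

theorem norm_mol_sub_le (hk : Ker μ δ C k) {g : E → G} (hg : Continuous g) {x : E} {ε : ℝ}
    {a : G} (h : ∀ t, ‖t‖ ≤ δ → ‖g (x - t) - a‖ ≤ ε) : ‖mol μ k g x - a‖ ≤ ε := by
  have h1 : mol μ k g x - a = ∫ t, k t • (g (x - t) - a) ∂μ := by
    simp_rw [smul_sub]
    rw [integral_sub (hk.integrable_smul hg x) (hk.integrable.smul_const a),
      integral_smul_const, hk.int_one, one_smul]
    rfl
  rw [h1]
  calc ‖∫ t, k t • (g (x - t) - a) ∂μ‖ ≤ ∫ t, k t * ε ∂μ := by
        refine norm_integral_le_of_norm_le (hk.integrable.mul_const ε)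
          (Filter.Eventually.of_forall fun t => ?_)
        rw [norm_smul, Real.norm_eq_abs, abs_of_nonneg (hk.nonneg t)]
        by_cases ht : k t = 0
        · simp [ht]
        · exact mul_le_mul_of_nonneg_left (h t (hk.supp t ht)) (hk.nonneg t)
    _ = ε := by rw [integral_mul_const, hk.int_one, one_mul]

/-- values in a closed convex set. -/
theorem mol_mem (hk : Ker μ δ C k) {g : E → G} (hg : Continuous g) {K : Set G}
    (hK : Convex ℝ K) (hKc : IsClosed K) (h : ∀ x, g x ∈ K) (x : E) : mol μ k g x ∈ K := by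
  have hprob : IsProbabilityMeasure (μ.withDensity fun t => ENNReal.ofReal (k t)) := by
    constructor
    rw [withDensity_apply _ MeasurableSet.univ, Measure.restrict_univ,
      ← ofReal_integral_eq_lintegral_ofReal hk.integrable
        (Filter.Eventually.of_forall hk.nonneg), hk.int_one, ENNReal.ofReal_one]
  have hmeas : Measurable fun t => (k t).toNNReal := hk.cont.measurable.real_toNNReal
  have hmol : mol μ k g x = ∫ t, g (x - t) ∂(μ.withDensity fun t => ENNReal.ofReal (k t)) := by
    have := integral_withDensity_eq_integral_smul (μ := μ) hmeas (fun t => g (x - t))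
    rw [show (fun t => ENNReal.ofReal (k t)) = fun t => ((k t).toNNReal : ENNReal) from rfl,
      this]
    refine integral_congr_ae (Filter.Eventually.of_forall fun t => ?_)
    simp only [NNReal.smul_def, Real.coe_toNNReal _ (hk.nonneg t)]
  rw [hmol]
  refine hK.integral_mem hKc (Filter.Eventually.of_forall fun t => h _) ?_
  have := (integrable_withDensity_iff_integrable_smul (μ := μ) hmeas
    (g := fun t => g (x - t))).mpr ?_
  · exact this
  · refine (hk.integrable_smul hg x).congr (Filter.Eventually.of_forall fun t => ?_)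
    simp only [NNReal.smul_def, Real.coe_toNNReal _ (hk.nonneg t)]

end

end Vale.Agent.P227.M.Moll
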