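import Vale.Agent.P227.M.Defs

/-!
P227, block ID: calculus of locally Lipschitz functions on `E n`, integration by parts and the
null Lagrangian lemma `∫ ∂ₖa ∂_c p = ∫ ∂_c a ∂ₖ p` (helper940).
-/

open MeasureTheory Set Filter Topology Metric
open scoped NNReal

namespace Vale.Agent.P227.M.KeyA

set_option linter.all false

variable {n : ℕ}

/-- Lipschitz on all balls -/
def LR (f : E n → ℝ) : Prop := ∀ R : ℝ, ∃ K : ℝ≥0, LipschitzOnWith K f (ball 0 R)

/-- measurable and bounded on all balls -/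
def LB (f : E n → ℝ) : Prop :=
  Measurable f ∧ ∀ R : ℝ, ∃ B : ℝ, 0 ≤ B ∧ ∀ x ∈ ball (0 : E n) R, |f x| ≤ B

/-- vanishing outside a ball -/
def CS (f : E n → ℝ) : Prop := ∃ R : ℝ, 0 < R ∧ ∀ x, x ∉ ball (0 : E n) R → f x = 0

/-! ### locally bounded -/

theorem LB.const (c : ℝ) : LB (fun _ : E n => c) :=
  ⟨measurable_const, fun R => ⟨|c|, abs_nonneg c, fun _ _ => le_rfl⟩⟩

theorem LB.add {f g : E n → ℝ} (hf : LB f) (hg : LB g) : LB (fun x => f x + g x) := by
  refine ⟨hf.1.add hg.1, fun R => ?_⟩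
  obtain ⟨B, hB0, hB⟩ := hf.2 R
  obtain ⟨B', hB0', hB'⟩ := hg.2 R
  exact ⟨B + B', add_nonneg hB0 hB0', fun x hx =>
    (abs_add_le _ _).trans (add_le_add (hB x hx) (hB' x hx))⟩

theorem LB.mul {f g : E n → ℝ} (hf : LB f) (hg : LB g) : LB (fun x => f x * g x) := by
  refine ⟨hf.1.mul hg.1, fun R => ?_⟩
  obtain ⟨B, hB0, hB⟩ := hf.2 R
  obtain ⟨B', hB0', hB'⟩ := hg.2 R
  exact ⟨B * B', mul_nonneg hB0 hB0', fun x hx => by
    rw [abs_mul]
    exact mul_le_mul (hB x hx) (hB' x hx) (abs_nonneg _) hB0⟩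

theorem LB.neg {f : E n → ℝ} (hf : LB f) : LB (fun x => -f x) := by
  have := (LB.const (n := n) (-1)).mul hf
  simpa using this

theorem LB.sub {f g : E n → ℝ} (hf : LB f) (hg : LB g) : LB (fun x => f x - g x) := by
  have := hf.add hg.neg
  simpa [sub_eq_add_neg] using this

theorem LB.sum {ι : Type*} (s : Finset ι) {f : ι → E n → ℝ} (hf : ∀ i ∈ s, LB (f i)) :
    LB (fun x => ∑ i ∈ s, f i x) := by
  classical
  induction s using Finset.induction_on with
  | empty => simpa using LB.const (n := n) 0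
  | insert i s hi ih =>
    simp only [Finset.sum_insert hi]
    exact (hf i (Finset.mem_insert_self _ _)).add
      (ih fun j hj => hf j (Finset.mem_insert_of_mem hj))

/-! ### compact support -/

theorem CS.mul_left {f g : E n → ℝ} (hf : CS f) : CS (fun x => g x * f x) := by
  obtain ⟨R, hR, h⟩ := hf
  exact ⟨R, hR, fun x hx => by simp only [h x hx, mul_zero]⟩

theorem CS.mul_right {f g : E n → ℝ} (hf : CS f) : CS (fun x => f x * g x) := by
  obtain ⟨R, hR, h⟩ := hf
  exact ⟨R, hR, fun x hx => by simp only [h x hx, zero_mul]⟩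

theorem CS.zero : CS (fun _ : E n => (0 : ℝ)) := ⟨1, one_pos, fun _ _ => rfl⟩

theorem CS.add {f g : E n → ℝ} (hf : CS f) (hg : CS g) : CS (fun x => f x + g x) := by
  obtain ⟨R, hR, h⟩ := hf
  obtain ⟨R', hR', h'⟩ := hg
  refine ⟨max R R', lt_max_of_lt_left hR, fun x hx => ?_⟩
  have h1 := h x fun h1 => hx (ball_subset_ball (le_max_left _ _) h1)
  have h2 := h' x fun h1 => hx (ball_subset_ball (le_max_right _ _) h1)
  simp only [h1, h2, add_zero]

theorem CS.neg {f : E n → ℝ} (hf : CS f) : CS (fun x => -f x) := by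
  obtain ⟨R, hR, h⟩ := hf
  exact ⟨R, hR, fun x hx => by simp only [h x hx, neg_zero]⟩

theorem CS.sub {f g : E n → ℝ} (hf : CS f) (hg : CS g) : CS (fun x => f x - g x) := by
  have := hf.add hg.neg
  simpa [sub_eq_add_neg] using this

theorem CS.sum {ι : Type*} (s : Finset ι) {f : ι → E n → ℝ} (hf : ∀ i ∈ s, CS (f i)) :
    CS (fun x => ∑ i ∈ s, f i x) := by
  classical
  induction s using Finset.induction_on with
  | empty => simpa using CS.zero (n := n)
  | insert i s hi ih =>
    simp only [Finset.sum_insert hi]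
    exact (hf i (Finset.mem_insert_self _ _)).add
      (ih fun j hj => hf j (Finset.mem_insert_of_mem hj))

theorem CS.pd {f : E n → ℝ} (hf : CS f) (k : Fin n) : CS (pd k f) := by
  obtain ⟨R, hR, h⟩ := hf
  refine ⟨R + 1, by linarith, fun x hx => ?_⟩
  have h1 : f =ᶠ[𝓝 x] fun _ => 0 := by
    have h2 : ∀ᶠ z in 𝓝 x, z ∉ closedBall (0 : E n) R := by
      refine (isClosed_closedBall (x := (0 : E n))).isOpen_compl.mem_nhds ?_
      intro h3
      simp only [mem_closedBall, mem_ball] at h3 hx
      linarith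
    filter_upwards [h2] with z hz
    exact h z fun h3 => hz (ball_subset_closedBall h3)
  rw [M.pd, h1.fderiv_eq]
  simp

theorem CS.hasCompactSupport {f : E n → ℝ} (hf : CS f) : HasCompactSupport f := by
  obtain ⟨R, hR, h⟩ := hf
  exact HasCompactSupport.intro (isCompact_closedBall (0 : E n) R) fun x hx =>
    h x fun h1 => hx (ball_subset_closedBall h1)

theorem CS.of_hasCompactSupport {f : E n → ℝ} (hf : HasCompactSupport f) : CS f := by
  obtain ⟨R, hR⟩ := hf.isCompact.isBounded.subset_closedBall (0 : E n)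
  refine ⟨max R 0 + 1, by positivity, fun x hx => ?_⟩
  by_contra h0
  have h1 := hR (subset_tsupport _ h0)
  apply hx
  simp only [mem_closedBall, mem_ball] at h1 ⊢
  have := le_max_left R 0
  linarith

theorem integrable_of {f : E n → ℝ} (hf : LB f) (hc : CS f) : Integrable f := by
  obtain ⟨R, hR, h⟩ := hc
  obtain ⟨B, hB0, hB⟩ := hf.2 R
  have h1 : IntegrableOn f (ball (0 : E n) R) := by
    refine Measure.integrableOn_of_bounded (M := B) (measure_ball_lt_top).ne
      hf.1.aestronglyMeasurable ?_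
    filter_upwards [ae_restrict_mem measurableSet_ball] with x hx
    exact hB x hx
  refine h1.integrable_of_forall_notMem_eq_zero fun x hx => h x hx

/-! ### Lipschitz on balls -/

theorem LR.continuous {f : E n → ℝ} (hf : LR f) : Continuous f := by
  refine continuous_iff_continuousAt.2 fun x => ?_
  obtain ⟨K, hK⟩ := hf (‖x‖ + 1)
  exact hK.continuousOn.continuousAt (isOpen_ball.mem_nhds (by simp))

theorem LR.lb {f : E n → ℝ} (hf : LR f) : LB f := by
  refine ⟨hf.continuous.measurable, fun R => ?_⟩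
  obtain ⟨K, hK⟩ := hf R
  refine ⟨|f 0| + K * |R|, by positivity, fun x hx => ?_⟩
  have hR : 0 < R := lt_of_le_of_lt dist_nonneg (mem_ball.1 hx)
  have h1 := hK.dist_le_mul x hx 0 (by simpa using hR)
  rw [Real.dist_eq] at h1
  have h2 : |f x| ≤ |f 0| + |f x - f 0| := by
    have := abs_add_le (f 0) (f x - f 0)
    simpa using this
  have h3 : (K : ℝ) * dist x 0 ≤ K * |R| :=
    mul_le_mul_of_nonneg_left ((mem_ball.1 hx).le.trans (le_abs_self R)) K.2
  linarith

theorem LR.const (c : ℝ) : LR (fun _ : E n => c) := fun R =>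
  ⟨0, (LipschitzWith.const c).lipschitzOnWith⟩

theorem LR.add {f g : E n → ℝ} (hf : LR f) (hg : LR g) : LR (fun x => f x + g x) := by
  intro R
  obtain ⟨K, hK⟩ := hf R
  obtain ⟨K', hK'⟩ := hg R
  refine ⟨K + K', LipschitzOnWith.of_dist_le_mul fun x hx y hy => ?_⟩
  have h1 := hK.dist_le_mul x hx y hy
  have h2 := hK'.dist_le_mul x hx y hy
  rw [Real.dist_eq] at h1 h2 ⊢
  push_cast
  have h3 := abs_add_le (f x - f y) (g x - g y)
  have h4 : f x + g x - (f y + g y) = (f x - f y) + (g x - g y) := by ring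
  rw [h4]
  linarith

theorem LR.mul {f g : E n → ℝ} (hf : LR f) (hg : LR g) : LR (fun x => f x * g x) := by
  intro R
  obtain ⟨K, hK⟩ := hf R
  obtain ⟨K', hK'⟩ := hg R
  obtain ⟨B, hB0, hB⟩ := hf.lb.2 R
  obtain ⟨B', hB0', hB'⟩ := hg.lb.2 R
  refine ⟨K * B'.toNNReal + B.toNNReal * K', LipschitzOnWith.of_dist_le_mul fun x hx y hy => ?_⟩
  have h1 := hK.dist_le_mul x hx y hy
  have h2 := hK'.dist_le_mul x hx y hy
  rw [Real.dist_eq] at h1 h2 ⊢
  rw [NNReal.coe_add, NNReal.coe_mul, NNReal.coe_mul, Real.coe_toNNReal _ hB0,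
    Real.coe_toNNReal _ hB0']
  have h4 : f x * g x - f y * g y = (f x - f y) * g x + f y * (g x - g y) := by ring
  rw [h4]
  have h5 := abs_add_le ((f x - f y) * g x) (f y * (g x - g y))
  have h6 : |(f x - f y) * g x| ≤ (K * dist x y) * B' := by
    rw [abs_mul]
    exact mul_le_mul h1 (hB' x hx) (abs_nonneg _) (by positivity)
  have h7 : |f y * (g x - g y)| ≤ B * (K' * dist x y) := by
    rw [abs_mul]
    exact mul_le_mul (hB y hy) h2 (abs_nonneg _) hB0
  nlinarith

theorem LR.neg {f : E n → ℝ} (hf : LR f) : LR (fun x => -f x) := by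
  have := (LR.const (n := n) (-1)).mul hf
  simpa using this

theorem LR.sub {f g : E n → ℝ} (hf : LR f) (hg : LR g) : LR (fun x => f x - g x) := by
  have := hf.add hg.neg
  simpa [sub_eq_add_neg] using this

theorem LR.sum {ι : Type*} (s : Finset ι) {f : ι → E n → ℝ} (hf : ∀ i ∈ s, LR (f i)) :
    LR (fun x => ∑ i ∈ s, f i x) := by
  classical
  induction s using Finset.induction_on with
  | empty => simpa using LR.const (n := n) 0
  | insert i s hi ih =>
    simp only [Finset.sum_insert hi]
    exact (hf i (Finset.mem_insert_self _ _)).add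
      (ih fun j hj => hf j (Finset.mem_insert_of_mem hj))

theorem LR.of_contDiff {f : E n → ℝ} (hf : ContDiff ℝ 1 f) : LR f := by
  intro R
  obtain ⟨B, hB⟩ := (isCompact_closedBall (0 : E n) R).exists_bound_of_continuousOn
    (hf.continuous_fderiv (by norm_num)).continuousOn
  refine ⟨B.toNNReal, (convex_ball (0 : E n) R).lipschitzOnWith_of_nnnorm_fderiv_le
    (fun x _ => (hf.differentiable (by norm_num)) x) fun x hx => ?_⟩
  rw [← NNReal.coe_le_coe, Real.coe_toNNReal']
  exact (hB x (ball_subset_closedBall hx)).trans (le_max_left B 0)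

theorem LR.pd_lb {f : E n → ℝ} (hf : LR f) (k : Fin n) : LB (pd k f) := by
  refine ⟨measurable_fderiv_apply_const ℝ f (ei k), fun R => ?_⟩
  obtain ⟨K, hK⟩ := hf R
  refine ⟨K * ‖(ei k : E n)‖, by positivity, fun x hx => ?_⟩
  have h1 := norm_fderiv_le_of_lipschitzOn ℝ (isOpen_ball.mem_nhds hx) hK
  exact ((fderiv ℝ f x).le_opNorm (ei k)).trans (mul_le_mul_of_nonneg_right h1 (norm_nonneg _))

theorem LR.ae_diff {f : E n → ℝ} (hf : LR f) : ∀ᵐ x, DifferentiableAt ℝ f x := by
  have h1 : ∀ m : ℕ, ∀ᵐ x : E n, x ∈ ball (0 : E n) m → DifferentiableAt ℝ f x := by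
    intro m
    obtain ⟨K, hK⟩ := hf m
    have h2 := hK.ae_differentiableWithinAt_of_mem (μ := (volume : Measure (E n)))
    filter_upwards [h2] with x hx hm
    exact (hx hm).differentiableAt (isOpen_ball.mem_nhds hm)
  rw [← ae_all_iff] at h1
  filter_upwards [h1] with x hx
  obtain ⟨m, hm⟩ := exists_nat_gt ‖x‖
  exact hx m (by simpa using hm)

theorem exists_lipschitz {f : E n → ℝ} (hf : LR f) (hc : CS f) : ∃ K, LipschitzWith K f := by
  obtain ⟨R, hR, h⟩ := hc
  obtain ⟨K, hK⟩ := hf (R + 1)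
  obtain ⟨B, hB0, hB⟩ := hf.lb.2 R
  refine ⟨K + B.toNNReal, LipschitzWith.of_dist_le_mul fun x y => ?_⟩
  have key : ∀ x y : E n, x ∉ ball (0 : E n) (R + 1) → |f x - f y| ≤ B * dist x y := by
    intro x y hx
    have hx' : x ∉ ball (0 : E n) R := fun h1 => hx (ball_subset_ball (by linarith) h1)
    rw [h x hx', zero_sub, abs_neg]
    by_cases hy : y ∈ ball (0 : E n) R
    · have h1 : 1 ≤ dist x y := by
        simp only [mem_ball, not_lt] at hx hy
        have := dist_triangle x y 0
        linarith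
      have h2 := hB y hy
      nlinarith
    · rw [h y hy, abs_zero]
      positivity
  rw [Real.dist_eq, NNReal.coe_add, Real.coe_toNNReal _ hB0]
  have hd : 0 ≤ dist x y := dist_nonneg
  have hKd : 0 ≤ (K : ℝ) * dist x y := by positivity
  have hBd : 0 ≤ B * dist x y := by positivity
  by_cases hx : x ∈ ball (0 : E n) (R + 1)
  · by_cases hy : y ∈ ball (0 : E n) (R + 1)
    · have h1 := hK.dist_le_mul x hx y hy
      rw [Real.dist_eq] at h1
      nlinarith
    · have h1 := key y x hy
      rw [abs_sub_comm, dist_comm] at h1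
      nlinarith
  · have h1 := key x y hx
    nlinarith

/-! ### integration by parts -/

theorem pd_eq_lineDeriv {f : E n → ℝ} {x : E n} (h : DifferentiableAt ℝ f x) (k : Fin n) :
    pd k f x = lineDeriv ℝ f x (ei k) := by
  rw [M.pd, h.lineDeriv_eq_fderiv]

theorem lineDeriv_neg_ei {f : E n → ℝ} {x : E n} (h : DifferentiableAt ℝ f x) (k : Fin n) :
    lineDeriv ℝ f x (-(ei k)) = -pd k f x := by
  rw [M.pd, h.lineDeriv_eq_fderiv, map_neg]

theorem integral_pd {f : E n → ℝ} (hf : LR f) (hc : CS f) (k : Fin n) : ∫ x, pd k f x = 0 := by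
  obtain ⟨K, hK⟩ := exists_lipschitz hf hc
  have h1 := LipschitzWith.integral_lineDeriv_mul_eq (μ := (volume : Measure (E n)))
    (f := fun _ : E n => (1 : ℝ)) (LipschitzWith.const (1 : ℝ)) hK hc.hasCompactSupport (-(ei k))
  have h0 : ∀ x v : E n, lineDeriv ℝ (fun _ : E n => (1 : ℝ)) x v = 0 := fun x v => by
    unfold lineDeriv
    simp
  simp only [h0, zero_mul, integral_zero, neg_neg, mul_one] at h1
  rw [h1]
  refine integral_congr_ae ?_
  filter_upwards [hf.ae_diff] with x hx
  exact pd_eq_lineDeriv hx k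

/-- null Lagrangian lemma -/
theorem null_lag {a p : E n → ℝ} (ha : LR a) (hac : CS a) (hp : LR p) (hpc : CS p)
    (k c : Fin n) : ∫ x, pd k a x * pd c p x = ∫ x, pd c a x * pd k p x := by
  obtain ⟨Ka, hKa⟩ := exists_lipschitz ha hac
  obtain ⟨Kp, hKp⟩ := exists_lipschitz hp hpc
  have hi1 : Integrable (fun x => pd c p x) := integrable_of (hp.pd_lb c) (hpc.pd c)
  have hi2 : Integrable (fun x => -pd c a x) := (integrable_of (ha.pd_lb c) (hac.pd c)).neg
  have A := LipschitzWith.integral_inv_smul_sub_mul_tendsto_integral_lineDeriv_mul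
    (μ := (volume : Measure (E n))) hKa hi1 (ei k)
  have B := LipschitzWith.integral_inv_smul_sub_mul_tendsto_integral_lineDeriv_mul
    (μ := (volume : Measure (E n))) hKp hi2 (-(ei k))
  have hA : ∫ x, lineDeriv ℝ a x (ei k) * pd c p x = ∫ x, pd k a x * pd c p x := by
    refine integral_congr_ae ?_
    filter_upwards [ha.ae_diff] with x hx
    rw [pd_eq_lineDeriv hx k]
  have hB : ∫ x, lineDeriv ℝ p x (-(ei k)) * -pd c a x = ∫ x, pd c a x * pd k p x := by
    refine integral_congr_ae ?_
    filter_upwards [hp.ae_diff] with x hx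
    simp only [lineDeriv_neg_ei hx k]
    ring
  rw [hA] at A
  rw [hB] at B
  -- for fixed t the integrals coincide
  have key : ∀ t : ℝ, ∫ x, (t⁻¹ • (a (x + t • ei k) - a x)) * pd c p x =
      ∫ x, (t⁻¹ • (p (x + t • -(ei k)) - p x)) * -pd c a x := by
    intro t
    obtain ⟨w, hw⟩ : ∃ w : E n, w = t • ei k := ⟨_, rfl⟩
    have hw' : t • -(ei k : E n) = -w := by rw [hw, smul_neg]
    rw [hw', ← hw]
    have hsh : LipschitzWith Ka (fun x => a (x + w)) := by
      refine LipschitzWith.of_dist_le_mul fun x y => ?_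
      have := hKa.dist_le_mul (x + w) (y + w)
      rwa [dist_add_right] at this
    have hshc : HasCompactSupport (fun x => a (x + w)) :=
      hac.hasCompactSupport.comp_homeomorph (Homeomorph.addRight w)
    have e1 := LipschitzWith.integral_lineDeriv_mul_eq (μ := (volume : Measure (E n)))
      hKp hsh hshc (ei c)
    have e2 := LipschitzWith.integral_lineDeriv_mul_eq (μ := (volume : Measure (E n)))
      hKp hKa hac.hasCompactSupport (ei c)
    have e3 : ∀ x, lineDeriv ℝ (fun x => a (x + w)) x (-(ei c)) =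
        lineDeriv ℝ a (x + w) (-(ei c)) := by
      intro x
      unfold lineDeriv
      congr 1
      funext s
      rw [add_right_comm]
    simp only [e3] at e1
    have e4 : ∫ x, lineDeriv ℝ a (x + w) (-(ei c)) * p x =
        ∫ x, lineDeriv ℝ a x (-(ei c)) * p (x + -w) := by
      rw [← integral_add_right_eq_self (fun x => lineDeriv ℝ a x (-(ei c)) * p (x + -w)) w]
      refine integral_congr_ae (Eventually.of_forall fun x => ?_)
      simp
    rw [e4] at e1
    have c1 : ∀ g : E n → ℝ, ∫ x, lineDeriv ℝ p x (ei c) * g x = ∫ x, pd c p x * g x := fun g => by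
      refine integral_congr_ae ?_
      filter_upwards [hp.ae_diff] with x hx
      rw [pd_eq_lineDeriv hx c]
    have c2 : ∀ g : E n → ℝ, ∫ x, lineDeriv ℝ a x (-(ei c)) * g x = ∫ x, -pd c a x * g x :=
      fun g => by
        refine integral_congr_ae ?_
        filter_upwards [ha.ae_diff] with x hx
        simp only [lineDeriv_neg_ei hx c]
    rw [c1, c2] at e1 e2
    have i1 : Integrable (fun x => pd c p x * a (x + w)) := by
      refine (hp.pd_lb c |>.mul ?_) |> fun h => integrable_of h (hpc.pd c).mul_right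
      exact LR.lb fun R => ⟨Ka, hsh.lipschitzOnWith⟩
    have i2 : Integrable (fun x => pd c p x * a x) :=
      integrable_of ((hp.pd_lb c).mul ha.lb) (hpc.pd c).mul_right
    have i3 : Integrable (fun x => -pd c a x * p (x + -w)) := by
      refine integrable_of (((ha.pd_lb c).neg).mul ?_) (hac.pd c).neg.mul_right
      have : LipschitzWith Kp (fun x => p (x + -w)) := by
        refine LipschitzWith.of_dist_le_mul fun x y => ?_
        have := hKp.dist_le_mul (x + -w) (y + -w)
        rwa [dist_add_right] at this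
      exact LR.lb fun R => ⟨Kp, this.lipschitzOnWith⟩
    have i4 : Integrable (fun x => -pd c a x * p x) :=
      integrable_of (((ha.pd_lb c).neg).mul hp.lb) (hac.pd c).neg.mul_right
    have l1 : ∫ x, (t⁻¹ • (a (x + w) - a x)) * pd c p x =
        t⁻¹ * ((∫ x, pd c p x * a (x + w)) - ∫ x, pd c p x * a x) := by
      rw [← integral_sub i1 i2, ← integral_const_mul]
      refine integral_congr_ae (Eventually.of_forall fun x => ?_)
      simp only [smul_eq_mul]
      ring
    have l2 : ∫ x, (t⁻¹ • (p (x + -w) - p x)) * -pd c a x =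
        t⁻¹ * ((∫ x, -pd c a x * p (x + -w)) - ∫ x, -pd c a x * p x) := by
      rw [← integral_sub i3 i4, ← integral_const_mul]
      refine integral_congr_ae (Eventually.of_forall fun x => ?_)
      simp only [smul_eq_mul]
      ring
    rw [l1, l2, e1, e2]
  simp only [key] at A
  exact tendsto_nhds_unique A B

end Vale.Agent.P227.M.KeyA
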