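import Vale.Agent.P227.M.Defs

/-! # P227/M/ID: regularity of `τ = (D²ψ)⁻¹` for `MM ψ V c C M`

Output: `tau` symmetric, entries bounded by `c⁻¹`, Lipschitz, ellipticity, and at almost every point
(Stein) `∑_b (∂_b V τ_ab - ∂_b τ_ab) = x_a`, (symmetry) `τ_ae ∂_e τ_bc` symmetric in `a b`. -/

noncomputable section

open MeasureTheory Set Filter Topology Matrix
open scoped NNReal

namespace Vale.Agent.P227.M.ID169

variable {n : ℕ} {ψ V : E n → ℝ} {c C M : ℝ}

/-! ## matrices and quadratic forms -/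

theorem qf_eq (A : Matrix (Fin n) (Fin n) ℝ) (v : E n) :
    qf A v = (v : Fin n → ℝ) ⬝ᵥ (A *ᵥ (v : Fin n → ℝ)) := by
  unfold qf
  simp only [dotProduct, mulVec, Finset.mul_sum]
  refine Finset.sum_congr rfl fun i _ => Finset.sum_congr rfl fun j _ => ?_
  ring

theorem norm_sq_eq (v : E n) : ‖v‖ ^ 2 = (v : Fin n → ℝ) ⬝ᵥ (v : Fin n → ℝ) := by
  rw [EuclideanSpace.norm_sq_eq]
  simp only [dotProduct, Real.norm_eq_abs, sq_abs]
  exact Finset.sum_congr rfl fun i _ => by ring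

theorem ei_apply (i j : Fin n) : (ei i : E n) j = if j = i then 1 else 0 := by
  unfold ei
  simp

theorem norm_ei (i : Fin n) : ‖(ei i : E n)‖ = 1 := by
  unfold ei
  simp

/-- the second derivative as a symmetric matrix -/
theorem pd_pd_eq (hψ : ContDiff ℝ 2 ψ) (i j : Fin n) (x : E n) :
    pd i (pd j ψ) x = fderiv ℝ (fderiv ℝ ψ) x (ei i) (ei j) := by
  unfold pd
  have h1 : Differentiable ℝ (fderiv ℝ ψ) :=
    (hψ.fderiv_right (m := 1) (by norm_num)).differentiable (by norm_num)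
  have h2 : HasFDerivAt (fun y => fderiv ℝ ψ y (ei j))
      ((ContinuousLinearMap.apply ℝ ℝ (ei j)).comp (fderiv ℝ (fderiv ℝ ψ) x)) x :=
    (ContinuousLinearMap.apply ℝ ℝ (ei j)).hasFDerivAt.comp x (h1 x).hasFDerivAt
  rw [h2.fderiv]
  rfl

theorem hess_symm (hψ : ContDiff ℝ 2 ψ) (x : E n) (i j : Fin n) :
    hess ψ x i j = hess ψ x j i := by
  unfold hess
  rw [pd_pd_eq hψ, pd_pd_eq hψ]
  have := (hψ.contDiffAt (x := x)).isSymmSndFDerivAt (by simp)
  exact this.eq _ _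

theorem hess_transpose (hψ : ContDiff ℝ 2 ψ) (x : E n) : (hess ψ x)ᵀ = hess ψ x := by
  ext i j
  exact hess_symm hψ x j i

theorem hess_continuous (hψ : ContDiff ℝ 2 ψ) (i j : Fin n) :
    Continuous (fun x => hess ψ x i j) := by
  unfold hess
  have h1 : Continuous (fderiv ℝ (fderiv ℝ ψ)) :=
    ((hψ.fderiv_right (m := 1) (by norm_num)).continuous_fderiv (by norm_num))
  have h2 : (fun x => pd i (pd j ψ) x) = fun x => fderiv ℝ (fderiv ℝ ψ) x (ei i) (ei j) :=
    funext fun x => pd_pd_eq hψ i j x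
  rw [h2]
  fun_prop

theorem hess_posDef (h : MM ψ V c C M) (x : E n) : (hess ψ x).PosDef := by
  refine Matrix.PosDef.of_dotProduct_mulVec_pos ?_ ?_
  · rw [Matrix.IsHermitian, conjTranspose_eq_transpose_of_trivial]
    exact hess_transpose h.C2 x
  · intro v hv
    have h1 := h.lower x (WithLp.toLp 2 v)
    rw [qf_eq] at h1
    have h2 : 0 < ‖(WithLp.toLp 2 v : E n)‖ := by
      rw [norm_pos_iff]
      intro h3
      apply hv
      have := congrArg (WithLp.ofLp) h3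
      simpa using this
    have h3 : 0 < c * ‖(WithLp.toLp 2 v : E n)‖ ^ 2 := mul_pos h.c_pos (by positivity)
    simpa using h3.trans_le h1

theorem det_pos (h : MM ψ V c C M) (x : E n) : 0 < (hess ψ x).det := (hess_posDef h x).det_pos

theorem tau_mul_hess (h : MM ψ V c C M) (x : E n) : tau ψ x * hess ψ x = 1 :=
  Matrix.nonsing_inv_mul _ (det_pos h x).ne'.isUnit

theorem hess_mul_tau (h : MM ψ V c C M) (x : E n) : hess ψ x * tau ψ x = 1 :=
  Matrix.mul_nonsing_inv _ (det_pos h x).ne'.isUnit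

theorem tau_transpose (h : MM ψ V c C M) (x : E n) : (tau ψ x)ᵀ = tau ψ x := by
  unfold tau
  rw [Matrix.transpose_nonsing_inv, hess_transpose h.C2]

theorem tau_symm (h : MM ψ V c C M) (x : E n) (i j : Fin n) : tau ψ x i j = tau ψ x j i := by
  have := congrFun (congrFun (tau_transpose h x) j) i
  exact this

/-! ## bounds -/

theorem qf_eq_inner (A : Matrix (Fin n) (Fin n) ℝ) (v : E n) :
    qf A v = inner ℝ (WithLp.toLp 2 (A *ᵥ (v : Fin n → ℝ)) : E n) v := by
  rw [qf_eq, EuclideanSpace.inner_eq_star_dotProduct]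
  simp

/-- `τ v` as a vector -/
theorem qf_tau (h : MM ψ V c C M) (x : E n) (v : E n) :
    qf (hess ψ x) (WithLp.toLp 2 (tau ψ x *ᵥ (v : Fin n → ℝ))) = qf (tau ψ x) v := by
  rw [qf_eq, qf_eq]
  have h1 : hess ψ x *ᵥ (tau ψ x *ᵥ (v : Fin n → ℝ)) = v := by
    rw [Matrix.mulVec_mulVec, hess_mul_tau h, Matrix.one_mulVec]
  show (tau ψ x *ᵥ (v : Fin n → ℝ)) ⬝ᵥ (hess ψ x *ᵥ (tau ψ x *ᵥ (v : Fin n → ℝ))) = _
  rw [h1, dotProduct_comm]

theorem norm_tau_le (h : MM ψ V c C M) (x : E n) (v : E n) :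
    ‖(WithLp.toLp 2 (tau ψ x *ᵥ (v : Fin n → ℝ)) : E n)‖ ≤ c⁻¹ * ‖v‖ := by
  set w : E n := WithLp.toLp 2 (tau ψ x *ᵥ (v : Fin n → ℝ)) with hw
  have h1 : c * ‖w‖ ^ 2 ≤ qf (hess ψ x) w := h.lower x w
  rw [qf_tau h x v, qf_eq_inner] at h1
  have h2 : inner ℝ w v ≤ ‖w‖ * ‖v‖ := real_inner_le_norm w v
  have h3 : c * ‖w‖ ^ 2 ≤ ‖w‖ * ‖v‖ := h1.trans h2
  have hc := h.c_pos
  rcases eq_or_lt_of_le (norm_nonneg w) with h0 | h0
  · rw [← h0]; positivity
  · rw [inv_mul_eq_div, le_div_iff₀ hc]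
    have : (‖w‖ * c) * ‖w‖ ≤ ‖v‖ * ‖w‖ := by nlinarith
    exact le_of_mul_le_mul_right this h0

theorem qf_tau_upper (h : MM ψ V c C M) (x : E n) (v : E n) :
    qf (tau ψ x) v ≤ c⁻¹ * ‖v‖ ^ 2 := by
  rw [qf_eq_inner]
  calc inner ℝ (WithLp.toLp 2 (tau ψ x *ᵥ (v : Fin n → ℝ)) : E n) v
      ≤ ‖(WithLp.toLp 2 (tau ψ x *ᵥ (v : Fin n → ℝ)) : E n)‖ * ‖v‖ := real_inner_le_norm _ _
    _ ≤ (c⁻¹ * ‖v‖) * ‖v‖ := by gcongr; exact norm_tau_le h x v
    _ = _ := by ring

theorem qf_tau_nonneg (h : MM ψ V c C M) (x : E n) (v : E n) : 0 ≤ qf (tau ψ x) v := by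
  rw [← qf_tau h]
  have := h.lower x (WithLp.toLp 2 (tau ψ x *ᵥ (v : Fin n → ℝ)))
  have hc := h.c_pos
  exact le_trans (by positivity) this

theorem tau_posDef (h : MM ψ V c C M) (x : E n) : (tau ψ x).PosDef := (hess_posDef h x).inv

/-- Cauchy-Schwarz for the quadratic form of a symmetric psd matrix -/
theorem cs_qf {A : Matrix (Fin n) (Fin n) ℝ} (hA : Aᵀ = A) (hp : ∀ v : E n, 0 ≤ qf A v)
    (v w : Fin n → ℝ) : (w ⬝ᵥ (A *ᵥ v)) ^ 2 ≤ (v ⬝ᵥ (A *ᵥ v)) * (w ⬝ᵥ (A *ᵥ w)) := by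
  have hs : v ⬝ᵥ (A *ᵥ w) = w ⬝ᵥ (A *ᵥ v) := by
    rw [Matrix.dotProduct_mulVec, ← Matrix.mulVec_transpose, hA, dotProduct_comm]
  have key : ∀ t : ℝ, 0 ≤ (w ⬝ᵥ (A *ᵥ w)) * (t * t) + (2 * (w ⬝ᵥ (A *ᵥ v))) * t
      + (v ⬝ᵥ (A *ᵥ v)) := by
    intro t
    have h1 := hp (WithLp.toLp 2 (v + t • w))
    rw [qf_eq] at h1
    simp only [Matrix.mulVec_add, Matrix.mulVec_smul, dotProduct_add, add_dotProduct,
      smul_dotProduct, dotProduct_smul, smul_eq_mul, hs] at h1
    linarith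
  have h2 := discrim_le_zero key
  unfold discrim at h2
  nlinarith

theorem qf_tau_lower (h : MM ψ V c C M) (x : E n) (v : E n) :
    ‖v‖ ^ 2 ≤ C * qf (tau ψ x) v := by
  have hp : ∀ v : E n, 0 ≤ qf (hess ψ x) v := fun v =>
    le_trans (mul_nonneg h.c_pos.le (by positivity)) (h.lower x v)
  have h1 := cs_qf (hess_transpose h.C2 x) hp (tau ψ x *ᵥ (v : Fin n → ℝ)) (v : Fin n → ℝ)
  have h2 : hess ψ x *ᵥ (tau ψ x *ᵥ (v : Fin n → ℝ)) = v := by
    rw [Matrix.mulVec_mulVec, hess_mul_tau h, Matrix.one_mulVec]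
  rw [h2, ← norm_sq_eq, ← qf_eq (hess ψ x) v, dotProduct_comm, ← qf_eq (tau ψ x) v] at h1
  have h3 := h.upper x v
  have h4 := qf_tau_nonneg h x v
  rcases eq_or_lt_of_le (sq_nonneg ‖v‖) with h0 | h0
  · rw [← h0]
    rcases le_or_gt 0 C with hC | hC
    · positivity
    · have h5 : qf (tau ψ x) v ≤ c⁻¹ * ‖v‖ ^ 2 := qf_tau_upper h x v
      rw [← h0, mul_zero] at h5
      have : qf (tau ψ x) v = 0 := le_antisymm h5 h4
      rw [this, mul_zero]
  · have h5 : ‖v‖ ^ 2 * ‖v‖ ^ 2 ≤ (C * qf (tau ψ x) v) * ‖v‖ ^ 2 := by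
      calc ‖v‖ ^ 2 * ‖v‖ ^ 2 = (‖v‖ ^ 2) ^ 2 := by ring
        _ ≤ qf (tau ψ x) v * qf (hess ψ x) v := h1
        _ ≤ qf (tau ψ x) v * (C * ‖v‖ ^ 2) := by gcongr
        _ = _ := by ring
    exact le_of_mul_le_mul_right h5 h0

theorem abs_apply_le_norm (v : E n) (i : Fin n) : |v i| ≤ ‖v‖ := by
  have := EuclideanSpace.norm_sq_eq v
  have h1 : ‖v i‖ ^ 2 ≤ ‖v‖ ^ 2 := by
    rw [this]
    exact Finset.single_le_sum (f := fun i => ‖v i‖ ^ 2) (fun i _ => sq_nonneg _)
      (Finset.mem_univ i)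
  rw [← Real.norm_eq_abs]
  exact (sq_le_sq₀ (norm_nonneg _) (norm_nonneg _)).1 h1

theorem abs_tau_le (h : MM ψ V c C M) (x : E n) (i j : Fin n) : |tau ψ x i j| ≤ c⁻¹ := by
  have h1 := norm_tau_le h x (ei j)
  rw [norm_ei, mul_one] at h1
  refine le_trans ?_ h1
  have h2 := abs_apply_le_norm (WithLp.toLp 2 (tau ψ x *ᵥ ((ei j : E n) : Fin n → ℝ)) : E n) i
  have h3 : (WithLp.toLp 2 (tau ψ x *ᵥ ((ei j : E n) : Fin n → ℝ)) : E n) i = tau ψ x i j := by
    show (tau ψ x *ᵥ ((ei j : E n) : Fin n → ℝ)) i = _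
    simp [mulVec, dotProduct, ei_apply]
  rwa [h3] at h2

theorem tau_sub (h : MM ψ V c C M) (x y : E n) :
    tau ψ x - tau ψ y = tau ψ x * (hess ψ y - hess ψ x) * tau ψ y := by
  rw [Matrix.mul_sub, Matrix.sub_mul, tau_mul_hess h, Matrix.mul_assoc, hess_mul_tau h,
    Matrix.mul_one, Matrix.one_mul]

theorem M_nonneg [hn : Nonempty (Fin n)] (h : MM ψ V c C M) : 0 ≤ M := by
  obtain ⟨i⟩ := hn
  have := h.lip i i 0 (ei i)
  rw [zero_sub, norm_neg, norm_ei, mul_one] at this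
  exact le_trans (abs_nonneg _) this

theorem abs_tau_sub_le (h : MM ψ V c C M) (x y : E n) (i j : Fin n) :
    |tau ψ x i j - tau ψ y i j| ≤ (n * n * (c⁻¹ * M * c⁻¹)) * ‖x - y‖ := by
  have h1 := congrFun (congrFun (tau_sub h x y) i) j
  rw [Matrix.sub_apply] at h1
  have hc := h.c_pos
  have : Nonempty (Fin n) := ⟨i⟩
  have hM := M_nonneg h
  rw [h1, Matrix.mul_apply]
  calc |∑ l, (tau ψ x * (hess ψ y - hess ψ x)) i l * tau ψ y l j|
      ≤ ∑ l : Fin n, |(tau ψ x * (hess ψ y - hess ψ x)) i l * tau ψ y l j| :=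
        Finset.abs_sum_le_sum_abs _ _
    _ ≤ ∑ l : Fin n, (n * (c⁻¹ * (M * ‖x - y‖))) * c⁻¹ := by
        refine Finset.sum_le_sum fun l _ => ?_
        rw [abs_mul]
        refine mul_le_mul ?_ (abs_tau_le h y l j) (abs_nonneg _) (by positivity)
        rw [Matrix.mul_apply]
        calc |∑ k, tau ψ x i k * (hess ψ y - hess ψ x) k l|
            ≤ ∑ k : Fin n, |tau ψ x i k * (hess ψ y - hess ψ x) k l| :=
              Finset.abs_sum_le_sum_abs _ _
          _ ≤ ∑ k : Fin n, c⁻¹ * (M * ‖x - y‖) := by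
              refine Finset.sum_le_sum fun k _ => ?_
              rw [abs_mul]
              refine mul_le_mul (abs_tau_le h x i k) ?_ (abs_nonneg _) (by positivity)
              rw [Matrix.sub_apply, abs_sub_comm]
              exact h.lip k l x y
          _ = n * (c⁻¹ * (M * ‖x - y‖)) := by simp
    _ = _ := by simp; ring

/-- Lipschitz constant of the entries of `τ` -/
def KT (n : ℕ) (c M : ℝ) : ℝ≥0 := Real.toNNReal (n * n * (c⁻¹ * M * c⁻¹))

theorem tau_lipschitz (h : MM ψ V c C M) (i j : Fin n) :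
    LipschitzWith (KT n c M) (fun x => tau ψ x i j) := by
  refine LipschitzWith.of_dist_le_mul fun x y => ?_
  rw [Real.dist_eq, dist_eq_norm]
  refine (abs_tau_sub_le h x y i j).trans ?_
  gcongr
  exact Real.le_coe_toNNReal _

theorem hess_lipschitz (h : MM ψ V c C M) (i j : Fin n) :
    LipschitzWith (Real.toNNReal M) (fun x => hess ψ x i j) := by
  refine LipschitzWith.of_dist_le_mul fun x y => ?_
  rw [Real.dist_eq, dist_eq_norm]
  refine (h.lip i j x y).trans ?_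
  gcongr
  exact Real.le_coe_toNNReal _

/-! ## Jacobi's formula -/

theorem sum_updateCol_eq (X Y : Matrix (Fin n) (Fin n) ℝ) :
    ∑ σ : Equiv.Perm (Fin n), (Equiv.Perm.sign σ : ℤ) •
      ∑ i, (∏ j ∈ Finset.univ.erase i, X (σ j) j) * Y (σ i) i =
      (X.adjugate * Y).trace := by
  simp only [Finset.smul_sum]
  rw [Finset.sum_comm]
  rw [Matrix.trace]
  refine Finset.sum_congr rfl fun i _ => ?_
  have h1 : (X.adjugate * Y).diag i = (X.updateCol i (fun j => Y j i)).det := by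
    rw [← Matrix.cramer_apply, Matrix.cramer_eq_adjugate_mulVec]
    simp only [diag, Matrix.mul_apply, mulVec, dotProduct]
  rw [h1, Matrix.det_apply]
  refine Finset.sum_congr rfl fun σ _ => ?_
  have : ∏ k, (X.updateCol i (fun j => Y j i)) (σ k) k =
      (∏ j ∈ Finset.univ.erase i, X (σ j) j) * Y (σ i) i := by
    rw [← Finset.prod_erase_mul Finset.univ _ (Finset.mem_univ i)]
    congr 1
    · refine Finset.prod_congr rfl fun j hj => ?_
      rw [Matrix.updateCol_ne (Finset.ne_of_mem_erase hj)]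
    · simp
  rw [this]
  rfl

/-- Jacobi's formula. -/
theorem hasDerivAt_det {N : ℝ → Matrix (Fin n) (Fin n) ℝ} {N' : Matrix (Fin n) (Fin n) ℝ} {t : ℝ}
    (hN : ∀ i j, HasDerivAt (fun s => N s i j) (N' i j) t) :
    HasDerivAt (fun t => (N t).det) ((N t).adjugate * N').trace t := by
  rw [← sum_updateCol_eq]
  have h1 : ∀ t, (N t).det =
      ∑ σ : Equiv.Perm (Fin n), (Equiv.Perm.sign σ : ℤ) • ∏ i, N t (σ i) i := by
    intro t
    rw [Matrix.det_apply]
    rfl
  simp only [h1]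
  refine HasDerivAt.fun_sum (fun σ _ => ?_)
  have h2 := HasDerivAt.fun_finsetProd (u := Finset.univ) (x := t)
    (f := fun i t => N t (σ i) i) (f' := fun i => N' (σ i) i) (fun i _ => hN (σ i) i)
  simp only [smul_eq_mul] at h2
  exact h2.const_smul ((Equiv.Perm.sign σ : ℤ))

theorem hasDerivAt_log_det {N : ℝ → Matrix (Fin n) (Fin n) ℝ} {N' : Matrix (Fin n) (Fin n) ℝ}
    {t : ℝ} (hN : ∀ i j, HasDerivAt (fun s => N s i j) (N' i j) t) (hd : (N t).det ≠ 0) :
    HasDerivAt (fun t => Real.log (N t).det) ((N t)⁻¹ * N').trace t := by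
  have h1 := (hasDerivAt_det hN).log hd
  refine h1.congr_deriv ?_
  rw [Matrix.inv_def, Ring.inverse_eq_inv', Matrix.smul_mul, Matrix.trace_smul, smul_eq_mul]
  field_simp

/-! ## partial derivatives -/

theorem line {f : E n → ℝ} {x : E n} (hf : DifferentiableAt ℝ f x) (b : Fin n) :
    HasDerivAt (fun t : ℝ => f (x + t • ei b)) (pd b f x) 0 :=
  hf.hasFDerivAt.hasLineDerivAt (ei b)

theorem pd_congr {f g : E n → ℝ} (h : ∀ x, f x = g x) (b : Fin n) (x : E n) :
    pd b f x = pd b g x := by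
  rw [funext h]

theorem pd_const (a : ℝ) (b : Fin n) (x : E n) : pd b (fun _ => a) x = 0 := by
  unfold pd
  simp

theorem pd_mul {f g : E n → ℝ} {x : E n} (hf : DifferentiableAt ℝ f x)
    (hg : DifferentiableAt ℝ g x) (b : Fin n) :
    pd b (fun y => f y * g y) x = pd b f x * g x + f x * pd b g x := by
  unfold pd
  rw [fderiv_fun_mul hf hg]
  simp
  ring

theorem pd_sum {ι : Type*} (s : Finset ι) {f : ι → E n → ℝ} {x : E n}
    (hf : ∀ i ∈ s, DifferentiableAt ℝ (f i) x) (b : Fin n) :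
    pd b (fun y => ∑ i ∈ s, f i y) x = ∑ i ∈ s, pd b (f i) x := by
  unfold pd
  rw [fderiv_fun_sum hf]
  simp

/-- points where the second derivative is differentiable -/
structure Good (ψ : E n → ℝ) (x : E n) : Prop where
  hess : ∀ i j, DifferentiableAt ℝ (fun y => hess ψ y i j) x
  tau : ∀ i j, DifferentiableAt ℝ (fun y => tau ψ y i j) x

theorem ae_good (h : MM ψ V c C M) : ∀ᵐ x : E n, Good ψ x := by
  have h1 : ∀ᵐ x : E n, ∀ i j, DifferentiableAt ℝ (fun y => hess ψ y i j) x := by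
    rw [ae_all_iff]; intro i
    rw [ae_all_iff]; intro j
    exact (hess_lipschitz h i j).ae_differentiableAt
  have h2 : ∀ᵐ x : E n, ∀ i j, DifferentiableAt ℝ (fun y => tau ψ y i j) x := by
    rw [ae_all_iff]; intro i
    rw [ae_all_iff]; intro j
    exact (tau_lipschitz h i j).ae_differentiableAt
  filter_upwards [h1, h2] with x a b
  exact ⟨a, b⟩

/-- the third derivatives -/
def D3 (ψ : E n → ℝ) (b i j : Fin n) (x : E n) : ℝ := pd b (fun y => hess ψ y i j) x

theorem D3_symm_right (h : MM ψ V c C M) (b i j : Fin n) (x : E n) :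
    D3 ψ b i j x = D3 ψ b j i x :=
  pd_congr (fun y => hess_symm h.C2 y i j) b x

theorem fderiv_eq_sum_proj {f : E n → ℝ} (x : E n) :
    fderiv ℝ f x = ∑ i, pd i f x • (EuclideanSpace.proj i : E n →L[ℝ] ℝ) := by
  ext v
  have h1 : v = ∑ i, v i • ei i := by
    ext j
    simp [ei_apply]
  conv_lhs => rw [h1]
  rw [map_sum]
  simp only [map_smul, smul_eq_mul, FunLike.coe_sum, Finset.sum_apply,
    FunLike.coe_smul, Pi.smul_apply]
  refine Finset.sum_congr rfl fun i _ => ?_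
  show v i * fderiv ℝ f x (ei i) = fderiv ℝ f x (ei i) * v i
  ring

theorem D3_symm_left (h : MM ψ V c C M) {x : E n} (hx : Good ψ x) (b i j : Fin n) :
    D3 ψ b i j x = D3 ψ i b j x := by
  -- `g = ∂_j ψ`
  have hg1 : ContDiff ℝ 1 (fun y => pd j ψ y) := by
    unfold pd
    have := h.C2.fderiv_right (m := 1) (by norm_num)
    exact this.clm_apply contDiff_const
  have hf : ∀ᶠ y in 𝓝 x, HasFDerivAt (fun y => pd j ψ y) (fderiv ℝ (fun y => pd j ψ y) y) y :=
    Filter.Eventually.of_forall fun y =>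
      ((hg1.differentiable (by norm_num)) y).hasFDerivAt
  have hd : DifferentiableAt ℝ (fderiv ℝ (fun y => pd j ψ y)) x := by
    have : (fderiv ℝ (fun y => pd j ψ y)) =
        fun y => ∑ i, hess ψ y i j • (EuclideanSpace.proj i : E n →L[ℝ] ℝ) := by
      funext y
      exact fderiv_eq_sum_proj y
    rw [this]
    refine DifferentiableAt.fun_sum fun i _ => ?_
    exact (hx.hess i j).smul_const _
  have h2 := second_derivative_symmetric_of_eventually hf hd.hasFDerivAt (ei b) (ei i)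
  have h3 : ∀ k l : Fin n, fderiv ℝ (fderiv ℝ (fun y => pd j ψ y)) x (ei k) (ei l) =
      D3 ψ k l j x := by
    intro k l
    unfold D3
    show _ = fderiv ℝ (fun y => fderiv ℝ (fun y => pd j ψ y) y (ei l)) x (ei k)
    have h4 : HasFDerivAt (fun y => fderiv ℝ (fun y => pd j ψ y) y (ei l))
      ((ContinuousLinearMap.apply ℝ ℝ (ei l)).comp
        (fderiv ℝ (fderiv ℝ (fun y => pd j ψ y)) x)) x :=
      (ContinuousLinearMap.apply ℝ ℝ (ei l)).hasFDerivAt.comp x hd.hasFDerivAt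
    rw [h4.fderiv]
    rfl
  rw [h3, h3] at h2
  exact h2

theorem pd_tau (h : MM ψ V c C M) {x : E n} (hx : Good ψ x) (b i j : Fin n) :
    pd b (fun y => tau ψ y i j) x = -∑ k, ∑ l, tau ψ x i k * D3 ψ b k l x * tau ψ x l j := by
  set dT : Matrix (Fin n) (Fin n) ℝ := fun i j => pd b (fun y => tau ψ y i j) x with hdT
  set dH : Matrix (Fin n) (Fin n) ℝ := fun i j => D3 ψ b i j x with hdH
  have h1 : dT * hess ψ x + tau ψ x * dH = 0 := by
    ext i j
    have h2 : ∀ y, ∑ k, tau ψ y i k * hess ψ y k j = (1 : Matrix (Fin n) (Fin n) ℝ) i j := by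
      intro y
      rw [← Matrix.mul_apply, tau_mul_hess h]
    have h3 := pd_congr h2 b x
    rw [pd_const, pd_sum _ (fun k _ => (hx.tau i k).fun_mul (hx.hess k j))] at h3
    rw [Matrix.add_apply, Matrix.mul_apply, Matrix.mul_apply, Matrix.zero_apply, ← h3,
      ← Finset.sum_add_distrib]
    refine Finset.sum_congr rfl fun k _ => ?_
    rw [pd_mul (hx.tau i k) (hx.hess k j)]
    rfl
  have h4 : dT = -(tau ψ x * dH * tau ψ x) := by
    have h5 : dT * hess ψ x * tau ψ x = -(tau ψ x * dH) * tau ψ x := by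
      rw [eq_neg_of_add_eq_zero_left h1]
    rwa [Matrix.mul_assoc, hess_mul_tau h, Matrix.mul_one, Matrix.neg_mul] at h5
  have h6 := congrFun (congrFun h4 i) j
  rw [show pd b (fun y => tau ψ y i j) x = dT i j from rfl, h6, Matrix.neg_apply,
    Matrix.mul_apply]
  congr 1
  simp only [Matrix.mul_apply, Finset.sum_mul]
  rw [Finset.sum_comm]

theorem pd_V (h : MM ψ V c C M) (hV : ContDiff ℝ (⊤ : ℕ∞) V) {x : E n} (hx : Good ψ x)
    (b : Fin n) :
    pd b V x = (∑ i, x i * hess ψ x b i) - ∑ i, ∑ j, tau ψ x i j * D3 ψ b j i x := by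
  have hψ1 : Differentiable ℝ ψ := h.C2.differentiable (by norm_num)
  have hp1 : ∀ i, Differentiable ℝ (fun y => pd i ψ y) := by
    intro i
    unfold pd
    have := h.C2.fderiv_right (m := 1) (by norm_num)
    exact (this.clm_apply contDiff_const).differentiable (by norm_num)
  have h1 : HasDerivAt (fun t : ℝ => V (x + t • ei b)) (pd b V x) 0 :=
    line ((hV.differentiable (by simp)) x) b
  have h2 : HasDerivAt (fun t : ℝ => ∑ i, (x + t • ei b) i * pd i ψ (x + t • ei b))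
      (∑ i, ((ei b : E n) i * pd i ψ x + x i * hess ψ x b i)) 0 := by
    refine HasDerivAt.fun_sum fun i _ => ?_
    have h3 : HasDerivAt (fun t : ℝ => (x + t • ei b) i) ((ei b : E n) i) 0 := by
      have : (fun t : ℝ => (x + t • ei b) i) = fun t : ℝ => x i + t * (ei b : E n) i := by
        funext t
        simp
      rw [this]
      simpa using ((hasDerivAt_id (0 : ℝ)).mul_const ((ei b : E n) i)).const_add (x i)
    have h4 := h3.mul (line (hp1 i x) b)
    simp only [zero_smul, add_zero] at h4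
    exact h4
  have h5 : HasDerivAt (fun t : ℝ => Real.log (hess ψ (x + t • ei b)).det)
      ((hess ψ x)⁻¹ * Matrix.of (fun i j => D3 ψ b i j x)).trace 0 := by
    have h6 := hasDerivAt_log_det (N := fun t : ℝ => hess ψ (x + t • ei b))
      (N' := Matrix.of (fun i j => D3 ψ b i j x)) (t := 0)
      (fun i j => line (hx.hess i j) b) (det_pos h _).ne'
    simpa using h6
  have h7 := (h2.sub (line (hψ1 x) b)).sub h5
  have h8 : (fun t : ℝ => V (x + t • ei b)) = fun t : ℝ =>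
      (∑ i, (x + t • ei b) i * pd i ψ (x + t • ei b)) - ψ (x + t • ei b)
        - Real.log (hess ψ (x + t • ei b)).det := by
    funext t
    exact h.ma _
  rw [h8] at h1
  have h9 := h1.unique h7
  rw [h9, Finset.sum_add_distrib]
  have h10 : ∑ i, (ei b : E n) i * pd i ψ x = pd b ψ x := by
    simp [ei_apply]
  rw [h10]
  have h11 : ((hess ψ x)⁻¹ * Matrix.of (fun i j => D3 ψ b i j x)).trace
      = ∑ i, ∑ j, tau ψ x i j * D3 ψ b j i x := by
    rw [Matrix.trace]
    refine Finset.sum_congr rfl fun i _ => ?_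
    rw [Matrix.diag_apply, Matrix.mul_apply]
    rfl
  rw [h11]
  ring

/-- (ST) -/
theorem stein_pointwise (h : MM ψ V c C M) (hV : ContDiff ℝ (⊤ : ℕ∞) V) {x : E n}
    (hx : Good ψ x) (a : Fin n) :
    ∑ b, (pd b V x * tau ψ x a b - pd b (fun y => tau ψ y a b) x) = x a := by
  have h1 : ∀ b, pd b V x * tau ψ x a b - pd b (fun y => tau ψ y a b) x =
      (∑ i, x i * (tau ψ x a b * hess ψ x b i)) -
        (∑ i, ∑ j, tau ψ x a b * tau ψ x i j * D3 ψ b j i x) +
        ∑ k, ∑ l, tau ψ x a k * D3 ψ b k l x * tau ψ x l b := by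
    intro b
    rw [pd_V h hV hx, pd_tau h hx, sub_mul, Finset.sum_mul, sub_neg_eq_add]
    congr 1
    congr 1
    · refine Finset.sum_congr rfl fun i _ => by ring
    · rw [Finset.sum_mul]
      refine Finset.sum_congr rfl fun i _ => ?_
      rw [Finset.sum_mul]
      refine Finset.sum_congr rfl fun j _ => by ring
  rw [Finset.sum_congr rfl fun b _ => h1 b, Finset.sum_add_distrib, Finset.sum_sub_distrib]
  have h2 : ∑ b, ∑ i, x i * (tau ψ x a b * hess ψ x b i) = x a := by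
    rw [Finset.sum_comm]
    have : ∀ i, ∑ b, x i * (tau ψ x a b * hess ψ x b i) =
        x i * (1 : Matrix (Fin n) (Fin n) ℝ) a i := by
      intro i
      rw [← Finset.mul_sum, ← Matrix.mul_apply, tau_mul_hess h]
    rw [Finset.sum_congr rfl fun i _ => this i]
    simp [Matrix.one_apply]
  have h3 : ∑ b, ∑ i, ∑ j, tau ψ x a b * tau ψ x i j * D3 ψ b j i x =
      ∑ b, ∑ k, ∑ l, tau ψ x a k * D3 ψ b k l x * tau ψ x l b := by
    -- right side: k ↦ b, b ↦ i, l ↦ j
    conv_rhs => rw [Finset.sum_comm]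
    refine Finset.sum_congr rfl fun b _ => Finset.sum_congr rfl fun i _ =>
      Finset.sum_congr rfl fun j _ => ?_
    rw [D3_symm_left h hx i b j, D3_symm_right h b i j, tau_symm h x j i]
    ring
  rw [h2, h3]
  ring

/-- (SY) -/
theorem symm_pointwise (h : MM ψ V c C M) {x : E n} (hx : Good ψ x) (a b k : Fin n) :
    ∑ e, tau ψ x a e * pd e (fun y => tau ψ y b k) x =
      ∑ e, tau ψ x b e * pd e (fun y => tau ψ y a k) x := by
  have h1 : ∀ a b : Fin n, ∑ e, tau ψ x a e * pd e (fun y => tau ψ y b k) x =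
      -∑ e, ∑ p, ∑ q, tau ψ x a e * tau ψ x b p * D3 ψ e p q x * tau ψ x q k := by
    intro a b
    rw [← Finset.sum_neg_distrib]
    refine Finset.sum_congr rfl fun e _ => ?_
    rw [pd_tau h hx, mul_neg, Finset.mul_sum]
    congr 1
    refine Finset.sum_congr rfl fun p _ => ?_
    rw [Finset.mul_sum]
    refine Finset.sum_congr rfl fun q _ => by ring
  rw [h1, h1]
  congr 1
  conv_rhs => rw [Finset.sum_comm]
  refine Finset.sum_congr rfl fun e _ => Finset.sum_congr rfl fun p _ =>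
      Finset.sum_congr rfl fun q _ => ?_
  rw [D3_symm_left h hx e p q]
  ring

end Vale.Agent.P227.M.ID169
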