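import Vale.Agent.P227.M.ID.TGrowth
import Vale.Agent.P227.M.ID.Inst

/-!
# P227, block ID: the differential algebra of temperate functions in x-space

`SA n` = smooth functions on `EuclideanSpace ℝ (Fin n)`.  `pd b` = partial derivative as a
derivation of `SA n`; they commute.
-/

namespace Vale.Agent.P227.M.IDS

open MeasureTheory Function

open scoped ContDiff Nat

noncomputable section

variable {n : ℕ}

/-- The algebra of temperate functions. -/
def SA (n : ℕ) : Subalgebra ℝ (EuclideanSpace ℝ (Fin n) → ℝ) where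
  carrier := {f | ContDiff ℝ ∞ f}
  mul_mem' := by
    intro f g hf hg
    have hf' : ContDiff ℝ ∞ f := hf
    have hg' : ContDiff ℝ ∞ g := hg
    exact (hf'.mul hg' : ContDiff ℝ ∞ (fun x => f x * g x))
  add_mem' := by
    intro f g hf hg
    have hf' : ContDiff ℝ ∞ f := hf
    have hg' : ContDiff ℝ ∞ g := hg
    exact (hf'.add hg' : ContDiff ℝ ∞ (fun x => f x + g x))
  algebraMap_mem' := fun r =>
    (contDiff_const : ContDiff ℝ ∞ (fun _ : EuclideanSpace ℝ (Fin n) => r))

/-- Evaluation at a point. -/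
def ev (x : EuclideanSpace ℝ (Fin n)) : SA n →ₐ[ℝ] ℝ :=
  (Pi.evalAlgHom ℝ (fun _ : EuclideanSpace ℝ (Fin n) => ℝ) x).comp (SA n).val

@[simp] theorem ev_apply (x : EuclideanSpace ℝ (Fin n)) (f : SA n) : ev x f = f.1 x := rfl

theorem ta_ext {f g : SA n} (h : ∀ x, ev x f = ev x g) : f = g :=
  Subtype.ext (funext h)

/-- The basis vector `e_b`. -/
abbrev eb (b : Fin n) : EuclideanSpace ℝ (Fin n) := EuclideanSpace.single b (1 : ℝ)

theorem ta_cd (f : SA n) : ContDiff ℝ ∞ f.1 := by
  have h := f.2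
  exact h

theorem ta_diff (f : SA n) : Differentiable ℝ f.1 := (ta_cd f).differentiable (by simp)

theorem fderiv_apply_cd {f : EuclideanSpace ℝ (Fin n) → ℝ} (hf : ContDiff ℝ ∞ f)
    (v : EuclideanSpace ℝ (Fin n)) : ContDiff ℝ ∞ (fun x => fderiv ℝ f x v) :=
  (hf.fderiv_right (m := ∞) (by simp)).clm_apply contDiff_const

/-- The partial derivative `∂/∂x_b` as a derivation. -/
def pd (b : Fin n) : Derivation ℝ (SA n) (SA n) :=
  Derivation.mk'
    { toFun := fun f => ⟨fun x => fderiv ℝ f.1 x (eb b), fderiv_apply_cd f.2 _⟩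
      map_add' := by
        intro f g
        apply Subtype.ext
        funext x
        show fderiv ℝ (f.1 + g.1) x (eb b) = fderiv ℝ f.1 x (eb b) + fderiv ℝ g.1 x (eb b)
        rw [fderiv_add (ta_diff f x) (ta_diff g x)]
        rfl
      map_smul' := by
        intro r f
        apply Subtype.ext
        funext x
        show fderiv ℝ (r • f.1) x (eb b) = r • fderiv ℝ f.1 x (eb b)
        rw [fderiv_const_smul (ta_diff f x)]
        rfl }
    (by
      intro f g
      apply Subtype.ext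
      funext x
      show fderiv ℝ (f.1 * g.1) x (eb b) = f.1 x * fderiv ℝ g.1 x (eb b)
        + g.1 x * fderiv ℝ f.1 x (eb b)
      rw [fderiv_mul (ta_diff f x) (ta_diff g x)]
      simp)

theorem pd_apply (b : Fin n) (f : SA n) (x : EuclideanSpace ℝ (Fin n)) :
    (pd b f).1 x = fderiv ℝ f.1 x (eb b) := rfl

/-- Partial derivatives commute. -/
theorem pd_comm (a b : Fin n) (f : SA n) : pd a (pd b f) = pd b (pd a f) := by
  apply Subtype.ext
  funext x
  have hd : DifferentiableAt ℝ (fderiv ℝ f.1) x :=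
    (((ta_cd f).fderiv_right (m := 1) (by norm_cast)).differentiable (by simp)) x
  have h1 : ∀ v w : EuclideanSpace ℝ (Fin n),
      fderiv ℝ (fun y => fderiv ℝ f.1 y v) x w = fderiv ℝ (fderiv ℝ f.1) x w v := by
    intro v w
    rw [fderiv_clm_apply hd (differentiableAt_const v)]
    simp
  have hs : IsSymmSndFDerivAt ℝ f.1 x := by
    apply ContDiffAt.isSymmSndFDerivAt (n := 2) ((ta_cd f).contDiffAt.of_le (by norm_cast))
    simp
  rw [pd_apply, pd_apply]
  show fderiv ℝ (fun y => fderiv ℝ f.1 y (eb b)) x (eb a)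
    = fderiv ℝ (fun y => fderiv ℝ f.1 y (eb a)) x (eb b)
  rw [h1, h1]
  exact hs _ _

/-- The coordinate function. -/
def X (a : Fin n) : SA n :=
  ⟨fun x => x a, ((EuclideanSpace.proj (𝕜 := ℝ) a).contDiff :
    ContDiff ℝ ∞ (fun x : EuclideanSpace ℝ (Fin n) => x a))⟩

theorem pd_X (a b : Fin n) : pd b (X a) = if a = b then 1 else 0 := by
  apply Subtype.ext
  funext x
  have h1 : HasFDerivAt (fun x : EuclideanSpace ℝ (Fin n) => x a)
      (EuclideanSpace.proj (𝕜 := ℝ) a) x := (EuclideanSpace.proj (𝕜 := ℝ) a).hasFDerivAt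
  rw [pd_apply]
  show fderiv ℝ (fun x : EuclideanSpace ℝ (Fin n) => x a) x (eb b) = _
  rw [h1.fderiv]
  by_cases h : a = b
  · subst h; simp
  · simp [h]

/-- Hessian matrix over the algebra. -/
def hess (ψ : SA n) : Matrix (Fin n) (Fin n) (SA n) := fun a b => pd a (pd b ψ)

theorem hess_symm (ψ : SA n) (a b : Fin n) : hess ψ a b = hess ψ b a := pd_comm a b ψ

theorem pd_hess (ψ : SA n) (a b c : Fin n) : pd a (hess ψ b c) = pd b (hess ψ a c) := by
  unfold hess
  exact pd_comm a b _

end

end Vale.Agent.P227.M.IDS
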