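import Vale.Agent.P227.M.ID.SInst

/-!
# P227, block ID: the metric `tau = (D^2 psi)^{-1}` and the commuting derivations
-/

namespace Vale.Agent.P227.M.IDS

open MeasureTheory Function

open scoped ContDiff Nat

noncomputable section

variable {n : ℕ}

/-- A smooth potential with pinched Hessian. -/
structure Dat (n : ℕ) where
  ψ : SA n
  c : ℝ
  C : ℝ
  hc : 0 < c
  lo : ∀ (x : EuclideanSpace ℝ (Fin n)) (v : Fin n → ℝ),
    c * ∑ i, v i ^ 2 ≤ ∑ i, ∑ j, v i * (hess ψ i j).1 x * v j
  hi : ∀ (x : EuclideanSpace ℝ (Fin n)) (v : Fin n → ℝ),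
    ∑ i, ∑ j, v i * (hess ψ i j).1 x * v j ≤ C * ∑ i, v i ^ 2

namespace Dat

variable (P : Dat n)

/-- The determinant of the Hessian. -/
def dt : SA n := (hess P.ψ).det

/-- The Hessian at a point, as a real matrix. -/
def hx (x : EuclideanSpace ℝ (Fin n)) : Matrix (Fin n) (Fin n) ℝ :=
  fun i j => (hess P.ψ i j).1 x

theorem dt_apply (x : EuclideanSpace ℝ (Fin n)) : P.dt.1 x = (P.hx x).det := by
  have : ev x ((hess P.ψ).det) = ((hess P.ψ).map (ev x)).det := by
    have := (ev x : SA n →ₐ[ℝ] ℝ).toRingHom.map_det (hess P.ψ)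
    exact this
  exact this

theorem hx_herm (x : EuclideanSpace ℝ (Fin n)) : (P.hx x).IsHermitian := by
  ext i j
  simp only [hx, Matrix.conjTranspose_apply, star_trivial]
  rw [hess_symm]

theorem dt_lo (x : EuclideanSpace ℝ (Fin n)) : P.c ^ n ≤ P.dt.1 x := by
  rw [dt_apply]
  exact (IDI.det_bounds (P.hx x) (P.hx_herm x) P.c P.C P.hc (P.lo x) (P.hi x)).1

theorem dt_hi (x : EuclideanSpace ℝ (Fin n)) : P.dt.1 x ≤ P.C ^ n := by
  rw [dt_apply]
  exact (IDI.det_bounds (P.hx x) (P.hx_herm x) P.c P.C P.hc (P.lo x) (P.hi x)).2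

theorem cn_pos : 0 < P.c ^ n := pow_pos P.hc n

theorem dt_pos (x : EuclideanSpace ℝ (Fin n)) : 0 < P.dt.1 x := P.cn_pos.trans_le (P.dt_lo x)

/-- Inverse of the determinant. -/
def dinv : SA n := ⟨fun x => (P.dt.1 x)⁻¹, ContDiff.inv (ta_cd P.dt) fun x => (P.dt_pos x).ne'⟩

theorem dinv_mul : P.dinv * P.dt = 1 := by
  apply ta_ext
  intro x
  show (P.dt.1 x)⁻¹ * P.dt.1 x = 1
  exact inv_mul_cancel₀ (P.dt_pos x).ne'

/-- Logarithm of the determinant. -/
def ldt : SA n := ⟨fun x => Real.log (P.dt.1 x), ContDiff.log (ta_cd P.dt) fun x => (P.dt_pos x).ne'⟩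

/-- The inverse Hessian. -/
def tau : Matrix (Fin n) (Fin n) (SA n) := P.dinv • (hess P.ψ).adjugate

theorem tau_mul : P.tau * hess P.ψ = 1 := by
  rw [tau, Matrix.smul_mul, Matrix.adjugate_mul, smul_smul]
  have := P.dinv_mul
  rw [dt] at this
  rw [this, one_smul]

theorem mul_tau : hess P.ψ * P.tau = 1 := by
  rw [tau, Matrix.mul_smul, Matrix.mul_adjugate, smul_smul]
  have := P.dinv_mul
  rw [dt] at this
  rw [this, one_smul]

theorem hess_transpose : (hess P.ψ).transpose = hess P.ψ := by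
  ext i j
  rw [Matrix.transpose_apply, hess_symm]

theorem tau_transpose : P.tau.transpose = P.tau := by
  rw [tau, Matrix.transpose_smul, Matrix.adjugate_transpose, hess_transpose]

theorem tau_symm (a b : Fin n) : P.tau a b = P.tau b a := by
  conv_lhs => rw [← P.tau_transpose]
  rfl

/-- Leibniz rule for matrices. -/
theorem map_mul_der (D : Derivation ℝ (SA n) (SA n)) (M N : Matrix (Fin n) (Fin n) (SA n)) :
    (M * N).map D = M.map D * N + M * N.map D := by
  ext i j : 1
  simp only [Matrix.map_apply, Matrix.mul_apply, Matrix.add_apply, map_sum, D.leibniz,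
    smul_eq_mul]
  rw [← Finset.sum_add_distrib]
  refine Finset.sum_congr rfl fun k _ => ?_
  ring

theorem der_tau_mat (D : Derivation ℝ (SA n) (SA n)) :
    P.tau.map D = -(P.tau * (hess P.ψ).map D * P.tau) := by
  have h := map_mul_der D P.tau (hess P.ψ)
  rw [tau_mul] at h
  have h1 : (1 : Matrix (Fin n) (Fin n) (SA n)).map D = 0 := by
    ext i j : 1
    rw [Matrix.map_apply, Matrix.one_apply, Matrix.zero_apply]
    split_ifs <;> simp
  rw [h1] at h
  have h2 : P.tau.map D * hess P.ψ = -(P.tau * (hess P.ψ).map D) :=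
    eq_neg_of_add_eq_zero_left h.symm
  calc P.tau.map D = P.tau.map D * (hess P.ψ * P.tau) := by rw [mul_tau, Matrix.mul_one]
    _ = (P.tau.map D * hess P.ψ) * P.tau := by rw [Matrix.mul_assoc]
    _ = _ := by rw [h2, Matrix.neg_mul]

theorem der_tau (D : Derivation ℝ (SA n) (SA n)) (a b : Fin n) :
    D (P.tau a b) = -∑ f, ∑ e, P.tau a e * D (hess P.ψ e f) * P.tau f b := by
  have h := congrFun (congrFun (P.der_tau_mat D) a) b
  rw [Matrix.map_apply] at h
  rw [h]
  simp only [Matrix.neg_apply, Matrix.mul_apply, Matrix.map_apply, Finset.sum_mul]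

/-- `D log det = tr(tau D hess)`. -/
theorem der_ldt (b : Fin n) :
    pd b P.ldt = ∑ i, ∑ k, P.tau i k * pd b (hess P.ψ k i) := by
  have h1 : pd b P.ldt = P.dinv * pd b P.dt := by
    apply ta_ext
    intro x
    show fderiv ℝ (fun y => Real.log (P.dt.1 y)) x (eb b)
      = (P.dt.1 x)⁻¹ * fderiv ℝ P.dt.1 x (eb b)
    have := ((ta_diff P.dt x).hasFDerivAt.log (P.dt_pos x).ne').fderiv
    rw [this]
    simp
  rw [h1, dt, IDI.derivation_det, Finset.mul_sum]
  refine Finset.sum_congr rfl fun i _ => ?_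
  rw [Finset.mul_sum]
  refine Finset.sum_congr rfl fun k _ => ?_
  rw [tau, Matrix.smul_apply, smul_eq_mul]
  ring

/-- The dual potential in x-coordinates. -/
def phi : SA n := ∑ a, X a * pd a P.ψ - P.ψ

/-- The potential `V` of the measure. -/
def V : SA n := P.phi - P.ldt

/-- The commuting derivations `D_a = sum_b tau_ab d/dx_b`. -/
def D (a : Fin n) : Derivation ℝ (SA n) (SA n) := ∑ b, P.tau a b • pd b

theorem D_apply (a : Fin n) (f : SA n) : P.D a f = ∑ b, P.tau a b * pd b f := by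
  have h := congrFun (map_sum (Derivation.coeFnAddMonoidHom : Derivation ℝ (SA n) (SA n) →+ _)
    (fun b => P.tau a b • pd b) Finset.univ) f
  rw [Finset.sum_apply] at h
  exact h

theorem D_X (a b : Fin n) : P.D a (X b) = P.tau a b := by
  rw [D_apply]
  simp only [pd_X, mul_ite, mul_one, mul_zero]
  simp

theorem pd_phi (b : Fin n) : pd b P.phi = ∑ a, X a * hess P.ψ b a := by
  rw [phi, map_sub, map_sum]
  have h1 : ∀ a, pd b (X a * pd a P.ψ) = X a * hess P.ψ b a + (if a = b then pd b P.ψ else 0) := by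
    intro a
    rw [(pd b).leibniz, smul_eq_mul, smul_eq_mul, pd_X]
    congr 1
    by_cases h : a = b
    · subst h; simp
    · simp [h]
  rw [Finset.sum_congr rfl fun a _ => h1 a, Finset.sum_add_distrib]
  simp

theorem D_phi (a : Fin n) : P.D a P.phi = X a := by
  rw [D_apply]
  simp only [pd_phi, Finset.mul_sum]
  rw [Finset.sum_comm]
  have h : ∀ c, ∑ b, P.tau a b * (X c * hess P.ψ b c) = X c * (if a = c then 1 else 0) := by
    intro c
    have h1 := congrFun (congrFun P.tau_mul a) c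
    rw [Matrix.mul_apply, Matrix.one_apply] at h1
    rw [← h1, Finset.mul_sum]
    exact Finset.sum_congr rfl fun b _ => by ring
  rw [Finset.sum_congr rfl fun c _ => h c]
  simp

theorem D_D_phi (a b : Fin n) : P.D a (P.D b P.phi) = P.tau a b := by
  rw [D_phi, D_X]

/-- The derivations commute. -/
theorem D_comm (a c : Fin n) (f : SA n) : P.D a (P.D c f) = P.D c (P.D a f) := by
  have key : ∀ a c : Fin n, P.D a (P.D c f)
      = ∑ b, ∑ d, P.tau a b * P.tau c d * pd b (pd d f)
        - ∑ b, ∑ d, ∑ k, ∑ e, P.tau a b * P.tau c e * P.tau k d * pd b (hess P.ψ e k) * pd d f := by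
    intro a c
    rw [D_apply, ← Finset.sum_sub_distrib]
    refine Finset.sum_congr rfl fun b _ => ?_
    rw [D_apply, map_sum, Finset.mul_sum, ← Finset.sum_sub_distrib]
    refine Finset.sum_congr rfl fun d _ => ?_
    rw [(pd b).leibniz, smul_eq_mul, smul_eq_mul, P.der_tau (pd b) c d]
    have h1 : ∑ k, ∑ e, P.tau a b * P.tau c e * P.tau k d * pd b (hess P.ψ e k) * pd d f
        = P.tau a b * pd d f * ∑ k, ∑ e, P.tau c e * pd b (hess P.ψ e k) * P.tau k d := by
      rw [Finset.mul_sum]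
      refine Finset.sum_congr rfl fun k _ => ?_
      rw [Finset.mul_sum]
      exact Finset.sum_congr rfl fun e _ => by ring
    rw [h1]
    ring
  rw [key a c, key c a]
  congr 1
  · rw [Finset.sum_comm]
    refine Finset.sum_congr rfl fun d _ => Finset.sum_congr rfl fun b _ => ?_
    rw [pd_comm b d]
    ring
  · -- swap b and e
    have h2 : ∀ a c : Fin n,
        ∑ b, ∑ d, ∑ k, ∑ e, P.tau a b * P.tau c e * P.tau k d * pd b (hess P.ψ e k) * pd d f
        = ∑ d, ∑ k, ∑ b, ∑ e, P.tau a b * P.tau c e * P.tau k d * pd b (hess P.ψ e k) * pd d f := by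
      intro a c
      rw [Finset.sum_comm]
      refine Finset.sum_congr rfl fun d _ => ?_
      rw [Finset.sum_comm]
    rw [h2 a c, h2 c a]
    refine Finset.sum_congr rfl fun d _ => Finset.sum_congr rfl fun k _ => ?_
    rw [Finset.sum_comm]
    refine Finset.sum_congr rfl fun e _ => Finset.sum_congr rfl fun b _ => ?_
    rw [pd_hess P.ψ b e k]
    ring

end Dat

end

end Vale.Agent.P227.M.IDS
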