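import Vale.Agent.P227.M.ID.SInst2
import Vale.Agent.P227.M.ID.ToI

/-!
# P227, block ID: all smooth functions, ideal of compactly supported ones, `SysI n (SA n)`
-/

namespace Vale.Agent.P227.M.IDS

open MeasureTheory Function

open scoped ContDiff Nat

noncomputable section

variable {n : ℕ}

/-- The ideal of compactly supported smooth functions. -/
def Ic (n : ℕ) : Ideal (SA n) where
  carrier := {f | HasCompactSupport f.1}
  add_mem' := by
    intro f g hf hg
    exact HasCompactSupport.add hf hg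
  zero_mem' := HasCompactSupport.zero
  smul_mem' := by
    intro c f hf
    exact HasCompactSupport.mul_left hf

theorem pd_mem (b : Fin n) (f : SA n) (hf : f ∈ Ic n) : pd b f ∈ Ic n := by
  have h : HasCompactSupport f.1 := hf
  exact h.fderiv_apply ℝ (eb b)

theorem mem_Ic {f : SA n} : f ∈ Ic n ↔ HasCompactSupport f.1 := Iff.rfl

namespace Dat

variable (P : Dat n)

theorem cont_exp : Continuous fun x => Real.exp (-P.V.1 x) :=
  Real.continuous_exp.comp (ta_diff P.V).continuous.neg

theorem integrable_c (f : SA n) (hf : f ∈ Ic n) :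
    Integrable (fun x => f.1 x * Real.exp (-P.V.1 x)) := by
  apply Continuous.integrable_of_hasCompactSupport
  · exact (ta_diff f).continuous.mul P.cont_exp
  · exact HasCompactSupport.mul_right hf

/-- The functional on the compactly supported functions. -/
def Ec : (Ic n).restrictScalars ℝ →ₗ[ℝ] ℝ where
  toFun f := ∫ x, f.1.1 x * Real.exp (-P.V.1 x)
  map_add' f g := by
    rw [← integral_add (P.integrable_c f.1 f.2) (P.integrable_c g.1 g.2)]
    congr 1
    funext x
    show (f.1.1 x + g.1.1 x) * _ = _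
    ring
  map_smul' r f := by
    rw [RingHom.id_apply, smul_eq_mul, ← integral_const_mul]
    congr 1
    funext x
    show (r * f.1.1 x) * _ = _
    ring

/-- A linear extension to all smooth functions. -/
def Ev : SA n →ₗ[ℝ] ℝ := (LinearMap.exists_extend P.Ec).choose

theorem Ev_apply (f : SA n) (hf : f ∈ Ic n) : P.Ev f = ∫ x, f.1 x * Real.exp (-P.V.1 x) := by
  have h := (LinearMap.exists_extend P.Ec).choose_spec
  have h2 := LinearMap.congr_fun h (⟨f, hf⟩ : (Ic n).restrictScalars ℝ)
  exact h2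

theorem Ev_nonneg (f : SA n) (hf : f ∈ Ic n) (h : ∀ x, 0 ≤ f.1 x) : 0 ≤ P.Ev f := by
  rw [P.Ev_apply f hf]
  exact integral_nonneg fun x => mul_nonneg (h x) (Real.exp_pos _).le

/-- Flat integration by parts. -/
theorem Ev_pd (b : Fin n) (f : SA n) (hf : f ∈ Ic n) :
    P.Ev (pd b f) = P.Ev (pd b P.V * f) := by
  have hexp : ∀ x, HasFDerivAt (fun y => Real.exp (-P.V.1 y))
      (Real.exp (-P.V.1 x) • -(fderiv ℝ P.V.1 x)) x := fun x =>
    ((ta_diff P.V x).hasFDerivAt.neg).exp
  have hfd : ∀ x, fderiv ℝ (fun y => Real.exp (-P.V.1 y)) x (eb b)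
      = -((pd b P.V).1 x * Real.exp (-P.V.1 x)) := by
    intro x
    rw [(hexp x).fderiv, pd_apply]
    simp
    ring
  have hm : pd b P.V * f ∈ Ic n := Ideal.mul_mem_left _ _ hf
  have hibp := integral_mul_fderiv_eq_neg_fderiv_mul_of_integrable (μ := volume)
    (f := f.1) (g := fun y => Real.exp (-P.V.1 y)) (v := eb b) ?_ ?_ ?_ (fun x _ => ta_diff f x)
    (fun x _ => (hexp x).differentiableAt)
  · rw [P.Ev_apply _ (pd_mem b f hf), P.Ev_apply _ hm]
    have h2 : (∫ x, f.1 x * fderiv ℝ (fun y => Real.exp (-P.V.1 y)) x (eb b))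
        = -∫ x, (pd b P.V * f).1 x * Real.exp (-P.V.1 x) := by
      rw [← integral_neg]
      congr 1
      funext x
      rw [hfd x]
      show _ = -(((pd b P.V).1 x * f.1 x) * _)
      ring
    rw [h2] at hibp
    have h3 : (∫ x, fderiv ℝ f.1 x (eb b) * Real.exp (-P.V.1 x))
        = ∫ x, (pd b f).1 x * Real.exp (-P.V.1 x) := rfl
    rw [h3] at hibp
    linarith
  · exact P.integrable_c (pd b f) (pd_mem b f hf)
  · have := (P.integrable_c _ hm).neg
    refine this.congr (Filter.Eventually.of_forall fun x => ?_)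
    show -(((pd b P.V).1 x * f.1 x) * _)
      = f.1 x * fderiv ℝ (fun y => Real.exp (-P.V.1 y)) x (eb b)
    rw [hfd x]
    ring
  · exact P.integrable_c f hf

/-- `sum_b (tau_ab d_b V - d_b tau_ab) = x_a`. -/
theorem div_tau (a : Fin n) : ∑ b, (P.tau a b * pd b P.V - pd b (P.tau a b)) = X a := by
  have h1 : ∀ b, P.tau a b * pd b P.V - pd b (P.tau a b)
      = P.tau a b * pd b P.phi
        - (P.tau a b * ∑ i, ∑ k, P.tau i k * pd b (hess P.ψ k i))
        + ∑ f, ∑ e, P.tau a e * pd b (hess P.ψ e f) * P.tau f b := by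
    intro b
    rw [V, map_sub, P.der_ldt b, P.der_tau (pd b) a b]
    ring
  rw [Finset.sum_congr rfl fun b _ => h1 b, Finset.sum_add_distrib, Finset.sum_sub_distrib]
  have h2 : ∑ b, P.tau a b * pd b P.phi = X a := by
    rw [← P.D_apply, P.D_phi]
  rw [h2]
  have h3 : ∑ b, P.tau a b * ∑ i, ∑ k, P.tau i k * pd b (hess P.ψ k i)
      = ∑ b, ∑ f, ∑ e, P.tau a e * pd b (hess P.ψ e f) * P.tau f b := by
    -- rename: LHS sum over b,i,k tau_ab tau_ik psi_{bki}; RHS sum over b,f,e tau_ae tau_fb psi_{bef}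
    have hL : ∑ b, P.tau a b * ∑ i, ∑ k, P.tau i k * pd b (hess P.ψ k i)
        = ∑ b, ∑ i, ∑ k, P.tau a b * P.tau i k * pd b (hess P.ψ k i) := by
      refine Finset.sum_congr rfl fun b _ => ?_
      rw [Finset.mul_sum]
      refine Finset.sum_congr rfl fun i _ => ?_
      rw [Finset.mul_sum]
      exact Finset.sum_congr rfl fun k _ => by ring
    rw [hL]
    -- RHS: move e outside
    have hR : ∑ b, ∑ f, ∑ e, P.tau a e * pd b (hess P.ψ e f) * P.tau f b
        = ∑ e, ∑ f, ∑ b, P.tau a e * pd b (hess P.ψ e f) * P.tau f b := by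
      rw [Finset.sum_comm]
      rw [Finset.sum_congr rfl fun f _ => Finset.sum_comm]
      rw [Finset.sum_comm]
    rw [hR]
    refine Finset.sum_congr rfl fun e _ => Finset.sum_congr rfl fun f _ =>
      Finset.sum_congr rfl fun b _ => ?_
    rw [pd_hess P.ψ e b f]
    ring
  rw [h3]
  ring

/-- Integration by parts for `D_a`. -/
theorem Ev_D (a : Fin n) (f : SA n) (hf : f ∈ Ic n) : P.Ev (P.D a f) = P.Ev (X a * f) := by
  rw [D_apply, map_sum, ← P.div_tau a, Finset.sum_mul, map_sum]
  refine Finset.sum_congr rfl fun b _ => ?_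
  have h1 : P.tau a b * pd b f = pd b (P.tau a b * f) - pd b (P.tau a b) * f := by
    rw [(pd b).leibniz, smul_eq_mul, smul_eq_mul]
    ring
  rw [h1, map_sub, P.Ev_pd b _ (Ideal.mul_mem_left _ _ hf), ← map_sub]
  congr 1
  ring

theorem D_mem (a : Fin n) (f : SA n) (hf : f ∈ Ic n) : P.D a f ∈ Ic n := by
  rw [D_apply]
  exact Ideal.sum_mem _ fun b _ => Ideal.mul_mem_left _ _ (pd_mem b f hf)

/-- The system of helper969 realised on smooth functions. -/
def sysI : ID.SysI n (SA n) where
  D := P.D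
  comm := P.D_comm
  phi := P.phi
  sg := hess P.ψ
  sg_symm := hess_symm P.ψ
  inv := by
    intro a c
    have h1 : ∀ b, P.D b (P.D c P.phi) = P.tau b c := fun b => P.D_D_phi b c
    simp only [h1]
    have := congrFun (congrFun P.mul_tau a) c
    rw [Matrix.mul_apply, Matrix.one_apply] at this
    exact this
  E := P.Ev
  I := Ic n
  I_D := P.D_mem
  ibp := by
    intro a g hg
    rw [P.D_phi]
    exact P.Ev_D a g hg

end Dat

end

end Vale.Agent.P227.M.IDS
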