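import Vale.Agent.P227.M.ID.SInst3
import Vale.Agent.P227.M.ID.KeySmStmt

/-!
# P227, block ID: the system `P.sys` in the terms of `M/Defs.lean`
-/

namespace Vale.Agent.P227.M.IDS

open MeasureTheory Function

open scoped ContDiff Nat

noncomputable section

variable {n : ℕ}

theorem pd_val (b : Fin n) (f : SA n) : (pd b f).1 = M.pd b f.1 := rfl

theorem hess_val (f : SA n) (x : E n) (a b : Fin n) : (hess f a b).1 x = M.hess f.1 x a b := rfl

theorem sum_val {ι : Type*} (s : Finset ι) (f : ι → SA n) (x : E n) :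
    (∑ i ∈ s, f i : SA n).1 x = ∑ i ∈ s, (f i).1 x := map_sum (ev x) f s

theorem mul_val (f g : SA n) (x : E n) : (f * g).1 x = f.1 x * g.1 x := rfl

theorem sub_val (f g : SA n) (x : E n) : (f - g).1 x = f.1 x - g.1 x := rfl

theorem add_val (f g : SA n) (x : E n) : (f + g).1 x = f.1 x + g.1 x := rfl

/-- Test functions. -/
def ofTest (f : E n → ℝ) (hf : Test f) : SA n := ⟨f, hf.1⟩

theorem ofTest_mem (f : E n → ℝ) (hf : Test f) : ofTest f hf ∈ Ic n := hf.2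

namespace Dat

variable (P : Dat n)

theorem hx_eq (x : E n) : P.hx x = M.hess P.ψ.1 x := rfl

/-- The inverse Hessian at a point. -/
def tauM (x : E n) : Matrix (Fin n) (Fin n) ℝ := fun a b => (P.tau a b).1 x

theorem tau_val_mul (x : E n) : P.tauM x * M.hess P.ψ.1 x = 1 := by
  ext a b
  have h := congrFun (congrFun P.tau_mul a) b
  rw [Matrix.mul_apply, Matrix.one_apply] at h
  have h2 := congrArg (ev x) h
  rw [map_sum] at h2
  rw [Matrix.mul_apply, Matrix.one_apply]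
  have h3 : ev x (if a = b then (1 : SA n) else 0) = if a = b then (1 : ℝ) else 0 := by
    split_ifs
    · exact map_one _
    · exact map_zero _
  rw [h3] at h2
  rw [← h2]
  rfl

theorem tau_val_mat (x : E n) : M.tau P.ψ.1 x = P.tauM x := by
  rw [M.tau]
  exact Matrix.inv_eq_left_inv (P.tau_val_mul x)

theorem tau_val (x : E n) (a b : Fin n) : (P.tau a b).1 x = M.tau P.ψ.1 x a b := by
  rw [P.tau_val_mat]
  rfl

theorem V_val (x : E n) : P.V.1 x
    = (∑ i, x i * M.pd i P.ψ.1 x) - P.ψ.1 x - Real.log (M.hess P.ψ.1 x).det := by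
  have h1 : P.V.1 x = P.phi.1 x - P.ldt.1 x := rfl
  have h2 : P.ldt.1 x = Real.log (P.dt.1 x) := rfl
  rw [h1, h2, P.dt_apply, hx_eq]
  congr 1
  rw [phi, sub_val, sum_val]
  rfl

theorem sys_D (a : Fin n) : P.sysI.D a = P.D a := rfl

theorem sys_x (a : Fin n) : P.sysI.x a = X a := P.D_phi a

theorem sys_t (a b : Fin n) : P.sysI.t a b = P.tau a b := P.D_D_phi a b

theorem sys_dd (a : Fin n) (f : SA n) : P.sysI.dd a f = pd a f := by
  rw [ID.SysI.dd_apply]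
  show ∑ b, hess P.ψ a b * P.D b f = pd a f
  simp only [D_apply, Finset.mul_sum]
  rw [Finset.sum_comm]
  have h : ∀ c, ∑ b, hess P.ψ a b * (P.tau b c * pd c f) = (if a = c then 1 else 0) * pd c f := by
    intro c
    have h1 := congrFun (congrFun P.mul_tau a) c
    rw [Matrix.mul_apply, Matrix.one_apply] at h1
    rw [← h1, Finset.sum_mul]
    exact Finset.sum_congr rfl fun b _ => by ring
  rw [Finset.sum_congr rfl fun c _ => h c]
  simp

theorem sys_V (a : Fin n) : P.sysI.V a = pd a P.V := by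
  unfold ID.SysI.V
  have h1 : ∀ b, P.sysI.x b * P.sysI.sg a b - P.sysI.D b (P.sysI.sg a b)
      = X b * hess P.ψ a b - ∑ c, P.tau b c * pd a (hess P.ψ c b) := by
    intro b
    rw [P.sys_x]
    show X b * hess P.ψ a b - P.D b (hess P.ψ a b) = _
    rw [D_apply]
    congr 1
    refine Finset.sum_congr rfl fun c _ => ?_
    rw [pd_hess P.ψ c a b]
  rw [Finset.sum_congr rfl fun b _ => h1 b, Finset.sum_sub_distrib, V, map_sub, P.pd_phi,
    P.der_ldt]

theorem sys_H (a b : Fin n) : P.sysI.H a b = hess P.V a b := by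
  unfold ID.SysI.H
  rw [P.sys_V, P.sys_dd]
  rfl

theorem D_val (a : Fin n) (f : SA n) (x : E n) : (P.D a f).1 x = fld P.ψ.1 f.1 a x := by
  rw [D_apply, sum_val]
  unfold fld
  refine Finset.sum_congr rfl fun b _ => ?_
  rw [mul_val, P.tau_val]
  rfl

theorem Lo_val (f : SA n) (x : E n) : (P.sysI.Lo f).1 x = Lop P.ψ.1 f.1 x := by
  rw [ID.SysI.Lo_expand, sub_val, sum_val, sum_val]
  unfold Lop
  congr 1
  · refine Finset.sum_congr rfl fun b _ => ?_
    rw [P.sys_dd]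
    show (P.D b (pd b f)).1 x = _
    rw [P.D_val]
    unfold fld
    refine Finset.sum_congr rfl fun c _ => ?_
    rw [← hess_val, hess_symm]
    rfl
  · refine Finset.sum_congr rfl fun b _ => ?_
    rw [P.sys_dd, P.sys_x]
    rfl

/-- `J = tau * hess F` -/
theorem J_val (v : SA n) (x : E n) (a c : Fin n) :
    (P.sysI.J v a c).1 x = (M.tau P.ψ.1 x * M.hess v.1 x) a c := by
  unfold ID.SysI.J
  rw [P.sys_dd]
  show (P.D a (pd c v)).1 x = _
  rw [D_apply, sum_val, Matrix.mul_apply]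
  refine Finset.sum_congr rfl fun b _ => ?_
  rw [mul_val, P.tau_val]
  rfl

/-- `K = tau * hess F * tau` -/
theorem K_val (v : SA n) (x : E n) (c b : Fin n) :
    (P.sysI.K v c b).1 x = (M.tau P.ψ.1 x * M.hess v.1 x * M.tau P.ψ.1 x) c b := by
  unfold ID.SysI.K
  rw [sum_val, Matrix.mul_apply]
  refine Finset.sum_congr rfl fun g _ => ?_
  rw [mul_val, P.J_val, P.sys_t, P.tau_val]

theorem lin_mem (u : SA n) (hu : u ∈ Ic n) (a : Fin n) : P.sysI.D a u ∈ Ic n :=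
  P.sysI.I_D a u hu

theorem dd_mem (u : SA n) (hu : u ∈ Ic n) (a : Fin n) : P.sysI.dd a u ∈ Ic n := by
  rw [P.sys_dd]
  exact pd_mem a u hu

theorem Lo_mem (u : SA n) (hu : u ∈ Ic n) : P.sysI.Lo u ∈ Ic n := by
  rw [ID.SysI.Lo_expand]
  refine Ideal.sub_mem _ (Ideal.sum_mem _ fun b _ => ?_) (Ideal.sum_mem _ fun b _ => ?_)
  · exact P.lin_mem _ (P.dd_mem u hu b) b
  · exact Ideal.mul_mem_left _ _ (P.dd_mem u hu b)

theorem J_mem (u : SA n) (hu : u ∈ Ic n) (a b : Fin n) : P.sysI.J u a b ∈ Ic n :=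
  P.lin_mem _ (P.dd_mem u hu b) a

theorem K_mem (u : SA n) (hu : u ∈ Ic n) (a b : Fin n) : P.sysI.K u a b ∈ Ic n :=
  Ideal.sum_mem _ fun c _ => Ideal.mul_mem_right _ _ (P.J_mem u hu a c)

theorem up_mem (Y : Fin n → SA n) (hY : ∀ a, Y a ∈ Ic n) (a : Fin n) : P.sysI.up Y a ∈ Ic n :=
  Ideal.sum_mem _ fun b _ => Ideal.mul_mem_left _ _ (hY b)

theorem Q3_mem (v u : SA n) (hv : v ∈ Ic n) (hu : u ∈ Ic n) : P.sysI.Q3' v u ∈ Ic n :=
  Ideal.sum_mem _ fun a _ => Ideal.sum_mem _ fun c _ => Ideal.mul_mem_right _ _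
    (P.up_mem _ (fun b => Ideal.sub_mem _ (P.lin_mem _ (P.lin_mem u hu c) b)
      (P.K_mem v hv b c)) a)

theorem W_mem (v : SA n) (hv : v ∈ Ic n) (a b c : Fin n) : P.sysI.W v a b c ∈ Ic n :=
  P.lin_mem _ (P.lin_mem _ (P.dd_mem v hv c) b) a

theorem Q21_mem (v : SA n) (hv : v ∈ Ic n) : P.sysI.Q2 v + P.sysI.Q1 v ∈ Ic n :=
  Ideal.add_mem _
    (Ideal.sum_mem _ fun a _ => Ideal.sum_mem _ fun b _ => Ideal.sum_mem _ fun c _ =>
      Ideal.mul_mem_right _ _ (P.W_mem v hv b a c))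
    (Ideal.sum_mem _ fun a _ => Ideal.sum_mem _ fun b _ => Ideal.sum_mem _ fun c _ =>
      Ideal.mul_mem_right _ _ (P.W_mem v hv b a c))

theorem T1_val (u : SA n) (hu : u ∈ Ic n) : P.sysI.T1' u = ∫ x, (∑ a, ∑ b, M.hess P.V.1 x a b
    * fld P.ψ.1 u.1 a x * fld P.ψ.1 u.1 b x) * Real.exp (-P.V.1 x) := by
  unfold ID.SysI.T1'
  have h : ∑ a, ∑ b, P.sysI.E (P.sysI.H a b * P.sysI.D a u * P.sysI.D b u)
      = P.Ev (∑ a, ∑ b, P.sysI.H a b * P.sysI.D a u * P.sysI.D b u) := by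
    simp only [map_sum]
    rfl
  rw [h, Ev_apply _ _ (Ideal.sum_mem _ fun a _ => Ideal.sum_mem _ fun b _ =>
    Ideal.mul_mem_left _ _ (P.lin_mem u hu b))]
  congr 1
  funext x
  congr 1
  rw [sum_val]
  refine Finset.sum_congr rfl fun a _ => ?_
  rw [sum_val]
  refine Finset.sum_congr rfl fun b _ => ?_
  rw [mul_val, mul_val, P.sys_H]
  show (hess P.V a b).1 x * (P.D a u).1 x * (P.D b u).1 x = _
  rw [P.D_val, P.D_val]
  rfl

theorem T2_val (v : SA n) (hv : v ∈ Ic n) :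
    P.sysI.T2 v = ∫ x, (M.hess P.V.1 x * M.tau P.ψ.1 x * M.hess v.1 x
    * M.tau P.ψ.1 x * M.hess v.1 x * M.tau P.ψ.1 x).trace * Real.exp (-P.V.1 x) := by
  unfold ID.SysI.T2
  have h : ∑ a, ∑ b, ∑ c, P.sysI.E (P.sysI.H a b * P.sysI.J v a c * P.sysI.K v c b)
      = P.Ev (∑ a, ∑ b, ∑ c, P.sysI.H a b * P.sysI.J v a c * P.sysI.K v c b) := by
    simp only [map_sum]
    rfl
  rw [h, Ev_apply _ _ (Ideal.sum_mem _ fun a _ => Ideal.sum_mem _ fun b _ =>
    Ideal.sum_mem _ fun c _ => Ideal.mul_mem_left _ _ (P.K_mem v hv c b))]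
  congr 1
  funext x
  congr 1
  rw [sum_val]
  have h2 : M.hess P.V.1 x * M.tau P.ψ.1 x * M.hess v.1 x
      * M.tau P.ψ.1 x * M.hess v.1 x * M.tau P.ψ.1 x
      = M.hess P.V.1 x * ((M.tau P.ψ.1 x * M.hess v.1 x)
        * (M.tau P.ψ.1 x * M.hess v.1 x * M.tau P.ψ.1 x)) := by
    simp only [Matrix.mul_assoc]
  rw [h2, Matrix.trace]
  simp only [Matrix.diag_apply, Matrix.mul_apply (M := M.hess P.V.1 x)]
  rw [Finset.sum_comm]
  refine Finset.sum_congr rfl fun a _ => ?_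
  rw [sum_val]
  refine Finset.sum_congr rfl fun b _ => ?_
  rw [sum_val, Matrix.mul_apply, Finset.mul_sum]
  refine Finset.sum_congr rfl fun c _ => ?_
  rw [mul_val, mul_val, P.sys_H, P.J_val, P.K_val, hess_symm, hess_val]
  ring

theorem Lo_sq_val (u : SA n) (hu : u ∈ Ic n) : P.sysI.E (P.sysI.Lo u * P.sysI.Lo u)
    = ∫ x, (Lop P.ψ.1 u.1 x) ^ 2 * Real.exp (-P.V.1 x) := by
  show P.Ev _ = _
  rw [Ev_apply _ _ (Ideal.mul_mem_left _ _ (P.Lo_mem u hu))]
  congr 1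
  funext x
  rw [mul_val, P.Lo_val]
  ring

theorem cross_val (v u : SA n) (hv : v ∈ Ic n) :
    ∑ c, P.sysI.E (P.sysI.D c (P.sysI.Lo v + v + u) * P.sysI.Lo (P.sysI.dd c v))
    = ∫ x, (∑ b, fld P.ψ.1 (fun z => Lop P.ψ.1 v.1 z + v.1 z + u.1 z) b x
      * Lop P.ψ.1 (M.pd b v.1) x) * Real.exp (-P.V.1 x) := by
  have h : ∑ c, P.sysI.E (P.sysI.D c (P.sysI.Lo v + v + u) * P.sysI.Lo (P.sysI.dd c v))
      = P.Ev (∑ c, P.sysI.D c (P.sysI.Lo v + v + u) * P.sysI.Lo (P.sysI.dd c v)) := by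
    simp only [map_sum]
    rfl
  rw [h, Ev_apply _ _ (Ideal.sum_mem _ fun c _ => Ideal.mul_mem_left _ _
    (P.Lo_mem _ (P.dd_mem v hv c)))]
  congr 1
  funext x
  congr 1
  rw [sum_val]
  refine Finset.sum_congr rfl fun b _ => ?_
  rw [mul_val, P.sys_dd, P.Lo_val]
  show (P.D b (P.sysI.Lo v + v + u)).1 x * _ = _
  rw [P.D_val]
  have hf : (P.sysI.Lo v + v + u).1 = fun z => Lop P.ψ.1 v.1 z + v.1 z + u.1 z := by
    funext z
    rw [add_val, add_val, P.Lo_val]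
  rw [hf]
  rfl

/-- The Hessian at a point is positive semidefinite. -/
theorem sgv_posSemidef (x : E n) :
    (P.sysI.sgv (ev x : SA n →ₐ[ℝ] ℝ).toRingHom).PosSemidef := by
  refine Matrix.PosSemidef.of_dotProduct_mulVec_nonneg ?_ ?_
  · exact P.hx_herm x
  · intro v
    have h := P.lo x v
    have h0 : 0 ≤ P.c * ∑ i, v i ^ 2 := mul_nonneg P.hc.le (Finset.sum_nonneg fun i _ => sq_nonneg _)
    refine (h0.trans h).trans_eq ?_
    rw [dotProduct]
    refine Finset.sum_congr rfl fun i _ => ?_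
    rw [Matrix.mulVec, dotProduct, Finset.mul_sum]
    refine Finset.sum_congr rfl fun j _ => ?_
    show v i * (hess P.ψ i j).1 x * v j = star v i * ((hess P.ψ i j).1 x * v j)
    rw [star_trivial]
    ring

/-- The key inequality (StmtKey, unnormalised) for a smooth potential. -/
theorem keySm (v u : SA n) (hv : v ∈ Ic n) (hu : u ∈ Ic n) :
    (∫ x, (M.hess P.V.1 x * M.tau P.ψ.1 x * M.hess v.1 x
      * M.tau P.ψ.1 x * M.hess v.1 x * M.tau P.ψ.1 x).trace * Real.exp (-P.V.1 x))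
    + (∫ x, (∑ a, ∑ b, M.hess P.V.1 x a b
      * fld P.ψ.1 u.1 a x * fld P.ψ.1 u.1 b x) * Real.exp (-P.V.1 x))
    ≤ (∫ x, (Lop P.ψ.1 u.1 x) ^ 2 * Real.exp (-P.V.1 x))
    + 2 * ∫ x, (∑ b, fld P.ψ.1 (fun z => Lop P.ψ.1 v.1 z + v.1 z + u.1 z) b x
      * Lop P.ψ.1 (M.pd b v.1) x) * Real.exp (-P.V.1 x) := by
  have h1 := P.sysI.key_le v u hv hu
    (P.Ev_nonneg _ (P.Q3_mem v u hv hu)
      fun x => P.sysI.ev_Q3'_nonneg (ev x : SA n →ₐ[ℝ] ℝ).toRingHom (P.sgv_posSemidef x) v u)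
    (P.Ev_nonneg _ (P.Q21_mem v hv)
      fun x => P.sysI.ev_bracket_nonneg (ev x : SA n →ₐ[ℝ] ℝ).toRingHom (P.sgv_posSemidef x) v)
  rw [P.Lo_sq_val u hu, P.cross_val v u hv, P.T1_val u hu, P.T2_val v hv] at h1
  exact h1

end Dat

end

end Vale.Agent.P227.M.IDS

namespace Vale.Agent.P227.M

open MeasureTheory

theorem keySm_norm_sq_sum {n : ℕ} (v : E n) : ‖v‖ ^ 2 = ∑ i, v i ^ 2 := by
  rw [EuclideanSpace.norm_sq_eq]
  simp

/-- The key inequality for smooth `ψ` (exact Prop of `KeySmStmt.lean`). -/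
theorem keySm : KeySm := by
  intro n ψ c C hc hψ hlo hhi F u hF hu
  have hq : ∀ (x : E n) (v : Fin n → ℝ), qf (hess ψ x) (WithLp.toLp 2 v)
      = ∑ i, ∑ j, v i * (IDS.hess (⟨ψ, hψ⟩ : IDS.SA n) i j).1 x * v j := by
    intro x v
    unfold qf
    refine Finset.sum_congr rfl fun i _ => Finset.sum_congr rfl fun j _ => ?_
    show hess ψ x i j * v i * v j = v i * hess ψ x i j * v j
    ring
  have hn : ∀ v : Fin n → ℝ, ‖(WithLp.toLp 2 v : E n)‖ ^ 2 = ∑ i, v i ^ 2 := by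
    intro v
    rw [keySm_norm_sq_sum]
  let P : IDS.Dat n :=
    { ψ := ⟨ψ, hψ⟩
      c := c
      C := C
      hc := hc
      lo := by
        intro x v
        have h := hlo x (WithLp.toLp 2 v)
        rw [hq, hn] at h
        exact h
      hi := by
        intro x v
        have h := hhi x (WithLp.toLp 2 v)
        rw [hq, hn] at h
        exact h }
  have hV : P.V.1 = Vpsi ψ := by
    funext x
    exact P.V_val x
  have h := P.keySm (IDS.ofTest F hF) (IDS.ofTest u hu) hF.2 hu.2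
  rw [hV] at h
  exact h

end Vale.Agent.P227.M
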