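import Vale.Agent.P227.M.ID.KeyLim
import Vale.Agent.P227.M.ID.SInst4

/-! # P227/M/ID: `StmtKey`, second line (helper859's `keySm` + the mollification limit `KeyLim`) -/

namespace Vale.Agent.P227.M.KL

/-- block ID: the key inequality -/
theorem stmtKey : StmtKey := stmtKey_of_keySm keySm

end Vale.Agent.P227.M.KL
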