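import Vale.Agent.P227.M.ID.Lip294

/-! # P227/M/ID: a.e. differentiability and total symmetry of `∑_a τ_da ∂_a τ_bc` (helper294) -/

open MeasureTheory
open scoped Topology NNReal

namespace Vale.Agent.P227.M.B294

variable {n : ℕ} {ψ V : E n → ℝ} {c C M : ℝ}

lemma lipW_of {f : E n → ℝ} {K : ℝ} (hf : ∀ x y, |f x - f y| ≤ K * ‖x - y‖) :
    LipschitzWith (Real.toNNReal K) f := by
  refine LipschitzWith.of_dist_le_mul fun x y => ?_
  rw [Real.dist_eq, dist_eq_norm]
  exact (hf x y).trans (mul_le_mul_of_nonneg_right (Real.le_coe_toNNReal _) (norm_nonneg _))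

lemma tau_lipW (h : MM ψ V c C M) (i j : Fin n) :
    LipschitzWith (Real.toNNReal (n * (n * (c⁻¹ * M * c⁻¹)))) (fun x => tau ψ x i j) :=
  lipW_of (tau_lip h i j)

lemma hess_lipW (h : MM ψ V c C M) (i j : Fin n) :
    LipschitzWith (Real.toNNReal M) (fun x => hess ψ x i j) :=
  lipW_of (h.lip i j)

/-- points where `τ` and `D²ψ` are differentiable -/
def Good (ψ : E n → ℝ) (x : E n) : Prop :=
  (∀ i j, DifferentiableAt ℝ (fun z => tau ψ z i j) x) ∧
    (∀ i j, DifferentiableAt ℝ (fun z => hess ψ z i j) x)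

lemma ae_good (h : MM ψ V c C M) : ∀ᵐ x, Good ψ x := by
  have h1 : ∀ᵐ x, ∀ i j, DifferentiableAt ℝ (fun z => tau ψ z i j) x := by
    rw [ae_all_iff]
    intro i
    rw [ae_all_iff]
    intro j
    exact (tau_lipW h i j).ae_differentiableAt
  have h2 : ∀ᵐ x, ∀ i j, DifferentiableAt ℝ (fun z => hess ψ z i j) x := by
    rw [ae_all_iff]
    intro i
    rw [ae_all_iff]
    intro j
    exact (hess_lipW h i j).ae_differentiableAt
  filter_upwards [h1, h2] with x hx1 hx2
  exact ⟨hx1, hx2⟩

lemma fderiv_eq_sum' (f : E n → ℝ) (z : E n) :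
    fderiv ℝ f z = ∑ k, pd k f z • (EuclideanSpace.proj k : E n →L[ℝ] ℝ) := by
  refine ContinuousLinearMap.ext fun v => ?_
  rw [fderiv_apply_eq]
  simp [mul_comm]

/-- symmetry of the second derivative at a point where the first derivatives are differentiable -/
lemma pd_comm_of {f : E n → ℝ} {x : E n} (hf : Differentiable ℝ f)
    (hx : ∀ k, DifferentiableAt ℝ (pd k f) x) (a k : Fin n) :
    pd a (pd k f) x = pd k (pd a f) x := by
  have hd : DifferentiableAt ℝ (fderiv ℝ f) x := by
    have e : fderiv ℝ f = fun z => ∑ k, pd k f z • (EuclideanSpace.proj k : E n →L[ℝ] ℝ) :=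
      funext fun z => fderiv_eq_sum' f z
    rw [e]
    exact DifferentiableAt.fun_sum fun k _ => (hx k).smul_const _
  have hs := second_derivative_symmetric_of_eventually (𝕜 := ℝ) (f := f) (f' := fderiv ℝ f)
    (f'' := fderiv ℝ (fderiv ℝ f) x) (x := x)
    (Filter.Eventually.of_forall fun y => (hf y).hasFDerivAt) hd.hasFDerivAt (ei a) (ei k)
  have key : ∀ p q : Fin n, pd p (pd q f) x = fderiv ℝ (fderiv ℝ f) x (ei p) (ei q) := by
    intro p q
    unfold pd
    have := (hd.hasFDerivAt.clm_apply (hasFDerivAt_const (ei q) x)).fderiv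
    rw [this]
    simp
  rw [key, key, hs]

/-- third derivatives of `ψ` at a good point -/
lemma third_symm (h : MM ψ V c C M) {x : E n} (hx : Good ψ x) (a k j : Fin n) :
    pd a (fun z => hess ψ z k j) x = pd k (fun z => hess ψ z a j) x := by
  exact pd_comm_of (f := pd j ψ) (differentiable_pd h.C2 j) (fun k => hx.2 k j) a k

lemma third_symm' (h : MM ψ V c C M) (x : E n) (a k j : Fin n) :
    pd a (fun z => hess ψ z k j) x = pd a (fun z => hess ψ z j k) x := by
  have e : (fun z => hess ψ z k j) = fun z => hess ψ z j k :=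
    funext fun z => hess_symm h.C2 z k j
  rw [e]

/-- derivative of the inverse matrix -/
lemma pd_tau (h : MM ψ V c C M) {x : E n} (hx : Good ψ x) (a i l : Fin n) :
    pd a (fun z => tau ψ z i l) x
      = -∑ k, ∑ j, tau ψ x i k * pd a (fun z => hess ψ z k j) x * tau ψ x j l := by
  have h1 : ∀ j, ∑ k, pd a (fun z => tau ψ z i k) x * hess ψ x k j
      = -∑ k, tau ψ x i k * pd a (fun z => hess ψ z k j) x := by
    intro j
    have e : (fun z => ∑ k, tau ψ z i k * hess ψ z k j) = fun _ => (1 : Matrix (Fin n) (Fin n) ℝ) i j := by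
      funext z
      have := congrFun (congrFun (tau_mul_hess h z) i) j
      rw [Matrix.mul_apply] at this
      exact this
    have h2 : pd a (fun z => ∑ k, tau ψ z i k * hess ψ z k j) x = 0 := by
      rw [e]
      simp [pd]
    rw [pd_sum (f := fun k z => tau ψ z i k * hess ψ z k j) a
      fun k _ => (hx.1 i k).mul (hx.2 k j)] at h2
    simp only [pd_mul a (hx.1 i _) (hx.2 _ j), Finset.sum_add_distrib] at h2
    linarith
  have h3 : pd a (fun z => tau ψ z i l) x
      = ∑ j, (∑ k, pd a (fun z => tau ψ z i k) x * hess ψ x k j) * tau ψ x j l := by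
    have e : ∀ k, ∑ j, hess ψ x k j * tau ψ x j l = (1 : Matrix (Fin n) (Fin n) ℝ) k l := by
      intro k
      have := congrFun (congrFun (hess_mul_tau h x) k) l
      rw [Matrix.mul_apply] at this
      exact this
    simp only [Finset.sum_mul]
    rw [Finset.sum_comm]
    simp only [mul_assoc, ← Finset.mul_sum, e]
    simp [Matrix.one_apply]
  rw [h3]
  simp only [h1, neg_mul, Finset.sum_neg_distrib, Finset.sum_mul]
  rw [Finset.sum_comm]

/-- `S d b c = ∑_a τ_da ∂_a τ_bc` -/
noncomputable def Sd (ψ : E n → ℝ) (x : E n) (d b k : Fin n) : ℝ :=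
  ∑ a, tau ψ x d a * pd a (fun z => tau ψ z b k) x

lemma Sd_eq (h : MM ψ V c C M) {x : E n} (hx : Good ψ x) (d b k : Fin n) :
    Sd ψ x d b k = -∑ p, ∑ q, ∑ r, tau ψ x d p * tau ψ x b q * tau ψ x k r
      * pd p (fun z => hess ψ z q r) x := by
  unfold Sd
  simp only [pd_tau h hx, mul_neg, Finset.sum_neg_distrib, Finset.mul_sum]
  congr 1
  refine Finset.sum_congr rfl fun p _ => Finset.sum_congr rfl fun q _ =>
    Finset.sum_congr rfl fun r _ => ?_
  rw [tau_symm h x r k]
  ring

lemma Sd_symm12 (h : MM ψ V c C M) {x : E n} (hx : Good ψ x) (d b k : Fin n) :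
    Sd ψ x d b k = Sd ψ x b d k := by
  rw [Sd_eq h hx, Sd_eq h hx, Finset.sum_comm]
  congr 1
  refine Finset.sum_congr rfl fun q _ => Finset.sum_congr rfl fun p _ =>
    Finset.sum_congr rfl fun r _ => ?_
  rw [third_symm h hx p q r]
  ring

lemma Sd_symm23 (h : MM ψ V c C M) (x : E n) (d b k : Fin n) :
    Sd ψ x d b k = Sd ψ x d k b := by
  unfold Sd
  refine Finset.sum_congr rfl fun a _ => ?_
  have e : (fun z => tau ψ z b k) = fun z => tau ψ z k b := funext fun z => tau_symm h z b k
  rw [e]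

end Vale.Agent.P227.M.B294
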