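import Mathlib

/-! # P227, block ID: the pointwise tensor algebra -/

namespace Vale.Agent.P227.M.ID.TAlg

open Finset

variable {n : ℕ}

/-- cyclic reindexing of a triple sum -/
theorem sum_cyc (f : Fin n → Fin n → Fin n → ℝ) :
    ∑ a, ∑ b, ∑ c, f b c a = ∑ a, ∑ b, ∑ c, f a b c := by
  rw [Finset.sum_comm]
  refine Finset.sum_congr rfl fun b _ => ?_
  rw [Finset.sum_comm]

/-- cyclic reindexing of a triple sum -/
theorem sum_cyc' (f : Fin n → Fin n → Fin n → ℝ) :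
    ∑ a, ∑ b, ∑ c, f c a b = ∑ a, ∑ b, ∑ c, f a b c := by
  rw [← sum_cyc f, ← sum_cyc (fun a b c => f b c a)]

/-- `2|A|² + 4⟨A,P⟩ + |P|² + P_{cb,a}P_{ca,b}` is a sum of squares, for `A` totally symmetric and
`P` symmetric in its first two indices (orthonormal frame). -/
theorem frame_alg (A P : Fin n → Fin n → Fin n → ℝ)
    (hA1 : ∀ a b c, A a b c = A b c a)
    (hP : ∀ a b c, P a b c = P b a c) :
    ∑ a, ∑ b, ∑ c, (2 * A a b c ^ 2 + 4 * (A a b c * P a b c) + P a b c ^ 2 + P c b a * P c a b)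
      = ∑ a, ∑ b, ∑ c, (2 * (A a b c + (P a b c + P b c a + P c a b) / 3) ^ 2
          + (1 / 2) * (P a b c - (P a b c + P b c a + P c a b) / 3) ^ 2) := by
  have e1 : ∑ a, ∑ b, ∑ c, A a b c * P b c a = ∑ a, ∑ b, ∑ c, A a b c * P a b c := by
    rw [← sum_cyc (fun a b c => A a b c * P a b c)]
    refine Finset.sum_congr rfl fun a _ => Finset.sum_congr rfl fun b _ =>
      Finset.sum_congr rfl fun c _ => ?_
    rw [hA1 a b c]
  have e2 : ∑ a, ∑ b, ∑ c, A a b c * P c a b = ∑ a, ∑ b, ∑ c, A a b c * P a b c := by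
    rw [← sum_cyc' (fun a b c => A a b c * P a b c)]
    refine Finset.sum_congr rfl fun a _ => Finset.sum_congr rfl fun b _ =>
      Finset.sum_congr rfl fun c _ => ?_
    rw [hA1 c a b]
  have e3 : ∑ a, ∑ b, ∑ c, P c b a * P c a b = ∑ a, ∑ b, ∑ c, P a b c * P b c a := by
    rw [← sum_cyc (fun a b c => P a b c * P b c a)]
    refine Finset.sum_congr rfl fun a _ => Finset.sum_congr rfl fun b _ =>
      Finset.sum_congr rfl fun c _ => ?_
    rw [hP c b a]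
  have e4 : ∑ a, ∑ b, ∑ c, P a b c * P c a b = ∑ a, ∑ b, ∑ c, P a b c * P b c a := by
    rw [← sum_cyc' (fun a b c => P a b c * P b c a)]
    refine Finset.sum_congr rfl fun a _ => Finset.sum_congr rfl fun b _ =>
      Finset.sum_congr rfl fun c _ => ?_
    rw [mul_comm]
  have e5 : ∑ a, ∑ b, ∑ c, P b c a * P c a b = ∑ a, ∑ b, ∑ c, P a b c * P b c a := by
    rw [← sum_cyc (fun a b c => P a b c * P b c a)]
  have e6 : ∑ a, ∑ b, ∑ c, P b c a ^ 2 = ∑ a, ∑ b, ∑ c, P a b c ^ 2 := by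
    rw [← sum_cyc (fun a b c => P a b c ^ 2)]
  have e7 : ∑ a, ∑ b, ∑ c, P c a b ^ 2 = ∑ a, ∑ b, ∑ c, P a b c ^ 2 := by
    rw [← sum_cyc' (fun a b c => P a b c ^ 2)]
  have hR : ∑ a, ∑ b, ∑ c, (2 * (A a b c + (P a b c + P b c a + P c a b) / 3) ^ 2
          + (1 / 2) * (P a b c - (P a b c + P b c a + P c a b) / 3) ^ 2)
      = 2 * ∑ a, ∑ b, ∑ c, A a b c ^ 2
        + (4 / 3) * (∑ a, ∑ b, ∑ c, A a b c * P a b c + ∑ a, ∑ b, ∑ c, A a b c * P b c a
            + ∑ a, ∑ b, ∑ c, A a b c * P c a b)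
        + (4 / 9) * ∑ a, ∑ b, ∑ c, P a b c ^ 2
        + (5 / 18) * ∑ a, ∑ b, ∑ c, P b c a ^ 2
        + (5 / 18) * ∑ a, ∑ b, ∑ c, P c a b ^ 2
        + (2 / 9) * ∑ a, ∑ b, ∑ c, P a b c * P b c a
        + (2 / 9) * ∑ a, ∑ b, ∑ c, P a b c * P c a b
        + (5 / 9) * ∑ a, ∑ b, ∑ c, P b c a * P c a b := by
    simp only [Finset.mul_sum, ← Finset.sum_add_distrib]
    refine Finset.sum_congr rfl fun a _ => Finset.sum_congr rfl fun b _ =>
      Finset.sum_congr rfl fun c _ => ?_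
    ring
  have hL : ∑ a, ∑ b, ∑ c, (2 * A a b c ^ 2 + 4 * (A a b c * P a b c) + P a b c ^ 2
        + P c b a * P c a b)
      = 2 * ∑ a, ∑ b, ∑ c, A a b c ^ 2 + 4 * ∑ a, ∑ b, ∑ c, A a b c * P a b c
        + ∑ a, ∑ b, ∑ c, P a b c ^ 2 + ∑ a, ∑ b, ∑ c, P c b a * P c a b := by
    simp only [Finset.mul_sum, ← Finset.sum_add_distrib]
  rw [hL, hR, e1, e2, e3, e4, e5, e6, e7]
  ring

theorem frame_alg_nonneg (A P : Fin n → Fin n → Fin n → ℝ)
    (hA1 : ∀ a b c, A a b c = A b c a)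
    (hP : ∀ a b c, P a b c = P b a c) :
    0 ≤ ∑ a, ∑ b, ∑ c,
      (2 * A a b c ^ 2 + 4 * (A a b c * P a b c) + P a b c ^ 2 + P c b a * P c a b) := by
  rw [frame_alg A P hA1 hP]
  exact Finset.sum_nonneg fun a _ => Finset.sum_nonneg fun b _ => Finset.sum_nonneg fun c _ => by
    positivity

end Vale.Agent.P227.M.ID.TAlg
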