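import Mathlib

/-!
# P227, block ID, concrete side: functions of temperate growth

`inv_tg` : if `f` is smooth with all derivatives of polynomial growth and `δ ≤ f` for some
`δ > 0`, then `1/f` is of the same kind; `log_tg` : so is `log f`.
`derivation_det` : Jacobi's formula for a derivation of a commutative ring.
-/

namespace Vale.Agent.P227.M.IDI

open Function Set

open scoped ContDiff Nat

section TG

variable {E : Type*} [NormedAddCommGroup E] [NormedSpace ℝ E]

/-- Inverse of a temperate function bounded below by a positive constant. -/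
theorem inv_tg {f : E → ℝ} (hf : f.HasTemperateGrowth) {δ : ℝ} (hδ : 0 < δ)
    (h : ∀ x, δ ≤ f x) : (fun x => (f x)⁻¹).HasTemperateGrowth := by
  set t := {y : ℝ | δ / 2 < y} with ht_def
  have ht : Set.range f ⊆ t := by
    rintro _ ⟨x, rfl⟩
    simp only [t, Set.mem_ofPred_eq]
    linarith [h x]
  have hpos : ∀ y ∈ t, 0 < y := by
    intro y hy
    simp only [t, Set.mem_ofPred_eq] at hy
    linarith
  have hdiff : ContDiffOn ℝ ∞ (fun x : ℝ => x⁻¹) t :=
    contDiffOn_id.inv fun x hx => (hpos x hx).ne'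
  have hunique : UniqueDiffOn ℝ t := (isOpen_lt' (δ / 2)).uniqueDiffOn
  have key : ((fun x : ℝ => x⁻¹) ∘ f).HasTemperateGrowth := by
    apply Function.HasTemperateGrowth.comp' ht hunique hdiff _ hf
    intro N
    refine ⟨0, ∑ k ∈ Finset.range (N + 1), (k ! : ℝ) * ((δ / 2)⁻¹) ^ (k + 1), by positivity, ?_⟩
    intro n hn x hx
    have hx0 : 0 < x := hpos x hx
    have hc : ContDiffAt ℝ n (fun x : ℝ => x⁻¹) x := contDiffAt_inv ℝ hx0.ne'
    rw [norm_iteratedFDerivWithin_eq_norm_iteratedDerivWithin,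
      iteratedDerivWithin_eq_iteratedDeriv hunique hc hx, iteratedDeriv_eq_iterate,
      iter_deriv_inv]
    simp only [pow_zero, mul_one]
    have h1 : ‖(-1 : ℝ) ^ n * (n ! : ℝ) * x ^ (-1 - n : ℤ)‖ = (n ! : ℝ) * (x⁻¹) ^ (n + 1) := by
      rw [norm_mul, norm_mul, norm_pow, norm_neg, norm_one, one_pow, one_mul]
      rw [Real.norm_of_nonneg (by positivity : (0 : ℝ) ≤ (n ! : ℝ))]
      congr 1
      rw [Real.norm_of_nonneg (by positivity)]
      rw [show (-1 - n : ℤ) = -((n + 1 : ℕ) : ℤ) by push_cast; ring, zpow_neg, zpow_natCast,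
        inv_pow]
    rw [h1]
    have h2 : (n ! : ℝ) * (x⁻¹) ^ (n + 1) ≤ (n ! : ℝ) * ((δ / 2)⁻¹) ^ (n + 1) := by
      have : x⁻¹ ≤ (δ / 2)⁻¹ := by
        apply inv_anti₀ (by positivity)
        exact le_of_lt hx
      gcongr
    refine h2.trans ?_
    have hmem : n ∈ Finset.range (N + 1) := by
      simp only [Finset.mem_range]; omega
    exact Finset.single_le_sum (f := fun k => (k ! : ℝ) * ((δ / 2)⁻¹) ^ (k + 1))
      (fun _ _ => by positivity) hmem
  exact key

/-- Logarithm of a temperate function bounded below by a positive constant. -/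
theorem log_tg {f : E → ℝ} (hf : f.HasTemperateGrowth) {δ : ℝ} (hδ : 0 < δ)
    (h : ∀ x, δ ≤ f x) : (fun x => Real.log (f x)).HasTemperateGrowth := by
  have hd : Differentiable ℝ f := hf.1.differentiable (by simp)
  have hpos : ∀ x, 0 < f x := fun x => lt_of_lt_of_le hδ (h x)
  have hinv := inv_tg hf hδ h
  have hfd : (fderiv ℝ f).HasTemperateGrowth := by
    refine ⟨(hf.1.fderiv_right (m := ∞) (by simp)), fun n => ?_⟩
    obtain ⟨k, C, hC⟩ := hf.2 (n + 1)
    refine ⟨k, C, fun x => ?_⟩
    have := hC x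
    rwa [← norm_iteratedFDeriv_fderiv] at this
  have hF : fderiv ℝ (fun x => Real.log (f x)) = fun x => (f x)⁻¹ • fderiv ℝ f x := by
    funext x
    exact (hd x).hasFDerivAt.log (hpos x).ne' |>.fderiv
  have hb : ∃ (k : ℕ) (C : ℝ), ∀ x, ‖f x‖ ≤ C * (1 + ‖x‖) ^ k := by
    obtain ⟨k, C, hC⟩ := hf.2 0
    exact ⟨k, C, fun x => by simpa using hC x⟩
  obtain ⟨k, C, hC⟩ := hb
  refine Function.HasTemperateGrowth.of_fderiv (k := k) (C := |C| + |Real.log δ|) ?_ ?_ ?_
  · rw [hF]
    exact hinv.smul hfd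
  · intro x
    exact (hd x).log (hpos x).ne'
  · intro x
    have h1 : Real.log (f x) ≤ f x := by
      have := Real.log_le_sub_one_of_pos (hpos x)
      linarith
    have h2 : Real.log δ ≤ Real.log (f x) := Real.log_le_log hδ (h x)
    have h3 : f x ≤ |C| * (1 + ‖x‖) ^ k := by
      calc f x ≤ ‖f x‖ := le_abs_self _
        _ ≤ C * (1 + ‖x‖) ^ k := hC x
        _ ≤ |C| * (1 + ‖x‖) ^ k := by gcongr; exact le_abs_self C
    have h4 : (1 : ℝ) ≤ (1 + ‖x‖) ^ k := one_le_pow₀ (by linarith [norm_nonneg x])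
    have h5 : |Real.log δ| ≤ |Real.log δ| * (1 + ‖x‖) ^ k := le_mul_of_one_le_right (abs_nonneg _) h4
    rw [Real.norm_eq_abs, abs_le]
    constructor
    · have h6 : -|Real.log δ| ≤ Real.log δ := neg_abs_le _
      have h7 : 0 ≤ |C| * (1 + ‖x‖) ^ k := by positivity
      nlinarith
    · have h7 : 0 ≤ |Real.log δ| * (1 + ‖x‖) ^ k := by positivity
      nlinarith

end TG

section Jacobi

variable {R A : Type*} [CommRing R] [CommRing A] [Algebra R A]

/-- Leibniz rule for finite products. -/
theorem derivation_prod {ι : Type*} [DecidableEq ι] (D : Derivation R A A) (s : Finset ι)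
    (f : ι → A) :
    D (∏ i ∈ s, f i) = ∑ i ∈ s, (∏ j ∈ s.erase i, f j) * D (f i) := by
  classical
  induction s using Finset.induction_on with
  | empty => simp
  | insert a s ha ih =>
    rw [Finset.prod_insert ha, D.leibniz, ih, Finset.sum_insert ha, Finset.erase_insert ha,
      smul_eq_mul, smul_eq_mul, Finset.mul_sum, add_comm]
    congr 1
    refine Finset.sum_congr rfl fun i hi => ?_
    have hia : a ≠ i := fun h => ha (h ▸ hi)
    have h1 : (insert a s).erase i = insert a (s.erase i) := by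
      rw [Finset.erase_insert_of_ne hia]
    rw [h1, Finset.prod_insert (fun h => ha (Finset.mem_of_mem_erase h)), mul_assoc]

/-- Jacobi's formula: derivative of a determinant. -/
theorem derivation_det {ι : Type*} [DecidableEq ι] [Fintype ι] (D : Derivation R A A)
    (M : Matrix ι ι A) :
    D M.det = ∑ i, ∑ k, M.adjugate i k * D (M k i) := by
  have h1 : D M.det = ∑ i, (M.updateCol i (fun k => D (M k i))).det := by
    simp only [Matrix.det_apply]
    rw [map_sum, Finset.sum_comm]
    refine Finset.sum_congr rfl fun σ _ => ?_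
    rw [Units.smul_def, map_zsmul, derivation_prod, Finset.smul_sum]
    refine Finset.sum_congr rfl fun i _ => ?_
    congr 1
    rw [← Finset.mul_prod_erase Finset.univ _ (Finset.mem_univ i), mul_comm]
    congr 1
    · simp
    · refine Finset.prod_congr rfl fun j hj => ?_
      rw [Matrix.updateCol_ne (Finset.ne_of_mem_erase hj)]
  rw [h1]
  refine Finset.sum_congr rfl fun i _ => ?_
  rw [← Matrix.cramer_apply, Matrix.cramer_eq_adjugate_mulVec]
  rfl

end Jacobi

end Vale.Agent.P227.M.IDI
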