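import Mathlib

/-!
# P227, block ID, concrete side: the algebra of functions of temperate growth

For a finite-dimensional real normed space `X`:
* `TempAlg X` : the subalgebra of `X → ℝ` of functions of temperate growth;
* `Dv v` : the derivation `f ↦ (x ↦ fderiv ℝ f x v)` of `TempAlg X`, all commuting;
* `Ew φ μ` : the linear functional `f ↦ ∫ f e^{-φ} dμ` on `TempAlg X`, for a weight with
  `φ x ≥ a ‖x‖^2 - b`, and the integration by parts `Ew (Dv v g) = Ew (Dv v φ * g)`;
* units of `TempAlg X`.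
-/

open MeasureTheory Function Module
open scoped ContDiff BigOperators

namespace Vale.Agent.P227.M.ID

section Basic

variable {X : Type*} [NormedAddCommGroup X] [NormedSpace ℝ X]

variable (X) in
/-- The algebra of real functions of temperate growth on `X`. -/
def TempAlg : Subalgebra ℝ (X → ℝ) where
  carrier := {f | HasTemperateGrowth f}
  mul_mem' := fun hf hg => HasTemperateGrowth.mul hf hg
  add_mem' := fun hf hg => HasTemperateGrowth.add hf hg
  algebraMap_mem' := fun r => HasTemperateGrowth.const r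

theorem mem_tempAlg {f : X → ℝ} : f ∈ TempAlg X ↔ HasTemperateGrowth f := Iff.rfl

theorem temp_of (f : TempAlg X) : HasTemperateGrowth (f : X → ℝ) := f.2

theorem temp_contDiff (f : TempAlg X) : ContDiff ℝ ∞ (f : X → ℝ) := f.2.1

theorem temp_differentiable (f : TempAlg X) : Differentiable ℝ (f : X → ℝ) :=
  (temp_contDiff f).differentiable (by simp)

theorem temp_continuous (f : TempAlg X) : Continuous (f : X → ℝ) :=
  (temp_contDiff f).continuous

theorem hasTemperateGrowth_fderiv {F : Type*} [NormedAddCommGroup F] [NormedSpace ℝ F]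
    {f : X → F} (hf : HasTemperateGrowth f) : HasTemperateGrowth (fderiv ℝ f) := by
  refine ⟨hf.1.fderiv_right (by simp), fun n => ?_⟩
  obtain ⟨k, C, h⟩ := hf.2 (n + 1)
  refine ⟨k, C, fun x => ?_⟩
  rw [norm_iteratedFDeriv_fderiv]
  exact h x

theorem hasTemperateGrowth_fderiv_apply {F : Type*} [NormedAddCommGroup F] [NormedSpace ℝ F]
    {f : X → F} (hf : HasTemperateGrowth f) (v : X) :
    HasTemperateGrowth (fun x => fderiv ℝ f x v) :=
  (ContinuousLinearMap.apply ℝ F v).hasTemperateGrowth.comp (hasTemperateGrowth_fderiv hf)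

/-- Directional derivative as a derivation of `TempAlg X`. -/
noncomputable def Dv (v : X) : Derivation ℝ (TempAlg X) (TempAlg X) :=
  Derivation.mk'
    { toFun := fun f => ⟨fun x => fderiv ℝ (f : X → ℝ) x v, hasTemperateGrowth_fderiv_apply f.2 v⟩
      map_add' := by
        intro f g
        ext x
        show fderiv ℝ ((f : X → ℝ) + (g : X → ℝ)) x v = _
        rw [fderiv_add ((temp_differentiable f) x) ((temp_differentiable g) x)]
        rfl
      map_smul' := by
        intro c f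
        ext x
        show fderiv ℝ (c • (f : X → ℝ)) x v = _
        rw [fderiv_const_smul ((temp_differentiable f) x)]
        rfl }
    (by
      intro f g
      ext x
      show fderiv ℝ ((f : X → ℝ) * (g : X → ℝ)) x v
        = (f : X → ℝ) x * fderiv ℝ (g : X → ℝ) x v + (g : X → ℝ) x * fderiv ℝ (f : X → ℝ) x v
      rw [fderiv_mul ((temp_differentiable f) x) ((temp_differentiable g) x)]
      simp [smul_eq_mul])

@[simp] theorem Dv_apply (v : X) (f : TempAlg X) (x : X) :
    (Dv v f : X → ℝ) x = fderiv ℝ (f : X → ℝ) x v := rfl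

theorem Dv_coe (v : X) (f : TempAlg X) :
    (Dv v f : X → ℝ) = fun x => fderiv ℝ (f : X → ℝ) x v := rfl

theorem Dv_comm (v w : X) (f : TempAlg X) : Dv v (Dv w f) = Dv w (Dv v f) := by
  ext x
  have hf : ContDiff ℝ ∞ (f : X → ℝ) := temp_contDiff f
  have hd : Differentiable ℝ (fderiv ℝ (f : X → ℝ)) :=
    (hf.fderiv_right (m := ∞) (by simp)).differentiable (by simp)
  have key : ∀ a b : X, fderiv ℝ (fun y => fderiv ℝ (f : X → ℝ) y a) x b
      = fderiv ℝ (fderiv ℝ (f : X → ℝ)) x b a := by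
    intro a b
    have h := (hd x).hasFDerivAt.clm_apply (hasFDerivAt_const a x)
    rw [h.fderiv]
    simp
  have hs : IsSymmSndFDerivAt ℝ (f : X → ℝ) x :=
    (hf.contDiffAt).isSymmSndFDerivAt (by
      simp only [minSmoothness_of_isRCLikeNormedField]
      exact WithTop.coe_le_coe.mpr le_top)
  show fderiv ℝ (fun y => fderiv ℝ (f : X → ℝ) y w) x v
    = fderiv ℝ (fun y => fderiv ℝ (f : X → ℝ) y v) x w
  rw [key, key]
  exact hs v w

theorem Dv_add_dir (v w : X) (f : TempAlg X) : Dv (v + w) f = Dv v f + Dv w f := by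
  ext x
  show fderiv ℝ (f : X → ℝ) x (v + w) = _
  rw [map_add]; rfl

theorem Dv_smul_dir (c : ℝ) (v : X) (f : TempAlg X) : Dv (c • v) f = c • Dv v f := by
  ext x
  show fderiv ℝ (f : X → ℝ) x (c • v) = _
  rw [map_smul]; rfl

end Basic

section Inverse

variable {X : Type*} [NormedAddCommGroup X] [NormedSpace ℝ X]

theorem hasTemperateGrowth_inv {f : X → ℝ} (hf : HasTemperateGrowth f) {c : ℝ} (hc : 0 < c)
    (h : ∀ x, c ≤ f x) : HasTemperateGrowth (fun x => (f x)⁻¹) := by
  set t : Set ℝ := Set.Ioi (c / 2) with ht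
  have hcomp : (fun x => (f x)⁻¹) = (fun y : ℝ => y⁻¹) ∘ f := rfl
  rw [hcomp]
  have hrange : Set.range f ⊆ t := by
    rintro _ ⟨x, rfl⟩
    have := h x
    simp only [ht, Set.mem_Ioi]
    linarith
  have huniq : UniqueDiffOn ℝ t := isOpen_Ioi.uniqueDiffOn
  have hne : ∀ y ∈ t, y ≠ 0 := by
    intro y hy
    simp only [ht, Set.mem_Ioi] at hy
    exact (lt_trans (by positivity) hy).ne'
  have hdiff : ContDiffOn ℝ ∞ (fun y : ℝ => y⁻¹) t :=
    contDiffOn_id.inv hne
  refine HasTemperateGrowth.comp' hrange huniq hdiff ?_ hf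
  intro N
  refine ⟨0, ∑ n ∈ Finset.range (N + 1), (n.factorial : ℝ) * ((c / 2)⁻¹) ^ (n + 1), by positivity, ?_⟩
  intro n hn y hy
  have hy' : c / 2 < y := hy
  have hy0 : 0 < y := lt_trans (by positivity) hy'
  have hat : ContDiffAt ℝ n (fun y : ℝ => y⁻¹) y := contDiffAt_inv ℝ hy0.ne'
  rw [norm_iteratedFDerivWithin_eq_norm_iteratedDerivWithin,
    iteratedDerivWithin_eq_iteratedDeriv huniq hat hy, iteratedDeriv_eq_iterate]
  have hiter : deriv^[n] (fun y : ℝ => y⁻¹) y = (-1) ^ n * n.factorial * y ^ (-1 - n : ℤ) :=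
    iter_deriv_inv n y
  rw [hiter, norm_mul, norm_mul, norm_pow, norm_neg, norm_one, one_pow, one_mul]
  have h1 : ‖(n.factorial : ℝ)‖ = n.factorial := by simp
  have h2 : ‖y ^ (-1 - n : ℤ)‖ = (y⁻¹) ^ (n + 1) := by
    rw [Real.norm_of_nonneg (zpow_nonneg hy0.le _)]
    have : (-1 - n : ℤ) = -((n + 1 : ℕ) : ℤ) := by push_cast; ring
    rw [this, zpow_neg, zpow_natCast, inv_pow]
  rw [h1, h2]
  have h3 : (y⁻¹) ^ (n + 1) ≤ ((c / 2)⁻¹) ^ (n + 1) := by
    apply pow_le_pow_left₀ (by positivity)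
    exact inv_anti₀ (by positivity) hy'.le
  calc (n.factorial : ℝ) * (y⁻¹) ^ (n + 1) ≤ (n.factorial : ℝ) * ((c / 2)⁻¹) ^ (n + 1) := by gcongr
    _ ≤ ∑ n ∈ Finset.range (N + 1), (n.factorial : ℝ) * ((c / 2)⁻¹) ^ (n + 1) := by
        exact Finset.single_le_sum (f := fun n : ℕ => (n.factorial : ℝ) * ((c / 2)⁻¹) ^ (n + 1))
          (fun i _ => by positivity) (Finset.mem_range.mpr (by omega))
    _ = _ := by simp

theorem isUnit_of_pos_lower (f : TempAlg X) {c : ℝ} (hc : 0 < c) (h : ∀ x, c ≤ (f : X → ℝ) x) :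
    IsUnit f := by
  refine IsUnit.of_mul_eq_one ⟨fun x => ((f : X → ℝ) x)⁻¹, hasTemperateGrowth_inv f.2 hc h⟩ ?_
  ext x
  show (f : X → ℝ) x * ((f : X → ℝ) x)⁻¹ = 1
  exact mul_inv_cancel₀ (lt_of_lt_of_le hc (h x)).ne'

/-- Evaluation at a point as a ring homomorphism. -/
def ev (x : X) : TempAlg X →+* ℝ := (Pi.evalRingHom (fun _ : X => ℝ) x).comp (TempAlg X).val.toRingHom

@[simp] theorem ev_apply (x : X) (f : TempAlg X) : ev x f = (f : X → ℝ) x := rfl

/-- The value at `x` of a matrix with entries in `TempAlg X`. -/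
def evM {ι : Type*} (x : X) (M : Matrix ι ι (TempAlg X)) : Matrix ι ι ℝ := M.map (ev x)

theorem det_evM {ι : Type*} [Fintype ι] [DecidableEq ι] (x : X) (M : Matrix ι ι (TempAlg X)) :
    (evM x M).det = (M.det : X → ℝ) x := by
  have := (RingHom.map_det (ev x) M).symm
  simpa [evM] using this

/-- The pointwise inverse of a matrix with entries in `TempAlg X` and determinant bounded below
has entries in `TempAlg X`. -/
theorem exists_inverse {ι : Type*} [Fintype ι] [DecidableEq ι] (M : Matrix ι ι (TempAlg X))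
    {c : ℝ} (hc : 0 < c) (h : ∀ x, c ≤ (evM x M).det) :
    ∃ T : Matrix ι ι (TempAlg X), M * T = 1 ∧ T * M = 1 := by
  have hu : IsUnit M.det := isUnit_of_pos_lower M.det hc (fun x => by
    rw [← det_evM]; exact h x)
  exact ⟨M⁻¹, Matrix.mul_nonsing_inv M hu, Matrix.nonsing_inv_mul M hu⟩

end Inverse

section Weight

variable {X : Type*} [NormedAddCommGroup X] [NormedSpace ℝ X] [FiniteDimensional ℝ X]
  [MeasurableSpace X] [BorelSpace X] (μ : Measure X) [μ.IsAddHaarMeasure]

theorem integrable_temp_mul_exp {f φ : X → ℝ} (hf : HasTemperateGrowth f) (hφ : Continuous φ)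
    {a b : ℝ} (ha : 0 < a) (h : ∀ x, a * ‖x‖ ^ 2 - b ≤ φ x) :
    Integrable (fun x => f x * Real.exp (-φ x)) μ := by
  obtain ⟨k, C, hC⟩ := hf.2 0
  have hC' : ∀ x, |f x| ≤ C * (1 + ‖x‖) ^ k := by
    intro x
    have := hC x
    rwa [norm_iteratedFDeriv_zero, Real.norm_eq_abs] at this
  have hC0 : 0 ≤ C := by
    have h0 := hC' 0
    simp only [norm_zero, add_zero, one_pow, mul_one] at h0
    exact (abs_nonneg _).trans h0
  set r : ℕ := finrank ℝ X + 1 with hr
  have hint : Integrable (fun x : X => (1 + ‖x‖) ^ (-(r : ℝ))) μ :=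
    integrable_one_add_norm (by rw [hr]; push_cast; linarith)
  set m : ℝ := ((k + r : ℕ) : ℝ) with hm
  have hint2 := hint.const_mul (C * Real.exp b * Real.exp (m ^ 2 / (4 * a)))
  refine hint2.mono' ?_ (Filter.Eventually.of_forall fun x => ?_)
  · exact (hf.1.continuous.mul (Real.continuous_exp.comp hφ.neg)).aestronglyMeasurable
  · have ht : 0 ≤ ‖x‖ := norm_nonneg x
    have ht1 : 0 < 1 + ‖x‖ := by linarith
    rw [norm_mul, Real.norm_eq_abs, Real.norm_eq_abs, Real.abs_exp]
    have h1 : Real.exp (-φ x) ≤ Real.exp b * Real.exp (-(a * ‖x‖ ^ 2)) := by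
      rw [← Real.exp_add]
      apply Real.exp_le_exp.mpr
      have := h x
      linarith
    have h2 : (1 + ‖x‖) ^ (k + r) * Real.exp (-(a * ‖x‖ ^ 2)) ≤ Real.exp (m ^ 2 / (4 * a)) := by
      have h3 : (1 + ‖x‖) ^ (k + r) ≤ Real.exp (m * ‖x‖) := by
        have h4 : 1 + ‖x‖ ≤ Real.exp ‖x‖ := by
          have := Real.add_one_le_exp ‖x‖
          linarith
        calc (1 + ‖x‖) ^ (k + r) ≤ (Real.exp ‖x‖) ^ (k + r) :=
              pow_le_pow_left₀ ht1.le h4 _
          _ = Real.exp (m * ‖x‖) := by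
              rw [← Real.exp_nat_mul]
      calc (1 + ‖x‖) ^ (k + r) * Real.exp (-(a * ‖x‖ ^ 2))
          ≤ Real.exp (m * ‖x‖) * Real.exp (-(a * ‖x‖ ^ 2)) := by gcongr
        _ = Real.exp (m * ‖x‖ - a * ‖x‖ ^ 2) := by rw [← Real.exp_add]; ring_nf
        _ ≤ Real.exp (m ^ 2 / (4 * a)) := by
            apply Real.exp_le_exp.mpr
            rw [le_div_iff₀ (by positivity)]
            nlinarith [sq_nonneg (m - 2 * a * ‖x‖)]
    have h5 : (1 + ‖x‖) ^ (-(r : ℝ)) = ((1 + ‖x‖) ^ r)⁻¹ := by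
      rw [Real.rpow_neg ht1.le, Real.rpow_natCast]
    have h6 : (1 + ‖x‖) ^ k = (1 + ‖x‖) ^ (k + r) * ((1 + ‖x‖) ^ r)⁻¹ := by
      rw [pow_add, mul_assoc, mul_inv_cancel₀ (by positivity), mul_one]
    calc |f x| * Real.exp (-φ x)
        ≤ (C * (1 + ‖x‖) ^ k) * (Real.exp b * Real.exp (-(a * ‖x‖ ^ 2))) := by
          gcongr
          exact hC' x
      _ = C * Real.exp b * ((1 + ‖x‖) ^ (k + r) * Real.exp (-(a * ‖x‖ ^ 2)))
            * ((1 + ‖x‖) ^ r)⁻¹ := by rw [h6]; ring
      _ ≤ C * Real.exp b * Real.exp (m ^ 2 / (4 * a)) * ((1 + ‖x‖) ^ r)⁻¹ := by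
          gcongr
      _ = C * Real.exp b * Real.exp (m ^ 2 / (4 * a)) * (1 + ‖x‖) ^ (-(r : ℝ)) := by rw [h5]

/-- A weight: a function of temperate growth bounded below by a positive quadratic. -/
structure Weight (X : Type*) [NormedAddCommGroup X] [NormedSpace ℝ X] where
  φ : TempAlg X
  a : ℝ
  b : ℝ
  ha : 0 < a
  hlow : ∀ x, a * ‖x‖ ^ 2 - b ≤ (φ : X → ℝ) x

theorem Weight.integrable (w : Weight X) (f : TempAlg X) :
    Integrable (fun x => (f : X → ℝ) x * Real.exp (-(w.φ : X → ℝ) x)) μ :=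
  integrable_temp_mul_exp μ f.2 (temp_continuous w.φ) w.ha w.hlow

/-- The functional `f ↦ ∫ f e^{-φ}`. -/
noncomputable def Weight.E (w : Weight X) : TempAlg X →ₗ[ℝ] ℝ where
  toFun := fun f => ∫ x, (f : X → ℝ) x * Real.exp (-(w.φ : X → ℝ) x) ∂μ
  map_add' := by
    intro f g
    rw [← integral_add (w.integrable μ f) (w.integrable μ g)]
    congr 1
    ext x
    show ((f : X → ℝ) x + (g : X → ℝ) x) * _ = _
    ring
  map_smul' := by
    intro c f
    rw [RingHom.id_apply, smul_eq_mul, ← integral_const_mul]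
    congr 1
    ext x
    show (c * (f : X → ℝ) x) * _ = _
    ring

theorem Weight.E_apply (w : Weight X) (f : TempAlg X) :
    w.E μ f = ∫ x, (f : X → ℝ) x * Real.exp (-(w.φ : X → ℝ) x) ∂μ := rfl

theorem Weight.E_nonneg (w : Weight X) (f : TempAlg X) (h : ∀ x, 0 ≤ (f : X → ℝ) x) :
    0 ≤ w.E μ f :=
  integral_nonneg fun x => mul_nonneg (h x) (Real.exp_pos _).le

theorem Weight.E_mono (w : Weight X) (f g : TempAlg X) (h : ∀ x, (f : X → ℝ) x ≤ (g : X → ℝ) x) :
    w.E μ f ≤ w.E μ g :=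
  integral_mono (w.integrable μ f) (w.integrable μ g) fun x =>
    mul_le_mul_of_nonneg_right (h x) (Real.exp_pos _).le

/-- **Integration by parts** against `e^{-φ}`. -/
theorem Weight.E_Dv (w : Weight X) (v : X) (g : TempAlg X) :
    w.E μ (Dv v g) = w.E μ (Dv v w.φ * g) := by
  have hφd : Differentiable ℝ (w.φ : X → ℝ) := temp_differentiable w.φ
  have hexp : ∀ x, HasFDerivAt (fun y => Real.exp (-(w.φ : X → ℝ) y))
      (Real.exp (-(w.φ : X → ℝ) x) • (-(fderiv ℝ (w.φ : X → ℝ) x))) x := fun x =>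
    ((hφd x).hasFDerivAt.neg).exp
  have hexpd : ∀ x, fderiv ℝ (fun y => Real.exp (-(w.φ : X → ℝ) y)) x v
      = -(fderiv ℝ (w.φ : X → ℝ) x v) * Real.exp (-(w.φ : X → ℝ) x) := by
    intro x
    rw [(hexp x).fderiv]
    simp only [_root_.smul_apply, _root_.neg_apply, smul_eq_mul]
    ring
  have I1 : Integrable (fun x => fderiv ℝ (fun y => Real.exp (-(w.φ : X → ℝ) y)) x v
      * (g : X → ℝ) x) μ := by
    have := w.integrable μ (-(Dv v w.φ * g))
    refine this.congr (Filter.Eventually.of_forall fun x => ?_)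
    show (-((fderiv ℝ (w.φ : X → ℝ) x v) * (g : X → ℝ) x)) * _ = _
    simp only [hexpd]
    ring
  have I2 : Integrable (fun x => Real.exp (-(w.φ : X → ℝ) x) * fderiv ℝ (g : X → ℝ) x v) μ := by
    have := w.integrable μ (Dv v g)
    refine this.congr (Filter.Eventually.of_forall fun x => ?_)
    show (fderiv ℝ (g : X → ℝ) x v) * _ = _
    ring
  have I3 : Integrable (fun x => Real.exp (-(w.φ : X → ℝ) x) * (g : X → ℝ) x) μ := by
    have := w.integrable μ g
    refine this.congr (Filter.Eventually.of_forall fun x => ?_)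
    show (g : X → ℝ) x * _ = _
    ring
  have key := integral_mul_fderiv_eq_neg_fderiv_mul_of_integrable (μ := μ)
    (f := fun y => Real.exp (-(w.φ : X → ℝ) y)) (g := (g : X → ℝ)) (v := v) I1 I2 I3
    (fun x _ => (hexp x).differentiableAt) (fun x _ => temp_differentiable g x)
  rw [Weight.E_apply, Weight.E_apply]
  have e1 : (∫ x, (Dv v g : X → ℝ) x * Real.exp (-(w.φ : X → ℝ) x) ∂μ)
      = ∫ x, Real.exp (-(w.φ : X → ℝ) x) * fderiv ℝ (g : X → ℝ) x v ∂μ := by
    congr 1
    ext x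
    rw [Dv_apply]; ring
  rw [e1, key, ← integral_neg]
  congr 1
  ext x
  show _ = ((fderiv ℝ (w.φ : X → ℝ) x v) * (g : X → ℝ) x) * _
  simp only [hexpd]
  ring

end Weight

end Vale.Agent.P227.M.ID
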