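import Vale.Agent.P227.M.ID.XCalc

/-! P227/M, block ID (helper590): the operators `D_a = ∑_e τ_ae ∂_e`, `D*_a = x_a - D_a` and the
integrated identities (A), (X), (B), (X3) for Lipschitz `τ`. -/

open MeasureTheory Set Metric Filter
open scoped Topology NNReal

namespace Vale.Agent.P227.M.X

variable {n : ℕ}

/-- data: `τ` locally Lipschitz, symmetric, with the Hessian structure (SY) and the Stein identity (ST) -/
structure TD (t : Fin n → Fin n → E n → ℝ) (V : E n → ℝ) : Prop where
  V_smooth : ContDiff ℝ (⊤ : ℕ∞) V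
  ll : ∀ a b, LL (t a b)
  symm : ∀ a b, t a b = t b a
  SY : ∀ᵐ x, ∀ a b d, ∑ e, t a e x * pd e (t b d) x = ∑ e, t b e x * pd e (t a d) x
  ST : ∀ᵐ x : E n, ∀ a, ∑ b, (pd b V x * t a b x - pd b (t a b) x) = x a

/-- `D_a f` -/
noncomputable def D (t : Fin n → Fin n → E n → ℝ) (a : Fin n) (f : E n → ℝ) (x : E n) : ℝ :=
  ∑ e, t a e x * pd e f x

/-- `D*_a f` -/
noncomputable def Ds (t : Fin n → Fin n → E n → ℝ) (a : Fin n) (f : E n → ℝ) (x : E n) : ℝ :=
  x a * f x - D t a f x

/-- weighted integral -/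
noncomputable def I (V f : E n → ℝ) : ℝ := ∫ x, f x * Real.exp (-V x)

/-- locally bounded with compact support -/
def BC (f : E n → ℝ) : Prop := LB f ∧ CS f

theorem BC.add {f g : E n → ℝ} (hf : BC f) (hg : BC g) : BC (fun x => f x + g x) :=
  ⟨hf.1.add hg.1, hf.2.add hg.2⟩
theorem BC.sub {f g : E n → ℝ} (hf : BC f) (hg : BC g) : BC (fun x => f x - g x) :=
  ⟨hf.1.sub hg.1, hf.2.sub hg.2⟩
theorem BC.neg {f : E n → ℝ} (hf : BC f) : BC (fun x => - f x) := ⟨hf.1.neg, hf.2.neg⟩
theorem BC.mul_left {f g : E n → ℝ} (hf : BC f) (hg : LB g) : BC (fun x => g x * f x) :=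
  ⟨hg.mul hf.1, hf.2.mul_left g⟩
theorem BC.mul_right {f g : E n → ℝ} (hf : BC f) (hg : LB g) : BC (fun x => f x * g x) :=
  ⟨hf.1.mul hg, hf.2.mul_right g⟩
theorem BC.mul {f g : E n → ℝ} (hf : BC f) (hg : BC g) : BC (fun x => f x * g x) := hf.mul_right hg.1
theorem BC.sum {ι : Type*} {s : Finset ι} {f : ι → E n → ℝ} (hf : ∀ i ∈ s, BC (f i)) :
    BC (fun x => ∑ i ∈ s, f i x) := ⟨LB.sum fun i hi => (hf i hi).1, CS.sum fun i hi => (hf i hi).2⟩

section
variable {V : E n → ℝ} (hV : ContDiff ℝ (⊤ : ℕ∞) V)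
include hV

theorem V_one : ContDiff ℝ 1 V := hV.of_le (by exact_mod_cast le_top)

theorem BC.int {f : E n → ℝ} (hf : BC f) : Integrable fun x => f x * Real.exp (-V x) :=
  LB.integrable (hf.1.mul (LL.exp_neg (V_one hV)).lb) (hf.2.mul_right _)

theorem I_add {f g : E n → ℝ} (hf : BC f) (hg : BC g) :
    I V (fun x => f x + g x) = I V f + I V g := by
  unfold I
  rw [← integral_add (hf.int hV) (hg.int hV)]
  exact integral_congr_ae (Eventually.of_forall fun x => by simp only; ring)

theorem I_sub {f g : E n → ℝ} (hf : BC f) (hg : BC g) :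
    I V (fun x => f x - g x) = I V f - I V g := by
  unfold I
  rw [← integral_sub (hf.int hV) (hg.int hV)]
  exact integral_congr_ae (Eventually.of_forall fun x => by simp only; ring)

theorem I_sum {ι : Type*} {s : Finset ι} {f : ι → E n → ℝ} (hf : ∀ i ∈ s, BC (f i)) :
    I V (fun x => ∑ i ∈ s, f i x) = ∑ i ∈ s, I V (f i) := by
  unfold I
  rw [← integral_finsetSum s fun i hi => (hf i hi).int hV]
  exact integral_congr_ae (Eventually.of_forall fun x => by simp only [Finset.sum_mul])

theorem I_mono {f g : E n → ℝ} (hf : BC f) (hg : BC g) (h : ∀ᵐ x, f x ≤ g x) : I V f ≤ I V g := by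
  unfold I
  refine integral_mono_ae (hf.int hV) (hg.int hV) ?_
  filter_upwards [h] with x hx
  exact mul_le_mul_of_nonneg_right hx (Real.exp_pos _).le

omit hV in
theorem I_congr {f g : E n → ℝ} (h : ∀ᵐ x, f x = g x) : I V f = I V g := by
  unfold I
  refine integral_congr_ae ?_
  filter_upwards [h] with x hx
  rw [hx]

omit hV in
theorem I_congr' {f g : E n → ℝ} (h : ∀ x, f x = g x) : I V f = I V g :=
  I_congr (Eventually.of_forall h)

theorem ll_pdV (a : Fin n) : LL (pd a V) := by
  refine LL.of_contDiff ?_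
  have h2 : ContDiff ℝ (⊤ : ℕ∞) (fun x => fderiv ℝ V x (ei a)) :=
    (hV.fderiv_right (m := (⊤ : ℕ∞)) (by exact_mod_cast le_top)).clm_apply contDiff_const
  exact h2.of_le (by exact_mod_cast le_top)

end

theorem coord_ll (a : Fin n) : LL (fun x : E n => x a) := by
  refine LL.of_lip (C := 1) fun x y => ?_
  have h2 : |(x - y) a| ≤ ‖x - y‖ := PiLp.norm_apply_le (x - y) a
  simpa using h2

theorem coord_diff (a : Fin n) (x : E n) : DifferentiableAt ℝ (fun x : E n => x a) x := by
  fun_prop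

theorem pd_coord (i j : Fin n) (x : E n) : pd i (fun z : E n => z j) x = if j = i then 1 else 0 := by
  have h1 : (fun z : E n => z j) = (EuclideanSpace.proj j : E n →L[ℝ] ℝ) := rfl
  unfold M.pd
  rw [h1, ContinuousLinearMap.fderiv]
  simp [ei, eq_comm]

section ops
variable {t : Fin n → Fin n → E n → ℝ} {V : E n → ℝ} (h : TD t V)
include h

theorem lb_D {f : E n → ℝ} (hf : LL f) (a : Fin n) : LB (D t a f) :=
  LB.sum fun e _ => (h.ll a e).lb.mul (LB.pd hf e)

omit h in
theorem cs_D {f : E n → ℝ} (hf : CS f) (a : Fin n) : CS (D t a f) :=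
  CS.sum fun e _ => (hf.pd e).mul_left _

theorem bc_D {f : E n → ℝ} (hf : LL f) (hc : CS f) (a : Fin n) : BC (D t a f) := ⟨lb_D h hf a, cs_D hc a⟩

theorem lb_Ds {f : E n → ℝ} (hf : LL f) (a : Fin n) : LB (Ds t a f) :=
  ((coord_ll a).lb.mul hf.lb).sub (lb_D h hf a)

omit h in
theorem cs_Ds {f : E n → ℝ} (hf : CS f) (a : Fin n) : CS (Ds t a f) :=
  (hf.mul_left _).sub (cs_D hf a)

theorem bc_Ds {f : E n → ℝ} (hf : LL f) (hc : CS f) (a : Fin n) : BC (Ds t a f) := ⟨lb_Ds h hf a, cs_Ds hc a⟩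

theorem ll_D {f : E n → ℝ} (hf : ∀ e, LL (pd e f)) (a : Fin n) : LL (D t a f) :=
  LL.sum fun e _ => (h.ll a e).mul (hf e)

theorem ae_t : ∀ᵐ x, ∀ a b, DifferentiableAt ℝ (t a b) x := by
  rw [ae_all_iff]; intro a
  rw [ae_all_iff]; intro b
  exact (h.ll a b).ae_diff

omit h in
theorem D_mul {f g : E n → ℝ} {x : E n} (a : Fin n) (hf : DifferentiableAt ℝ f x) (hg : DifferentiableAt ℝ g x) :
    D t a (fun z => f z * g z) x = D t a f x * g x + f x * D t a g x := by
  unfold D
  rw [Finset.sum_mul, Finset.mul_sum, ← Finset.sum_add_distrib]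
  refine Finset.sum_congr rfl fun e _ => ?_
  rw [pd_mul e hf hg]; ring

omit h in
theorem D_add {f g : E n → ℝ} {x : E n} (a : Fin n) (hf : DifferentiableAt ℝ f x) (hg : DifferentiableAt ℝ g x) :
    D t a (fun z => f z + g z) x = D t a f x + D t a g x := by
  unfold D
  rw [← Finset.sum_add_distrib]
  refine Finset.sum_congr rfl fun e _ => ?_
  rw [pd_add e hf hg]; ring

omit h in
theorem D_sub {f g : E n → ℝ} {x : E n} (a : Fin n) (hf : DifferentiableAt ℝ f x) (hg : DifferentiableAt ℝ g x) :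
    D t a (fun z => f z - g z) x = D t a f x - D t a g x := by
  unfold D
  rw [← Finset.sum_sub_distrib]
  refine Finset.sum_congr rfl fun e _ => ?_
  rw [pd_sub e hf hg]; ring

omit h in
theorem D_sum {ι : Type*} (s : Finset ι) {F : ι → E n → ℝ} {x : E n} (a : Fin n)
    (hF : ∀ j ∈ s, DifferentiableAt ℝ (F j) x) :
    D t a (fun z => ∑ j ∈ s, F j z) x = ∑ j ∈ s, D t a (F j) x := by
  unfold D
  rw [Finset.sum_comm]
  refine Finset.sum_congr rfl fun e _ => ?_
  rw [pd_sum s e hF, Finset.mul_sum]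

omit h in
theorem D_coord {x : E n} (a b : Fin n) : D t a (fun z : E n => z b) x = t a b x := by
  unfold D
  simp [pd_coord]

/-- integration by parts for `D` -/
theorem ibpD {f g : E n → ℝ} (hf : LL f) (hg : LL g) (hc : CS f ∨ CS g) (a : Fin n) :
    I V (fun x => f x * D t a g x) = I V (fun x => Ds t a f x * g x) := by
  have hV := h.V_smooth
  have hfg : CS (fun x => f x * g x) := by
    rcases hc with hc | hc
    · exact hc.mul_right g
    · exact hc.mul_left f
  have hcs : ∀ e, CS (fun x => f x * t a e x) ∨ CS g := by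
    intro e
    rcases hc with hc | hc
    · exact Or.inl (hc.mul_right _)
    · exact Or.inr hc
  have hB1 : ∀ e ∈ (Finset.univ : Finset (Fin n)), BC (fun x => pd e g x * (f x * t a e x)) := by
    intro e _
    refine ⟨(LB.pd hg e).mul (hf.lb.mul (h.ll a e).lb), ?_⟩
    rcases hc with hc | hc
    · exact (hc.mul_right _).mul_left _
    · exact (hc.pd e).mul_right _
  have hB2 : ∀ e ∈ (Finset.univ : Finset (Fin n)),
      BC (fun x => g x * (pd e V x * (f x * t a e x) - pd e (fun x => f x * t a e x) x)) := by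
    intro e _
    refine ⟨hg.lb.mul (((ll_pdV hV e).lb.mul (hf.lb.mul (h.ll a e).lb)).sub (LB.pd (hf.mul (h.ll a e)) e)), ?_⟩
    rcases hc with hc | hc
    · exact (((hc.mul_right _).mul_left _).sub ((hc.mul_right _).pd e)).mul_left _
    · exact hc.mul_right _
  have e1 : I V (fun x => f x * D t a g x) = ∑ e, I V (fun x => pd e g x * (f x * t a e x)) := by
    rw [← I_sum hV hB1]
    refine I_congr' fun x => ?_
    unfold D
    rw [Finset.mul_sum]
    exact Finset.sum_congr rfl fun e _ => by ring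
  have e2 : ∀ e, I V (fun x => pd e g x * (f x * t a e x)) =
      I V (fun x => g x * (pd e V x * (f x * t a e x) - pd e (fun x => f x * t a e x) x)) := by
    intro e
    exact ibpw (V_one hV) hg (hf.mul (h.ll a e)) ((hcs e).symm) e
  rw [e1, Finset.sum_congr rfl fun e _ => e2 e, ← I_sum hV hB2]
  refine I_congr ?_
  filter_upwards [hf.ae_diff, ae_t h, h.ST] with x hfx htx hST
  have e3 : ∀ e, g x * (pd e V x * (f x * t a e x) - pd e (fun x => f x * t a e x) x) =
      g x * f x * (pd e V x * t a e x - pd e (t a e) x) - g x * (t a e x * pd e f x) := by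
    intro e
    have := pd_mul e hfx (htx a e)
    rw [this]; ring
  rw [Finset.sum_congr rfl fun e _ => e3 e, Finset.sum_sub_distrib, ← Finset.mul_sum, hST a, ← Finset.mul_sum]
  unfold Ds D
  ring

/-- commutation `D_a D_b p = D_b D_a p` a.e. for `p` in `C²` -/
theorem comm {p : E n → ℝ} (hp : ContDiff ℝ (⊤ : ℕ∞) p) :
    ∀ᵐ x, ∀ a b, D t a (D t b p) x = D t b (D t a p) x := by
  have hd1 : ∀ e, Differentiable ℝ (pd e p) := fun e =>
    ((hp.fderiv_right (m := (⊤ : ℕ∞)) (by exact_mod_cast le_top)).clm_apply contDiff_const).differentiable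
      (by simp)
  have hs : ∀ x e f, pd e (pd f p) x = pd f (pd e p) x := by
    intro x e f
    have h2 : ContDiff ℝ 2 p := by exact_mod_cast (contDiff_infty.1 hp 2)
    have hsym := (h2.contDiffAt (x := x)).isSymmSndFDerivAt (by simp)
    have hdf : Differentiable ℝ (fderiv ℝ p) :=
      (hp.fderiv_right (m := (⊤ : ℕ∞)) (by exact_mod_cast le_top)).differentiable (by simp)
    have e1 : ∀ u v : E n, fderiv ℝ (fun y => fderiv ℝ p y u) x v = fderiv ℝ (fderiv ℝ p) x v u := by
      intro u v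
      rw [fderiv_clm_apply (hdf x) (differentiableAt_const _)]
      simp
    unfold M.pd
    rw [e1, e1]
    exact hsym.eq _ _
  filter_upwards [ae_t h, h.SY] with x htx hSY
  have e1 : ∀ a b, D t a (D t b p) x =
      ∑ f, (∑ e, t a e x * pd e (t b f) x) * pd f p x + ∑ e, ∑ f, t a e x * t b f x * pd e (pd f p) x := by
    intro a b
    have e2 : ∀ e, pd e (D t b p) x = ∑ f, (pd e (t b f) x * pd f p x + t b f x * pd e (pd f p) x) := by
      intro e
      unfold D
      rw [pd_sum Finset.univ e (F := fun f z => t b f z * pd f p z)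
        (fun f _ => (htx b f).mul (hd1 f x))]
      exact Finset.sum_congr rfl fun f _ => pd_mul e (htx b f) (hd1 f x)
    have e3 : D t a (D t b p) x = ∑ e, t a e x * pd e (D t b p) x := rfl
    rw [e3]
    simp only [e2, Finset.mul_sum, mul_add, Finset.sum_add_distrib, Finset.sum_mul]
    congr 1
    · rw [Finset.sum_comm]
      exact Finset.sum_congr rfl fun f _ => Finset.sum_congr rfl fun e _ => by ring
    · exact Finset.sum_congr rfl fun f _ => Finset.sum_congr rfl fun e _ => by ring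
  intro a b
  rw [e1 a b, e1 b a]
  congr 1
  · exact Finset.sum_congr rfl fun f _ => by rw [hSY a b f]
  · rw [Finset.sum_comm]
    exact Finset.sum_congr rfl fun f _ => Finset.sum_congr rfl fun e _ => by rw [hs x e f]; ring

end ops

end Vale.Agent.P227.M.X
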