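import Vale.Agent.P227.M.ID.XId

/-! P227/M (helper590): static identities for a Stein kernel `t` of Hessian type (no evenness):
(K0) and the weak equation `t V'' t = t - P + L t`. -/

open MeasureTheory Set Metric Filter
open scoped Topology NNReal

namespace Vale.Agent.P227.M.X

variable {n : ℕ}

theorem exists_cutoff (R : ℝ) : ∃ χ : E n → ℝ, ContDiff ℝ (⊤ : ℕ∞) χ ∧ CS χ ∧ ∀ x, ‖x‖ ≤ R → χ x = 1 := by
  have hR : (0 : ℝ) < max R 0 + 1 := by positivity
  let f : ContDiffBump (0 : E n) := ⟨max R 0 + 1, max R 0 + 2, hR, by linarith⟩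
  refine ⟨f, f.contDiff, CS.of_hasCompactSupport f.hasCompactSupport, fun x hx => ?_⟩
  refine f.one_of_mem_closedBall ?_
  rw [mem_closedBall_zero_iff]
  exact hx.trans ((le_max_left _ _).trans (by linarith))

/-- `xxw` with `W` only locally Lipschitz -/
theorem xxw' {V : E n → ℝ} (hV : ContDiff ℝ 1 V) {W Z : E n → ℝ} (hW : LL W)
    (hZ : LL Z) (hZc : CS Z) (i j : Fin n) :
    ∫ x, pd i W x * (pd j V x * Z x - pd j Z x) * Real.exp (-V x) =
      ∫ x, pd j W x * (pd i V x * Z x - pd i Z x) * Real.exp (-V x) := by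
  obtain ⟨R, hR⟩ := hZc
  obtain ⟨χ, hχ, hχc, hχ1⟩ := exists_cutoff (n := n) (R + 1)
  have hW' : LL (fun x => χ x * W x) := (smooth_ll hχ).mul hW
  have h := xxw hV hW' (hχc.mul_right W) hZ ⟨R, hR⟩ i j
  have hpd : ∀ (k : Fin n) (x : E n), ‖x‖ ≤ R → pd k (fun x => χ x * W x) x = pd k W x := by
    intro k x hx
    have h1 : (fun x => χ x * W x) =ᶠ[𝓝 x] W :=
      eventually_eq_of_ball (R := R + 1) (fun y hy => by rw [hχ1 y hy, one_mul]) (by linarith)
    unfold M.pd
    rw [h1.fderiv_eq]
  have hZ0 : ∀ (k : Fin n) (x : E n), R < ‖x‖ → pd k Z x = 0 := by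
    intro k x hx
    have h1 : Z =ᶠ[𝓝 x] fun _ => (0 : ℝ) := by
      have : {y : E n | R < ‖y‖} ∈ 𝓝 x := (isOpen_lt continuous_const continuous_norm).mem_nhds hx
      filter_upwards [this] with y hy
      exact hR y hy
    unfold M.pd
    rw [h1.fderiv_eq]
    simp
  have e : ∀ a b : Fin n, ∫ x, pd a (fun x => χ x * W x) x * (pd b V x * Z x - pd b Z x) * Real.exp (-V x) =
      ∫ x, pd a W x * (pd b V x * Z x - pd b Z x) * Real.exp (-V x) := by
    intro a b
    refine integral_congr_ae (Eventually.of_forall fun x => ?_)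
    by_cases hx : ‖x‖ ≤ R
    · simp only [hpd a x hx]
    · have hx' := not_le.1 hx
      simp only [hR x hx', hZ0 b x hx', mul_zero, sub_zero]
  rw [e, e] at h
  exact h

section
variable {t : Fin n → Fin n → E n → ℝ} {V : E n → ℝ}

/-- (K0) -/
theorem k0 (hV : ContDiff ℝ (⊤ : ℕ∞) V) {f g : E n → ℝ} (hf : LL f) (hg : LL g) (hgc : CS g) (b c : Fin n) :
    I V (fun x => (pd b V x * f x - pd b f x) * (pd c V x * g x - pd c g x)) =
      I V (fun x => pd c (pd b V) x * f x * g x + pd c f x * pd b g x) := by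
  have hVa : ∀ a, LL (pd a V) := fun a => ll_pdV hV a
  have hb0 : ∀ i, BC (fun x => pd i V x * g x - pd i g x) := fun i =>
    (BC.mul_left ⟨hg.lb, hgc⟩ (hVa i).lb).sub ⟨LB.pd hg i, hgc.pd i⟩
  have hb1 : BC (fun x => pd b V x * f x * (pd c V x * g x - pd c g x)) :=
    BC.mul_left (hb0 c) ((hVa b).lb.mul hf.lb)
  have hb2 : BC (fun x => pd b f x * (pd c V x * g x - pd c g x)) := BC.mul_left (hb0 c) (LB.pd hf b)
  have hb3 : BC (fun x => pd c f x * (pd b V x * g x - pd b g x)) := BC.mul_left (hb0 b) (LB.pd hf c)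
  have hb4 : BC (fun x => pd c (fun x => pd b V x * f x) x * g x) :=
    BC.mul_left ⟨hg.lb, hgc⟩ (LB.pd ((hVa b).mul hf) c)
  have e1 : I V (fun x => (pd b V x * f x - pd b f x) * (pd c V x * g x - pd c g x)) =
      I V (fun x => pd b V x * f x * (pd c V x * g x - pd c g x)) -
        I V (fun x => pd b f x * (pd c V x * g x - pd c g x)) := by
    rw [← I_sub hV hb1 hb2]
    exact I_congr' fun x => by ring
  have e2 : I V (fun x => pd b V x * f x * (pd c V x * g x - pd c g x)) =
      I V (fun x => pd c (fun x => pd b V x * f x) x * g x) :=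
    (ibpw (V_one hV) ((hVa b).mul hf) hg (Or.inr hgc) c).symm
  have e3 : I V (fun x => pd b f x * (pd c V x * g x - pd c g x)) =
      I V (fun x => pd c f x * (pd b V x * g x - pd b g x)) :=
    xxw' (V_one hV) hf hg hgc b c
  rw [e1, e2, e3, ← I_sub hV hb4 hb3]
  refine I_congr ?_
  filter_upwards [hf.ae_diff] with x hx
  rw [pd_mul c (smooth_diff (smooth_pd hV b) x) hx]; ring

variable (h : TD t V)
include h

/-- the weak equation for `t_ai`, test function locally Lipschitz with compact support -/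
theorem weak_t {g : E n → ℝ} (hg : LL g) (hgc : CS g) (a i : Fin n) :
    I V (fun x => (∑ b, ∑ c, t a b x * pd c (pd b V) x * t i c x) * g x) =
      I V (fun x => t a i x * g x) - I V (fun x => (∑ b, ∑ c, pd c (t a b) x * pd b (t i c) x) * g x)
        - I V (fun x => ∑ b, D t b (t a i) x * pd b g x) := by
  have hV := h.V_smooth
  have hgc' : ∀ c, LL (fun x => t i c x * g x) := fun c => (h.ll i c).mul hg
  have hgcc : ∀ c, CS (fun x => t i c x * g x) := fun c => hgc.mul_left _
  have hVa : ∀ a, LL (pd a V) := fun a => ll_pdV hV a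
  have bL : ∀ b c, BC (fun x => (pd b V x * t a b x - pd b (t a b) x) *
      (pd c V x * (t i c x * g x) - pd c (fun x => t i c x * g x) x)) := fun b c =>
    BC.mul_left ((BC.mul_left ⟨(hgc' c).lb, hgcc c⟩ (hVa c).lb).sub ⟨LB.pd (hgc' c) c, (hgcc c).pd c⟩)
      (((hVa b).lb.mul (h.ll a b).lb).sub (LB.pd (h.ll a b) b))
  have bR1 : ∀ b c, BC (fun x => pd c (pd b V) x * t a b x * (t i c x * g x)) := fun b c =>
    BC.mul_left ⟨(hgc' c).lb, hgcc c⟩ ((smooth_ll (smooth_pd (smooth_pd hV b) c)).lb.mul (h.ll a b).lb)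
  have bR2 : ∀ b c, BC (fun x => pd c (t a b) x * pd b (fun x => t i c x * g x) x) := fun b c =>
    BC.mul_left ⟨LB.pd (hgc' c) b, (hgcc c).pd b⟩ (LB.pd (h.ll a b) c)
  -- sum of (K0)
  have e1 : ∑ b, ∑ c, I V (fun x => (pd b V x * t a b x - pd b (t a b) x) *
      (pd c V x * (t i c x * g x) - pd c (fun x => t i c x * g x) x)) =
      ∑ b, ∑ c, (I V (fun x => pd c (pd b V) x * t a b x * (t i c x * g x)) +
        I V (fun x => pd c (t a b) x * pd b (fun x => t i c x * g x) x)) := by
    refine Finset.sum_congr rfl fun b _ => Finset.sum_congr rfl fun c _ => ?_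
    rw [k0 hV (h.ll a b) (hgc' c) (hgcc c) b c, I_add hV (bR1 b c) (bR2 b c)]
  -- left side
  have e2 : ∑ b, ∑ c, I V (fun x => (pd b V x * t a b x - pd b (t a b) x) *
      (pd c V x * (t i c x * g x) - pd c (fun x => t i c x * g x) x)) =
      I V (fun x => t a i x * g x) := by
    have e3 : ∑ b, ∑ c, I V (fun x => (pd b V x * t a b x - pd b (t a b) x) *
      (pd c V x * (t i c x * g x) - pd c (fun x => t i c x * g x) x)) =
        I V (fun x => x a * Ds t i g x) := by
      rw [Finset.sum_congr rfl fun b _ => (I_sum hV fun c _ => bL b c).symm,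
        ← I_sum hV fun b _ => BC.sum fun c _ => bL b c]
      refine I_congr ?_
      filter_upwards [hg.ae_diff, ae_t h, h.ST] with x hgx htx hST
      rw [← Finset.sum_mul_sum, hST a]
      congr 1
      have e4 : ∀ c, pd c V x * (t i c x * g x) - pd c (fun x => t i c x * g x) x =
          (pd c V x * t i c x - pd c (t i c) x) * g x - t i c x * pd c g x := by
        intro c
        rw [pd_mul c (htx i c) hgx]; ring
      rw [Finset.sum_congr rfl fun c _ => e4 c, Finset.sum_sub_distrib, ← Finset.sum_mul, hST i]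
      rfl
    rw [e3]
    have e5 := ibpD h hg (coord_ll a) (Or.inl hgc) i
    have e6 : I V (fun x => x a * Ds t i g x) = I V (fun x => Ds t i g x * x a) :=
      I_congr' fun x => mul_comm _ _
    rw [e6, ← e5]
    refine I_congr' fun x => ?_
    rw [D_coord, h.symm i a]; ring
  rw [e2] at e1
  -- right side
  have e7 : ∑ b, ∑ c, (I V (fun x => pd c (pd b V) x * t a b x * (t i c x * g x)) +
        I V (fun x => pd c (t a b) x * pd b (fun x => t i c x * g x) x)) =
      I V (fun x => (∑ b, ∑ c, t a b x * pd c (pd b V) x * t i c x) * g x) +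
        (I V (fun x => (∑ b, ∑ c, pd c (t a b) x * pd b (t i c) x) * g x) +
          I V (fun x => ∑ b, D t b (t a i) x * pd b g x)) := by
    have hb3 : BC (fun x => (∑ b, ∑ c, pd c (t a b) x * pd b (t i c) x) * g x) :=
      BC.mul_left ⟨hg.lb, hgc⟩ (LB.sum fun b _ => LB.sum fun c _ => (LB.pd (h.ll a b) c).mul (LB.pd (h.ll i c) b))
    have hb4 : BC (fun x => ∑ b, D t b (t a i) x * pd b g x) :=
      BC.sum fun b _ => BC.mul_left ⟨LB.pd hg b, hgc.pd b⟩ (lb_D h (h.ll a i) b)
    rw [← I_add hV hb3 hb4]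
    simp only [Finset.sum_add_distrib]
    congr 1
    · rw [Finset.sum_congr rfl fun b _ => (I_sum hV fun c _ => bR1 b c).symm,
        ← I_sum hV fun b _ => BC.sum fun c _ => bR1 b c]
      refine I_congr' fun x => ?_
      rw [Finset.sum_mul]
      refine Finset.sum_congr rfl fun b _ => ?_
      rw [Finset.sum_mul]
      exact Finset.sum_congr rfl fun c _ => by ring
    · rw [Finset.sum_congr rfl fun b _ => (I_sum hV fun c _ => bR2 b c).symm,
        ← I_sum hV fun b _ => BC.sum fun c _ => bR2 b c]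
      refine I_congr ?_
      filter_upwards [hg.ae_diff, ae_t h, h.SY] with x hgx htx hSY
      rw [Finset.sum_mul, ← Finset.sum_add_distrib]
      refine Finset.sum_congr rfl fun b _ => ?_
      have e8 : D t b (t a i) x = ∑ c, t i c x * pd c (t a b) x := by
        unfold D
        rw [h.symm a i, hSY b i a, h.symm a b]
      rw [e8, Finset.sum_mul, Finset.sum_mul, ← Finset.sum_add_distrib]
      refine Finset.sum_congr rfl fun c _ => ?_
      rw [pd_mul b (htx i c) hgx]; ring
  rw [e7] at e1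
  linarith

end

end Vale.Agent.P227.M.X
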