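import Vale.Agent.P227.M.ID.XStat
import Vale.Agent.P227.M.ID.XAlg

/-! P227/M (helper590): static inequality `2 N1 ≤ E tr(WtWt) - E tr(WtWtV''t)` for a Stein kernel `t` of
Hessian type (no evenness), `N1 = ∑ w_a w_i E⟨t∇t_ai, ∇t_ai⟩`. -/

open MeasureTheory Set Metric Filter
open scoped Topology NNReal

namespace Vale.Agent.P227.M.X

variable {n : ℕ}

/-! ### cut-offs -/

theorem exists_cut_seq : ∃ (χ : ℕ → E n → ℝ) (C : ℝ), (∀ m, ContDiff ℝ (⊤ : ℕ∞) (χ m)) ∧ (∀ m, CS (χ m)) ∧
    (∀ m x, |χ m x| ≤ 1) ∧ (∀ m i x, |pd i (χ m) x| ≤ C / (m + 1)) ∧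
    ∀ x, Tendsto (fun m => χ m x) atTop (𝓝 1) := by
  let f : ContDiffBump (0 : E n) := ⟨1, 2, one_pos, one_lt_two⟩
  have hf : ContDiff ℝ (⊤ : ℕ∞) (f : E n → ℝ) := f.contDiff
  have hcf : Continuous (fderiv ℝ (f : E n → ℝ)) := hf.continuous_fderiv (by simp)
  obtain ⟨C, hC⟩ := (hcf.bounded_above_of_compact_support (f.hasCompactSupport.fderiv (𝕜 := ℝ)))
  have hm : ∀ m : ℕ, (0 : ℝ) < (m : ℝ) + 1 := fun m => by positivity
  have hsm : ∀ m : ℕ, ContDiff ℝ (⊤ : ℕ∞) (fun x : E n => f (((m : ℝ) + 1)⁻¹ • x)) := fun m =>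
    hf.comp (show ContDiff ℝ (⊤ : ℕ∞) (fun x : E n => ((m : ℝ) + 1)⁻¹ • x) from contDiff_id.const_smul _)
  refine ⟨fun m x => f (((m : ℝ) + 1)⁻¹ • x), C, hsm, fun m => ⟨2 * (m + 1), fun x hx => ?_⟩, fun m x => ?_,
    fun m i x => ?_, fun x => ?_⟩
  · refine f.zero_of_le_dist ?_
    rw [dist_zero_right, norm_smul, norm_inv, Real.norm_eq_abs, abs_of_pos (hm m), le_inv_mul_iff₀ (hm m)]
    have : f.rOut = 2 := rfl
    rw [this]; linarith
  · rw [abs_of_nonneg f.nonneg]
    exact f.le_one
  · have h1 : HasFDerivAt (fun x : E n => f (((m : ℝ) + 1)⁻¹ • x))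
        ((fderiv ℝ (f : E n → ℝ) (((m : ℝ) + 1)⁻¹ • x)).comp ((((m : ℝ) + 1)⁻¹) • ContinuousLinearMap.id ℝ (E n))) x :=
      ((hf.differentiable (by simp)) _).hasFDerivAt.comp x
        (((((m : ℝ) + 1)⁻¹) • ContinuousLinearMap.id ℝ (E n)).hasFDerivAt (x := x))
    have h2 : pd i (fun x : E n => f (((m : ℝ) + 1)⁻¹ • x)) x =
        ((m : ℝ) + 1)⁻¹ * fderiv ℝ (f : E n → ℝ) (((m : ℝ) + 1)⁻¹ • x) (ei i) := by
      unfold M.pd
      rw [h1.fderiv]
      simp
    rw [h2, abs_mul, abs_inv, abs_of_pos (hm m), div_eq_inv_mul]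
    refine mul_le_mul_of_nonneg_left ?_ (by have := hm m; positivity)
    have h3 := ContinuousLinearMap.le_opNorm (fderiv ℝ (f : E n → ℝ) (((m : ℝ) + 1)⁻¹ • x)) (ei i)
    have h4 : ‖(ei i : E n)‖ = 1 := by simp [ei]
    rw [h4, mul_one] at h3
    exact h3.trans (hC _)
  · refine tendsto_const_nhds.congr' ?_
    obtain ⟨m0, hm0⟩ := exists_nat_gt ‖x‖
    filter_upwards [eventually_ge_atTop m0] with m hmm
    symm
    refine f.one_of_mem_closedBall ?_
    rw [mem_closedBall_zero_iff, norm_smul, norm_inv, Real.norm_eq_abs, abs_of_pos (hm m), inv_mul_le_iff₀ (hm m)]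
    have h5 : (m0 : ℝ) ≤ m := by exact_mod_cast hmm
    have : f.rIn = 1 := rfl
    rw [this]; linarith

/-- bounded measurable function -/
def BM (f : E n → ℝ) : Prop := Measurable f ∧ ∃ K : ℝ, ∀ x, |f x| ≤ K

theorem BM.lb {f : E n → ℝ} (h : BM f) : LB f := ⟨h.1, fun _ => by obtain ⟨K, hK⟩ := h.2; exact ⟨K, fun x _ => hK x⟩⟩
theorem BM.add {f g : E n → ℝ} (hf : BM f) (hg : BM g) : BM (fun x => f x + g x) := by
  obtain ⟨A, hA⟩ := hf.2
  obtain ⟨B, hB⟩ := hg.2
  exact ⟨hf.1.add hg.1, A + B, fun x => (abs_add_le _ _).trans (add_le_add (hA x) (hB x))⟩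
theorem BM.mul {f g : E n → ℝ} (hf : BM f) (hg : BM g) : BM (fun x => f x * g x) := by
  obtain ⟨A, hA⟩ := hf.2
  obtain ⟨B, hB⟩ := hg.2
  refine ⟨hf.1.mul hg.1, A * B, fun x => ?_⟩
  rw [abs_mul]
  exact mul_le_mul (hA x) (hB x) (abs_nonneg _) ((abs_nonneg _).trans (hA x))
theorem BM.const (c : ℝ) : BM (fun _ : E n => c) := ⟨measurable_const, |c|, fun _ => le_rfl⟩
theorem BM.sum {ι : Type*} {s : Finset ι} {f : ι → E n → ℝ} (hf : ∀ i ∈ s, BM (f i)) :
    BM (fun x => ∑ i ∈ s, f i x) := by
  classical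
  induction s using Finset.induction_on with
  | empty => simpa using BM.const (n := n) 0
  | insert a s ha ih =>
    have h1 := (hf a (Finset.mem_insert_self a s)).add
      (ih fun i hi => hf i (Finset.mem_insert_of_mem hi))
    simpa [Finset.sum_insert ha] using h1

/-- bounded data -/
structure TDB (t : Fin n → Fin n → E n → ℝ) (V : E n → ℝ) : Prop extends TD t V where
  tb : ∀ a b, BM (t a b)
  tpb : ∀ e a b, BM (pd e (t a b))
  Vb : ∀ a b, BM (pd a (pd b V))
  int : Integrable (fun x => Real.exp (-V x))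

section
variable {V : E n → ℝ} (hV : ContDiff ℝ (⊤ : ℕ∞) V) (hI : Integrable (fun x => Real.exp (-V x)))
include hI

theorem BM.int {f : E n → ℝ} (hf : BM f) : Integrable (fun x => f x * Real.exp (-V x)) := by
  obtain ⟨K, hK⟩ := hf.2
  exact hI.bdd_mul hf.1.aestronglyMeasurable (Eventually.of_forall hK)

theorem J_add {f g : E n → ℝ} (hf : BM f) (hg : BM g) :
    I V (fun x => f x + g x) = I V f + I V g := by
  unfold I
  rw [← integral_add (hf.int hI) (hg.int hI)]
  exact integral_congr_ae (Eventually.of_forall fun x => by simp only; ring)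

theorem J_sum {ι : Type*} {s : Finset ι} {f : ι → E n → ℝ} (hf : ∀ i ∈ s, BM (f i)) :
    I V (fun x => ∑ i ∈ s, f i x) = ∑ i ∈ s, I V (f i) := by
  unfold I
  rw [← integral_finsetSum s fun i hi => (hf i hi).int hI]
  exact integral_congr_ae (Eventually.of_forall fun x => by simp only [Finset.sum_mul])

theorem J_mono {f g : E n → ℝ} (hf : BM f) (hg : BM g) (h : ∀ᵐ x, f x ≤ g x) : I V f ≤ I V g := by
  unfold I
  refine integral_mono_ae (hf.int hI) (hg.int hI) ?_
  filter_upwards [h] with x hx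
  exact mul_le_mul_of_nonneg_right hx (Real.exp_pos _).le

omit hI in
theorem J_const_mul (c : ℝ) (f : E n → ℝ) : I V (fun x => c * f x) = c * I V f := by
  unfold I
  rw [← integral_const_mul]
  exact integral_congr_ae (Eventually.of_forall fun x => by simp only; ring)

theorem tendsto_cut {χ : ℕ → E n → ℝ} (hχm : ∀ m, Measurable (χ m)) (hχ1 : ∀ m x, |χ m x| ≤ 1)
    (hχ : ∀ x, Tendsto (fun m => χ m x) atTop (𝓝 1)) {F : E n → ℝ} (hF : BM F) :
    Tendsto (fun m => I V (fun x => F x * χ m x)) atTop (𝓝 (I V F)) := by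
  unfold I
  refine tendsto_integral_of_dominated_convergence (fun x => |F x * Real.exp (-V x)|) (fun m => ?_)
    ((hF.int hI).abs) (fun m => Eventually.of_forall fun x => ?_) (Eventually.of_forall fun x => ?_)
  · have : (fun x => F x * χ m x * Real.exp (-V x)) = fun x => χ m x * (F x * Real.exp (-V x)) := by
      funext x; ring
    rw [this]
    exact (hχm m).aestronglyMeasurable.mul (hF.int hI).aestronglyMeasurable
  · rw [Real.norm_eq_abs]
    have : F x * χ m x * Real.exp (-V x) = (F x * Real.exp (-V x)) * χ m x := by ring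
    rw [this, abs_mul]
    exact mul_le_of_le_one_right (abs_nonneg _) (hχ1 m x)
  · have h1 := ((hχ x).const_mul (F x)).mul_const (Real.exp (-V x))
    simpa using h1

theorem tendsto_small {G : ℕ → E n → ℝ} {C : ℝ} (hG : ∀ m x, |G m x| ≤ C / (m + 1)) : Tendsto (fun m => I V (G m)) atTop (𝓝 0) := by
  have hm : ∀ m : ℕ, (0 : ℝ) < (m : ℝ) + 1 := fun m => by positivity
  have hb : ∀ m : ℕ, |I V (G m)| ≤ (C / (m + 1)) * ∫ x, Real.exp (-V x) := by
    intro m
    unfold I
    rw [← integral_const_mul, ← Real.norm_eq_abs]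
    refine norm_integral_le_of_norm_le (hI.const_mul _) (Eventually.of_forall fun x => ?_)
    rw [Real.norm_eq_abs, abs_mul, abs_of_pos (Real.exp_pos _)]
    exact mul_le_mul_of_nonneg_right (hG m x) (Real.exp_pos _).le
  have h0 : Tendsto (fun m : ℕ => (C / ((m : ℝ) + 1)) * ∫ x, Real.exp (-V x)) atTop (𝓝 0) := by
    have h1 := (tendsto_const_div_atTop_nhds_zero_nat C).comp (tendsto_add_atTop_nat 1)
    have h2 : Tendsto (fun m : ℕ => C / ((m : ℝ) + 1)) atTop (𝓝 0) := by
      refine h1.congr fun m => ?_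
      simp
    simpa using h2.mul_const (∫ x, Real.exp (-V x))
  exact squeeze_zero_norm (fun m => by rw [Real.norm_eq_abs]; exact hb m) h0

end

section
variable {t : Fin n → Fin n → E n → ℝ} {V : E n → ℝ} (h : TDB t V)
include h

/-- the weak equation for `t_ai`, bounded Lipschitz test function -/
theorem weak_tb {g : E n → ℝ} (hg : LL g) (hgb : BM g) (hgp : ∀ b, BM (pd b g)) (a i : Fin n) :
    I V (fun x => (∑ b, ∑ c, t a b x * pd c (pd b V) x * t i c x) * g x) =
      I V (fun x => t a i x * g x) - I V (fun x => (∑ b, ∑ c, pd c (t a b) x * pd b (t i c) x) * g x)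
        - I V (fun x => ∑ b, D t b (t a i) x * pd b g x) := by
  obtain ⟨χ, C, hχs, hχc, hχ1, hχp, hχ⟩ := exists_cut_seq (n := n)
  have hχm : ∀ m, Measurable (χ m) := fun m => (hχs m).continuous.measurable
  have hI := h.int
  have bF1 : BM (fun x => (∑ b, ∑ c, t a b x * pd c (pd b V) x * t i c x) * g x) :=
    (BM.sum fun b _ => BM.sum fun c _ => ((h.tb a b).mul (h.Vb c b)).mul (h.tb i c)).mul hgb
  have bF2 : BM (fun x => t a i x * g x) := (h.tb a i).mul hgb
  have bF3 : BM (fun x => (∑ b, ∑ c, pd c (t a b) x * pd b (t i c) x) * g x) :=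
    (BM.sum fun b _ => BM.sum fun c _ => (h.tpb c a b).mul (h.tpb b i c)).mul hgb
  have bD : ∀ b, BM (D t b (t a i)) := fun b => BM.sum fun e _ => (h.tb b e).mul (h.tpb e a i)
  have bF4 : BM (fun x => ∑ b, D t b (t a i) x * pd b g x) := BM.sum fun b _ => (bD b).mul (hgp b)
  have hw : ∀ m, I V (fun x => (∑ b, ∑ c, t a b x * pd c (pd b V) x * t i c x) * g x * χ m x) =
      I V (fun x => t a i x * g x * χ m x)
        - I V (fun x => (∑ b, ∑ c, pd c (t a b) x * pd b (t i c) x) * g x * χ m x)
        - (I V (fun x => (∑ b, D t b (t a i) x * pd b g x) * χ m x) +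
          I V (fun x => ∑ b, D t b (t a i) x * (g x * pd b (χ m) x))) := by
    intro m
    have h1 := weak_t h.toTD (hg.mul (smooth_ll (hχs m))) ((hχc m).mul_left g) a i
    have e1 : ∀ F : E n → ℝ, I V (fun x => F x * (g x * χ m x)) = I V (fun x => F x * g x * χ m x) :=
      fun F => I_congr' fun x => by ring
    rw [e1, e1, e1] at h1
    rw [h1]
    congr 1
    have hbc : BC (χ m) := ⟨(smooth_ll (hχs m)).lb, hχc m⟩
    rw [← I_add h.V_smooth (BC.mul_left hbc bF4.lb)
      (BC.sum fun b _ => BC.mul_left (BC.mul_left ⟨LB.pd (smooth_ll (hχs m)) b, (hχc m).pd b⟩ hg.lb) (bD b).lb)]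
    refine I_congr ?_
    filter_upwards [hg.ae_diff] with x hx
    rw [Finset.sum_mul, ← Finset.sum_add_distrib]
    refine Finset.sum_congr rfl fun b _ => ?_
    rw [pd_mul b hx (smooth_diff (hχs m) x)]; ring
  have L1 := tendsto_cut hI hχm hχ1 hχ bF1
  have L2 := tendsto_cut hI hχm hχ1 hχ bF2
  have L3 := tendsto_cut hI hχm hχ1 hχ bF3
  have L4 := tendsto_cut hI hχm hχ1 hχ bF4
  have L5 : Tendsto (fun m => I V (fun x => ∑ b, D t b (t a i) x * (g x * pd b (χ m) x))) atTop (𝓝 0) := by
    choose K hK using fun b => (bD b).2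
    obtain ⟨G, hG⟩ := hgb.2
    refine tendsto_small (C := ∑ b, K b * (G * C)) hI (fun m x => ?_)
    · refine (Finset.abs_sum_le_sum_abs _ _).trans ?_
      rw [Finset.sum_div]
      refine Finset.sum_le_sum fun b _ => ?_
      rw [abs_mul, abs_mul]
      have hG0 : 0 ≤ G := (abs_nonneg _).trans (hG x)
      have hK0 : 0 ≤ K b := (abs_nonneg _).trans (hK b x)
      calc |D t b (t a i) x| * (|g x| * |pd b (χ m) x|) ≤ K b * (G * (C / (m + 1))) :=
            mul_le_mul (hK b x) (mul_le_mul (hG x) (hχp m b x) (abs_nonneg _) hG0)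
              (mul_nonneg (abs_nonneg _) (abs_nonneg _)) hK0
        _ = K b * (G * C) / (m + 1) := by ring
  have R := (L2.sub L3).sub (L4.add L5)
  rw [add_zero] at R
  exact tendsto_nhds_unique L1 (R.congr fun m => (hw m).symm)

end

/-! ### the pointwise inequality `N1 ≤ N2` -/

theorem sum3' (X : Fin n → Fin n → Fin n → ℝ) :
    ∑ a, ∑ b, ∑ d, X a b d = ∑ b, ∑ d, ∑ a, X a b d := by
  rw [Finset.sum_comm]
  exact Finset.sum_congr rfl fun b _ => Finset.sum_comm

theorem sum4 (X : Fin n → Fin n → Fin n → Fin n → ℝ) :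
    ∑ a, ∑ i, ∑ b, ∑ e, X a i b e = ∑ b, ∑ e, ∑ a, ∑ i, X a i b e := by
  calc ∑ a, ∑ i, ∑ b, ∑ e, X a i b e = ∑ a, ∑ b, ∑ i, ∑ e, X a i b e :=
        Finset.sum_congr rfl fun a _ => Finset.sum_comm
    _ = ∑ b, ∑ a, ∑ i, ∑ e, X a i b e := Finset.sum_comm
    _ = ∑ b, ∑ a, ∑ e, ∑ i, X a i b e :=
        Finset.sum_congr rfl fun b _ => Finset.sum_congr rfl fun a _ => Finset.sum_comm
    _ = ∑ b, ∑ e, ∑ a, ∑ i, X a i b e := Finset.sum_congr rfl fun b _ => Finset.sum_comm

theorem mat_ineq {t σ S R W G : Matrix (Fin n) (Fin n) ℝ} (ht : t = S * S.transpose) (hσ : σ = R.transpose * R)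
    (hSR : S * R = 1) (hW : W.transpose = W) (hG : G.transpose = G) :
    (W * G * (W * G)).trace ≤ (W * t * W * (G * σ * G)).trace := by
  set Y : Matrix (Fin n) (Fin n) ℝ := S.transpose * W * G * R.transpose with hY
  have hRS : R.transpose * S.transpose = 1 := by
    rw [← Matrix.transpose_mul, hSR, Matrix.transpose_one]
  have h1 : (W * G * (W * G)).trace = (Y * Y).trace := by
    have : Y * Y = S.transpose * (W * G * (W * G) * R.transpose) := by
      rw [hY]
      calc S.transpose * W * G * R.transpose * (S.transpose * W * G * R.transpose)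
          = S.transpose * (W * G * (R.transpose * S.transpose) * (W * G) * R.transpose) := by
            simp only [Matrix.mul_assoc]
        _ = _ := by rw [hRS, Matrix.mul_one]
    rw [this, Matrix.trace_mul_comm S.transpose _, Matrix.mul_assoc (W * G * (W * G)), hRS, Matrix.mul_one]
  have h2 : (W * t * W * (G * σ * G)).trace = (Y.transpose * Y).trace := by
    have hYt : Y.transpose = R * G * W * S := by
      rw [hY]
      simp only [Matrix.transpose_mul, Matrix.transpose_transpose, hW, hG, Matrix.mul_assoc]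
    have : Y.transpose * Y = R * (G * (W * t * W) * G * R.transpose) := by
      rw [hYt, hY, ht]
      simp only [Matrix.mul_assoc]
    rw [this, Matrix.trace_mul_comm R _, hσ]
    have e : W * t * W * (G * (R.transpose * R) * G) = (W * t * W * G * R.transpose * R) * G := by
      simp only [Matrix.mul_assoc]
    rw [e, Matrix.trace_mul_comm _ G]
    simp only [Matrix.mul_assoc]
  rw [h1, h2]
  simp only [Matrix.trace, Matrix.diag_apply, Matrix.mul_apply, Matrix.transpose_apply]
  have h3 : ∑ i, ∑ j, Y j i * Y j i = ∑ i, ∑ j, (Y i j * Y i j + Y j i * Y j i) / 2 := by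
    have e : ∑ i, ∑ j, Y i j * Y i j = ∑ i, ∑ j, Y j i * Y j i := Finset.sum_comm
    simp only [add_div, Finset.sum_add_distrib, ← Finset.sum_div]
    rw [e]; ring
  rw [h3]
  refine Finset.sum_le_sum fun i _ => Finset.sum_le_sum fun j _ => ?_
  nlinarith [sq_nonneg (Y i j - Y j i)]

theorem quad_ineq (t : Matrix (Fin n) (Fin n) ℝ) (ht : t.PosDef) (w : Fin n → ℝ)
    (p : Fin n → Fin n → Fin n → ℝ) (hp : ∀ a b c, p a b c = p a c b)
    (hSY : ∀ a b c, ∑ e, t a e * p e b c = ∑ e, t b e * p e a c) :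
    ∑ a, ∑ i, w a * w i * (∑ b, (∑ e, t b e * p e a i) * p b a i) ≤
      ∑ a, ∑ i, w a * w i * ((∑ b, ∑ c, p c a b * p b i c) * t a i) := by
  obtain ⟨S, R, hS, hSR, hRS⟩ := P227M.XAlg.exists_factor t ht
  set σ : Matrix (Fin n) (Fin n) ℝ := R.transpose * R with hσ
  have hts : ∀ i j, t i j = t j i := by
    intro i j
    have := ht.isHermitian.apply j i
    simpa using this
  have htσ : t * σ = 1 := by
    rw [hS, hσ]
    calc S * S.transpose * (R.transpose * R) = S * (S.transpose * R.transpose) * R := by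
          simp only [Matrix.mul_assoc]
      _ = 1 := by rw [← Matrix.transpose_mul, hRS, Matrix.transpose_one, Matrix.mul_one, hSR]
  have hσt : σ * t = 1 := mul_eq_one_comm.1 htσ
  set W : Matrix (Fin n) (Fin n) ℝ := Matrix.diagonal w with hW
  set P : Fin n → Matrix (Fin n) (Fin n) ℝ := fun b => Matrix.of fun a i => p b a i with hP
  have hPs : ∀ b, (P b).transpose = P b := fun b => by
    ext i j
    exact hp b j i
  have hWt : W.transpose = W := Matrix.diagonal_transpose w
  -- left side
  have hL : ∑ a, ∑ i, w a * w i * (∑ b, (∑ e, t b e * p e a i) * p b a i) =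
      ∑ b, ∑ e, t b e * (W * P e * (W * P b)).trace := by
    have e1 : ∀ b e, (W * P e * (W * P b)).trace = ∑ a, ∑ i, w a * w i * (p e a i * p b a i) := by
      intro b e
      simp only [Matrix.trace, Matrix.diag_apply]
      refine Finset.sum_congr rfl fun a _ => ?_
      rw [Matrix.mul_apply]
      refine Finset.sum_congr rfl fun i _ => ?_
      simp only [hW, Matrix.diagonal_mul, hP, Matrix.of_apply]
      rw [hp b i a]; ring
    have e2 : ∀ a i, w a * w i * (∑ b, (∑ e, t b e * p e a i) * p b a i) =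
        ∑ b, ∑ e, t b e * (w a * w i * (p e a i * p b a i)) := by
      intro a i
      rw [Finset.mul_sum]
      refine Finset.sum_congr rfl fun b _ => ?_
      rw [Finset.sum_mul, Finset.mul_sum]
      exact Finset.sum_congr rfl fun e _ => by ring
    simp only [e2]
    rw [sum4]
    refine Finset.sum_congr rfl fun b _ => Finset.sum_congr rfl fun e _ => ?_
    rw [e1, Finset.mul_sum]
    exact Finset.sum_congr rfl fun a _ => (Finset.mul_sum _ _ _).symm
  -- right side
  have hR : ∑ a, ∑ i, w a * w i * ((∑ b, ∑ c, p c a b * p b i c) * t a i) =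
      ∑ b, ∑ e, t b e * (W * t * W * (P b * σ * P e)).trace := by
    have e1 : ∀ b e, (W * t * W * (P b * σ * P e)).trace =
        ∑ i, ∑ a, w i * w a * t a i * (P b * σ * P e) a i := by
      intro b e
      simp only [Matrix.trace, Matrix.diag_apply]
      refine Finset.sum_congr rfl fun i _ => ?_
      rw [Matrix.mul_apply]
      refine Finset.sum_congr rfl fun a _ => ?_
      rw [hW, Matrix.mul_diagonal, Matrix.diagonal_mul, hts i a]; ring
    have e2 : ∀ a i, ∑ b, ∑ e, t b e * (P b * σ * P e) a i = ∑ b, ∑ c, p c a b * p b i c := by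
      intro a i
      have e3 : ∀ b e, t b e * (P b * σ * P e) a i = ∑ f, ∑ c, t e b * p b a c * σ c f * p e f i := by
        intro b e
        rw [Matrix.mul_apply, Finset.mul_sum]
        refine Finset.sum_congr rfl fun f _ => ?_
        rw [Matrix.mul_apply, Finset.sum_mul, Finset.mul_sum]
        refine Finset.sum_congr rfl fun c _ => ?_
        simp only [hP, Matrix.of_apply]
        rw [hts b e]; ring
      have e4 : ∀ e f, ∑ b, ∑ c, t e b * p b a c * σ c f * p e f i = p f a e * p e i f := by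
        intro e f
        have e5 : ∀ c, ∑ b, t e b * p b a c = ∑ b, t c b * p b a e := by
          intro c
          rw [Finset.sum_congr rfl fun b _ => by rw [hp b a c], hSY e c a]
          exact Finset.sum_congr rfl fun b _ => by rw [hp b a e]
        have hσs : ∀ c f, σ c f = σ f c := by
          intro c f
          have : σ.transpose = σ := by rw [hσ, Matrix.transpose_mul, Matrix.transpose_transpose]
          exact congrFun (congrFun this f) c
        calc ∑ b, ∑ c, t e b * p b a c * σ c f * p e f i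
            = ∑ c, (∑ b, t e b * p b a c) * σ c f * p e f i := by
              rw [Finset.sum_comm]
              refine Finset.sum_congr rfl fun c _ => ?_
              rw [Finset.sum_mul, Finset.sum_mul]
          _ = ∑ c, (∑ b, t c b * p b a e) * σ c f * p e f i :=
              Finset.sum_congr rfl fun c _ => by rw [e5]
          _ = ∑ b, (∑ c, σ f c * t c b) * p b a e * p e f i := by
              simp only [Finset.sum_mul]
              rw [Finset.sum_comm]
              refine Finset.sum_congr rfl fun b _ => Finset.sum_congr rfl fun c _ => ?_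
              rw [hσs c f]; ring
          _ = p f a e * p e f i := by
              have e6 : ∀ b, ∑ c, σ f c * t c b = if f = b then 1 else 0 := by
                intro b
                have := congrFun (congrFun hσt f) b
                rw [Matrix.mul_apply, Matrix.one_apply] at this
                exact this
              simp only [e6, ite_mul, one_mul, zero_mul, Finset.sum_ite_eq, Finset.mem_univ, if_true]
          _ = p f a e * p e i f := by rw [hp e f i]
      simp only [e3]
      calc ∑ b, ∑ e, ∑ f, ∑ c, t e b * p b a c * σ c f * p e f i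
          = ∑ e, ∑ f, ∑ b, ∑ c, t e b * p b a c * σ c f * p e f i := by
            rw [Finset.sum_comm]
            exact Finset.sum_congr rfl fun e _ => Finset.sum_comm
        _ = ∑ e, ∑ f, p f a e * p e i f :=
            Finset.sum_congr rfl fun e _ => Finset.sum_congr rfl fun f _ => e4 e f
    have e7 : ∀ a i, w a * w i * ((∑ b, ∑ c, p c a b * p b i c) * t a i) =
        ∑ b, ∑ e, t b e * (w i * w a * t a i * (P b * σ * P e) a i) := by
      intro a i
      rw [← e2 a i, Finset.sum_mul, Finset.mul_sum]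
      refine Finset.sum_congr rfl fun b _ => ?_
      rw [Finset.sum_mul, Finset.mul_sum]
      exact Finset.sum_congr rfl fun e _ => by ring
    simp only [e7]
    rw [sum4]
    refine Finset.sum_congr rfl fun b _ => Finset.sum_congr rfl fun e _ => ?_
    rw [e1, Finset.sum_comm, Finset.mul_sum]
    exact Finset.sum_congr rfl fun i _ => (Finset.mul_sum _ _ _).symm
  rw [hL, hR]
  have htS : ∀ b e, t b e = ∑ β, S b β * S e β := by
    intro b e
    rw [hS, Matrix.mul_apply]; rfl
  set G : Fin n → Matrix (Fin n) (Fin n) ℝ := fun β => ∑ b, S b β • P b with hG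
  have hGt : ∀ β, (G β).transpose = G β := by
    intro β
    rw [hG]
    simp only [Matrix.transpose_sum, Matrix.transpose_smul, hPs]
  have hB1 : ∀ β, (W * G β * (W * G β)).trace = ∑ b, ∑ e, S b β * S e β * (W * P e * (W * P b)).trace := by
    intro β
    rw [hG]
    simp only [Matrix.mul_sum, Matrix.sum_mul, Matrix.mul_smul, Matrix.smul_mul, Matrix.trace_sum,
      Matrix.trace_smul, smul_eq_mul, Finset.mul_sum]
    refine Finset.sum_congr rfl fun b _ => Finset.sum_congr rfl fun e _ => by ring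
  have hB2 : ∀ β, (W * t * W * (G β * σ * G β)).trace =
      ∑ b, ∑ e, S b β * S e β * (W * t * W * (P b * σ * P e)).trace := by
    intro β
    rw [hG]
    simp only [Matrix.mul_sum, Matrix.sum_mul, Matrix.mul_smul, Matrix.smul_mul, Matrix.trace_sum,
      Matrix.trace_smul, smul_eq_mul, Finset.mul_sum]
    rw [Finset.sum_comm]
    refine Finset.sum_congr rfl fun b _ => Finset.sum_congr rfl fun e _ => by ring
  have hfin : ∀ Q : Fin n → Fin n → ℝ, ∑ b, ∑ e, t b e * Q b e = ∑ β, ∑ b, ∑ e, S b β * S e β * Q b e := by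
    intro Q
    rw [sum3']
    refine Finset.sum_congr rfl fun b _ => Finset.sum_congr rfl fun e _ => ?_
    rw [htS, Finset.sum_mul]
  rw [hfin, hfin]
  refine Finset.sum_le_sum fun β _ => ?_
  rw [← hB1, ← hB2]
  exact mat_ineq hS hσ hSR hWt (hGt β)

/-! ### the static inequality -/

section
variable {t : Fin n → Fin n → E n → ℝ} {V : E n → ℝ} (h : TDB t V)
include h

/-- **`2 N1 ≤ E tr(WtWt) - E tr(WtWtV''t)`** (unnormalised integrals; any real weights `w`) -/
theorem static_ineq (hpd : ∀ x, (Matrix.of fun a b => t a b x).PosDef) (w : Fin n → ℝ) :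
    2 * ∑ a, ∑ i, w a * w i * I V (fun x => ∑ b, D t b (t a i) x * pd b (t a i) x) ≤
      (∑ a, ∑ i, w a * w i * I V (fun x => t a i x ^ 2))
        - ∑ a, ∑ i, w a * w i * I V (fun x => (∑ b, ∑ c, t a b x * pd c (pd b V) x * t i c x) * t a i x) := by
  have hI := h.int
  have bD : ∀ b a i, BM (D t b (t a i)) := fun b a i => BM.sum fun e _ => (h.tb b e).mul (h.tpb e a i)
  have b1 : ∀ a i, BM (fun x => ∑ b, D t b (t a i) x * pd b (t a i) x) := fun a i =>
    BM.sum fun b _ => (bD b a i).mul (h.tpb b a i)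
  have b2 : ∀ a i, BM (fun x => (∑ b, ∑ c, pd c (t a b) x * pd b (t i c) x) * t a i x) := fun a i =>
    (BM.sum fun b _ => BM.sum fun c _ => (h.tpb c a b).mul (h.tpb b i c)).mul (h.tb a i)
  have hw : ∀ a i, I V (fun x => (∑ b, ∑ c, t a b x * pd c (pd b V) x * t i c x) * t a i x) =
      I V (fun x => t a i x ^ 2) - I V (fun x => (∑ b, ∑ c, pd c (t a b) x * pd b (t i c) x) * t a i x)
        - I V (fun x => ∑ b, D t b (t a i) x * pd b (t a i) x) := by
    intro a i
    have := weak_tb h (h.ll a i) (h.tb a i) (fun b => h.tpb b a i) a i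
    rw [this]
    congr 2
    exact I_congr' fun x => by ring
  -- N1 ≤ N2
  have hN : ∑ a, ∑ i, w a * w i * I V (fun x => ∑ b, D t b (t a i) x * pd b (t a i) x) ≤
      ∑ a, ∑ i, w a * w i * I V (fun x => (∑ b, ∑ c, pd c (t a b) x * pd b (t i c) x) * t a i x) := by
    have c1 : ∀ a i, BM (fun x => w a * w i * (∑ b, D t b (t a i) x * pd b (t a i) x)) := fun a i =>
      (BM.const (w a * w i)).mul (b1 a i)
    have c2 : ∀ a i, BM (fun x => w a * w i * ((∑ b, ∑ c, pd c (t a b) x * pd b (t i c) x) * t a i x)) := fun a i =>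
      (BM.const (w a * w i)).mul (b2 a i)
    have e1 : ∑ a, ∑ i, w a * w i * I V (fun x => ∑ b, D t b (t a i) x * pd b (t a i) x) =
        I V (fun x => ∑ a, ∑ i, w a * w i * (∑ b, D t b (t a i) x * pd b (t a i) x)) := by
      rw [J_sum hI fun a _ => BM.sum fun i _ => c1 a i]
      refine Finset.sum_congr rfl fun a _ => ?_
      rw [J_sum hI fun i _ => c1 a i]
      exact Finset.sum_congr rfl fun i _ => (J_const_mul _ _).symm
    have e2 : ∑ a, ∑ i, w a * w i * I V (fun x => (∑ b, ∑ c, pd c (t a b) x * pd b (t i c) x) * t a i x) =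
        I V (fun x => ∑ a, ∑ i, w a * w i * ((∑ b, ∑ c, pd c (t a b) x * pd b (t i c) x) * t a i x)) := by
      rw [J_sum hI fun a _ => BM.sum fun i _ => c2 a i]
      refine Finset.sum_congr rfl fun a _ => ?_
      rw [J_sum hI fun i _ => c2 a i]
      exact Finset.sum_congr rfl fun i _ => (J_const_mul _ _).symm
    rw [e1, e2]
    refine J_mono hI (BM.sum fun a _ => BM.sum fun i _ => c1 a i) (BM.sum fun a _ => BM.sum fun i _ => c2 a i) ?_
    filter_upwards [h.SY] with x hSY
    exact quad_ineq (Matrix.of fun a b => t a b x) (hpd x) w (fun a b c => pd a (t b c) x)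
      (fun a b c => by rw [h.symm b c]) (fun a b c => hSY a b c)
  have hsum : ∑ a, ∑ i, w a * w i * I V (fun x => (∑ b, ∑ c, t a b x * pd c (pd b V) x * t i c x) * t a i x) =
      (∑ a, ∑ i, w a * w i * I V (fun x => t a i x ^ 2))
        - (∑ a, ∑ i, w a * w i * I V (fun x => (∑ b, ∑ c, pd c (t a b) x * pd b (t i c) x) * t a i x))
        - ∑ a, ∑ i, w a * w i * I V (fun x => ∑ b, D t b (t a i) x * pd b (t a i) x) := by
    simp only [hw, mul_sub, Finset.sum_sub_distrib]
  linarith

end

end Vale.Agent.P227.M.X
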